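import Vale.Agent.P045.Check

/-! Certificate data. -/

namespace Vale.Agent.P045.R4N2

open Vale.Agent.P045

/-- nodes -/
noncomputable def c0 : List Node := [
Node.mk [0,820,182,1542,2448,27,733,1712,2431,2361] [(0,0),(2,0),(2,1),(2,2),(2,3),(3,0)] [],
Node.mk [0,820,182,1542,2448,27,733,1712,2431] [(0,0),(1,0),(1,2),(2,0),(2,1),(2,3)] [Ref.mk 2361 0 [0,1,2,3] [[0,1,2,3,4],[0,1,2,3],[0,1,2,3],[0,1,2,3]]],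
Node.mk [0,820,182,1542,2448,27,733,1712,3160] [(0,0),(1,0),(1,2),(2,0),(2,1),(2,3)] [],
Node.mk [0,820,182,1542,2448,27,733,1712,2361,893] [(0,0),(1,2),(3,0),(3,1),(3,2),(3,3)] [Ref.mk 2917 0 [3,1,2,0] [[0,1,3,2,4],[0,1,2,3],[0,1,3,2],[0,1,3,2]]],
Node.mk [0,820,182,1542,2448,27,733,1712,2361] [(0,0),(0,3),(2,0),(2,1),(3,0),(3,2)] [Ref.mk 2431 0 [0,1,2,3] [[0,1,2,3,4],[0,1,2,3],[0,1,2,3],[0,1,2,3]],Ref.mk 893 3 [0,1,2,3] [[0,1,2,3,4],[0,1,2,3],[0,1,2,3],[0,1,2,3]]],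
Node.mk [0,820,182,1542,2448,27,733,1712] [(0,0),(2,0),(2,1),(3,0),(3,1),(3,2)] [Ref.mk 2431 1 [0,1,2,3] [[0,1,2,3,4],[0,1,2,3],[0,1,2,3],[0,1,2,3]],Ref.mk 3160 2 [0,1,2,3] [[0,1,2,3,4],[0,1,2,3],[0,1,2,3],[0,1,2,3,4]],Ref.mk 2361 4 [0,1,2,3] [[0,1,2,3,4],[0,1,2,3],[0,1,2,3],[0,1,2,3]]],
Node.mk [0,820,182,1542,2448,27,733,2361,1714,3010] [(0,0),(0,3),(0,4),(1,1),(2,0),(3,0)] [],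
Node.mk [0,820,182,1542,2448,27,733,2361,1714] [(0,0),(2,0),(3,0),(3,1),(3,2),(3,3)] [Ref.mk 3010 6 [0,1,2,3] [[0,1,2,3,4],[0,1,2,3],[0,1,2,3],[0,1,2,3,4]]],
Node.mk [0,820,182,1542,2448,27,733,2361,1795,3010] [(0,0),(0,3),(0,4),(1,1),(2,0),(3,0)] [],
Node.mk [0,820,182,1542,2448,27,733,2361,1795] [(0,0),(2,0),(3,0),(3,1),(3,2),(3,3)] [Ref.mk 3010 8 [0,1,2,3] [[0,1,2,3,4],[0,1,2,3],[0,1,2,3,4],[0,1,2,3,4]]],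
Node.mk [0,820,182,1542,2448,27,733,2361] [(2,0),(2,1),(2,2),(3,0),(3,1),(3,3)] [Ref.mk 1712 4 [0,1,2,3] [[0,1,2,3,4],[0,1,2,3],[0,1,2,3],[0,1,2,3]],Ref.mk 1714 7 [0,1,2,3] [[0,1,2,3,4],[0,1,2,3],[0,1,2,3],[0,1,2,3]],Ref.mk 1795 9 [0,1,2,3] [[0,1,2,3,4],[0,1,2,3],[0,1,2,3,4],[0,1,2,3]]],
Node.mk [0,820,182,1542,2448,27,733,1633,2350] [(1,0),(1,2),(2,0),(2,1),(2,2),(3,0)] [],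
Node.mk [0,820,182,1542,2448,27,733,1633,3079] [(1,0),(1,2),(2,0),(2,1),(2,2),(3,0)] [],
Node.mk [0,820,182,1542,2448,27,733,1633,2377] [(1,0),(1,2),(2,0),(2,1),(2,2),(3,0)] [],
Node.mk [0,820,182,1542,2448,27,733,1633] [(0,0),(2,0),(2,1),(3,0),(3,1),(3,2)] [Ref.mk 2350 11 [0,1,2,3] [[0,1,2,3,4],[0,1,2,3],[0,1,2,3],[0,1,2,3]],Ref.mk 3079 12 [0,1,2,3] [[0,1,2,3,4],[0,1,2,3],[0,1,2,3],[0,1,2,3,4]],Ref.mk 2377 13 [0,1,2,3] [[0,1,2,3,4],[0,1,2,3],[0,1,2,3],[0,1,2,3]],Ref.mk 2361 10 [0,1,2,3] [[0,1,2,3,4],[0,1,2,3],[0,1,2,3],[0,1,2,3]]],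
Node.mk [0,820,182,1542,2448,27,733,1714,2431] [(0,0),(1,0),(1,2),(2,0),(2,1),(2,3)] [Ref.mk 2361 7 [0,1,2,3] [[0,1,2,3,4],[0,1,2,3],[0,1,2,3],[0,1,2,3]]],
Node.mk [0,820,182,1542,2448,27,733,1714,3160] [(0,0),(1,0),(1,2),(2,0),(2,1),(2,3)] [],
Node.mk [0,820,182,1542,2448,27,733,1714] [(0,0),(2,0),(2,1),(3,0),(3,1),(3,2)] [Ref.mk 2431 15 [0,1,2,3] [[0,1,2,3,4],[0,1,2,3],[0,1,2,3],[0,1,2,3]],Ref.mk 3160 16 [0,1,2,3] [[0,1,2,3,4],[0,1,2,3],[0,1,2,3],[0,1,2,3,4]],Ref.mk 2361 7 [0,1,2,3] [[0,1,2,3,4],[0,1,2,3],[0,1,2,3],[0,1,2,3]]],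
Node.mk [0,820,182,1542,2448,27,733,1795,2512,3241] [(0,0),(0,1),(1,0),(2,0),(2,4),(3,0)] [],
Node.mk [0,820,182,1542,2448,27,733,1795,2512,3001] [(0,0),(0,4),(1,0),(2,0),(2,1),(3,0)] [],
Node.mk [0,820,182,1542,2448,27,733,1795,2512] [(0,0),(1,2),(3,0),(3,1),(3,2),(3,3)] [Ref.mk 3241 18 [0,1,2,3] [[0,1,2,3,4],[0,1,2,3],[0,1,2,3,4],[0,1,2,3,4]],Ref.mk 3001 19 [0,1,2,3] [[0,1,2,3,4],[0,1,2,3],[0,1,2,3,4],[0,1,2,3,4]]],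
Node.mk [0,820,182,1542,2448,27,733,1795,3241,1055] [(0,0),(0,1),(1,0),(2,0),(2,4),(3,0)] [],
Node.mk [0,820,182,1542,2448,27,733,1795,3241,1544] [(0,0),(0,1),(0,4),(1,0),(2,0),(3,0)] [],
Node.mk [0,820,182,1542,2448,27,733,1795,3241,1058] [(0,0),(0,1),(1,0),(2,0),(2,4),(3,0)] [],
Node.mk [0,820,182,1542,2448,27,733,1795,3241] [(0,0),(0,1),(0,3),(0,4),(2,0),(3,0)] [Ref.mk 1541 18 [3,1,2,0] [[0,2,3,4,1],[0,1,2,3],[0,4,3,2,1],[0,4,1,2,3]],Ref.mk 1055 21 [0,1,2,3] [[0,1,2,3,4],[0,1,2,3],[0,1,2,3,4],[0,1,2,3,4]],Ref.mk 1544 22 [0,1,2,3] [[0,1,2,3,4,5],[0,1,2,3],[0,1,2,3,4],[0,1,2,3,4]],Ref.mk 1058 23 [0,1,2,3] [[0,1,2,3,4,5],[0,1,2,3],[0,1,2,3,4],[0,1,2,3,4]]],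
Node.mk [0,820,182,1542,2448,27,733,1795] [(0,0),(2,0),(2,1),(3,0),(3,1),(3,2)] [Ref.mk 2512 20 [0,1,2,3] [[0,1,2,3,4],[0,1,2,3],[0,1,2,3,4],[0,1,2,3]],Ref.mk 3241 24 [0,1,2,3] [[0,1,2,3,4],[0,1,2,3],[0,1,2,3,4],[0,1,2,3,4]],Ref.mk 2361 9 [0,1,2,3] [[0,1,2,3,4],[0,1,2,3],[0,1,2,3,4],[0,1,2,3]]],
Node.mk [0,820,182,1542,2448,27,733] [(0,0),(0,1),(2,0),(2,1),(3,0),(3,1)] [Ref.mk 1712 5 [0,1,2,3] [[0,1,2,3,4],[0,1,2,3],[0,1,2,3],[0,1,2,3]],Ref.mk 2361 10 [0,1,2,3] [[0,1,2,3,4],[0,1,2,3],[0,1,2,3],[0,1,2,3]],Ref.mk 1633 14 [0,1,2,3] [[0,1,2,3,4],[0,1,2,3],[0,1,2,3],[0,1,2,3]],Ref.mk 1714 17 [0,1,2,3] [[0,1,2,3,4],[0,1,2,3],[0,1,2,3],[0,1,2,3]],Ref.mk 1795 25 [0,1,2,3] [[0,1,2,3,4],[0,1,2,3],[0,1,2,3,4],[0,1,2,3]]],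
Node.mk [0,820,182,1542,2448,27,895,1631,1783,2377,2225] [(0,0),(1,0),(2,0),(2,1),(2,2),(2,3)] [],
Node.mk [0,820,182,1542,2448,27,895,1631,1783,2377,282] [(0,0),(0,1),(0,3),(2,1),(2,2),(2,3)] [Ref.mk 2225 27 [0,1,2,3] [[0,1,2,3,4],[0,1,2,3,4],[0,1,2,3,4],[0,1,2,3]]],
Node.mk [0,820,182,1542,2448,27,895,1631,1783,2377] [(0,0),(0,1),(1,0),(1,1),(1,2),(1,3)] [Ref.mk 2225 27 [0,1,2,3] [[0,1,2,3,4],[0,1,2,3,4],[0,1,2,3,4],[0,1,2,3]],Ref.mk 282 28 [0,1,2,3] [[0,1,2,3,4],[0,1,2,3,4],[0,1,2,3,4],[0,1,2,3]]],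
Node.mk [0,820,182,1542,2448,27,895,1631,1783,2297,1579] [(0,0),(0,1),(2,0),(2,1),(2,2),(3,0)] [],
Node.mk [0,820,182,1542,2448,27,895,1631,1783,2297] [(0,0),(0,2),(1,0),(1,1),(1,2),(1,3)] [Ref.mk 1579 30 [0,1,2,3] [[0,1,2,3,4],[0,1,2,3,4],[0,1,2,3,4],[0,1,2,3]]],
Node.mk [0,820,182,1542,2448,27,895,1631,1783] [(0,0),(1,0),(2,0),(3,0),(3,1),(3,2)] [Ref.mk 2377 29 [0,1,2,3] [[0,1,2,3,4],[0,1,2,3],[0,1,2,3,4],[0,1,2,3]],Ref.mk 2297 31 [0,1,2,3] [[0,1,2,3,4],[0,1,2,3],[0,1,2,3,4],[0,1,2,3]]],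
Node.mk [0,820,182,1542,2448,27,895,1631,1055,2377,2999] [(0,0),(0,1),(0,2),(1,0),(2,0),(3,0)] [],
Node.mk [0,820,182,1542,2448,27,895,1631,1055,2377] [(0,0),(0,1),(3,0),(3,1),(3,2),(3,3)] [Ref.mk 2999 33 [0,1,2,3] [[0,1,2,3,4],[0,1,2,3],[0,1,2,3,4],[0,1,2,3,4]]],
Node.mk [0,820,182,1542,2448,27,895,1631,1055,2297,283] [(0,0),(0,2),(0,4),(2,1),(2,2),(2,3)] [],
Node.mk [0,820,182,1542,2448,27,895,1631,1055,2297] [(0,0),(0,2),(1,0),(1,1),(1,2),(1,3)] [Ref.mk 283 35 [0,1,2,3] [[0,1,2,3,4],[0,1,2,3,4],[0,1,2,3,4],[0,1,2,3]]],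
Node.mk [0,820,182,1542,2448,27,895,1631,1055] [(0,0),(1,0),(2,0),(3,0),(3,1),(3,2)] [Ref.mk 2377 34 [0,1,2,3] [[0,1,2,3,4],[0,1,2,3],[0,1,2,3,4],[0,1,2,3]],Ref.mk 2297 36 [0,1,2,3] [[0,1,2,3,4],[0,1,2,3],[0,1,2,3,4],[0,1,2,3]]],
Node.mk [0,820,182,1542,2448,27,895,1631,1065] [(0,0),(0,3),(1,1),(2,0),(3,0),(3,1)] [Ref.mk 1783 32 [0,1,2,3] [[0,3,2,1,4],[0,1,2,3],[0,4,2,3,1],[0,1,2,3]]],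
Node.mk [0,820,182,1542,2448,27,895,1631,1795] [(0,0),(0,4),(1,1),(2,0),(3,0),(3,2)] [Ref.mk 1055 37 [0,1,2,3] [[0,1,2,3,4],[0,1,2,3],[0,1,2,3,4],[0,1,2,3]]],
Node.mk [0,820,182,1542,2448,27,895,1631] [(0,0),(1,2),(2,0),(2,1),(2,2),(2,3)] [Ref.mk 1783 32 [0,1,2,3] [[0,1,2,3,4],[0,1,2,3],[0,1,2,3,4],[0,1,2,3]],Ref.mk 1055 37 [0,1,2,3] [[0,1,2,3,4],[0,1,2,3],[0,1,2,3,4],[0,1,2,3]],Ref.mk 1065 38 [0,1,2,3] [[0,1,2,3,4],[0,1,2,3],[0,1,2,3,4],[0,1,2,3]],Ref.mk 1795 39 [0,1,2,3] [[0,1,2,3,4],[0,1,2,3],[0,1,2,3,4],[0,1,2,3]]],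
Node.mk [0,820,182,1542,2448,27,895,1632,3079,1729,346] [(0,0),(0,1),(0,4),(3,0),(3,1),(3,2)] [],
Node.mk [0,820,182,1542,2448,27,895,1632,3079,1729] [(0,0),(0,1),(2,0),(2,1),(2,2),(2,3)] [Ref.mk 346 41 [0,1,2,3] [[0,1,2,3,4],[0,1,2,3],[0,1,2,3,4],[0,1,2,3,4]]],
Node.mk [0,820,182,1542,2448,27,895,1632,3079,1002] [(0,0),(0,1),(0,3),(1,0),(2,0),(3,0)] [],
Node.mk [0,820,182,1542,2448,27,895,1632,3079] [(0,0),(1,0),(2,0),(2,1),(2,2),(3,0)] [Ref.mk 1729 42 [0,1,2,3] [[0,1,2,3,4],[0,1,2,3],[0,1,2,3],[0,1,2,3,4]],Ref.mk 1002 43 [0,1,2,3] [[0,1,2,3,4],[0,1,2,3],[0,1,2,3],[0,1,2,3,4]]],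
Node.mk [0,820,182,1542,2448,27,895,1632,3000,2377,1570] [(0,0),(1,0),(1,1),(1,3),(2,0),(3,0)] [],
Node.mk [0,820,182,1542,2448,27,895,1632,3000,2377] [(0,0),(0,1),(0,3),(1,0),(3,0),(3,3)] [Ref.mk 1570 45 [0,1,2,3] [[0,1,2,3,4],[0,1,2,3],[0,1,2,3],[0,1,2,3,4]]],
Node.mk [0,820,182,1542,2448,27,895,1632,3000] [(0,0),(0,3),(1,0),(2,0),(2,1),(3,0)] [Ref.mk 2377 46 [0,1,2,3] [[0,1,2,3,4],[0,1,2,3],[0,1,2,3],[0,1,2,3,4]]],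
Node.mk [0,820,182,1542,2448,27,895,1632,3090] [(0,0),(0,3),(1,1),(2,0),(2,2),(3,0)] [],
Node.mk [0,820,182,1542,2448,27,895,1632,3010] [(0,0),(0,4),(1,1),(2,0),(2,1),(3,0)] [Ref.mk 3079 44 [0,1,2,3] [[0,4,2,3,1],[0,1,2,3],[0,1,2,3],[0,4,2,3,1]]],
Node.mk [0,820,182,1542,2448,27,895,1632] [(0,0),(1,2),(3,0),(3,1),(3,2),(3,3)] [Ref.mk 3079 44 [0,1,2,3] [[0,1,2,3,4],[0,1,2,3],[0,1,2,3],[0,1,2,3,4]],Ref.mk 3000 47 [0,1,2,3] [[0,1,2,3,4],[0,1,2,3],[0,1,2,3],[0,1,2,3,4]],Ref.mk 3090 48 [0,1,2,3] [[0,1,2,3,4],[0,1,2,3],[0,1,2,3],[0,1,2,3,4]],Ref.mk 3010 49 [0,1,2,3] [[0,1,2,3,4],[0,1,2,3],[0,1,2,3],[0,1,2,3,4]]],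
Node.mk [0,820,182,1542,2448,27,895,2361,3079,1002,2431] [(0,0),(1,0),(1,1),(1,2),(1,3),(2,3)] [],
Node.mk [0,820,182,1542,2448,27,895,2361,3079,1002] [(0,0),(0,3),(2,0),(2,1),(2,2),(3,0)] [Ref.mk 2431 51 [0,1,2,3] [[0,1,2,3,4],[0,1,2,3],[0,1,2,3],[0,1,2,3,4]]],
Node.mk [0,820,182,1542,2448,27,895,2361,3079] [(0,0),(1,0),(2,0),(2,1),(2,2),(3,0)] [Ref.mk 1002 52 [0,1,2,3] [[0,1,2,3,4],[0,1,2,3],[0,1,2,3],[0,1,2,3,4]]],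
Node.mk [0,820,182,1542,2448,27,895,2361,3000] [(1,2),(2,1),(2,2),(3,0),(3,1),(3,3)] [Ref.mk 1459 2 [3,1,2,0] [[0,1,3,4,2],[0,1,2,3],[0,1,3,2],[0,1,3,2,4]],Ref.mk 2917 2 [3,1,2,0] [[0,1,3,2,4],[0,1,2,3],[0,1,3,2],[0,1,3,2,4]],Ref.mk 3646 2 [3,1,2,0] [[0,1,3,4,5],[0,1,2,3],[0,1,3,2],[0,1,3,2,4]]],
Node.mk [0,820,182,1542,2448,27,895,2361,3090] [(0,0),(0,3),(1,1),(2,0),(2,2),(3,0)] [],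
Node.mk [0,820,182,1542,2448,27,895,2361,3010] [(0,0),(0,4),(1,1),(2,0),(2,1),(3,0)] [Ref.mk 3079 53 [0,1,2,3] [[0,4,2,3,1],[0,1,2,3],[0,1,2,3],[0,4,2,3,1]]],
Node.mk [0,820,182,1542,2448,27,895,2361] [(0,0),(1,2),(3,0),(3,1),(3,2),(3,3)] [Ref.mk 2917 2 [3,1,2,0] [[0,1,3,2,4],[0,1,2,3],[0,1,3,2],[0,1,3,2,4]],Ref.mk 3079 53 [0,1,2,3] [[0,1,2,3,4],[0,1,2,3],[0,1,2,3],[0,1,2,3,4]],Ref.mk 3000 54 [0,1,2,3] [[0,1,2,3,4],[0,1,2,3],[0,1,2,3],[0,1,2,3,4]],Ref.mk 3090 55 [0,1,2,3] [[0,1,2,3,4],[0,1,2,3],[0,1,2,3],[0,1,2,3,4]],Ref.mk 3010 56 [0,1,2,3] [[0,1,2,3,4],[0,1,2,3],[0,1,2,3],[0,1,2,3,4]]],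
Node.mk [0,820,182,1542,2448,27,895,3090,3160,3241] [(0,0),(0,1),(1,0),(2,0),(3,0),(3,4)] [],
Node.mk [0,820,182,1542,2448,27,895,3090,3160,1056] [(0,0),(0,1),(0,3),(1,0),(2,0),(3,0)] [],
Node.mk [0,820,182,1542,2448,27,895,3090,3160] [(0,0),(1,2),(2,0),(2,1),(2,2),(2,3)] [Ref.mk 3241 58 [0,1,2,3] [[0,1,2,3,4],[0,1,2,3],[0,1,2,3,4],[0,1,2,3,4]],Ref.mk 1056 59 [0,1,2,3] [[0,1,2,3,4],[0,1,2,3],[0,1,2,3,4],[0,1,2,3,4]]],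
Node.mk [0,820,182,1542,2448,27,895,3090,3241,3322] [(0,0),(0,1),(1,0),(2,0),(3,0),(3,4)] [],
Node.mk [0,820,182,1542,2448,27,895,3090,3241,975] [(0,0),(0,1),(0,3),(1,0),(2,0),(3,0)] [],
Node.mk [0,820,182,1542,2448,27,895,3090,3241,1137] [(0,0),(0,1),(0,3),(1,0),(2,0),(3,0)] []]

/-- nodes -/
noncomputable def c1 : List Node := [
Node.mk [0,820,182,1542,2448,27,895,3090,3241] [(0,0),(2,0),(2,1),(2,2),(2,4),(3,0)] [Ref.mk 3160 58 [0,1,2,3] [[0,1,2,3,4],[0,1,2,3],[0,1,2,3,4],[0,1,2,3,4]],Ref.mk 3322 61 [0,1,2,3] [[0,1,2,3,4],[0,1,2,3],[0,1,2,3,4,5],[0,1,2,3,4]],Ref.mk 975 62 [0,1,2,3] [[0,1,2,3,4],[0,1,2,3],[0,1,2,3,4],[0,1,2,3,4]],Ref.mk 1137 63 [0,1,2,3] [[0,1,2,3,4],[0,1,2,3],[0,1,2,3,4,5],[0,1,2,3,4]]],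
Node.mk [0,820,182,1542,2448,27,895,3090,1714,1065] [(0,0),(0,2),(1,0),(1,1),(1,2),(2,3)] [],
Node.mk [0,820,182,1542,2448,27,895,3090,1714,1795] [(0,0),(0,4),(1,1),(2,0),(3,0),(3,2)] [],
Node.mk [0,820,182,1542,2448,27,895,3090,1714] [(0,0),(1,2),(2,0),(2,1),(2,2),(2,3)] [Ref.mk 1065 65 [0,1,2,3] [[0,1,2,3,4],[0,1,2,3],[0,1,2,3,4],[0,1,2,3,4]],Ref.mk 1795 66 [0,1,2,3] [[0,1,2,3,4],[0,1,2,3],[0,1,2,3,4],[0,1,2,3,4]]],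
Node.mk [0,820,182,1542,2448,27,895,3090,1795,821] [(0,0),(0,3),(0,4),(1,1),(2,0),(3,0)] [],
Node.mk [0,820,182,1542,2448,27,895,3090,1795,824] [(0,0),(0,3),(0,4),(1,1),(2,0),(3,0)] [],
Node.mk [0,820,182,1542,2448,27,895,3090,1795,1634] [(0,0),(0,1),(1,0),(1,1),(2,0),(3,0)] [],
Node.mk [0,820,182,1542,2448,27,895,3090,1795] [(0,0),(0,1),(0,3),(0,4),(2,0),(3,0)] [Ref.mk 821 68 [0,1,2,3] [[0,1,2,3,4],[0,1,2,3],[0,1,2,3,4],[0,1,2,3,4]],Ref.mk 1631 39 [0,1,2,3] [[0,1,2,3,4],[0,1,2,3],[0,1,2,3,4],[0,1,2,3]],Ref.mk 824 69 [0,1,2,3] [[0,1,2,3,4,5],[0,1,2,3],[0,1,2,3,4],[0,1,2,3,4]],Ref.mk 1634 70 [0,1,2,3] [[0,1,2,3,4,5],[0,1,2,3],[0,1,2,3,4],[0,1,2,3,4]]],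
Node.mk [0,820,182,1542,2448,27,895,3090] [(0,0),(0,3),(2,0),(2,1),(2,2),(3,0)] [Ref.mk 3160 60 [0,1,2,3] [[0,1,2,3,4],[0,1,2,3],[0,1,2,3],[0,1,2,3,4]],Ref.mk 3241 64 [0,1,2,3] [[0,1,2,3,4],[0,1,2,3],[0,1,2,3,4],[0,1,2,3,4]],Ref.mk 1714 67 [0,1,2,3] [[0,1,2,3,4],[0,1,2,3],[0,1,2,3],[0,1,2,3,4]],Ref.mk 1795 71 [0,1,2,3] [[0,1,2,3,4],[0,1,2,3],[0,1,2,3,4],[0,1,2,3,4]]],
Node.mk [0,820,182,1542,2448,27,895,1633,2350,1729,346] [(0,0),(0,1),(0,4),(3,0),(3,1),(3,2)] [],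
Node.mk [0,820,182,1542,2448,27,895,1633,2350,1729] [(0,0),(0,1),(2,0),(2,1),(2,2),(2,3)] [Ref.mk 346 73 [0,1,2,3] [[0,1,2,3,4],[0,1,2,3],[0,1,2,3,4],[0,1,2,3]]],
Node.mk [0,820,182,1542,2448,27,895,1633,2350] [(0,0),(1,0),(2,0),(2,1),(2,2),(3,0)] [Ref.mk 1729 74 [0,1,2,3] [[0,1,2,3,4],[0,1,2,3],[0,1,2,3],[0,1,2,3]]],
Node.mk [0,820,182,1542,2448,27,895,1633,3079,1729,346] [(0,0),(0,1),(0,4),(3,0),(3,1),(3,2)] [],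
Node.mk [0,820,182,1542,2448,27,895,1633,3079,1729] [(0,0),(0,1),(2,0),(2,1),(2,2),(2,3)] [Ref.mk 346 76 [0,1,2,3] [[0,1,2,3,4],[0,1,2,3],[0,1,2,3,4],[0,1,2,3,4]]],
Node.mk [0,820,182,1542,2448,27,895,1633,3079] [(0,0),(1,0),(2,0),(2,1),(2,2),(3,0)] [Ref.mk 1729 77 [0,1,2,3] [[0,1,2,3,4],[0,1,2,3],[0,1,2,3],[0,1,2,3,4]]],
Node.mk [0,820,182,1542,2448,27,895,1633,2377,1729] [(0,0),(0,1),(2,0),(2,1),(2,2),(2,3)] [],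
Node.mk [0,820,182,1542,2448,27,895,1633,2377] [(0,0),(1,0),(2,0),(2,1),(2,2),(3,0)] [Ref.mk 1729 79 [0,1,2,3] [[0,1,2,3,4],[0,1,2,3],[0,1,2,3],[0,1,2,3]]],
Node.mk [0,820,182,1542,2448,27,895,1633] [(0,0),(2,0),(2,1),(3,0),(3,1),(3,2)] [Ref.mk 2350 75 [0,1,2,3] [[0,1,2,3,4],[0,1,2,3],[0,1,2,3],[0,1,2,3]],Ref.mk 3079 78 [0,1,2,3] [[0,1,2,3,4],[0,1,2,3],[0,1,2,3],[0,1,2,3,4]],Ref.mk 2377 80 [0,1,2,3] [[0,1,2,3,4],[0,1,2,3],[0,1,2,3],[0,1,2,3]],Ref.mk 2361 57 [0,1,2,3] [[0,1,2,3,4],[0,1,2,3],[0,1,2,3],[0,1,2,3]],Ref.mk 3090 72 [0,1,2,3] [[0,1,2,3,4],[0,1,2,3],[0,1,2,3],[0,1,2,3,4]]],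
Node.mk [0,820,182,1542,2448,27,895,1714,2431,3001] [(0,0),(0,2),(1,0),(1,2),(2,1),(2,3)] [],
Node.mk [0,820,182,1542,2448,27,895,1714,2431] [(0,0),(1,2),(3,0),(3,1),(3,2),(3,3)] [Ref.mk 3160 60 [3,1,2,0] [[0,1,3,2,4],[0,1,2,3],[0,1,3,2],[0,1,3,2,4]],Ref.mk 3001 82 [0,1,2,3] [[0,1,2,3,4],[0,1,2,3],[0,1,2,3],[0,1,2,3,4]]],
Node.mk [0,820,182,1542,2448,27,895,1714] [(0,0),(2,0),(2,1),(3,0),(3,1),(3,2)] [Ref.mk 2431 83 [0,1,2,3] [[0,1,2,3,4],[0,1,2,3],[0,1,2,3],[0,1,2,3]],Ref.mk 3160 60 [3,1,2,0] [[0,1,3,2,4],[0,1,2,3],[0,1,3,2],[0,1,3,2,4]],Ref.mk 2361 57 [0,1,2,3] [[0,1,2,3,4],[0,1,2,3],[0,1,2,3],[0,1,2,3]],Ref.mk 3090 67 [0,1,2,3] [[0,1,2,3,4],[0,1,2,3],[0,1,2,3],[0,1,2,3,4]]],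
Node.mk [0,820,182,1542,2448,27,895,1795,2512,3241] [(0,0),(0,1),(1,0),(2,0),(2,4),(3,0)] [],
Node.mk [0,820,182,1542,2448,27,895,1795,2512,3001] [(0,0),(0,1),(0,4),(1,0),(2,0),(3,0)] [],
Node.mk [0,820,182,1542,2448,27,895,1795,2512] [(0,0),(1,2),(3,0),(3,1),(3,2),(3,3)] [Ref.mk 3241 85 [0,1,2,3] [[0,1,2,3,4],[0,1,2,3],[0,1,2,3,4],[0,1,2,3,4]],Ref.mk 3001 86 [0,1,2,3] [[0,1,2,3,4],[0,1,2,3],[0,1,2,3,4],[0,1,2,3,4]]],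
Node.mk [0,820,182,1542,2448,27,895,1795,3241,3970] [(0,0),(0,1),(1,0),(2,0),(2,4),(3,0)] [],
Node.mk [0,820,182,1542,2448,27,895,1795,3241,2272] [(0,0),(0,1),(0,4),(1,0),(2,0),(3,0)] [],
Node.mk [0,820,182,1542,2448,27,895,1795,3241,3730] [(0,0),(0,1),(0,4),(1,0),(2,0),(3,0)] [],
Node.mk [0,820,182,1542,2448,27,895,1795,3241] [(0,0),(2,0),(3,0),(3,1),(3,2),(3,4)] [Ref.mk 2512 85 [0,1,2,3] [[0,1,2,3,4],[0,1,2,3],[0,1,2,3,4],[0,1,2,3,4]],Ref.mk 3970 88 [0,1,2,3] [[0,1,2,3,4],[0,1,2,3],[0,1,2,3,4],[0,1,2,3,4,5]],Ref.mk 2272 89 [0,1,2,3] [[0,1,2,3,4],[0,1,2,3],[0,1,2,3,4],[0,1,2,3,4]],Ref.mk 3730 90 [0,1,2,3] [[0,1,2,3,4],[0,1,2,3],[0,1,2,3,4],[0,1,2,3,4,5]]],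
Node.mk [0,820,182,1542,2448,27,895,1795] [(0,0),(2,0),(2,1),(3,0),(3,1),(3,2)] [Ref.mk 2512 87 [0,1,2,3] [[0,1,2,3,4],[0,1,2,3],[0,1,2,3,4],[0,1,2,3]],Ref.mk 3241 91 [0,1,2,3] [[0,1,2,3,4],[0,1,2,3],[0,1,2,3,4],[0,1,2,3,4]],Ref.mk 2361 57 [0,1,2,3] [[0,1,2,3,4],[0,1,2,3],[0,1,2,3],[0,1,2,3]],Ref.mk 3090 71 [0,1,2,3] [[0,1,2,3,4],[0,1,2,3],[0,1,2,3,4],[0,1,2,3,4]]],
Node.mk [0,820,182,1542,2448,27,895,1634,3079,1729,2300] [(0,0),(0,1),(2,0),(2,1),(2,2),(2,3)] [],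
Node.mk [0,820,182,1542,2448,27,895,1634,3079,1729] [(0,0),(0,1),(1,0),(2,0),(2,2),(3,0)] [Ref.mk 2300 93 [0,1,2,3] [[0,1,2,3,4,5],[0,1,2,3],[0,1,2,3],[0,1,2,3,4]]],
Node.mk [0,820,182,1542,2448,27,895,1634,3079] [(0,0),(1,0),(2,0),(2,1),(2,2),(3,0)] [Ref.mk 1729 94 [0,1,2,3] [[0,1,2,3,4,5],[0,1,2,3],[0,1,2,3],[0,1,2,3,4]]],
Node.mk [0,820,182,1542,2448,27,895,1634,3010] [(0,0),(0,4),(1,1),(2,0),(2,1),(3,0)] [Ref.mk 3079 95 [0,1,2,3] [[0,4,2,3,1,5],[0,1,2,3],[0,1,2,3],[0,4,2,3,1]]],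
Node.mk [0,820,182,1542,2448,27,895,1634] [(0,0),(1,2),(3,0),(3,1),(3,2),(3,3)] [Ref.mk 3079 95 [0,1,2,3] [[0,1,2,3,4,5],[0,1,2,3],[0,1,2,3],[0,1,2,3,4]],Ref.mk 3090 72 [0,1,2,3] [[0,1,2,3,4],[0,1,2,3],[0,1,2,3],[0,1,2,3,4]],Ref.mk 3010 96 [0,1,2,3] [[0,1,2,3,4,5],[0,1,2,3],[0,1,2,3],[0,1,2,3,4]],Ref.mk 3002 72 [0,1,2,3] [[0,1,2,5,4],[0,1,2,3],[0,1,2,3],[0,1,4,3,2]]],
Node.mk [0,820,182,1542,2448,27,895] [(0,0),(0,1),(2,0),(2,1),(3,0),(3,1)] [Ref.mk 1631 40 [0,1,2,3] [[0,1,2,3,4],[0,1,2,3],[0,1,2,3],[0,1,2,3]],Ref.mk 1632 50 [0,1,2,3] [[0,1,2,3,4],[0,1,2,3],[0,1,2,3],[0,1,2,3]],Ref.mk 2361 57 [0,1,2,3] [[0,1,2,3,4],[0,1,2,3],[0,1,2,3],[0,1,2,3]],Ref.mk 3090 72 [0,1,2,3] [[0,1,2,3,4],[0,1,2,3],[0,1,2,3],[0,1,2,3,4]],Ref.mk 1633 81 [0,1,2,3] [[0,1,2,3,4],[0,1,2,3],[0,1,2,3],[0,1,2,3]],Ref.mk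 1714 84 [0,1,2,3] [[0,1,2,3,4],[0,1,2,3],[0,1,2,3],[0,1,2,3]],Ref.mk 1795 92 [0,1,2,3] [[0,1,2,3,4],[0,1,2,3],[0,1,2,3,4],[0,1,2,3]],Ref.mk 1634 97 [0,1,2,3] [[0,1,2,3,4,5],[0,1,2,3],[0,1,2,3],[0,1,2,3]]],
Node.mk [0,820,182,1542,2448,27,247,2189,1620,3078,36,253] [(0,0),(0,1),(0,3),(1,0),(1,1),(3,0)] [],
Node.mk [0,820,182,1542,2448,27,247,2189,1620,3078,36,271,918] [(0,0),(0,1),(0,2),(0,3),(1,0),(1,3)] [],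
Node.mk [0,820,182,1542,2448,27,247,2189,1620,3078,36,271] [(0,3),(1,0),(1,2),(2,1),(3,0),(3,2)] [Ref.mk 918 100 [0,1,2,3] [[0,1,2,3,4],[0,1,2,3,4],[0,1,2,3],[0,1,2,3,4]]],
Node.mk [0,820,182,1542,2448,27,247,2189,1620,3078,36,289,936] [(0,0),(0,1),(0,2),(0,3),(1,0),(1,5)] [],
Node.mk [0,820,182,1542,2448,27,247,2189,1620,3078,36,289] [(0,3),(1,0),(1,2),(2,1),(3,0),(3,2)] [Ref.mk 936 102 [0,1,2,3] [[0,1,2,3,4],[0,1,2,3,4,5],[0,1,2,3],[0,1,2,3,4]]],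
Node.mk [0,820,182,1542,2448,27,247,2189,1620,3078,36,2198] [(0,0),(0,2),(1,0),(1,1),(2,0),(2,1)] [],
Node.mk [0,820,182,1542,2448,27,247,2189,1620,3078,36,254,749] [(0,0),(0,2),(0,3),(1,0),(1,1),(1,2)] [],
Node.mk [0,820,182,1542,2448,27,247,2189,1620,3078,36,254] [(0,0),(0,3),(1,0),(2,1),(3,0),(3,2)] [Ref.mk 2198 104 [0,1,2,3] [[0,1,2,3,4],[0,1,2,3,4],[0,1,2,3],[0,1,2,3,4]],Ref.mk 749 105 [0,1,2,3] [[0,1,2,3,4],[0,1,2,3,4],[0,1,2,3],[0,1,2,3,4]]],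
Node.mk [0,820,182,1542,2448,27,247,2189,1620,3078,36,256] [(0,0),(1,0),(1,1),(1,2),(2,1),(2,3)] [],
Node.mk [0,820,182,1542,2448,27,247,2189,1620,3078,36,257] [(0,0),(1,0),(1,1),(1,2),(2,1),(2,3)] [],
Node.mk [0,820,182,1542,2448,27,247,2189,1620,3078,36] [(0,0),(0,3),(1,0),(1,2),(2,1),(3,2)] [Ref.mk 253 99 [0,1,2,3] [[0,1,2,3,4],[0,1,2,3,4],[0,1,2,3],[0,1,2,3,4]],Ref.mk 271 101 [0,1,2,3] [[0,1,2,3,4],[0,1,2,3,4],[0,1,2,3],[0,1,2,3,4]],Ref.mk 280 101 [0,1,2,3] [[0,1,2,3,4],[0,1,2,4,3],[0,1,2,3],[0,1,2,3,4]],Ref.mk 289 103 [0,1,2,3] [[0,1,2,3,4],[0,1,2,3,4,5],[0,1,2,3],[0,1,2,3,4]],Ref.mk 2198 104 [0,1,2,3] [[0,1,2,3,4],[0,1,2,3,4],[0,1,2,3],[0,1,2,3,4]],Ref.mk 254 106 [0,1,2,3] [[0,1,2,3,4],[0,1,2,3,4],[0,1,2,3],[0,1,2,3,4]],Ref.mk 256 107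 [0,1,2,3] [[0,1,2,3,4],[0,1,2,3,4],[0,1,2,3],[0,1,2,3,4]],Ref.mk 257 108 [0,1,2,3] [[0,1,2,3,4,5],[0,1,2,3,4],[0,1,2,3],[0,1,2,3,4]]],
Node.mk [0,820,182,1542,2448,27,247,2189,1620,3078,927,3241] [(0,0),(0,1),(0,2),(1,0),(3,1),(3,4)] [],
Node.mk [0,820,182,1542,2448,27,247,2189,1620,3078,927,3970] [(0,0),(0,1),(0,2),(1,0),(3,1),(3,5)] [],
Node.mk [0,820,182,1542,2448,27,247,2189,1620,3078,927] [(2,1),(2,2),(3,0),(3,1),(3,2),(3,3)] [Ref.mk 2917 26 [3,1,2,0] [[0,1,3,2,4],[0,1,2,3],[0,1,3,2],[0,1,3,2]],Ref.mk 3646 26 [3,1,2,0] [[0,1,3,2,5],[0,1,2,3],[0,1,3,2],[0,1,3,2]],Ref.mk 3160 98 [3,1,2,0] [[0,1,3,2,4],[0,1,2,3],[0,1,3,2],[0,1,3,2]],Ref.mk 3889 98 [3,1,2,0] [[0,1,3,2,5],[0,1,2,3],[0,1,3,2],[0,1,3,2]],Ref.mk 3241 110 [0,1,2,3] [[0,1,2,3,4],[0,1,2,3,4],[0,1,2,3,4],[0,1,2,3,4]],Ref.mk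 3970 111 [0,1,2,3] [[0,1,2,3,4],[0,1,2,3,4],[0,1,2,3,4],[0,1,2,3,4,5]]],
Node.mk [0,820,182,1542,2448,27,247,2189,1620,3078,768,2350,171] [(0,0),(0,3),(3,0),(3,1),(3,2),(3,3)] [Ref.mk 2917 26 [3,1,2,0] [[0,1,3,2,4],[0,1,2,3],[0,1,3,2],[0,1,3,2]],Ref.mk 3646 26 [3,1,2,0] [[0,1,3,2,5],[0,1,2,3],[0,1,3,2],[0,1,3,2]]],
Node.mk [0,820,182,1542,2448,27,247,2189,1620,3078,768,2350] [(0,3),(1,0),(1,2),(1,4),(2,0),(3,1)] [Ref.mk 171 113 [0,1,2,3] [[0,1,2,3,4],[0,1,2,3,4],[0,1,2,3],[0,1,2,3,4]]],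
Node.mk [0,820,182,1542,2448,27,247,2189,1620,3078,768,2270] [(0,0),(0,3),(2,0),(2,1),(3,0),(3,1)] [Ref.mk 2350 114 [0,1,2,3] [[0,1,2,3,4],[0,1,2,3,4],[0,1,2,3],[0,1,2,3,4]]],
Node.mk [0,820,182,1542,2448,27,247,2189,1620,3078,768] [(0,0),(0,3),(1,4),(2,0),(3,0),(3,1)] [Ref.mk 2350 114 [0,1,2,3] [[0,1,2,3,4],[0,1,2,3,4],[0,1,2,3],[0,1,2,3,4]],Ref.mk 2270 115 [0,1,2,3] [[0,1,2,3,4],[0,1,2,3,4],[0,1,2,3],[0,1,2,3,4]]],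
Node.mk [0,820,182,1542,2448,27,247,2189,1620,3078,930,324,19] [(0,3),(1,4),(2,2),(3,0),(3,1),(3,3)] [],
Node.mk [0,820,182,1542,2448,27,247,2189,1620,3078,930,324,254] [(0,3),(1,4),(2,2),(3,0),(3,1),(3,3)] [],
Node.mk [0,820,182,1542,2448,27,247,2189,1620,3078,930,324,101] [(0,0),(0,2),(2,1),(2,2),(3,0),(3,1)] [],
Node.mk [0,820,182,1542,2448,27,247,2189,1620,3078,930,324] [(0,0),(0,3),(1,0),(1,4),(2,2),(3,1)] [Ref.mk 19 117 [0,1,2,3] [[0,1,2,3,4],[0,1,2,3,4],[0,1,2,3,4],[0,1,2,3,4]],Ref.mk 254 118 [0,1,2,3] [[0,1,2,3,4],[0,1,2,3,4],[0,1,2,3,4],[0,1,2,3,4]],Ref.mk 101 119 [0,1,2,3] [[0,1,2,3,4],[0,1,2,3,4],[0,1,2,3,4],[0,1,2,3,4]]],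
Node.mk [0,820,182,1542,2448,27,247,2189,1620,3078,930,1819] [(0,0),(0,1),(0,3),(1,0),(1,4),(2,2)] [],
Node.mk [0,820,182,1542,2448,27,247,2189,1620,3078,930] [(0,3),(2,0),(2,1),(2,2),(2,3),(3,1)] [Ref.mk 324 120 [0,1,2,3] [[0,1,2,3,4],[0,1,2,3,4],[0,1,2,3,4],[0,1,2,3,4]],Ref.mk 1819 121 [0,1,2,3] [[0,1,2,3,4],[0,1,2,3,4],[0,1,2,3,4],[0,1,2,3,4]]],
Node.mk [0,820,182,1542,2448,27,247,2189,1620,3078,1011,2358] [(0,0),(0,3),(1,0),(2,1),(2,2),(2,3)] [],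
Node.mk [0,820,182,1542,2448,27,247,2189,1620,3078,1011,2286] [(0,0),(0,2),(0,3),(2,1),(2,3),(3,1)] [],
Node.mk [0,820,182,1542,2448,27,247,2189,1620,3078,1011] [(0,3),(1,0),(1,4),(2,3),(3,0),(3,1)] [Ref.mk 2358 123 [0,1,2,3] [[0,1,2,3,4],[0,1,2,3,4],[0,1,2,3],[0,1,2,3,4]],Ref.mk 2286 124 [0,1,2,3] [[0,1,2,3,4],[0,1,2,3,4],[0,1,2,3],[0,1,2,3,4]]],
Node.mk [0,820,182,1542,2448,27,247,2189,1620,3078,1092,280] [(0,0),(0,1),(0,2),(0,3),(1,0),(1,4)] [],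
Node.mk [0,820,182,1542,2448,27,247,2189,1620,3078,1092,1001] [(0,0),(0,1),(0,2),(0,3),(1,0),(3,1)] []]

/-- nodes -/
noncomputable def c2 : List Node := [
Node.mk [0,820,182,1542,2448,27,247,2189,1620,3078,1092] [(0,0),(0,3),(1,0),(1,2),(2,1),(3,2)] [Ref.mk 280 126 [0,1,2,3] [[0,1,2,3,4],[0,1,2,3,4],[0,1,2,3,4],[0,1,2,3,4]],Ref.mk 1001 127 [0,1,2,3] [[0,1,2,3,4],[0,1,2,3,4],[0,1,2,3,4],[0,1,2,3,4]]],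
Node.mk [0,820,182,1542,2448,27,247,2189,1620,3078] [(0,1),(1,0),(1,1),(1,2),(1,3),(2,1)] [Ref.mk 36 109 [0,1,2,3] [[0,1,2,3,4],[0,1,2,3,4],[0,1,2,3],[0,1,2,3,4]],Ref.mk 927 112 [0,1,2,3] [[0,1,2,3,4],[0,1,2,3,4],[0,1,2,3],[0,1,2,3,4]],Ref.mk 768 116 [0,1,2,3] [[0,1,2,3,4],[0,1,2,3,4],[0,1,2,3],[0,1,2,3,4]],Ref.mk 930 122 [0,1,2,3] [[0,1,2,3,4],[0,1,2,3,4],[0,1,2,3],[0,1,2,3,4]],Ref.mk 1011 125 [0,1,2,3] [[0,1,2,3,4],[0,1,2,3,4],[0,1,2,3],[0,1,2,3,4]],Ref.mk 1092 128 [0,1,2,3] [[0,1,2,3,4],[0,1,2,3,4],[0,1,2,3,4],[0,1,2,3,4]]],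
Node.mk [0,820,182,1542,2448,27,247,2189,1620,3079,36,921,271] [(0,0),(0,1),(1,0),(1,1),(1,2),(1,3)] [],
Node.mk [0,820,182,1542,2448,27,247,2189,1620,3079,36,921,254] [(0,0),(0,1),(0,2),(0,3),(1,0),(1,1)] [],
Node.mk [0,820,182,1542,2448,27,247,2189,1620,3079,36,921] [(0,0),(0,3),(1,0),(1,2),(2,1),(3,2)] [Ref.mk 271 130 [0,1,2,3] [[0,1,2,3,4],[0,1,2,3,4],[0,1,2,3],[0,1,2,3,4]],Ref.mk 254 131 [0,1,2,3] [[0,1,2,3,4],[0,1,2,3,4],[0,1,2,3],[0,1,2,3,4]]],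
Node.mk [0,820,182,1542,2448,27,247,2189,1620,3079,36,939,289] [(0,0),(0,1),(1,0),(1,1),(1,2),(1,5)] [],
Node.mk [0,820,182,1542,2448,27,247,2189,1620,3079,36,939,254] [(0,0),(0,1),(0,2),(0,3),(1,0),(1,1)] [],
Node.mk [0,820,182,1542,2448,27,247,2189,1620,3079,36,939] [(0,0),(0,3),(1,0),(1,2),(2,1),(3,2)] [Ref.mk 289 133 [0,1,2,3] [[0,1,2,3,4],[0,1,2,3,4,5],[0,1,2,3],[0,1,2,3,4]],Ref.mk 254 134 [0,1,2,3] [[0,1,2,3,4],[0,1,2,3,4,5],[0,1,2,3],[0,1,2,3,4]]],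
Node.mk [0,820,182,1542,2448,27,247,2189,1620,3079,36] [(0,0),(0,1),(1,0),(1,1),(1,2),(2,1)] [Ref.mk 921 132 [0,1,2,3] [[0,1,2,3,4],[0,1,2,3,4],[0,1,2,3],[0,1,2,3,4]],Ref.mk 930 132 [0,1,2,3] [[0,1,2,3,4],[0,1,2,4,3],[0,1,2,3],[0,1,2,3,4]],Ref.mk 939 135 [0,1,2,3] [[0,1,2,3,4],[0,1,2,3,4,5],[0,1,2,3],[0,1,2,3,4]]],
Node.mk [0,820,182,1542,2448,27,247,2189,1620,3079,927,1480] [(0,0),(0,1),(1,0),(1,2),(2,1),(2,2)] [],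
Node.mk [0,820,182,1542,2448,27,247,2189,1620,3079,927] [(0,0),(0,1),(1,0),(2,1),(2,2),(3,1)] [Ref.mk 1480 137 [0,1,2,3] [[0,1,2,3,4],[0,1,2,3,4],[0,1,2,3],[0,1,2,3,4]]],
Node.mk [0,820,182,1542,2448,27,247,2189,1620,3079,930,1819] [(0,0),(0,1),(1,0),(1,1),(1,2),(1,4)] [],
Node.mk [0,820,182,1542,2448,27,247,2189,1620,3079,930,3252] [(0,0),(0,2),(0,3),(1,0),(2,1),(3,2)] [],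
Node.mk [0,820,182,1542,2448,27,247,2189,1620,3079,930] [(0,0),(1,0),(2,0),(2,1),(2,2),(2,3)] [Ref.mk 1819 139 [0,1,2,3] [[0,1,2,3,4],[0,1,2,3,4],[0,1,2,3,4],[0,1,2,3,4]],Ref.mk 3252 140 [0,1,2,3] [[0,1,2,3,4],[0,1,2,3,4],[0,1,2,3,4],[0,1,2,3,4]]],
Node.mk [0,820,182,1542,2448,27,247,2189,1620,3079] [(0,1),(1,0),(1,1),(1,2),(1,3),(2,1)] [Ref.mk 36 136 [0,1,2,3] [[0,1,2,3,4],[0,1,2,3,4],[0,1,2,3],[0,1,2,3,4]],Ref.mk 927 138 [0,1,2,3] [[0,1,2,3,4],[0,1,2,3,4],[0,1,2,3],[0,1,2,3,4]],Ref.mk 930 141 [0,1,2,3] [[0,1,2,3,4],[0,1,2,3,4],[0,1,2,3],[0,1,2,3,4]]],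
Node.mk [0,820,182,1542,2448,27,247,2189,1620,3241,1001] [(0,0),(0,1),(0,2),(2,1),(2,3),(3,1)] [],
Node.mk [0,820,182,1542,2448,27,247,2189,1620,3241,1083,3036] [(0,0),(0,1),(0,3),(1,0),(1,2),(1,3)] [],
Node.mk [0,820,182,1542,2448,27,247,2189,1620,3241,1083,1092] [(0,0),(0,3),(1,0),(1,2),(2,4),(3,1)] [],
Node.mk [0,820,182,1542,2448,27,247,2189,1620,3241,1083] [(0,0),(0,1),(1,0),(1,1),(1,2),(1,3)] [Ref.mk 3036 144 [0,1,2,3] [[0,1,2,3,4],[0,1,2,3,4],[0,1,2,3,4],[0,1,2,3,4]],Ref.mk 1092 145 [0,1,2,3] [[0,1,2,3,4],[0,1,2,3,4],[0,1,2,3,4],[0,1,2,3,4]]],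
Node.mk [0,820,182,1542,2448,27,247,2189,1620,3241,1092,255] [(0,0),(0,1),(0,2),(0,3),(1,0),(1,1)] [],
Node.mk [0,820,182,1542,2448,27,247,2189,1620,3241,1092] [(0,0),(0,1),(1,0),(1,2),(2,4),(3,4)] [Ref.mk 1001 143 [0,1,2,3] [[0,1,2,3,4],[0,1,2,3],[0,1,2,3,4],[0,1,2,3,4]],Ref.mk 255 147 [0,1,2,3] [[0,1,2,3,4],[0,1,2,3,4],[0,1,2,3,4],[0,1,2,3,4]]],
Node.mk [0,820,182,1542,2448,27,247,2189,1620,3241] [(0,0),(0,1),(1,0),(1,1),(1,2),(2,1)] [Ref.mk 1001 143 [0,1,2,3] [[0,1,2,3,4],[0,1,2,3],[0,1,2,3,4],[0,1,2,3,4]],Ref.mk 1083 146 [0,1,2,3] [[0,1,2,3,4],[0,1,2,3],[0,1,2,3,4],[0,1,2,3,4]],Ref.mk 1092 148 [0,1,2,3] [[0,1,2,3,4],[0,1,2,3,4],[0,1,2,3,4],[0,1,2,3,4]]],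
Node.mk [0,820,182,1542,2448,27,247,2189,1620,2935] [(0,1),(1,0),(1,1),(1,2),(2,0),(2,1)] [],
Node.mk [0,820,182,1542,2448,27,247,2189,1620] [(1,1),(2,1),(3,0),(3,1),(3,2),(3,3)] [Ref.mk 3078 129 [0,1,2,3] [[0,1,2,3,4],[0,1,2,3],[0,1,2,3],[0,1,2,3,4]],Ref.mk 2917 26 [3,1,2,0] [[0,1,3,2,4],[0,1,2,3],[0,1,3,2],[0,1,3,2]],Ref.mk 3079 142 [0,1,2,3] [[0,1,2,3,4],[0,1,2,3],[0,1,2,3],[0,1,2,3,4]],Ref.mk 3160 98 [3,1,2,0] [[0,1,3,2,4],[0,1,2,3],[0,1,3,2],[0,1,3,2]],Ref.mk 3241 149 [0,1,2,3] [[0,1,2,3,4],[0,1,2,3],[0,1,2,3,4],[0,1,2,3,4]],Ref.mk 2935 150 [0,1,2,3] [[0,1,2,3,4],[0,1,2,3],[0,1,2,3],[0,1,2,3,4]]],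
Node.mk [0,820,182,1542,2448,27,247,2189,3078,36,253] [(0,1),(1,0),(1,1),(2,1),(2,3),(3,0)] [],
Node.mk [0,820,182,1542,2448,27,247,2189,3078,36,271,918] [(0,0),(0,1),(0,2),(0,3),(1,0),(1,3)] [],
Node.mk [0,820,182,1542,2448,27,247,2189,3078,36,271] [(0,3),(1,0),(1,2),(2,1),(3,0),(3,2)] [Ref.mk 918 153 [0,1,2,3] [[0,1,2,3,4],[0,1,2,3,4],[0,1,2,3],[0,1,2,3,4]]],
Node.mk [0,820,182,1542,2448,27,247,2189,3078,36,289,936] [(0,0),(0,1),(0,2),(0,3),(1,0),(1,5)] [],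
Node.mk [0,820,182,1542,2448,27,247,2189,3078,36,289] [(0,3),(1,0),(1,2),(2,1),(3,0),(3,2)] [Ref.mk 936 155 [0,1,2,3] [[0,1,2,3,4],[0,1,2,3,4,5],[0,1,2,3],[0,1,2,3,4]]],
Node.mk [0,820,182,1542,2448,27,247,2189,3078,36,2198] [(0,0),(0,2),(1,0),(1,1),(2,0),(2,1)] [],
Node.mk [0,820,182,1542,2448,27,247,2189,3078,36,254,749] [(0,0),(0,3),(1,0),(1,1),(1,2),(2,1)] [],
Node.mk [0,820,182,1542,2448,27,247,2189,3078,36,254] [(0,0),(0,3),(1,0),(2,1),(3,0),(3,2)] [Ref.mk 2198 157 [0,1,2,3] [[0,1,2,3,4],[0,1,2,3,4],[0,1,2,3],[0,1,2,3,4]],Ref.mk 749 158 [0,1,2,3] [[0,1,2,3,4],[0,1,2,3,4],[0,1,2,3],[0,1,2,3,4]]],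
Node.mk [0,820,182,1542,2448,27,247,2189,3078,36,256] [(0,0),(1,0),(1,1),(1,2),(2,1),(2,3)] [],
Node.mk [0,820,182,1542,2448,27,247,2189,3078,36,257] [(0,0),(1,0),(1,1),(1,2),(2,1),(2,3)] [],
Node.mk [0,820,182,1542,2448,27,247,2189,3078,36] [(0,0),(0,3),(1,0),(1,2),(2,1),(3,2)] [Ref.mk 253 152 [0,1,2,3] [[0,1,2,3,4],[0,1,2,3,4],[0,1,2,3],[0,1,2,3,4]],Ref.mk 271 154 [0,1,2,3] [[0,1,2,3,4],[0,1,2,3,4],[0,1,2,3],[0,1,2,3,4]],Ref.mk 280 154 [0,1,2,3] [[0,1,2,3,4],[0,1,2,4,3],[0,1,2,3],[0,1,2,3,4]],Ref.mk 289 156 [0,1,2,3] [[0,1,2,3,4],[0,1,2,3,4,5],[0,1,2,3],[0,1,2,3,4]],Ref.mk 2198 157 [0,1,2,3] [[0,1,2,3,4],[0,1,2,3,4],[0,1,2,3],[0,1,2,3,4]],Ref.mk 254 159 [0,1,2,3] [[0,1,2,3,4],[0,1,2,3,4],[0,1,2,3],[0,1,2,3,4]],Ref.mk 256 160 [0,1,2,3] [[0,1,2,3,4],[0,1,2,3,4],[0,1,2,3],[0,1,2,3,4]],Ref.mk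 257 161 [0,1,2,3] [[0,1,2,3,4,5],[0,1,2,3,4],[0,1,2,3],[0,1,2,3,4]]],
Node.mk [0,820,182,1542,2448,27,247,2189,3078,927,3241] [(0,0),(0,1),(0,2),(1,0),(3,1),(3,4)] [],
Node.mk [0,820,182,1542,2448,27,247,2189,3078,927,3970] [(0,0),(0,1),(0,2),(1,0),(3,1),(3,5)] [],
Node.mk [0,820,182,1542,2448,27,247,2189,3078,927] [(2,1),(2,2),(3,0),(3,1),(3,2),(3,3)] [Ref.mk 2917 26 [3,1,2,0] [[0,1,3,2,4],[0,1,2,3],[0,1,3,2],[0,1,3,2]],Ref.mk 3646 26 [3,1,2,0] [[0,1,3,2,5],[0,1,2,3],[0,1,3,2],[0,1,3,2]],Ref.mk 3160 98 [3,1,2,0] [[0,1,3,2,4],[0,1,2,3],[0,1,3,2],[0,1,3,2]],Ref.mk 3889 98 [3,1,2,0] [[0,1,3,2,5],[0,1,2,3],[0,1,3,2],[0,1,3,2]],Ref.mk 3241 163 [0,1,2,3] [[0,1,2,3,4],[0,1,2,3,4],[0,1,2,3,4],[0,1,2,3,4]],Ref.mk 3970 164 [0,1,2,3] [[0,1,2,3,4],[0,1,2,3,4],[0,1,2,3,4],[0,1,2,3,4,5]]],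
Node.mk [0,820,182,1542,2448,27,247,2189,3078,768,2198] [(0,0),(0,2),(0,3),(1,0),(2,0),(2,1)] [],
Node.mk [0,820,182,1542,2448,27,247,2189,3078,768,1001] [(0,0),(0,1),(0,2),(0,3),(1,0),(3,1)] [],
Node.mk [0,820,182,1542,2448,27,247,2189,3078,768] [(0,0),(0,3),(1,0),(1,2),(2,1),(3,2)] [Ref.mk 280 165 [3,1,2,0] [[0,1,3,2,4],[0,1,2,3,4],[0,1,3,2],[0,1,3,2,4]],Ref.mk 2198 166 [0,1,2,3] [[0,1,2,3,4],[0,1,2,3,4],[0,1,2,3],[0,1,2,3,4]],Ref.mk 1001 167 [0,1,2,3] [[0,1,2,3,4],[0,1,2,3,4],[0,1,2,3],[0,1,2,3,4]]],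
Node.mk [0,820,182,1542,2448,27,247,2189,3078,930,324,19] [(0,3),(1,4),(2,2),(3,0),(3,1),(3,3)] [],
Node.mk [0,820,182,1542,2448,27,247,2189,3078,930,324,254] [(0,3),(1,4),(2,2),(3,0),(3,1),(3,3)] [],
Node.mk [0,820,182,1542,2448,27,247,2189,3078,930,324,101] [(0,0),(0,3),(1,0),(2,1),(2,2),(3,1)] [Ref.mk 19 169 [0,1,2,3] [[0,1,2,3,4],[0,1,2,3,4],[0,1,2,3,4],[0,1,2,3,4]],Ref.mk 280 165 [3,1,2,0] [[0,1,3,2,4],[0,1,2,3,4],[0,1,3,2],[0,1,3,2,4]],Ref.mk 254 170 [0,1,2,3] [[0,1,2,3,4],[0,1,2,3,4],[0,1,2,3,4],[0,1,2,3,4]]],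
Node.mk [0,820,182,1542,2448,27,247,2189,3078,930,324] [(0,0),(0,3),(1,0),(1,4),(2,2),(3,1)] [Ref.mk 19 169 [0,1,2,3] [[0,1,2,3,4],[0,1,2,3,4],[0,1,2,3,4],[0,1,2,3,4]],Ref.mk 254 170 [0,1,2,3] [[0,1,2,3,4],[0,1,2,3,4],[0,1,2,3,4],[0,1,2,3,4]],Ref.mk 101 171 [0,1,2,3] [[0,1,2,3,4],[0,1,2,3,4],[0,1,2,3,4],[0,1,2,3,4]]],
Node.mk [0,820,182,1542,2448,27,247,2189,3078,930,1819,2938] [(0,0),(0,3),(1,0),(1,2),(2,1),(3,2)] [],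
Node.mk [0,820,182,1542,2448,27,247,2189,3078,930,1819] [(0,0),(0,1),(0,3),(1,0),(1,4),(2,2)] [Ref.mk 2938 173 [0,1,2,3] [[0,1,2,3,4],[0,1,2,3,4],[0,1,2,3,4],[0,1,2,3,4]]],
Node.mk [0,820,182,1542,2448,27,247,2189,3078,930] [(0,3),(2,0),(2,1),(2,2),(2,3),(3,1)] [Ref.mk 324 172 [0,1,2,3] [[0,1,2,3,4],[0,1,2,3,4],[0,1,2,3,4],[0,1,2,3,4]],Ref.mk 1819 174 [0,1,2,3] [[0,1,2,3,4],[0,1,2,3,4],[0,1,2,3,4],[0,1,2,3,4]]],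
Node.mk [0,820,182,1542,2448,27,247,2189,3078,1011,1657,1819] [(0,0),(0,1),(1,0),(1,2),(1,4),(3,2)] [],
Node.mk [0,820,182,1542,2448,27,247,2189,3078,1011,1657] [(0,3),(1,0),(2,0),(2,1),(2,2),(2,3)] [Ref.mk 1819 176 [0,1,2,3] [[0,1,2,3,4],[0,1,2,3,4],[0,1,2,3,4],[0,1,2,3,4]]],
Node.mk [0,820,182,1542,2448,27,247,2189,3078,1011,1819,927] [(0,0),(0,1),(0,2),(0,3),(1,0),(1,4)] [],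
Node.mk [0,820,182,1542,2448,27,247,2189,3078,1011,1819] [(0,3),(1,0),(1,2),(2,1),(3,0),(3,2)] [Ref.mk 927 178 [0,1,2,3] [[0,1,2,3,4],[0,1,2,3,4],[0,1,2,3,4],[0,1,2,3,4]]],
Node.mk [0,820,182,1542,2448,27,247,2189,3078,1011] [(0,0),(0,3),(1,0),(1,2),(2,1),(2,3)] [Ref.mk 1495 168 [3,1,2,0] [[0,1,3,2,4],[0,1,2,3,4],[0,1,3,2],[0,1,3,2,4]],Ref.mk 1657 177 [0,1,2,3] [[0,1,2,3,4],[0,1,2,3,4],[0,1,2,3],[0,1,2,3,4]],Ref.mk 1819 179 [0,1,2,3] [[0,1,2,3,4],[0,1,2,3,4],[0,1,2,3,4],[0,1,2,3,4]]],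
Node.mk [0,820,182,1542,2448,27,247,2189,3078,1092,1001] [(0,0),(0,1),(0,2),(0,3),(1,0),(3,1)] [],
Node.mk [0,820,182,1542,2448,27,247,2189,3078,1092] [(0,0),(0,3),(1,0),(1,2),(2,1),(3,2)] [Ref.mk 280 165 [3,1,2,0] [[0,1,3,2,4],[0,1,2,3,4],[0,1,3,2],[0,1,3,2,4]],Ref.mk 1001 181 [0,1,2,3] [[0,1,2,3,4],[0,1,2,3,4],[0,1,2,3,4],[0,1,2,3,4]]],
Node.mk [0,820,182,1542,2448,27,247,2189,3078] [(0,1),(1,0),(1,1),(1,2),(1,3),(2,1)] [Ref.mk 36 162 [0,1,2,3] [[0,1,2,3,4],[0,1,2,3,4],[0,1,2,3],[0,1,2,3,4]],Ref.mk 927 165 [0,1,2,3] [[0,1,2,3,4],[0,1,2,3,4],[0,1,2,3],[0,1,2,3,4]],Ref.mk 768 168 [0,1,2,3] [[0,1,2,3,4],[0,1,2,3,4],[0,1,2,3],[0,1,2,3,4]],Ref.mk 930 175 [0,1,2,3] [[0,1,2,3,4],[0,1,2,3,4],[0,1,2,3],[0,1,2,3,4]],Ref.mk 1011 180 [0,1,2,3] [[0,1,2,3,4],[0,1,2,3,4],[0,1,2,3],[0,1,2,3,4]],Ref.mk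 1092 182 [0,1,2,3] [[0,1,2,3,4],[0,1,2,3,4],[0,1,2,3,4],[0,1,2,3,4]]],
Node.mk [0,820,182,1542,2448,27,247,2189,1480,3079,921,36,2199] [(0,0),(0,1),(0,3),(1,0),(1,1),(1,2)] [],
Node.mk [0,820,182,1542,2448,27,247,2189,1480,3079,921,36] [(0,0),(0,1),(1,0),(1,2),(2,2),(3,4)] [Ref.mk 2199 184 [0,1,2,3] [[0,1,2,3,4],[0,1,2,3,4],[0,1,2,3],[0,1,2,3,4]]],
Node.mk [0,820,182,1542,2448,27,247,2189,1480,3079,921] [(1,0),(1,1),(1,2),(1,3),(2,1),(2,2)] [Ref.mk 36 185 [0,1,2,3] [[0,1,2,3,4],[0,1,2,3,4],[0,1,2,3],[0,1,2,3,4]]],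
Node.mk [0,820,182,1542,2448,27,247,2189,1480,3079,930,2199] [(0,0),(0,1),(0,3),(1,0),(1,1),(1,2)] [],
Node.mk [0,820,182,1542,2448,27,247,2189,1480,3079,930] [(0,0),(0,1),(1,0),(1,2),(2,2),(3,4)] [Ref.mk 2199 187 [0,1,2,3] [[0,1,2,3,4],[0,1,2,3,4],[0,1,2,3],[0,1,2,3,4]]],
Node.mk [0,820,182,1542,2448,27,247,2189,1480,3079] [(0,0),(0,1),(1,0),(1,1),(1,2),(2,1)] [Ref.mk 921 186 [0,1,2,3] [[0,1,2,3,4],[0,1,2,3],[0,1,2,3],[0,1,2,3,4]],Ref.mk 930 188 [0,1,2,3] [[0,1,2,3,4],[0,1,2,3,4],[0,1,2,3],[0,1,2,3,4]]],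
Node.mk [0,820,182,1542,2448,27,247,2189,1480,3241,1083] [(0,0),(0,1),(1,0),(1,2),(2,4),(3,4)] [],
Node.mk [0,820,182,1542,2448,27,247,2189,1480,3241,1092] [(0,0),(0,1),(1,0),(1,2),(2,4),(3,4)] []]

/-- nodes -/
noncomputable def c3 : List Node := [
Node.mk [0,820,182,1542,2448,27,247,2189,1480,3241] [(0,0),(0,1),(1,0),(1,1),(1,2),(2,1)] [Ref.mk 1083 190 [0,1,2,3] [[0,1,2,3,4],[0,1,2,3],[0,1,2,3,4],[0,1,2,3,4]],Ref.mk 1092 191 [0,1,2,3] [[0,1,2,3,4],[0,1,2,3,4],[0,1,2,3,4],[0,1,2,3,4]]],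
Node.mk [0,820,182,1542,2448,27,247,2189,1480,2935,1002,1621] [(0,0),(0,1),(1,0),(1,1),(1,2),(1,3)] [],
Node.mk [0,820,182,1542,2448,27,247,2189,1480,2935,1002] [(0,3),(1,2),(1,3),(2,0),(2,3),(3,1)] [Ref.mk 1621 193 [0,1,2,3] [[0,1,2,3,4],[0,1,2,3],[0,1,2,3],[0,1,2,3,4]]],
Node.mk [0,820,182,1542,2448,27,247,2189,1480,2935,1011] [(0,3),(1,2),(1,4),(2,0),(2,3),(3,1)] [],
Node.mk [0,820,182,1542,2448,27,247,2189,1480,2935] [(0,1),(1,0),(1,1),(1,2),(2,0),(2,1)] [Ref.mk 1002 194 [0,1,2,3] [[0,1,2,3,4],[0,1,2,3],[0,1,2,3],[0,1,2,3,4]],Ref.mk 1011 195 [0,1,2,3] [[0,1,2,3,4],[0,1,2,3,4],[0,1,2,3],[0,1,2,3,4]]],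
Node.mk [0,820,182,1542,2448,27,247,2189,1480,2938,2198] [(0,2),(1,0),(1,1),(2,0),(2,1),(2,3)] [],
Node.mk [0,820,182,1542,2448,27,247,2189,1480,2938,256] [(1,0),(1,1),(1,2),(2,0),(2,1),(2,3)] [],
Node.mk [0,820,182,1542,2448,27,247,2189,1480,2938] [(0,0),(0,3),(1,0),(1,2),(2,1),(3,2)] [Ref.mk 2198 197 [0,1,2,3] [[0,1,2,3,4],[0,1,2,3],[0,1,2,3],[0,1,2,3,4]],Ref.mk 256 198 [0,1,2,3] [[0,1,2,3,4],[0,1,2,3],[0,1,2,3],[0,1,2,3,4]]],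
Node.mk [0,820,182,1542,2448,27,247,2189,1480] [(1,1),(2,1),(3,0),(3,1),(3,2),(3,3)] [Ref.mk 2917 26 [3,1,2,0] [[0,1,3,2,4],[0,1,2,3],[0,1,3,2],[0,1,3,2]],Ref.mk 3079 189 [0,1,2,3] [[0,1,2,3,4],[0,1,2,3],[0,1,2,3],[0,1,2,3,4]],Ref.mk 3160 98 [3,1,2,0] [[0,1,3,2,4],[0,1,2,3],[0,1,3,2],[0,1,3,2]],Ref.mk 3241 192 [0,1,2,3] [[0,1,2,3,4],[0,1,2,3],[0,1,2,3,4],[0,1,2,3,4]],Ref.mk 2935 196 [0,1,2,3] [[0,1,2,3,4],[0,1,2,3],[0,1,2,3],[0,1,2,3,4]],Ref.mk 2938 199 [0,1,2,3] [[0,1,2,3,4],[0,1,2,3],[0,1,2,3],[0,1,2,3,4]]],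
Node.mk [0,820,182,1542,2448,27,247,2189,2938,2198] [(0,2),(1,0),(1,1),(2,0),(2,1),(2,3)] [],
Node.mk [0,820,182,1542,2448,27,247,2189,2938,256] [(1,0),(1,1),(1,2),(2,0),(2,1),(2,3)] [],
Node.mk [0,820,182,1542,2448,27,247,2189,2938] [(0,0),(0,3),(1,0),(1,2),(2,1),(3,2)] [Ref.mk 2198 201 [0,1,2,3] [[0,1,2,3,4],[0,1,2,3],[0,1,2,3],[0,1,2,3,4]],Ref.mk 256 202 [0,1,2,3] [[0,1,2,3,4],[0,1,2,3],[0,1,2,3],[0,1,2,3,4]]],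
Node.mk [0,820,182,1542,2448,27,247,2189] [(0,1),(1,1),(2,1),(3,0),(3,1),(3,3)] [Ref.mk 1620 151 [0,1,2,3] [[0,1,2,3,4],[0,1,2,3],[0,1,2,3],[0,1,2,3]],Ref.mk 3078 183 [0,1,2,3] [[0,1,2,3,4],[0,1,2,3],[0,1,2,3],[0,1,2,3,4]],Ref.mk 1480 200 [0,1,2,3] [[0,1,2,3,4],[0,1,2,3],[0,1,2,3],[0,1,2,3]],Ref.mk 2938 203 [0,1,2,3] [[0,1,2,3,4],[0,1,2,3],[0,1,2,3],[0,1,2,3,4]]],
Node.mk [0,820,182,1542,2448,27,247,1480,1620,3177,36,253,342,1002] [(0,0),(0,1),(0,3),(3,0),(3,1),(3,2)] [],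
Node.mk [0,820,182,1542,2448,27,247,1480,1620,3177,36,253,342,1020] [(0,0),(0,1),(0,3),(3,0),(3,1),(3,2)] [],
Node.mk [0,820,182,1542,2448,27,247,1480,1620,3177,36,253,342] [(0,0),(0,1),(1,0),(1,1),(1,2),(2,1)] [Ref.mk 1002 205 [0,1,2,3] [[0,1,2,3,4],[0,1,2,3,4],[0,1,2,3,4],[0,1,2,3,4]],Ref.mk 1011 205 [0,1,2,3] [[0,1,2,3,4],[0,1,2,4,3],[0,1,2,3,4],[0,1,2,3,4]],Ref.mk 1020 206 [0,1,2,3] [[0,1,2,3,4],[0,1,2,3,4,5],[0,1,2,3,4],[0,1,2,3,4]]],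
Node.mk [0,820,182,1542,2448,27,247,1480,1620,3177,36,253,1057] [(1,0),(1,1),(1,2),(3,0),(3,1),(3,2)] [],
Node.mk [0,820,182,1542,2448,27,247,1480,1620,3177,36,253] [(0,1),(1,1),(2,0),(2,1),(2,2),(2,3)] [Ref.mk 342 207 [0,1,2,3] [[0,1,2,3,4],[0,1,2,3,4],[0,1,2,3,4],[0,1,2,3,4]],Ref.mk 1057 208 [0,1,2,3] [[0,1,2,3,4],[0,1,2,3,4],[0,1,2,3,4],[0,1,2,3,4]]],
Node.mk [0,820,182,1542,2448,27,247,1480,1620,3177,36,271] [(0,1),(2,1),(2,3),(3,0),(3,1),(3,2)] [],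
Node.mk [0,820,182,1542,2448,27,247,1480,1620,3177,36,289] [(0,1),(2,1),(2,3),(3,0),(3,1),(3,2)] [],
Node.mk [0,820,182,1542,2448,27,247,1480,1620,3177,36,254,749] [(1,0),(1,1),(1,2),(2,0),(2,1),(2,3)] [],
Node.mk [0,820,182,1542,2448,27,247,1480,1620,3177,36,254] [(0,0),(0,3),(1,0),(2,1),(3,0),(3,2)] [Ref.mk 749 212 [0,1,2,3] [[0,1,2,3,4],[0,1,2,3,4],[0,1,2,3],[0,1,2,3,4]]],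
Node.mk [0,820,182,1542,2448,27,247,1480,1620,3177,36,256,751,900,342,2188] [(0,0),(0,1),(0,4),(1,0),(1,1),(1,2)] [],
Node.mk [0,820,182,1542,2448,27,247,1480,1620,3177,36,256,751,900,342,2350,2199] [(0,0),(0,1),(0,2),(0,3),(0,4),(2,2)] [Ref.mk 734 26 [0,1,2,3] [[0,1,2,3,5],[0,1,2,3],[0,1,2,3],[0,1,2,3]]],
Node.mk [0,820,182,1542,2448,27,247,1480,1620,3177,36,256,751,900,342,2350] [(0,0),(0,1),(0,4),(1,0),(1,2),(2,2)] [Ref.mk 2199 215 [0,1,2,3] [[0,1,2,3,4],[0,1,2,3,4],[0,1,2,3,4],[0,1,2,3,4]]],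
Node.mk [0,820,182,1542,2448,27,247,1480,1620,3177,36,256,751,900,342,3808,3657] [(0,0),(0,1),(0,2),(0,3),(0,4),(2,2)] [Ref.mk 734 26 [0,1,2,3] [[0,1,2,3,5],[0,1,2,3],[0,1,2,3],[0,1,2,3]]],
Node.mk [0,820,182,1542,2448,27,247,1480,1620,3177,36,256,751,900,342,3808] [(0,0),(0,1),(0,4),(1,0),(1,2),(2,2)] [Ref.mk 3657 217 [0,1,2,3] [[0,1,2,3,4],[0,1,2,3,4],[0,1,2,3,4],[0,1,2,3,4,5]]],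
Node.mk [0,820,182,1542,2448,27,247,1480,1620,3177,36,256,751,900,342] [(0,0),(0,3),(0,4),(3,0),(3,1),(3,2)] [Ref.mk 2188 214 [0,1,2,3] [[0,1,2,3,4],[0,1,2,3,4],[0,1,2,3,4],[0,1,2,3,4]],Ref.mk 2917 214 [0,1,2,3] [[0,1,2,3,4],[0,1,2,3,4],[0,1,2,3,4],[0,1,2,4,3]],Ref.mk 3646 26 [3,1,2,0] [[0,1,3,2,5],[0,1,2,3],[0,1,3,2],[0,1,3,2]],Ref.mk 2350 216 [0,1,2,3] [[0,1,2,3,4],[0,1,2,3,4],[0,1,2,3,4],[0,1,2,3,4]],Ref.mk 3079 216 [0,1,2,3] [[0,1,2,3,4],[0,1,2,3,4],[0,1,2,3,4],[0,1,2,4,3]],Ref.mk 3808 218 [0,1,2,3] [[0,1,2,3,4],[0,1,2,3,4],[0,1,2,3,4],[0,1,2,3,4,5]]],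
Node.mk [0,820,182,1542,2448,27,247,1480,1620,3177,36,256,751,900] [(1,0),(1,1),(2,0),(2,1),(2,2),(2,3)] [Ref.mk 342 219 [0,1,2,3] [[0,1,2,3,4],[0,1,2,3,4],[0,1,2,3,4],[0,1,2,3,4]]],
Node.mk [0,820,182,1542,2448,27,247,1480,1620,3177,36,256,751] [(0,3),(1,0),(1,2),(2,1),(3,0),(3,2)] [Ref.mk 900 220 [0,1,2,3] [[0,1,2,3,4],[0,1,2,3,4],[0,1,2,3],[0,1,2,3,4]]],
Node.mk [0,820,182,1542,2448,27,247,1480,1620,3177,36,256] [(0,0),(0,3),(1,0),(2,1),(3,0),(3,2)] [Ref.mk 751 221 [0,1,2,3] [[0,1,2,3,4],[0,1,2,3,4],[0,1,2,3],[0,1,2,3,4]]],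
Node.mk [0,820,182,1542,2448,27,247,1480,1620,3177,36,257,752] [(1,0),(1,1),(1,2),(2,0),(2,1),(2,3)] [],
Node.mk [0,820,182,1542,2448,27,247,1480,1620,3177,36,257] [(0,0),(0,3),(1,0),(2,1),(3,0),(3,2)] [Ref.mk 752 223 [0,1,2,3] [[0,1,2,3,4,5],[0,1,2,3,4],[0,1,2,3],[0,1,2,3,4]]],
Node.mk [0,820,182,1542,2448,27,247,1480,1620,3177,36] [(0,0),(0,3),(1,0),(1,2),(2,1),(3,2)] [Ref.mk 253 209 [0,1,2,3] [[0,1,2,3,4],[0,1,2,3,4],[0,1,2,3],[0,1,2,3,4]],Ref.mk 271 210 [0,1,2,3] [[0,1,2,3,4],[0,1,2,3,4],[0,1,2,3],[0,1,2,3,4]],Ref.mk 280 210 [0,1,2,3] [[0,1,2,3,4],[0,1,2,4,3],[0,1,2,3],[0,1,2,3,4]],Ref.mk 289 211 [0,1,2,3] [[0,1,2,3,4],[0,1,2,3,4,5],[0,1,2,3],[0,1,2,3,4]],Ref.mk 254 213 [0,1,2,3] [[0,1,2,3,4],[0,1,2,3,4],[0,1,2,3],[0,1,2,3,4]],Ref.mk 256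 222 [0,1,2,3] [[0,1,2,3,4],[0,1,2,3,4],[0,1,2,3],[0,1,2,3,4]],Ref.mk 257 224 [0,1,2,3] [[0,1,2,3,4,5],[0,1,2,3,4],[0,1,2,3],[0,1,2,3,4]]],
Node.mk [0,820,182,1542,2448,27,247,1480,1620,3177,927,2188,12] [(0,0),(0,1),(0,3),(0,4),(1,0),(1,2)] [],
Node.mk [0,820,182,1542,2448,27,247,1480,1620,3177,927,2188] [(0,0),(0,1),(0,4),(2,1),(2,2),(3,1)] [Ref.mk 12 226 [0,1,2,3] [[0,1,2,3,4],[0,1,2,3,4],[0,1,2,3],[0,1,2,3,4]]],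
Node.mk [0,820,182,1542,2448,27,247,1480,1620,3177,927] [(0,0),(2,1),(2,2),(3,0),(3,1),(3,2)] [Ref.mk 2188 227 [0,1,2,3] [[0,1,2,3,4],[0,1,2,3,4],[0,1,2,3],[0,1,2,3,4]],Ref.mk 2917 227 [0,1,2,3] [[0,1,2,3,4],[0,1,2,3,4],[0,1,2,3],[0,1,2,4,3]],Ref.mk 3646 26 [3,1,2,0] [[0,1,3,2,5],[0,1,2,3],[0,1,3,2],[0,1,3,2]]],
Node.mk [0,820,182,1542,2448,27,247,1480,1620,3177,768,2188,280] [(0,1),(1,4),(2,3),(3,0),(3,1),(3,2)] [],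
Node.mk [0,820,182,1542,2448,27,247,1480,1620,3177,768,2188,1001] [(0,0),(0,2),(0,3),(1,0),(3,1),(3,2)] [Ref.mk 280 229 [0,1,2,3] [[0,1,2,3,4],[0,1,2,3,4],[0,1,2,3],[0,1,2,3,4]]],
Node.mk [0,820,182,1542,2448,27,247,1480,1620,3177,768,2188] [(0,0),(0,3),(1,0),(1,2),(2,1),(3,2)] [Ref.mk 280 229 [0,1,2,3] [[0,1,2,3,4],[0,1,2,3,4],[0,1,2,3],[0,1,2,3,4]],Ref.mk 1001 230 [0,1,2,3] [[0,1,2,3,4],[0,1,2,3,4],[0,1,2,3],[0,1,2,3,4]]],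
Node.mk [0,820,182,1542,2448,27,247,1480,1620,3177,768] [(0,3),(1,2),(2,1),(3,0),(3,1),(3,2)] [Ref.mk 2188 231 [0,1,2,3] [[0,1,2,3,4],[0,1,2,3,4],[0,1,2,3],[0,1,2,3,4]],Ref.mk 2917 231 [0,1,2,3] [[0,1,2,3,4],[0,1,2,3,4],[0,1,2,3],[0,1,2,4,3]],Ref.mk 3646 26 [3,1,2,0] [[0,1,3,2,5],[0,1,2,3],[0,1,3,2],[0,1,3,2]]],
Node.mk [0,820,182,1542,2448,27,247,1480,1620,3177,930,1539] [(0,0),(2,1),(2,2),(3,0),(3,1),(3,2)] [],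
Node.mk [0,820,182,1542,2448,27,247,1480,1620,3177,930,1710,262] [(0,0),(0,1),(0,3),(3,0),(3,1),(3,2)] [],
Node.mk [0,820,182,1542,2448,27,247,1480,1620,3177,930,1710] [(0,0),(0,3),(0,4),(1,4),(2,2),(3,1)] [Ref.mk 262 234 [0,1,2,3] [[0,1,2,3,4],[0,1,2,3,4],[0,1,2,3],[0,1,2,3,4]]],
Node.mk [0,820,182,1542,2448,27,247,1480,1620,3177,930] [(0,3),(1,2),(1,4),(2,2),(3,0),(3,1)] [Ref.mk 1539 233 [0,1,2,3] [[0,1,2,3,4],[0,1,2,3,4],[0,1,2,3],[0,1,2,3,4]],Ref.mk 1710 235 [0,1,2,3] [[0,1,2,3,4],[0,1,2,3,4],[0,1,2,3],[0,1,2,3,4]]],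
Node.mk [0,820,182,1542,2448,27,247,1480,1620,3177,1011] [(0,3),(2,1),(2,3),(3,0),(3,1),(3,2)] [],
Node.mk [0,820,182,1542,2448,27,247,1480,1620,3177,1092,280] [(0,1),(1,4),(2,3),(3,0),(3,1),(3,2)] [],
Node.mk [0,820,182,1542,2448,27,247,1480,1620,3177,1092,1001] [(0,0),(0,1),(0,2),(0,3),(0,4),(3,1)] [],
Node.mk [0,820,182,1542,2448,27,247,1480,1620,3177,1092] [(0,0),(0,3),(1,0),(1,2),(2,1),(3,2)] [Ref.mk 280 238 [0,1,2,3] [[0,1,2,3,4],[0,1,2,3,4],[0,1,2,3,4],[0,1,2,3,4]],Ref.mk 1001 239 [0,1,2,3] [[0,1,2,3,4],[0,1,2,3,4],[0,1,2,3,4],[0,1,2,3,4]]],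
Node.mk [0,820,182,1542,2448,27,247,1480,1620,3177] [(0,1),(1,0),(1,1),(1,2),(1,3),(2,1)] [Ref.mk 36 225 [0,1,2,3] [[0,1,2,3,4],[0,1,2,3,4],[0,1,2,3],[0,1,2,3,4]],Ref.mk 927 228 [0,1,2,3] [[0,1,2,3,4],[0,1,2,3,4],[0,1,2,3],[0,1,2,3,4]],Ref.mk 768 232 [0,1,2,3] [[0,1,2,3,4],[0,1,2,3,4],[0,1,2,3],[0,1,2,3,4]],Ref.mk 930 236 [0,1,2,3] [[0,1,2,3,4],[0,1,2,3,4],[0,1,2,3],[0,1,2,3,4]],Ref.mk 1011 237 [0,1,2,3] [[0,1,2,3,4],[0,1,2,3,4],[0,1,2,3],[0,1,2,3,4]],Ref.mk 1092 240 [0,1,2,3] [[0,1,2,3,4],[0,1,2,3,4],[0,1,2,3,4],[0,1,2,3,4]]],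
Node.mk [0,820,182,1542,2448,27,247,1480,1620,3079,921,36,2199] [(0,0),(0,1),(0,3),(0,4),(2,2),(3,1)] [Ref.mk 2189 184 [0,1,2,3] [[0,1,2,3,4],[0,1,2,3,4],[0,1,2,3],[0,1,2,3,4]]],
Node.mk [0,820,182,1542,2448,27,247,1480,1620,3079,921,36,256] [(0,0),(1,0),(1,1),(1,2),(1,3),(2,2)] [],
Node.mk [0,820,182,1542,2448,27,247,1480,1620,3079,921,36] [(0,0),(0,1),(1,0),(1,2),(2,2),(3,4)] [Ref.mk 2199 242 [0,1,2,3] [[0,1,2,3,4],[0,1,2,3,4],[0,1,2,3],[0,1,2,3,4]],Ref.mk 256 243 [0,1,2,3] [[0,1,2,3,4],[0,1,2,3,4],[0,1,2,3],[0,1,2,3,4]]],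
Node.mk [0,820,182,1542,2448,27,247,1480,1620,3079,921] [(1,0),(1,1),(1,2),(1,3),(2,1),(2,2)] [Ref.mk 36 244 [0,1,2,3] [[0,1,2,3,4],[0,1,2,3,4],[0,1,2,3],[0,1,2,3,4]]],
Node.mk [0,820,182,1542,2448,27,247,1480,1620,3079,930,2199] [(0,0),(0,1),(0,3),(0,4),(2,2),(3,1)] [Ref.mk 2189 187 [0,1,2,3] [[0,1,2,3,4],[0,1,2,3,4],[0,1,2,3],[0,1,2,3,4]]],
Node.mk [0,820,182,1542,2448,27,247,1480,1620,3079,930,256] [(0,0),(1,0),(1,1),(1,2),(1,4),(2,2)] [],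
Node.mk [0,820,182,1542,2448,27,247,1480,1620,3079,930] [(0,0),(0,1),(1,0),(1,2),(2,2),(3,4)] [Ref.mk 2199 246 [0,1,2,3] [[0,1,2,3,4],[0,1,2,3,4],[0,1,2,3],[0,1,2,3,4]],Ref.mk 256 247 [0,1,2,3] [[0,1,2,3,4],[0,1,2,3,4],[0,1,2,3],[0,1,2,3,4]]],
Node.mk [0,820,182,1542,2448,27,247,1480,1620,3079] [(0,0),(0,1),(1,0),(1,1),(1,2),(2,1)] [Ref.mk 921 245 [0,1,2,3] [[0,1,2,3,4],[0,1,2,3],[0,1,2,3],[0,1,2,3,4]],Ref.mk 930 248 [0,1,2,3] [[0,1,2,3,4],[0,1,2,3,4],[0,1,2,3],[0,1,2,3,4]]],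
Node.mk [0,820,182,1542,2448,27,247,1480,1620,2935] [(0,1),(1,0),(1,1),(1,2),(2,0),(2,1)] [],
Node.mk [0,820,182,1542,2448,27,247,1480,1620] [(1,1),(2,1),(3,0),(3,1),(3,2),(3,3)] [Ref.mk 3177 241 [0,1,2,3] [[0,1,2,3,4],[0,1,2,3],[0,1,2,3],[0,1,2,3,4]],Ref.mk 2917 26 [3,1,2,0] [[0,1,3,2,4],[0,1,2,3],[0,1,3,2],[0,1,3,2]],Ref.mk 3079 249 [0,1,2,3] [[0,1,2,3,4],[0,1,2,3],[0,1,2,3],[0,1,2,3,4]],Ref.mk 3160 98 [3,1,2,0] [[0,1,3,2,4],[0,1,2,3],[0,1,3,2],[0,1,3,2]],Ref.mk 3241 203 [2,1,0,3] [[0,1,2,4,3],[0,1,2,3],[0,1,2,4],[0,1,4,2,3]],Ref.mk 2935 250 [0,1,2,3] [[0,1,2,3,4],[0,1,2,3],[0,1,2,3],[0,1,2,3,4]]],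
Node.mk [0,820,182,1542,2448,27,247,1480] [(0,1),(1,1),(1,2),(2,1),(3,0),(3,1)] [Ref.mk 1620 251 [0,1,2,3] [[0,1,2,3,4],[0,1,2,3],[0,1,2,3],[0,1,2,3]],Ref.mk 2189 200 [0,1,2,3] [[0,1,2,3,4],[0,1,2,3],[0,1,2,3],[0,1,2,3]]],
Node.mk [0,820,182,1542,2448,27,247,2209,2349,1719,2377,1053] [(0,0),(0,1),(1,0),(1,3),(2,2),(3,3)] [],
Node.mk [0,820,182,1542,2448,27,247,2209,2349,1719,2377] [(0,1),(0,3),(2,0),(2,1),(2,2),(2,3)] [Ref.mk 1053 253 [0,1,2,3] [[0,1,2,3,4],[0,1,2,3],[0,1,2,3,4],[0,1,2,3]]],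
Node.mk [0,820,182,1542,2448,27,247,2209,2349,1719,2198] [(1,0),(1,1),(1,2),(2,0),(2,1),(2,3)] [Ref.mk 2377 254 [0,1,2,3] [[0,1,2,3,4],[0,1,2,3],[0,1,2,3],[0,1,2,3]]]]

/-- nodes -/
noncomputable def c4 : List Node := [
Node.mk [0,820,182,1542,2448,27,247,2209,2349,1719,256,2358,342,990,36,3177,45,921] [(0,3),(1,2),(1,3),(2,2),(3,0),(3,1)] [],
Node.mk [0,820,182,1542,2448,27,247,2209,2349,1719,256,2358,342,990,36,3177,45,1002] [(0,0),(0,3),(1,2),(1,3),(2,3),(3,1)] [],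
Node.mk [0,820,182,1542,2448,27,247,2209,2349,1719,256,2358,342,990,36,3177,45,948] [(0,3),(1,2),(1,6),(2,2),(3,0),(3,1)] [],
Node.mk [0,820,182,1542,2448,27,247,2209,2349,1719,256,2358,342,990,36,3177,45,1029] [(0,0),(0,3),(1,2),(1,6),(2,3),(3,1)] [],
Node.mk [0,820,182,1542,2448,27,247,2209,2349,1719,256,2358,342,990,36,3177,45] [(0,0),(0,1),(1,0),(1,1),(1,2),(2,1)] [Ref.mk 921 256 [0,1,2,3] [[0,1,2,3,4],[0,1,2,3,4,5],[0,1,2,3,4],[0,1,2,3,4]],Ref.mk 1002 257 [0,1,2,3] [[0,1,2,3,4],[0,1,2,3,4,5],[0,1,2,3,4],[0,1,2,3,4]],Ref.mk 930 256 [0,1,2,3] [[0,1,2,3,4],[0,1,2,4,3,5],[0,1,2,3,4],[0,1,2,3,4]],Ref.mk 1011 257 [0,1,2,3] [[0,1,2,3,4],[0,1,2,4,3,5],[0,1,2,3,4],[0,1,2,3,4]],Ref.mk 939 256 [0,1,2,3] [[0,1,2,3,4],[0,1,2,5,3,4],[0,1,2,3,4],[0,1,2,3,4]],Ref.mk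 1020 257 [0,1,2,3] [[0,1,2,3,4],[0,1,2,5,3,4],[0,1,2,3,4],[0,1,2,3,4]],Ref.mk 948 258 [0,1,2,3] [[0,1,2,3,4],[0,1,2,3,4,5,6],[0,1,2,3,4],[0,1,2,3,4]],Ref.mk 1029 259 [0,1,2,3] [[0,1,2,3,4],[0,1,2,3,4,5,6],[0,1,2,3,4],[0,1,2,3,4]]],
Node.mk [0,820,182,1542,2448,27,247,2209,2349,1719,256,2358,342,990,36,3177,1666] [(0,1),(1,2),(1,5),(2,2),(3,0),(3,2)] [],
Node.mk [0,820,182,1542,2448,27,247,2209,2349,1719,256,2358,342,990,36,3177,1747] [(0,0),(0,1),(1,2),(1,5),(2,3),(3,2)] [],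
Node.mk [0,820,182,1542,2448,27,247,2209,2349,1719,256,2358,342,990,36,3177,939] [(0,0),(0,3),(0,4),(2,1),(2,2),(3,1)] [Ref.mk 1747 262 [0,1,2,3] [[0,1,2,3,4],[0,1,2,3,4,5],[0,1,2,3,4],[0,1,2,3,4]]],
Node.mk [0,820,182,1542,2448,27,247,2209,2349,1719,256,2358,342,990,36,3177,1020] [(0,0),(0,3),(1,2),(1,5),(2,3),(3,1)] [],
Node.mk [0,820,182,1542,2448,27,247,2209,2349,1719,256,2358,342,990,36,3177] [(1,0),(1,1),(1,2),(1,3),(1,4),(2,1)] [Ref.mk 45 260 [0,1,2,3] [[0,1,2,3,4],[0,1,2,3,4,5],[0,1,2,3,4],[0,1,2,3,4]],Ref.mk 1666 261 [0,1,2,3] [[0,1,2,3,4],[0,1,2,3,4,5],[0,1,2,3,4],[0,1,2,3,4]],Ref.mk 1747 262 [0,1,2,3] [[0,1,2,3,4],[0,1,2,3,4,5],[0,1,2,3,4],[0,1,2,3,4]],Ref.mk 939 263 [0,1,2,3] [[0,1,2,3,4],[0,1,2,3,4,5],[0,1,2,3,4],[0,1,2,3,4]],Ref.mk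 1020 264 [0,1,2,3] [[0,1,2,3,4],[0,1,2,3,4,5],[0,1,2,3,4],[0,1,2,3,4]]],
Node.mk [0,820,182,1542,2448,27,247,2209,2349,1719,256,2358,342,990,36,3079,1467] [(0,0),(0,1),(0,2),(1,0),(1,1),(1,2)] [],
Node.mk [0,820,182,1542,2448,27,247,2209,2349,1719,256,2358,342,990,36,3079,2277] [(0,0),(0,1),(0,4),(1,0),(1,1),(1,2)] [],
Node.mk [0,820,182,1542,2448,27,247,2209,2349,1719,256,2358,342,990,36,3079] [(0,1),(1,0),(1,2),(2,2),(3,0),(3,4)] [Ref.mk 1467 266 [0,1,2,3] [[0,1,2,3,4],[0,1,2,3,4],[0,1,2,3,4],[0,1,2,3,4]],Ref.mk 2277 267 [0,1,2,3] [[0,1,2,3,4],[0,1,2,3,4],[0,1,2,3,4],[0,1,2,3,4]]],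
Node.mk [0,820,182,1542,2448,27,247,2209,2349,1719,256,2358,342,990,36,3241] [(0,0),(0,1),(0,4),(1,0),(1,1),(1,2)] [],
Node.mk [0,820,182,1542,2448,27,247,2209,2349,1719,256,2358,342,990,36,3322] [(0,0),(0,1),(0,4),(1,0),(1,1),(1,2)] [],
Node.mk [0,820,182,1542,2448,27,247,2209,2349,1719,256,2358,342,990,36] [(0,3),(2,1),(3,0),(3,1),(3,2),(3,3)] [Ref.mk 3177 265 [0,1,2,3] [[0,1,2,3,4],[0,1,2,3,4],[0,1,2,3,4],[0,1,2,3,4]],Ref.mk 2917 26 [3,1,2,0] [[0,1,3,2,4],[0,1,2,3],[0,1,3,2],[0,1,3,2]],Ref.mk 3079 268 [0,1,2,3] [[0,1,2,3,4],[0,1,2,3,4],[0,1,2,3,4],[0,1,2,3,4]],Ref.mk 3160 98 [3,1,2,0] [[0,1,3,2,4],[0,1,2,3],[0,1,3,2],[0,1,3,2]],Ref.mk 3241 269 [0,1,2,3] [[0,1,2,3,4],[0,1,2,3,4],[0,1,2,3,4],[0,1,2,3,4]],Ref.mk 3322 270 [0,1,2,3] [[0,1,2,3,4],[0,1,2,3,4],[0,1,2,3,4,5],[0,1,2,3,4]]],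
Node.mk [0,820,182,1542,2448,27,247,2209,2349,1719,256,2358,342,990,930] [(0,3),(1,2),(1,4),(2,2),(3,0),(3,1)] [],
Node.mk [0,820,182,1542,2448,27,247,2209,2349,1719,256,2358,342,990,1011] [(0,0),(0,3),(1,2),(1,4),(2,3),(3,1)] [],
Node.mk [0,820,182,1542,2448,27,247,2209,2349,1719,256,2358,342,990] [(0,1),(1,0),(1,1),(1,2),(1,3),(2,1)] [Ref.mk 36 271 [0,1,2,3] [[0,1,2,3,4],[0,1,2,3,4],[0,1,2,3,4],[0,1,2,3]],Ref.mk 930 272 [0,1,2,3] [[0,1,2,3,4],[0,1,2,3,4],[0,1,2,3,4],[0,1,2,3]],Ref.mk 1011 273 [0,1,2,3] [[0,1,2,3,4],[0,1,2,3,4],[0,1,2,3,4],[0,1,2,3]]],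
Node.mk [0,820,182,1542,2448,27,247,2209,2349,1719,256,2358,342,3177,36,45,921] [(0,3),(1,2),(1,3),(2,2),(3,0),(3,1)] [],
Node.mk [0,820,182,1542,2448,27,247,2209,2349,1719,256,2358,342,3177,36,45,1002] [(0,0),(0,3),(1,2),(1,3),(2,3),(3,1)] [],
Node.mk [0,820,182,1542,2448,27,247,2209,2349,1719,256,2358,342,3177,36,45,948] [(0,3),(1,2),(1,6),(2,2),(3,0),(3,1)] [],
Node.mk [0,820,182,1542,2448,27,247,2209,2349,1719,256,2358,342,3177,36,45,1029] [(0,0),(0,3),(1,2),(1,6),(2,3),(3,1)] [],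
Node.mk [0,820,182,1542,2448,27,247,2209,2349,1719,256,2358,342,3177,36,45] [(0,0),(0,1),(1,0),(1,1),(1,2),(2,1)] [Ref.mk 921 275 [0,1,2,3] [[0,1,2,3,4],[0,1,2,3,4,5],[0,1,2,3,4],[0,1,2,3,4]],Ref.mk 1002 276 [0,1,2,3] [[0,1,2,3,4],[0,1,2,3,4,5],[0,1,2,3,4],[0,1,2,3,4]],Ref.mk 930 275 [0,1,2,3] [[0,1,2,3,4],[0,1,2,4,3,5],[0,1,2,3,4],[0,1,2,3,4]],Ref.mk 1011 276 [0,1,2,3] [[0,1,2,3,4],[0,1,2,4,3,5],[0,1,2,3,4],[0,1,2,3,4]],Ref.mk 939 275 [0,1,2,3] [[0,1,2,3,4],[0,1,2,5,3,4],[0,1,2,3,4],[0,1,2,3,4]],Ref.mk 1020 276 [0,1,2,3] [[0,1,2,3,4],[0,1,2,5,3,4],[0,1,2,3,4],[0,1,2,3,4]],Ref.mk 948 277 [0,1,2,3] [[0,1,2,3,4],[0,1,2,3,4,5,6],[0,1,2,3,4],[0,1,2,3,4]],Ref.mk 1029 278 [0,1,2,3] [[0,1,2,3,4],[0,1,2,3,4,5,6],[0,1,2,3,4],[0,1,2,3,4]]],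
Node.mk [0,820,182,1542,2448,27,247,2209,2349,1719,256,2358,342,3177,36,1666] [(0,1),(1,2),(1,5),(2,2),(3,0),(3,2)] [],
Node.mk [0,820,182,1542,2448,27,247,2209,2349,1719,256,2358,342,3177,36,1747] [(0,0),(0,1),(1,2),(1,5),(2,3),(3,2)] [],
Node.mk [0,820,182,1542,2448,27,247,2209,2349,1719,256,2358,342,3177,36,939] [(0,0),(0,3),(0,4),(2,1),(2,2),(3,1)] [Ref.mk 1747 281 [0,1,2,3] [[0,1,2,3,4],[0,1,2,3,4,5],[0,1,2,3,4],[0,1,2,3,4]]],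
Node.mk [0,820,182,1542,2448,27,247,2209,2349,1719,256,2358,342,3177,36,1020] [(0,0),(0,3),(1,2),(1,5),(2,3),(3,1)] [],
Node.mk [0,820,182,1542,2448,27,247,2209,2349,1719,256,2358,342,3177,36] [(1,0),(1,1),(1,2),(1,3),(1,4),(2,1)] [Ref.mk 45 279 [0,1,2,3] [[0,1,2,3,4],[0,1,2,3,4,5],[0,1,2,3,4],[0,1,2,3,4]],Ref.mk 1666 280 [0,1,2,3] [[0,1,2,3,4],[0,1,2,3,4,5],[0,1,2,3,4],[0,1,2,3,4]],Ref.mk 1747 281 [0,1,2,3] [[0,1,2,3,4],[0,1,2,3,4,5],[0,1,2,3,4],[0,1,2,3,4]],Ref.mk 939 282 [0,1,2,3] [[0,1,2,3,4],[0,1,2,3,4,5],[0,1,2,3,4],[0,1,2,3,4]],Ref.mk 1020 283 [0,1,2,3] [[0,1,2,3,4],[0,1,2,3,4,5],[0,1,2,3,4],[0,1,2,3,4]]],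
Node.mk [0,820,182,1542,2448,27,247,2209,2349,1719,256,2358,342,3177,930] [(0,3),(1,2),(1,4),(2,2),(3,0),(3,1)] [],
Node.mk [0,820,182,1542,2448,27,247,2209,2349,1719,256,2358,342,3177,1011] [(0,0),(0,3),(1,2),(1,4),(2,3),(3,1)] [],
Node.mk [0,820,182,1542,2448,27,247,2209,2349,1719,256,2358,342,3177] [(0,1),(1,0),(1,1),(1,2),(1,3),(2,1)] [Ref.mk 36 284 [0,1,2,3] [[0,1,2,3,4],[0,1,2,3,4],[0,1,2,3,4],[0,1,2,3,4]],Ref.mk 930 285 [0,1,2,3] [[0,1,2,3,4],[0,1,2,3,4],[0,1,2,3,4],[0,1,2,3,4]],Ref.mk 1011 286 [0,1,2,3] [[0,1,2,3,4],[0,1,2,3,4],[0,1,2,3,4],[0,1,2,3,4]]],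
Node.mk [0,820,182,1542,2448,27,247,2209,2349,1719,256,2358,342] [(0,3),(1,0),(2,1),(3,0),(3,2),(3,3)] [Ref.mk 990 274 [0,1,2,3] [[0,1,2,3,4],[0,1,2,3],[0,1,2,3,4],[0,1,2,3]],Ref.mk 3177 287 [0,1,2,3] [[0,1,2,3,4],[0,1,2,3],[0,1,2,3,4],[0,1,2,3,4]]],
Node.mk [0,820,182,1542,2448,27,247,2209,2349,1719,256,2358] [(1,0),(1,1),(2,0),(2,1),(2,2),(2,3)] [Ref.mk 342 288 [0,1,2,3] [[0,1,2,3,4],[0,1,2,3],[0,1,2,3,4],[0,1,2,3]]],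
Node.mk [0,820,182,1542,2448,27,247,2209,2349,1719,256] [(0,3),(1,0),(1,2),(2,1),(3,0),(3,2)] [Ref.mk 2358 289 [0,1,2,3] [[0,1,2,3,4],[0,1,2,3],[0,1,2,3],[0,1,2,3]],Ref.mk 2198 255 [0,1,2,3] [[0,1,2,3,4],[0,1,2,3],[0,1,2,3],[0,1,2,3]]],
Node.mk [0,820,182,1542,2448,27,247,2209,2349,1719] [(0,0),(0,3),(1,0),(1,2),(2,1),(3,2)] [Ref.mk 2377 254 [0,1,2,3] [[0,1,2,3,4],[0,1,2,3],[0,1,2,3],[0,1,2,3]],Ref.mk 2198 255 [0,1,2,3] [[0,1,2,3,4],[0,1,2,3],[0,1,2,3],[0,1,2,3]],Ref.mk 256 290 [0,1,2,3] [[0,1,2,3,4],[0,1,2,3],[0,1,2,3],[0,1,2,3]]],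
Node.mk [0,820,182,1542,2448,27,247,2209,2349,3177,256,2358,342,36,45,921] [(0,3),(1,2),(1,3),(2,2),(3,0),(3,1)] [],
Node.mk [0,820,182,1542,2448,27,247,2209,2349,3177,256,2358,342,36,45,1002] [(0,0),(0,3),(1,2),(1,3),(2,3),(3,1)] [],
Node.mk [0,820,182,1542,2448,27,247,2209,2349,3177,256,2358,342,36,45,948] [(0,3),(1,2),(1,6),(2,2),(3,0),(3,1)] [],
Node.mk [0,820,182,1542,2448,27,247,2209,2349,3177,256,2358,342,36,45,1029] [(0,0),(0,3),(1,2),(1,6),(2,3),(3,1)] [],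
Node.mk [0,820,182,1542,2448,27,247,2209,2349,3177,256,2358,342,36,45] [(0,0),(0,1),(1,0),(1,1),(1,2),(2,1)] [Ref.mk 921 292 [0,1,2,3] [[0,1,2,3,4],[0,1,2,3,4,5],[0,1,2,3,4],[0,1,2,3,4]],Ref.mk 1002 293 [0,1,2,3] [[0,1,2,3,4],[0,1,2,3,4,5],[0,1,2,3,4],[0,1,2,3,4]],Ref.mk 930 292 [0,1,2,3] [[0,1,2,3,4],[0,1,2,4,3,5],[0,1,2,3,4],[0,1,2,3,4]],Ref.mk 1011 293 [0,1,2,3] [[0,1,2,3,4],[0,1,2,4,3,5],[0,1,2,3,4],[0,1,2,3,4]],Ref.mk 939 292 [0,1,2,3] [[0,1,2,3,4],[0,1,2,5,3,4],[0,1,2,3,4],[0,1,2,3,4]],Ref.mk 1020 293 [0,1,2,3] [[0,1,2,3,4],[0,1,2,5,3,4],[0,1,2,3,4],[0,1,2,3,4]],Ref.mk 948 294 [0,1,2,3] [[0,1,2,3,4],[0,1,2,3,4,5,6],[0,1,2,3,4],[0,1,2,3,4]],Ref.mk 1029 295 [0,1,2,3] [[0,1,2,3,4],[0,1,2,3,4,5,6],[0,1,2,3,4],[0,1,2,3,4]]],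
Node.mk [0,820,182,1542,2448,27,247,2209,2349,3177,256,2358,342,36,1666] [(0,1),(1,2),(1,5),(2,2),(3,0),(3,2)] [],
Node.mk [0,820,182,1542,2448,27,247,2209,2349,3177,256,2358,342,36,1747] [(0,0),(0,1),(1,2),(1,5),(2,3),(3,2)] [],
Node.mk [0,820,182,1542,2448,27,247,2209,2349,3177,256,2358,342,36,939] [(0,0),(0,3),(0,4),(2,1),(2,2),(3,1)] [Ref.mk 1747 298 [0,1,2,3] [[0,1,2,3,4],[0,1,2,3,4,5],[0,1,2,3,4],[0,1,2,3,4]]],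
Node.mk [0,820,182,1542,2448,27,247,2209,2349,3177,256,2358,342,36,1020] [(0,0),(0,3),(1,2),(1,5),(2,3),(3,1)] [],
Node.mk [0,820,182,1542,2448,27,247,2209,2349,3177,256,2358,342,36] [(1,0),(1,1),(1,2),(1,3),(1,4),(2,1)] [Ref.mk 45 296 [0,1,2,3] [[0,1,2,3,4],[0,1,2,3,4,5],[0,1,2,3,4],[0,1,2,3,4]],Ref.mk 1666 297 [0,1,2,3] [[0,1,2,3,4],[0,1,2,3,4,5],[0,1,2,3,4],[0,1,2,3,4]],Ref.mk 1747 298 [0,1,2,3] [[0,1,2,3,4],[0,1,2,3,4,5],[0,1,2,3,4],[0,1,2,3,4]],Ref.mk 939 299 [0,1,2,3] [[0,1,2,3,4],[0,1,2,3,4,5],[0,1,2,3,4],[0,1,2,3,4]],Ref.mk 1020 300 [0,1,2,3] [[0,1,2,3,4],[0,1,2,3,4,5],[0,1,2,3,4],[0,1,2,3,4]]],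
Node.mk [0,820,182,1542,2448,27,247,2209,2349,3177,256,2358,342,930] [(0,3),(1,2),(1,4),(2,2),(3,0),(3,1)] [],
Node.mk [0,820,182,1542,2448,27,247,2209,2349,3177,256,2358,342,1011] [(0,0),(0,3),(1,2),(1,4),(2,3),(3,1)] [],
Node.mk [0,820,182,1542,2448,27,247,2209,2349,3177,256,2358,342] [(0,1),(1,0),(1,1),(1,2),(1,3),(2,1)] [Ref.mk 36 301 [0,1,2,3] [[0,1,2,3,4],[0,1,2,3,4],[0,1,2,3,4],[0,1,2,3,4]],Ref.mk 930 302 [0,1,2,3] [[0,1,2,3,4],[0,1,2,3,4],[0,1,2,3,4],[0,1,2,3,4]],Ref.mk 1011 303 [0,1,2,3] [[0,1,2,3,4],[0,1,2,3,4],[0,1,2,3,4],[0,1,2,3,4]]],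
Node.mk [0,820,182,1542,2448,27,247,2209,2349,3177,256,2358] [(1,0),(1,1),(2,0),(2,1),(2,2),(2,3)] [Ref.mk 342 304 [0,1,2,3] [[0,1,2,3,4],[0,1,2,3],[0,1,2,3,4],[0,1,2,3,4]]],
Node.mk [0,820,182,1542,2448,27,247,2209,2349,3177,256] [(0,3),(1,0),(1,2),(2,1),(3,0),(3,2)] [Ref.mk 2358 305 [0,1,2,3] [[0,1,2,3,4],[0,1,2,3],[0,1,2,3],[0,1,2,3,4]]],
Node.mk [0,820,182,1542,2448,27,247,2209,2349,3177] [(0,0),(0,3),(1,0),(1,2),(2,1),(3,2)] [Ref.mk 256 306 [0,1,2,3] [[0,1,2,3,4],[0,1,2,3],[0,1,2,3],[0,1,2,3,4]]],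
Node.mk [0,820,182,1542,2448,27,247,2209,2349] [(0,1),(1,1),(2,1),(3,0),(3,1),(3,3)] [Ref.mk 1719 291 [0,1,2,3] [[0,1,2,3,4],[0,1,2,3],[0,1,2,3],[0,1,2,3]],Ref.mk 3177 307 [0,1,2,3] [[0,1,2,3,4],[0,1,2,3],[0,1,2,3],[0,1,2,3,4]]],
Node.mk [0,820,182,1542,2448,27,247,2209] [(0,1),(1,1),(1,2),(2,1),(3,0),(3,1)] [Ref.mk 2349 308 [0,1,2,3] [[0,1,2,3,4],[0,1,2,3],[0,1,2,3],[0,1,2,3]],Ref.mk 2189 204 [0,1,2,3] [[0,1,2,3,4],[0,1,2,3],[0,1,2,3],[0,1,2,3]]],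
Node.mk [0,820,182,1542,2448,27,247,2938,3078,2198] [(0,0),(1,0),(1,1),(1,2),(2,0),(2,1)] [],
Node.mk [0,820,182,1542,2448,27,247,2938,3078,256,3087,342,36,45,921] [(0,3),(1,2),(1,3),(2,2),(3,0),(3,1)] [],
Node.mk [0,820,182,1542,2448,27,247,2938,3078,256,3087,342,36,45,1002] [(0,0),(0,3),(1,2),(1,3),(2,3),(3,1)] [],
Node.mk [0,820,182,1542,2448,27,247,2938,3078,256,3087,342,36,45,948] [(0,3),(1,2),(1,6),(2,2),(3,0),(3,1)] [],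
Node.mk [0,820,182,1542,2448,27,247,2938,3078,256,3087,342,36,45,1029] [(0,0),(0,3),(1,2),(1,6),(2,3),(3,1)] [],
Node.mk [0,820,182,1542,2448,27,247,2938,3078,256,3087,342,36,45] [(0,0),(0,1),(1,0),(1,1),(1,2),(2,1)] [Ref.mk 921 311 [0,1,2,3] [[0,1,2,3,4],[0,1,2,3,4,5],[0,1,2,3,4],[0,1,2,3,4]],Ref.mk 1002 312 [0,1,2,3] [[0,1,2,3,4],[0,1,2,3,4,5],[0,1,2,3,4],[0,1,2,3,4]],Ref.mk 930 311 [0,1,2,3] [[0,1,2,3,4],[0,1,2,4,3,5],[0,1,2,3,4],[0,1,2,3,4]],Ref.mk 1011 312 [0,1,2,3] [[0,1,2,3,4],[0,1,2,4,3,5],[0,1,2,3,4],[0,1,2,3,4]],Ref.mk 939 311 [0,1,2,3] [[0,1,2,3,4],[0,1,2,5,3,4],[0,1,2,3,4],[0,1,2,3,4]],Ref.mk 1020 312 [0,1,2,3] [[0,1,2,3,4],[0,1,2,5,3,4],[0,1,2,3,4],[0,1,2,3,4]],Ref.mk 948 313 [0,1,2,3] [[0,1,2,3,4],[0,1,2,3,4,5,6],[0,1,2,3,4],[0,1,2,3,4]],Ref.mk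 1029 314 [0,1,2,3] [[0,1,2,3,4],[0,1,2,3,4,5,6],[0,1,2,3,4],[0,1,2,3,4]]],
Node.mk [0,820,182,1542,2448,27,247,2938,3078,256,3087,342,36,1666] [(0,1),(1,2),(1,5),(2,2),(3,0),(3,2)] [],
Node.mk [0,820,182,1542,2448,27,247,2938,3078,256,3087,342,36,1747] [(0,0),(0,1),(1,2),(1,5),(2,3),(3,2)] [],
Node.mk [0,820,182,1542,2448,27,247,2938,3078,256,3087,342,36] [(1,0),(1,1),(1,2),(1,3),(1,4),(2,1)] [Ref.mk 45 315 [0,1,2,3] [[0,1,2,3,4],[0,1,2,3,4,5],[0,1,2,3,4],[0,1,2,3,4]],Ref.mk 1666 316 [0,1,2,3] [[0,1,2,3,4],[0,1,2,3,4,5],[0,1,2,3,4],[0,1,2,3,4]],Ref.mk 1747 317 [0,1,2,3] [[0,1,2,3,4],[0,1,2,3,4,5],[0,1,2,3,4],[0,1,2,3,4]],Ref.mk 939 317 [3,1,2,0] [[0,1,3,2,4],[0,1,2,3,4,5],[0,1,3,2,4],[0,1,3,2,4]],Ref.mk 1020 316 [3,1,2,0] [[0,1,3,2,4],[0,1,2,3,4,5],[0,1,3,2,4],[0,1,3,2,4]]],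
Node.mk [0,820,182,1542,2448,27,247,2938,3078,256,3087,342,930] [(0,3),(1,2),(1,4),(2,2),(3,0),(3,1)] []]

/-- nodes -/
noncomputable def c5 : List Node := [
Node.mk [0,820,182,1542,2448,27,247,2938,3078,256,3087,342,1011] [(0,0),(0,3),(1,2),(1,4),(2,3),(3,1)] [],
Node.mk [0,820,182,1542,2448,27,247,2938,3078,256,3087,342] [(0,1),(1,0),(1,1),(1,2),(1,3),(2,1)] [Ref.mk 36 318 [0,1,2,3] [[0,1,2,3,4],[0,1,2,3,4],[0,1,2,3,4],[0,1,2,3,4]],Ref.mk 930 319 [0,1,2,3] [[0,1,2,3,4],[0,1,2,3,4],[0,1,2,3,4],[0,1,2,3,4]],Ref.mk 1011 320 [0,1,2,3] [[0,1,2,3,4],[0,1,2,3,4],[0,1,2,3,4],[0,1,2,3,4]]],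
Node.mk [0,820,182,1542,2448,27,247,2938,3078,256,3087] [(1,0),(1,1),(2,0),(2,1),(2,2),(2,3)] [Ref.mk 342 321 [0,1,2,3] [[0,1,2,3,4],[0,1,2,3],[0,1,2,3,4],[0,1,2,3,4]]],
Node.mk [0,820,182,1542,2448,27,247,2938,3078,256] [(0,3),(1,0),(1,2),(2,1),(3,0),(3,2)] [Ref.mk 3087 322 [0,1,2,3] [[0,1,2,3,4],[0,1,2,3],[0,1,2,3],[0,1,2,3,4]],Ref.mk 2198 310 [0,1,2,3] [[0,1,2,3,4],[0,1,2,3],[0,1,2,3],[0,1,2,3,4]]],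
Node.mk [0,820,182,1542,2448,27,247,2938,3078] [(0,0),(0,3),(1,0),(1,2),(2,1),(3,2)] [Ref.mk 2198 310 [0,1,2,3] [[0,1,2,3,4],[0,1,2,3],[0,1,2,3],[0,1,2,3,4]],Ref.mk 256 323 [0,1,2,3] [[0,1,2,3,4],[0,1,2,3],[0,1,2,3],[0,1,2,3,4]]],
Node.mk [0,820,182,1542,2448,27,247,2938] [(0,1),(1,1),(1,2),(2,1),(3,0),(3,1)] [Ref.mk 3078 324 [0,1,2,3] [[0,1,2,3,4],[0,1,2,3],[0,1,2,3],[0,1,2,3,4]],Ref.mk 2189 203 [0,1,2,3] [[0,1,2,3,4],[0,1,2,3],[0,1,2,3],[0,1,2,3,4]]],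
Node.mk [0,820,182,1542,2448,27,247] [(0,0),(0,1),(1,1),(2,1),(3,0),(3,1)] [Ref.mk 2189 204 [0,1,2,3] [[0,1,2,3,4],[0,1,2,3],[0,1,2,3],[0,1,2,3]],Ref.mk 1480 252 [0,1,2,3] [[0,1,2,3,4],[0,1,2,3],[0,1,2,3],[0,1,2,3]],Ref.mk 2209 309 [0,1,2,3] [[0,1,2,3,4],[0,1,2,3],[0,1,2,3],[0,1,2,3]],Ref.mk 2938 325 [0,1,2,3] [[0,1,2,3,4],[0,1,2,3],[0,1,2,3],[0,1,2,3,4]]],
Node.mk [0,820,182,1542,2448,27,976,3087,1648,1083,3026] [(0,0),(0,1),(0,4),(2,1),(3,0),(3,1)] [],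
Node.mk [0,820,182,1542,2448,27,976,3087,1648,1083] [(0,0),(0,1),(0,3),(0,4),(3,0),(3,1)] [Ref.mk 3026 327 [0,1,2,3] [[0,1,2,3,4],[0,1,2,3],[0,1,2,3,4],[0,1,2,3,4]]],
Node.mk [0,820,182,1542,2448,27,976,3087,1648,1795] [(1,0),(1,2),(2,1),(2,2),(3,0),(3,2)] [Ref.mk 1083 328 [0,1,2,3] [[0,1,2,3,4],[0,1,2,3],[0,1,2,3,4],[0,1,2,3,4]]],
Node.mk [0,820,182,1542,2448,27,976,3087,1648] [(0,0),(0,1),(2,0),(2,1),(2,2),(2,3)] [Ref.mk 1083 328 [0,1,2,3] [[0,1,2,3,4],[0,1,2,3],[0,1,2,3,4],[0,1,2,3,4]],Ref.mk 1795 329 [0,1,2,3] [[0,1,2,3,4],[0,1,2,3],[0,1,2,3,4],[0,1,2,3,4]]],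
Node.mk [0,820,182,1542,2448,27,976,3087,2377,1083] [(0,0),(0,1),(1,1),(2,1),(3,0),(3,1)] [],
Node.mk [0,820,182,1542,2448,27,976,3087,2377] [(0,0),(1,0),(2,0),(2,1),(2,2),(2,3)] [Ref.mk 1083 331 [0,1,2,3] [[0,1,2,3,4],[0,1,2,3],[0,1,2,3,4],[0,1,2,3,4]]],
Node.mk [0,820,182,1542,2448,27,976,3087,1729,847] [(0,0),(0,1),(2,0),(2,1),(3,0),(3,1)] [],
Node.mk [0,820,182,1542,2448,27,976,3087,1729,1579] [(0,0),(0,1),(1,1),(1,2),(2,1),(2,3)] [Ref.mk 895 98 [0,1,2,3] [[0,1,2,3,4],[0,1,2,3],[0,1,2,3],[0,1,2,3]]],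
Node.mk [0,820,182,1542,2448,27,976,3087,1729] [(0,0),(1,0),(1,1),(1,2),(1,3),(2,3)] [Ref.mk 847 333 [0,1,2,3] [[0,1,2,3,4],[0,1,2,3,4],[0,1,2,3],[0,1,2,3,4]],Ref.mk 1579 334 [0,1,2,3] [[0,1,2,3,4],[0,1,2,3,4],[0,1,2,3],[0,1,2,3,4]]],
Node.mk [0,820,182,1542,2448,27,976,3087,1738,768,1054] [(0,0),(0,1),(0,3),(1,1),(1,2),(3,1)] [],
Node.mk [0,820,182,1542,2448,27,976,3087,1738,768] [(0,0),(0,3),(2,0),(2,1),(2,2),(2,3)] [Ref.mk 1054 336 [0,1,2,3] [[0,1,2,3,4],[0,1,2,3,4],[0,1,2,3,4],[0,1,2,3,4]]],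
Node.mk [0,820,182,1542,2448,27,976,3087,1738,930,1054] [(0,0),(0,1),(0,3),(2,0),(3,0),(3,1)] [],
Node.mk [0,820,182,1542,2448,27,976,3087,1738,930] [(0,0),(0,3),(2,0),(2,1),(2,2),(2,3)] [Ref.mk 1054 338 [0,1,2,3] [[0,1,2,3,4],[0,1,2,3,4],[0,1,2,3,4],[0,1,2,3,4]]],
Node.mk [0,820,182,1542,2448,27,976,3087,1738,1092,2198,2939] [(0,0),(0,1),(1,1),(1,2),(2,1),(3,1)] [],
Node.mk [0,820,182,1542,2448,27,976,3087,1738,1092,2198,851] [(0,0),(0,1),(2,0),(2,1),(3,0),(3,1)] [],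
Node.mk [0,820,182,1542,2448,27,976,3087,1738,1092,2198] [(0,0),(0,1),(0,2),(0,3),(0,4),(2,3)] [Ref.mk 2939 340 [0,1,2,3] [[0,1,2,3,4,5],[0,1,2,3,4],[0,1,2,3,4],[0,1,2,3,4]],Ref.mk 851 341 [0,1,2,3] [[0,1,2,3,4,5],[0,1,2,3,4],[0,1,2,3,4],[0,1,2,3,4]]],
Node.mk [0,820,182,1542,2448,27,976,3087,1738,1092,1795] [(0,0),(0,1),(0,3),(0,4),(1,1),(1,2)] [],
Node.mk [0,820,182,1542,2448,27,976,3087,1738,1092] [(0,0),(0,1),(0,3),(1,2),(2,1),(2,3)] [Ref.mk 2198 342 [0,1,2,3] [[0,1,2,3,4],[0,1,2,3,4],[0,1,2,3,4],[0,1,2,3,4]],Ref.mk 1795 343 [0,1,2,3] [[0,1,2,3,4],[0,1,2,3,4],[0,1,2,3,4],[0,1,2,3,4]]],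
Node.mk [0,820,182,1542,2448,27,976,3087,1738] [(0,0),(0,1),(1,1),(1,2),(2,1),(2,3)] [Ref.mk 768 337 [0,1,2,3] [[0,1,2,3,4],[0,1,2,3,4],[0,1,2,3],[0,1,2,3,4]],Ref.mk 930 339 [0,1,2,3] [[0,1,2,3,4],[0,1,2,3,4],[0,1,2,3],[0,1,2,3,4]],Ref.mk 1092 344 [0,1,2,3] [[0,1,2,3,4],[0,1,2,3,4],[0,1,2,3,4],[0,1,2,3,4]]],
Node.mk [0,820,182,1542,2448,27,976,3087] [(0,0),(0,3),(1,0),(1,1),(1,2),(2,1)] [Ref.mk 1648 330 [0,1,2,3] [[0,1,2,3,4],[0,1,2,3],[0,1,2,3],[0,1,2,3,4]],Ref.mk 2377 332 [0,1,2,3] [[0,1,2,3,4],[0,1,2,3],[0,1,2,3],[0,1,2,3,4]],Ref.mk 1729 335 [0,1,2,3] [[0,1,2,3,4],[0,1,2,3],[0,1,2,3],[0,1,2,3,4]],Ref.mk 1738 345 [0,1,2,3] [[0,1,2,3,4],[0,1,2,3,4],[0,1,2,3],[0,1,2,3,4]]],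
Node.mk [0,820,182,1542,2448,27,976,3105,2216,2529,2937,36,2935,977] [(0,0),(0,2),(1,0),(1,2),(2,3),(3,1)] [],
Node.mk [0,820,182,1542,2448,27,976,3105,2216,2529,2937,36,2935,1058] [(0,0),(0,2),(1,0),(1,1),(1,2),(3,1)] [],
Node.mk [0,820,182,1542,2448,27,976,3105,2216,2529,2937,36,2935,1139] [(0,0),(0,2),(1,0),(1,1),(1,2),(3,1)] [],
Node.mk [0,820,182,1542,2448,27,976,3105,2216,2529,2937,36,2935,1715,1783] [(0,0),(0,2),(1,0),(1,1),(1,2),(3,2)] [],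
Node.mk [0,820,182,1542,2448,27,976,3105,2216,2529,2937,36,2935,1715,1864] [(0,0),(0,2),(1,0),(1,1),(1,2),(3,2)] [],
Node.mk [0,820,182,1542,2448,27,976,3105,2216,2529,2937,36,2935,1715] [(0,0),(1,1),(2,0),(2,1),(2,2),(2,3)] [Ref.mk 1783 350 [0,1,2,3] [[0,1,2,3,4,5],[0,1,2,3,4],[0,1,2,3,4],[0,1,2,3,4]],Ref.mk 1864 351 [0,1,2,3] [[0,1,2,3,4,5],[0,1,2,3,4],[0,1,2,3,4,5],[0,1,2,3,4]],Ref.mk 1058 348 [0,1,2,3] [[0,1,2,3,4,5],[0,1,2,3,4],[0,1,2,3,4],[0,1,2,3,4]],Ref.mk 1139 349 [0,1,2,3] [[0,1,2,3,4,5],[0,1,2,3,4],[0,1,2,3,4,5],[0,1,2,3,4]]],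
Node.mk [0,820,182,1542,2448,27,976,3105,2216,2529,2937,36,2935,2939,3663,45,2610,255] [(0,0),(0,3),(1,1),(2,0),(2,3),(3,0)] [],
Node.mk [0,820,182,1542,2448,27,976,3105,2216,2529,2937,36,2935,2939,3663,45,2610,1713,1545] [(0,0),(0,2),(1,0),(1,2),(2,1),(3,2)] [],
Node.mk [0,820,182,1542,2448,27,976,3105,2216,2529,2937,36,2935,2939,3663,45,2610,1713,825] [(0,0),(0,2),(1,1),(1,2),(2,1),(3,1)] [],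
Node.mk [0,820,182,1542,2448,27,976,3105,2216,2529,2937,36,2935,2939,3663,45,2610,1713,2940] [(0,0),(0,1),(0,2),(0,3),(0,4),(1,2)] [Ref.mk 1544 354 [0,1,2,3] [[0,1,2,3,4,6,5],[0,1,2,3,4,5],[0,1,2,3,4,5],[0,1,2,3,4,5]],Ref.mk 977 347 [0,1,2,3] [[0,1,2,3,4,5],[0,1,2,3,4],[0,1,2,3,4],[0,1,2,3,4]],Ref.mk 824 355 [0,1,2,3] [[0,5,2,3,4,6,1],[0,1,2,3,4,5],[0,1,2,3,4,5],[0,1,2,3,4,5]],Ref.mk 1715 352 [0,1,2,3] [[0,1,2,3,4,5],[0,1,2,3,4],[0,1,2,3,4],[0,1,2,3,4]],Ref.mk 1545 354 [0,1,2,3] [[0,1,2,3,4,5,6],[0,1,2,3,4,5],[0,1,2,3,4,5],[0,1,2,3,4,5]],Ref.mk 978 347 [0,1,2,3] [[0,1,2,3,4,6],[0,1,2,3,4],[0,1,2,3,4],[0,1,2,3,4]],Ref.mk 825 355 [0,1,2,3] [[0,6,2,3,4,5,1],[0,1,2,3,4,5],[0,1,2,3,4,5],[0,1,2,3,4,5]],Ref.mk 1716 352 [0,1,2,3] [[0,1,2,3,4,6],[0,1,2,3,4],[0,1,2,3,4],[0,1,2,3,4]],Ref.mk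 1546 354 [0,1,2,3] [[0,1,2,3,4,6,7],[0,1,2,3,4,5],[0,1,2,3,4,5],[0,1,2,3,4,5]],Ref.mk 979 347 [0,1,2,3] [[0,1,2,3,4,7],[0,1,2,3,4],[0,1,2,3,4],[0,1,2,3,4]],Ref.mk 826 355 [0,1,2,3] [[0,1,2,3,4,6,7],[0,1,2,3,4,5],[0,1,2,3,4,5],[0,1,2,3,4,5]],Ref.mk 1717 352 [0,1,2,3] [[0,1,2,3,4,7],[0,1,2,3,4],[0,1,2,3,4],[0,1,2,3,4]]],
Node.mk [0,820,182,1542,2448,27,976,3105,2216,2529,2937,36,2935,2939,3663,45,2610,1713] [(0,0),(0,1),(0,2),(0,3),(0,4),(0,5)] [Ref.mk 1545 354 [0,1,2,3] [[0,1,2,3,4,5,6],[0,1,2,3,4,5],[0,1,2,3,4,5],[0,1,2,3,4,5]],Ref.mk 978 347 [0,1,2,3] [[0,1,2,3,4,6],[0,1,2,3,4],[0,1,2,3,4],[0,1,2,3,4]],Ref.mk 825 355 [0,1,2,3] [[0,1,2,3,4,5,6],[0,1,2,3,4,5],[0,1,2,3,4,5],[0,1,2,3,4,5]],Ref.mk 1716 352 [0,1,2,3] [[0,1,2,3,4,6],[0,1,2,3,4],[0,1,2,3,4],[0,1,2,3,4]],Ref.mk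 2940 356 [0,1,2,3] [[0,1,2,3,4,5,6],[0,1,2,3,4,5],[0,1,2,3,4,5],[0,1,2,3,4,5]]],
Node.mk [0,820,182,1542,2448,27,976,3105,2216,2529,2937,36,2935,2939,3663,45,2610,2442] [(0,0),(0,3),(1,1),(1,2),(2,3),(3,3)] [],
Node.mk [0,820,182,1542,2448,27,976,3105,2216,2529,2937,36,2935,2939,3663,45,2610,3171] [(0,0),(0,2),(0,3),(1,1),(2,3),(3,4)] [],
Node.mk [0,820,182,1542,2448,27,976,3105,2216,2529,2937,36,2935,2939,3663,45,2610,3900,3732] [(0,0),(0,2),(0,3),(1,0),(1,2),(2,1)] [Ref.mk 1716 352 [0,1,2,3] [[0,1,2,3,4,6],[0,1,2,3,4],[0,1,2,3,4],[0,1,2,3,4]]],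
Node.mk [0,820,182,1542,2448,27,976,3105,2216,2529,2937,36,2935,2939,3663,45,2610,3900,825] [(0,0),(0,2),(1,1),(1,2),(2,1),(3,1)] [],
Node.mk [0,820,182,1542,2448,27,976,3105,2216,2529,2937,36,2935,2939,3663,45,2610,3900,2940] [(0,0),(0,1),(0,2),(0,3),(0,4),(1,2)] [Ref.mk 3731 360 [0,1,2,3] [[0,1,2,3,4,6,5],[0,1,2,3,4,5],[0,1,2,3,4,5],[0,1,2,3,4,5]],Ref.mk 977 347 [0,1,2,3] [[0,1,2,3,4,5],[0,1,2,3,4],[0,1,2,3,4],[0,1,2,3,4]],Ref.mk 824 361 [0,1,2,3] [[0,5,2,3,4,6,1],[0,1,2,3,4,5],[0,1,2,3,4,5],[0,1,2,3,4,5]],Ref.mk 1715 352 [0,1,2,3] [[0,1,2,3,4,5],[0,1,2,3,4],[0,1,2,3,4],[0,1,2,3,4]],Ref.mk 3732 360 [0,1,2,3] [[0,1,2,3,4,5,6],[0,1,2,3,4,5],[0,1,2,3,4,5],[0,1,2,3,4,5]],Ref.mk 978 347 [0,1,2,3] [[0,1,2,3,4,6],[0,1,2,3,4],[0,1,2,3,4],[0,1,2,3,4]],Ref.mk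 825 361 [0,1,2,3] [[0,6,2,3,4,5,1],[0,1,2,3,4,5],[0,1,2,3,4,5],[0,1,2,3,4,5]],Ref.mk 1716 352 [0,1,2,3] [[0,1,2,3,4,6],[0,1,2,3,4],[0,1,2,3,4],[0,1,2,3,4]],Ref.mk 3733 360 [0,1,2,3] [[0,1,2,3,4,6,7],[0,1,2,3,4,5],[0,1,2,3,4,5],[0,1,2,3,4,5]],Ref.mk 979 347 [0,1,2,3] [[0,1,2,3,4,7],[0,1,2,3,4],[0,1,2,3,4],[0,1,2,3,4]],Ref.mk 826 361 [0,1,2,3] [[0,1,2,3,4,6,7],[0,1,2,3,4,5],[0,1,2,3,4,5],[0,1,2,3,4,5]],Ref.mk 1717 352 [0,1,2,3] [[0,1,2,3,4,7],[0,1,2,3,4],[0,1,2,3,4],[0,1,2,3,4]]],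
Node.mk [0,820,182,1542,2448,27,976,3105,2216,2529,2937,36,2935,2939,3663,45,2610,3900] [(0,0),(0,1),(0,2),(0,3),(0,4),(0,5)] [Ref.mk 3732 360 [0,1,2,3] [[0,1,2,3,4,5,6],[0,1,2,3,4,5],[0,1,2,3,4,5],[0,1,2,3,4,5]],Ref.mk 978 347 [0,1,2,3] [[0,1,2,3,4,6],[0,1,2,3,4],[0,1,2,3,4],[0,1,2,3,4]],Ref.mk 825 361 [0,1,2,3] [[0,1,2,3,4,5,6],[0,1,2,3,4,5],[0,1,2,3,4,5],[0,1,2,3,4,5]],Ref.mk 1716 352 [0,1,2,3] [[0,1,2,3,4,6],[0,1,2,3,4],[0,1,2,3,4],[0,1,2,3,4]],Ref.mk 2940 362 [0,1,2,3] [[0,1,2,3,4,5,6],[0,1,2,3,4,5],[0,1,2,3,4,5],[0,1,2,3,4,5]]],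
Node.mk [0,820,182,1542,2448,27,976,3105,2216,2529,2937,36,2935,2939,3663,45,2610,4629,4461] [(0,0),(0,2),(0,3),(1,0),(1,2),(2,1)] [Ref.mk 1716 352 [0,1,2,3] [[0,1,2,3,4,6],[0,1,2,3,4],[0,1,2,3,4],[0,1,2,3,4]]],
Node.mk [0,820,182,1542,2448,27,976,3105,2216,2529,2937,36,2935,2939,3663,45,2610,4629,825] [(0,0),(0,2),(1,1),(1,2),(2,1),(3,1)] [],
Node.mk [0,820,182,1542,2448,27,976,3105,2216,2529,2937,36,2935,2939,3663,45,2610,4629,2940] [(0,0),(0,1),(0,2),(0,3),(0,4),(1,2)] [Ref.mk 4460 364 [0,1,2,3] [[0,1,2,3,4,6,5],[0,1,2,3,4,5],[0,1,2,3,4,5],[0,1,2,3,4,5,6]],Ref.mk 977 347 [0,1,2,3] [[0,1,2,3,4,5],[0,1,2,3,4],[0,1,2,3,4],[0,1,2,3,4]],Ref.mk 824 365 [0,1,2,3] [[0,5,2,3,4,6,1],[0,1,2,3,4,5],[0,1,2,3,4,5],[0,1,2,3,4,5,6]],Ref.mk 1715 352 [0,1,2,3]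 [[0,1,2,3,4,5],[0,1,2,3,4],[0,1,2,3,4],[0,1,2,3,4]],Ref.mk 4461 364 [0,1,2,3] [[0,1,2,3,4,5,6],[0,1,2,3,4,5],[0,1,2,3,4,5],[0,1,2,3,4,5,6]],Ref.mk 978 347 [0,1,2,3] [[0,1,2,3,4,6],[0,1,2,3,4],[0,1,2,3,4],[0,1,2,3,4]],Ref.mk 825 365 [0,1,2,3] [[0,6,2,3,4,5,1],[0,1,2,3,4,5],[0,1,2,3,4,5],[0,1,2,3,4,5,6]],Ref.mk 1716 352 [0,1,2,3] [[0,1,2,3,4,6],[0,1,2,3,4],[0,1,2,3,4],[0,1,2,3,4]],Ref.mk 4462 364 [0,1,2,3] [[0,1,2,3,4,6,7],[0,1,2,3,4,5],[0,1,2,3,4,5],[0,1,2,3,4,5,6]],Ref.mk 979 347 [0,1,2,3] [[0,1,2,3,4,7],[0,1,2,3,4],[0,1,2,3,4],[0,1,2,3,4]],Ref.mk 826 365 [0,1,2,3] [[0,1,2,3,4,6,7],[0,1,2,3,4,5],[0,1,2,3,4,5],[0,1,2,3,4,5,6]],Ref.mk 1717 352 [0,1,2,3] [[0,1,2,3,4,7],[0,1,2,3,4],[0,1,2,3,4],[0,1,2,3,4]]],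
Node.mk [0,820,182,1542,2448,27,976,3105,2216,2529,2937,36,2935,2939,3663,45,2610,4629] [(0,0),(0,1),(0,2),(0,3),(0,4),(0,5)] [Ref.mk 4461 364 [0,1,2,3] [[0,1,2,3,4,5,6],[0,1,2,3,4,5],[0,1,2,3,4,5],[0,1,2,3,4,5,6]],Ref.mk 978 347 [0,1,2,3] [[0,1,2,3,4,6],[0,1,2,3,4],[0,1,2,3,4],[0,1,2,3,4]],Ref.mk 825 365 [0,1,2,3] [[0,1,2,3,4,5,6],[0,1,2,3,4,5],[0,1,2,3,4,5],[0,1,2,3,4,5,6]],Ref.mk 1716 352 [0,1,2,3] [[0,1,2,3,4,6],[0,1,2,3,4],[0,1,2,3,4],[0,1,2,3,4]],Ref.mk 2940 366 [0,1,2,3] [[0,1,2,3,4,5,6],[0,1,2,3,4,5],[0,1,2,3,4,5],[0,1,2,3,4,5,6]]],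
Node.mk [0,820,182,1542,2448,27,976,3105,2216,2529,2937,36,2935,2939,3663,45,2610,1633] [(0,0),(0,4),(1,1),(2,0),(2,2),(3,2)] [],
Node.mk [0,820,182,1542,2448,27,976,3105,2216,2529,2937,36,2935,2939,3663,45,2610,1714,244] [(0,0),(0,1),(1,0),(2,0),(2,3),(3,0)] [],
Node.mk [0,820,182,1542,2448,27,976,3105,2216,2529,2937,36,2935,2939,3663,45,2610,1714] [(0,0),(1,2),(2,1),(3,1),(3,2),(3,3)] [Ref.mk 244 369 [0,1,2,3] [[0,1,2,3,4,5],[0,1,2,3,4,5],[0,1,2,3,4,5],[0,1,2,3,4,5]],Ref.mk 3160 98 [3,1,2,0] [[0,1,3,2,4],[0,1,2,3],[0,1,3,2],[0,1,3,2]],Ref.mk 3889 98 [3,1,2,0] [[0,1,3,2,5],[0,1,2,3],[0,1,3,2],[0,1,3,2]],Ref.mk 4618 98 [3,1,2,0] [[0,1,3,2,6],[0,1,2,3],[0,1,3,2],[0,1,3,2]],Ref.mk 255 353 [0,1,2,3] [[0,1,2,3,4,5],[0,1,2,3,4,5],[0,1,2,3,4,5],[0,1,2,3,4,5]],Ref.mk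 3171 359 [0,1,2,3] [[0,1,2,3,4,5],[0,1,2,3,4,5],[0,1,2,3,4,5],[0,1,2,3,4,5]],Ref.mk 3900 363 [0,1,2,3] [[0,1,2,3,4,5],[0,1,2,3,4,5],[0,1,2,3,4,5],[0,1,2,3,4,5]],Ref.mk 4629 367 [0,1,2,3] [[0,1,2,3,4,5],[0,1,2,3,4,5],[0,1,2,3,4,5],[0,1,2,3,4,5,6]]],
Node.mk [0,820,182,1542,2448,27,976,3105,2216,2529,2937,36,2935,2939,3663,45,2610,1795,1545] [(0,0),(0,2),(1,0),(1,2),(2,1),(3,2)] [],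
Node.mk [0,820,182,1542,2448,27,976,3105,2216,2529,2937,36,2935,2939,3663,45,2610,1795,825] [(0,0),(0,2),(1,1),(1,2),(2,1),(3,1)] [],
Node.mk [0,820,182,1542,2448,27,976,3105,2216,2529,2937,36,2935,2939,3663,45,2610,1795,2940] [(0,0),(0,1),(0,2),(0,3),(0,4),(1,2)] [Ref.mk 1544 371 [0,1,2,3] [[0,1,2,5,4,6,3],[0,1,2,3,4,5],[0,1,2,3,4,5],[0,1,2,3,4,5]],Ref.mk 1058 348 [0,1,2,3] [[0,1,2,3,4,5],[0,1,2,3,4],[0,1,2,3,4],[0,1,2,3,4]],Ref.mk 824 372 [0,1,2,3] [[0,5,2,3,4,6,1],[0,1,2,3,4,5],[0,1,2,3,4,5],[0,1,2,3,4,5]],Ref.mk 1715 352 [0,1,2,3] [[0,1,2,3,4,5],[0,1,2,3,4],[0,1,2,3,4],[0,1,2,3,4]],Ref.mk 1545 371 [0,1,2,3] [[0,1,2,6,4,5,3],[0,1,2,3,4,5],[0,1,2,3,4,5],[0,1,2,3,4,5]],Ref.mk 1059 348 [0,1,2,3] [[0,1,2,3,4,6],[0,1,2,3,4],[0,1,2,3,4],[0,1,2,3,4]],Ref.mk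 825 372 [0,1,2,3] [[0,6,2,3,4,5,1],[0,1,2,3,4,5],[0,1,2,3,4,5],[0,1,2,3,4,5]],Ref.mk 1716 352 [0,1,2,3] [[0,1,2,3,4,6],[0,1,2,3,4],[0,1,2,3,4],[0,1,2,3,4]],Ref.mk 1546 371 [0,1,2,3] [[0,1,2,3,4,6,7],[0,1,2,3,4,5],[0,1,2,3,4,5],[0,1,2,3,4,5]],Ref.mk 1060 348 [0,1,2,3] [[0,1,2,3,4,7],[0,1,2,3,4],[0,1,2,3,4],[0,1,2,3,4]],Ref.mk 826 372 [0,1,2,3] [[0,1,2,3,4,6,7],[0,1,2,3,4,5],[0,1,2,3,4,5],[0,1,2,3,4,5]],Ref.mk 1717 352 [0,1,2,3] [[0,1,2,3,4,7],[0,1,2,3,4],[0,1,2,3,4],[0,1,2,3,4]]],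
Node.mk [0,820,182,1542,2448,27,976,3105,2216,2529,2937,36,2935,2939,3663,45,2610,1795] [(0,0),(0,1),(0,2),(0,3),(0,4),(0,5)] [Ref.mk 1545 371 [0,1,2,3] [[0,1,2,3,4,5,6],[0,1,2,3,4,5],[0,1,2,3,4,5],[0,1,2,3,4,5]],Ref.mk 1059 348 [0,1,2,3] [[0,1,2,3,4,6],[0,1,2,3,4],[0,1,2,3,4],[0,1,2,3,4]],Ref.mk 825 372 [0,1,2,3] [[0,1,2,3,4,5,6],[0,1,2,3,4,5],[0,1,2,3,4,5],[0,1,2,3,4,5]],Ref.mk 1716 352 [0,1,2,3] [[0,1,2,3,4,6],[0,1,2,3,4],[0,1,2,3,4],[0,1,2,3,4]],Ref.mk 2940 373 [0,1,2,3] [[0,1,2,3,4,5,6],[0,1,2,3,4,5],[0,1,2,3,4,5],[0,1,2,3,4,5]]],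
Node.mk [0,820,182,1542,2448,27,976,3105,2216,2529,2937,36,2935,2939,3663,45,2610,1957,1545] [(0,0),(0,2),(1,0),(1,2),(2,1),(3,2)] [],
Node.mk [0,820,182,1542,2448,27,976,3105,2216,2529,2937,36,2935,2939,3663,45,2610,1957,825] [(0,0),(0,2),(1,1),(1,2),(2,1),(3,1)] [],
Node.mk [0,820,182,1542,2448,27,976,3105,2216,2529,2937,36,2935,2939,3663,45,2610,1957,2940] [(0,0),(0,1),(0,2),(0,3),(0,4),(1,2)] [Ref.mk 1544 375 [0,1,2,3] [[0,1,2,5,4,6,3],[0,1,2,3,4,5],[0,1,2,3,4,5,6],[0,1,2,3,4,5]],Ref.mk 1220 349 [0,1,2,3] [[0,1,2,3,4,5],[0,1,2,3,4],[0,1,2,3,4,6],[0,1,2,3,4]],Ref.mk 824 376 [0,1,2,3] [[0,5,2,3,4,6,1],[0,1,2,3,4,5],[0,1,2,3,4,5,6],[0,1,2,3,4,5]],Ref.mk 1715 352 [0,1,2,3] [[0,1,2,3,4,5],[0,1,2,3,4],[0,1,2,3,4],[0,1,2,3,4]],Ref.mk 1545 375 [0,1,2,3]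 [[0,1,2,6,4,5,3],[0,1,2,3,4,5],[0,1,2,3,4,5,6],[0,1,2,3,4,5]],Ref.mk 1221 349 [0,1,2,3] [[0,1,2,3,4,6],[0,1,2,3,4],[0,1,2,3,4,6],[0,1,2,3,4]],Ref.mk 825 376 [0,1,2,3] [[0,6,2,3,4,5,1],[0,1,2,3,4,5],[0,1,2,3,4,5,6],[0,1,2,3,4,5]],Ref.mk 1716 352 [0,1,2,3] [[0,1,2,3,4,6],[0,1,2,3,4],[0,1,2,3,4],[0,1,2,3,4]],Ref.mk 1546 375 [0,1,2,3] [[0,1,2,3,4,6,7],[0,1,2,3,4,5],[0,1,2,3,4,5,6],[0,1,2,3,4,5]],Ref.mk 1222 349 [0,1,2,3] [[0,1,2,3,4,7],[0,1,2,3,4],[0,1,2,3,4,6],[0,1,2,3,4]],Ref.mk 826 376 [0,1,2,3] [[0,1,2,3,4,6,7],[0,1,2,3,4,5],[0,1,2,3,4,5,6],[0,1,2,3,4,5]],Ref.mk 1717 352 [0,1,2,3] [[0,1,2,3,4,7],[0,1,2,3,4],[0,1,2,3,4],[0,1,2,3,4]]],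
Node.mk [0,820,182,1542,2448,27,976,3105,2216,2529,2937,36,2935,2939,3663,45,2610,1957] [(0,0),(0,1),(0,2),(0,3),(0,4),(0,5)] [Ref.mk 1545 375 [0,1,2,3] [[0,1,2,3,4,5,6],[0,1,2,3,4,5],[0,1,2,3,4,5,6],[0,1,2,3,4,5]],Ref.mk 1221 349 [0,1,2,3] [[0,1,2,3,4,6],[0,1,2,3,4],[0,1,2,3,4,6],[0,1,2,3,4]],Ref.mk 825 376 [0,1,2,3] [[0,1,2,3,4,5,6],[0,1,2,3,4,5],[0,1,2,3,4,5,6],[0,1,2,3,4,5]],Ref.mk 1716 352 [0,1,2,3] [[0,1,2,3,4,6],[0,1,2,3,4],[0,1,2,3,4],[0,1,2,3,4]],Ref.mk 2940 377 [0,1,2,3] [[0,1,2,3,4,5,6],[0,1,2,3,4,5],[0,1,2,3,4,5,6],[0,1,2,3,4,5]]],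
Node.mk [0,820,182,1542,2448,27,976,3105,2216,2529,2937,36,2935,2939,3663,45,2610] [(0,0),(0,1),(0,2),(2,0),(2,1),(3,1)] [Ref.mk 255 353 [0,1,2,3] [[0,1,2,3,4,5],[0,1,2,3,4,5],[0,1,2,3,4,5],[0,1,2,3,4,5]],Ref.mk 1713 357 [0,1,2,3] [[0,1,2,3,4,5],[0,1,2,3,4,5],[0,1,2,3,4,5],[0,1,2,3,4,5]],Ref.mk 2442 358 [0,1,2,3] [[0,1,2,3,4,5],[0,1,2,3,4,5],[0,1,2,3,4,5],[0,1,2,3,4,5]],Ref.mk 3171 359 [0,1,2,3] [[0,1,2,3,4,5],[0,1,2,3,4,5],[0,1,2,3,4,5],[0,1,2,3,4,5]],Ref.mk 3900 363 [0,1,2,3] [[0,1,2,3,4,5],[0,1,2,3,4,5],[0,1,2,3,4,5],[0,1,2,3,4,5]],Ref.mk 4629 367 [0,1,2,3] [[0,1,2,3,4,5],[0,1,2,3,4,5],[0,1,2,3,4,5],[0,1,2,3,4,5,6]],Ref.mk 1633 368 [0,1,2,3] [[0,1,2,3,4,5],[0,1,2,3,4,5],[0,1,2,3,4,5],[0,1,2,3,4,5]],Ref.mk 1714 370 [0,1,2,3] [[0,1,2,3,4,5],[0,1,2,3,4,5],[0,1,2,3,4,5],[0,1,2,3,4,5]],Ref.mk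 1795 374 [0,1,2,3] [[0,1,2,3,4,5],[0,1,2,3,4,5],[0,1,2,3,4,5],[0,1,2,3,4,5]],Ref.mk 1876 374 [0,1,2,3] [[0,1,2,3,4,5],[0,1,2,3,4,5],[0,1,2,3,5,4],[0,1,2,3,4,5]],Ref.mk 1957 378 [0,1,2,3] [[0,1,2,3,4,5],[0,1,2,3,4,5],[0,1,2,3,4,5,6],[0,1,2,3,4,5]],Ref.mk 1715 352 [0,1,2,3] [[0,1,2,3,4,5],[0,1,2,3,4],[0,1,2,3,4],[0,1,2,3,4]],Ref.mk 1716 352 [0,1,2,3] [[0,1,2,3,4,6],[0,1,2,3,4],[0,1,2,3,4],[0,1,2,3,4]]],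
Node.mk [0,820,182,1542,2448,27,976,3105,2216,2529,2937,36,2935,2939,3663,45,1146] [(0,0),(0,2),(1,0),(1,1),(1,2),(3,1)] [],
Node.mk [0,820,182,1542,2448,27,976,3105,2216,2529,2937,36,2935,2939,3663,45,1155] [(0,0),(0,3),(1,2),(1,3),(2,5),(3,1)] [Ref.mk 2917 26 [3,1,2,0] [[0,1,3,2,4],[0,1,2,3],[0,1,3,2],[0,1,3,2]]],
Node.mk [0,820,182,1542,2448,27,976,3105,2216,2529,2937,36,2935,2939,3663,45,1164] [(0,0),(0,3),(1,2),(1,3),(2,5),(3,1)] [],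
Node.mk [0,820,182,1542,2448,27,976,3105,2216,2529,2937,36,2935,2939,3663,45,1173,1738,2940,1216] [(0,0),(0,1),(0,2),(0,3),(1,2),(3,1)] []]

/-- nodes -/
noncomputable def c6 : List Node := [
Node.mk [0,820,182,1542,2448,27,976,3105,2216,2529,2937,36,2935,2939,3663,45,1173,1738,2940,1254] [(0,0),(0,2),(0,3),(1,2),(1,4),(3,1)] [],
Node.mk [0,820,182,1542,2448,27,976,3105,2216,2529,2937,36,2935,2939,3663,45,1173,1738,2940] [(2,0),(2,1),(2,2),(2,3),(2,4),(2,5)] [Ref.mk 2691 379 [0,1,2,3] [[0,1,2,3,4,5],[0,1,2,3,4,5],[0,1,2,3,4,6],[0,1,2,3,4,5]],Ref.mk 1216 383 [0,1,2,3] [[0,1,2,3,4,5,6],[0,1,2,3,4,5],[0,1,2,3,4,5,6],[0,1,2,3,4,5]],Ref.mk 1254 384 [0,1,2,3] [[0,1,2,3,4,5,6],[0,1,2,3,4,5],[0,1,2,3,4,5,6],[0,1,2,3,4,5]]],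
Node.mk [0,820,182,1542,2448,27,976,3105,2216,2529,2937,36,2935,2939,3663,45,1173,1738,852] [(0,0),(0,1),(0,2),(1,2),(2,1),(3,1)] [],
Node.mk [0,820,182,1542,2448,27,976,3105,2216,2529,2937,36,2935,2939,3663,45,1173,1738] [(0,0),(0,1),(0,2),(0,3),(0,4),(0,5)] [Ref.mk 978 347 [0,1,2,3] [[0,1,2,3,4,6],[0,1,2,3,4],[0,1,2,3,4],[0,1,2,3,4]],Ref.mk 2940 385 [0,1,2,3] [[0,1,2,3,4,5,6],[0,1,2,3,4,5],[0,1,2,3,4,5],[0,1,2,3,4,5]],Ref.mk 852 386 [0,1,2,3] [[0,1,2,3,4,5,6],[0,1,2,3,4,5],[0,1,2,3,4,5],[0,1,2,3,4,5]]],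
Node.mk [0,820,182,1542,2448,27,976,3105,2216,2529,2937,36,2935,2939,3663,45,1173,1876,825] [(0,0),(0,2),(0,3),(0,4),(1,2),(3,1)] [],
Node.mk [0,820,182,1542,2448,27,976,3105,2216,2529,2937,36,2935,2939,3663,45,1173,1876,2940] [(0,0),(0,1),(0,2),(0,3),(0,4),(1,2)] [Ref.mk 1139 349 [0,1,2,3] [[0,1,2,3,4,5],[0,1,2,3,4],[0,1,2,3,4,5],[0,1,2,3,4]],Ref.mk 824 388 [0,1,2,3] [[0,5,2,3,4,6,1],[0,1,2,3,4,5],[0,1,2,3,4,5],[0,1,2,3,4,5]],Ref.mk 1140 349 [0,1,2,3] [[0,1,2,3,4,6],[0,1,2,3,4],[0,1,2,3,4,5],[0,1,2,3,4]],Ref.mk 825 388 [0,1,2,3] [[0,6,2,3,4,5,1],[0,1,2,3,4,5],[0,1,2,3,4,5],[0,1,2,3,4,5]],Ref.mk 1141 349 [0,1,2,3] [[0,1,2,3,4,7],[0,1,2,3,4],[0,1,2,3,4,5],[0,1,2,3,4]],Ref.mk 826 388 [0,1,2,3] [[0,1,2,3,4,6,7],[0,1,2,3,4,5],[0,1,2,3,4,5],[0,1,2,3,4,5]]],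
Node.mk [0,820,182,1542,2448,27,976,3105,2216,2529,2937,36,2935,2939,3663,45,1173,1876] [(0,0),(0,1),(0,2),(0,3),(0,4),(0,5)] [Ref.mk 1140 349 [0,1,2,3] [[0,1,2,3,4,6],[0,1,2,3,4],[0,1,2,3,4,5],[0,1,2,3,4]],Ref.mk 825 388 [0,1,2,3] [[0,1,2,3,4,5,6],[0,1,2,3,4,5],[0,1,2,3,4,5],[0,1,2,3,4,5]],Ref.mk 2940 389 [0,1,2,3] [[0,1,2,3,4,5,6],[0,1,2,3,4,5],[0,1,2,3,4,5],[0,1,2,3,4,5]]],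
Node.mk [0,820,182,1542,2448,27,976,3105,2216,2529,2937,36,2935,2939,3663,45,1173] [(0,0),(0,2),(0,3),(1,0),(1,2),(2,1)] [Ref.mk 1738 387 [0,1,2,3] [[0,1,2,3,4,5],[0,1,2,3,4,5],[0,1,2,3,4,5],[0,1,2,3,4,5]],Ref.mk 1876 390 [0,1,2,3] [[0,1,2,3,4,5],[0,1,2,3,4,5],[0,1,2,3,4,5],[0,1,2,3,4,5]]],
Node.mk [0,820,182,1542,2448,27,976,3105,2216,2529,2937,36,2935,2939,3663,45,1191,1756,2940,1216] [(0,0),(0,1),(0,2),(0,3),(1,2),(3,1)] [],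
Node.mk [0,820,182,1542,2448,27,976,3105,2216,2529,2937,36,2935,2939,3663,45,1191,1756,2940,1272] [(0,0),(0,2),(0,3),(1,2),(1,6),(3,1)] [],
Node.mk [0,820,182,1542,2448,27,976,3105,2216,2529,2937,36,2935,2939,3663,45,1191,1756,2940] [(2,0),(2,1),(2,2),(2,3),(2,4),(2,5)] [Ref.mk 2691 379 [0,1,2,3] [[0,1,2,3,4,5],[0,1,2,3,4,5],[0,1,2,3,4,6],[0,1,2,3,4,5]],Ref.mk 1216 392 [0,1,2,3] [[0,1,2,3,4,5,6],[0,1,2,3,4,5,6],[0,1,2,3,4,5,6],[0,1,2,3,4,5]],Ref.mk 1272 393 [0,1,2,3] [[0,1,2,3,4,5,6],[0,1,2,3,4,5,6],[0,1,2,3,4,5,6],[0,1,2,3,4,5]]],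
Node.mk [0,820,182,1542,2448,27,976,3105,2216,2529,2937,36,2935,2939,3663,45,1191,1756,870] [(0,0),(0,1),(0,2),(1,2),(2,1),(3,1)] [],
Node.mk [0,820,182,1542,2448,27,976,3105,2216,2529,2937,36,2935,2939,3663,45,1191,1756] [(0,0),(0,1),(0,2),(0,3),(0,4),(0,5)] [Ref.mk 978 347 [0,1,2,3] [[0,1,2,3,4,6],[0,1,2,3,4],[0,1,2,3,4],[0,1,2,3,4]],Ref.mk 2940 394 [0,1,2,3] [[0,1,2,3,4,5,6],[0,1,2,3,4,5,6],[0,1,2,3,4,5],[0,1,2,3,4,5]],Ref.mk 870 395 [0,1,2,3] [[0,1,2,3,4,5,6],[0,1,2,3,4,5,6],[0,1,2,3,4,5],[0,1,2,3,4,5]]],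
Node.mk [0,820,182,1542,2448,27,976,3105,2216,2529,2937,36,2935,2939,3663,45,1191,1876,825] [(0,0),(0,2),(0,3),(0,4),(1,2),(3,1)] [],
Node.mk [0,820,182,1542,2448,27,976,3105,2216,2529,2937,36,2935,2939,3663,45,1191,1876,2940] [(0,0),(0,1),(0,2),(0,3),(0,4),(1,2)] [Ref.mk 1139 349 [0,1,2,3] [[0,1,2,3,4,5],[0,1,2,3,4],[0,1,2,3,4,5],[0,1,2,3,4]],Ref.mk 824 397 [0,1,2,3] [[0,5,2,3,4,6,1],[0,1,2,3,4,5,6],[0,1,2,3,4,5],[0,1,2,3,4,5]],Ref.mk 1140 349 [0,1,2,3] [[0,1,2,3,4,6],[0,1,2,3,4],[0,1,2,3,4,5],[0,1,2,3,4]],Ref.mk 825 397 [0,1,2,3] [[0,6,2,3,4,5,1],[0,1,2,3,4,5,6],[0,1,2,3,4,5],[0,1,2,3,4,5]],Ref.mk 1141 349 [0,1,2,3] [[0,1,2,3,4,7],[0,1,2,3,4],[0,1,2,3,4,5],[0,1,2,3,4]],Ref.mk 826 397 [0,1,2,3] [[0,1,2,3,4,6,7],[0,1,2,3,4,5,6],[0,1,2,3,4,5],[0,1,2,3,4,5]]],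
Node.mk [0,820,182,1542,2448,27,976,3105,2216,2529,2937,36,2935,2939,3663,45,1191,1876] [(0,0),(0,1),(0,2),(0,3),(0,4),(0,5)] [Ref.mk 1140 349 [0,1,2,3] [[0,1,2,3,4,6],[0,1,2,3,4],[0,1,2,3,4,5],[0,1,2,3,4]],Ref.mk 825 397 [0,1,2,3] [[0,1,2,3,4,5,6],[0,1,2,3,4,5,6],[0,1,2,3,4,5],[0,1,2,3,4,5]],Ref.mk 2940 398 [0,1,2,3] [[0,1,2,3,4,5,6],[0,1,2,3,4,5,6],[0,1,2,3,4,5],[0,1,2,3,4,5]]],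
Node.mk [0,820,182,1542,2448,27,976,3105,2216,2529,2937,36,2935,2939,3663,45,1191] [(0,0),(0,2),(0,3),(1,0),(1,2),(2,1)] [Ref.mk 1756 396 [0,1,2,3] [[0,1,2,3,4,5],[0,1,2,3,4,5,6],[0,1,2,3,4,5],[0,1,2,3,4,5]],Ref.mk 1876 399 [0,1,2,3] [[0,1,2,3,4,5],[0,1,2,3,4,5,6],[0,1,2,3,4,5],[0,1,2,3,4,5]]],
Node.mk [0,820,182,1542,2448,27,976,3105,2216,2529,2937,36,2935,2939,3663,45,1876,1545] [(0,0),(0,2),(1,0),(1,2),(2,1),(3,2)] [],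
Node.mk [0,820,182,1542,2448,27,976,3105,2216,2529,2937,36,2935,2939,3663,45,1876,825] [(0,0),(0,2),(1,1),(1,2),(2,1),(3,1)] [],
Node.mk [0,820,182,1542,2448,27,976,3105,2216,2529,2937,36,2935,2939,3663,45,1876,2940] [(0,0),(0,1),(0,2),(0,3),(0,4),(1,2)] [Ref.mk 1544 401 [0,1,2,3] [[0,1,2,5,4,6,3],[0,1,2,3,4,5],[0,1,2,3,4,5],[0,1,2,3,4,5]],Ref.mk 1139 349 [0,1,2,3] [[0,1,2,3,4,5],[0,1,2,3,4],[0,1,2,3,4,5],[0,1,2,3,4]],Ref.mk 824 402 [0,1,2,3] [[0,5,2,3,4,6,1],[0,1,2,3,4,5],[0,1,2,3,4,5],[0,1,2,3,4,5]],Ref.mk 1715 352 [0,1,2,3] [[0,1,2,3,4,5],[0,1,2,3,4],[0,1,2,3,4],[0,1,2,3,4]],Ref.mk 1545 401 [0,1,2,3] [[0,1,2,6,4,5,3],[0,1,2,3,4,5],[0,1,2,3,4,5],[0,1,2,3,4,5]],Ref.mk 1140 349 [0,1,2,3] [[0,1,2,3,4,6],[0,1,2,3,4],[0,1,2,3,4,5],[0,1,2,3,4]],Ref.mk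 825 402 [0,1,2,3] [[0,6,2,3,4,5,1],[0,1,2,3,4,5],[0,1,2,3,4,5],[0,1,2,3,4,5]],Ref.mk 1716 352 [0,1,2,3] [[0,1,2,3,4,6],[0,1,2,3,4],[0,1,2,3,4],[0,1,2,3,4]],Ref.mk 1546 401 [0,1,2,3] [[0,1,2,3,4,6,7],[0,1,2,3,4,5],[0,1,2,3,4,5],[0,1,2,3,4,5]],Ref.mk 1141 349 [0,1,2,3] [[0,1,2,3,4,7],[0,1,2,3,4],[0,1,2,3,4,5],[0,1,2,3,4]],Ref.mk 826 402 [0,1,2,3] [[0,1,2,3,4,6,7],[0,1,2,3,4,5],[0,1,2,3,4,5],[0,1,2,3,4,5]],Ref.mk 1717 352 [0,1,2,3] [[0,1,2,3,4,7],[0,1,2,3,4],[0,1,2,3,4],[0,1,2,3,4]]],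
Node.mk [0,820,182,1542,2448,27,976,3105,2216,2529,2937,36,2935,2939,3663,45,1876] [(0,0),(0,1),(0,2),(0,3),(0,4),(0,5)] [Ref.mk 1545 401 [0,1,2,3] [[0,1,2,3,4,5,6],[0,1,2,3,4,5],[0,1,2,3,4,5],[0,1,2,3,4,5]],Ref.mk 1140 349 [0,1,2,3] [[0,1,2,3,4,6],[0,1,2,3,4],[0,1,2,3,4,5],[0,1,2,3,4]],Ref.mk 825 402 [0,1,2,3] [[0,1,2,3,4,5,6],[0,1,2,3,4,5],[0,1,2,3,4,5],[0,1,2,3,4,5]],Ref.mk 1716 352 [0,1,2,3] [[0,1,2,3,4,6],[0,1,2,3,4],[0,1,2,3,4],[0,1,2,3,4]],Ref.mk 2940 403 [0,1,2,3] [[0,1,2,3,4,5,6],[0,1,2,3,4,5],[0,1,2,3,4,5],[0,1,2,3,4,5]]],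
Node.mk [0,820,182,1542,2448,27,976,3105,2216,2529,2937,36,2935,2939,3663,45] [(1,0),(2,0),(2,1),(2,2),(2,3),(2,4)] [Ref.mk 2610 379 [0,1,2,3] [[0,1,2,3,4,5],[0,1,2,3,4,5],[0,1,2,3,4,5],[0,1,2,3,4,5]],Ref.mk 1146 380 [0,1,2,3] [[0,1,2,3,4,5],[0,1,2,3,4,5],[0,1,2,3,4,5],[0,1,2,3,4,5]],Ref.mk 1155 381 [0,1,2,3] [[0,1,2,3,4,5],[0,1,2,3,4,5],[0,1,2,3,4,5],[0,1,2,3,4,5]],Ref.mk 1164 382 [0,1,2,3] [[0,1,2,3,4,5],[0,1,2,3,4,5],[0,1,2,3,4,5],[0,1,2,3,4,5]],Ref.mk 1173 391 [0,1,2,3] [[0,1,2,3,4,5],[0,1,2,3,4,5],[0,1,2,3,4,5],[0,1,2,3,4,5]],Ref.mk 1182 391 [0,1,2,3] [[0,1,2,3,4,5],[0,1,2,3,5,4],[0,1,2,3,4,5],[0,1,2,3,4,5]],Ref.mk 1191 400 [0,1,2,3] [[0,1,2,3,4,5],[0,1,2,3,4,5,6],[0,1,2,3,4,5],[0,1,2,3,4,5]],Ref.mk 1876 404 [0,1,2,3] [[0,1,2,3,4,5],[0,1,2,3,4,5],[0,1,2,3,4,5],[0,1,2,3,4,5]]],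
Node.mk [0,820,182,1542,2448,27,976,3105,2216,2529,2937,36,2935,2939,3663,1747,1545] [(0,0),(0,2),(1,0),(1,2),(2,1),(3,2)] [],
Node.mk [0,820,182,1542,2448,27,976,3105,2216,2529,2937,36,2935,2939,3663,1747,2940,860] [(0,0),(0,1),(0,2),(1,2),(2,1),(3,1)] [Ref.mk 1715 352 [0,1,2,3] [[0,1,2,3,4,5],[0,1,2,3,4],[0,1,2,3,4],[0,1,2,3,4]]],
Node.mk [0,820,182,1542,2448,27,976,3105,2216,2529,2937,36,2935,2939,3663,1747,2940,862] [(0,0),(0,1),(0,2),(1,2),(2,1),(3,1)] [Ref.mk 1717 352 [0,1,2,3] [[0,1,2,3,4,7],[0,1,2,3,4],[0,1,2,3,4],[0,1,2,3,4]]],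
Node.mk [0,820,182,1542,2448,27,976,3105,2216,2529,2937,36,2935,2939,3663,1747,2940] [(0,0),(0,1),(0,2),(0,3),(0,4),(1,2)] [Ref.mk 1544 406 [0,1,2,3] [[0,1,2,5,4,6,3],[0,1,2,3,4,5],[0,1,2,3,4],[0,1,2,3,4,5]],Ref.mk 977 347 [0,1,2,3] [[0,1,2,3,4,5],[0,1,2,3,4],[0,1,2,3,4],[0,1,2,3,4]],Ref.mk 1715 352 [0,1,2,3] [[0,1,2,3,4,5],[0,1,2,3,4],[0,1,2,3,4],[0,1,2,3,4]],Ref.mk 860 407 [0,1,2,3] [[0,1,2,3,4,5,6],[0,1,2,3,4,5],[0,1,2,3,4],[0,1,2,3,4,5]],Ref.mk 1545 406 [0,1,2,3] [[0,1,2,6,4,5,3],[0,1,2,3,4,5],[0,1,2,3,4],[0,1,2,3,4,5]],Ref.mk 978 347 [0,1,2,3] [[0,1,2,3,4,6],[0,1,2,3,4],[0,1,2,3,4],[0,1,2,3,4]],Ref.mk 1716 352 [0,1,2,3] [[0,1,2,3,4,6],[0,1,2,3,4],[0,1,2,3,4],[0,1,2,3,4]],Ref.mk 861 407 [0,1,2,3] [[0,1,2,3,4,6,5],[0,1,2,3,4,5],[0,1,2,3,4],[0,1,2,3,4,5]],Ref.mk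 1546 406 [0,1,2,3] [[0,1,2,3,4,6,7],[0,1,2,3,4,5],[0,1,2,3,4],[0,1,2,3,4,5]],Ref.mk 979 347 [0,1,2,3] [[0,1,2,3,4,7],[0,1,2,3,4],[0,1,2,3,4],[0,1,2,3,4]],Ref.mk 1717 352 [0,1,2,3] [[0,1,2,3,4,7],[0,1,2,3,4],[0,1,2,3,4],[0,1,2,3,4]],Ref.mk 862 408 [0,1,2,3] [[0,1,2,3,4,5,6,7],[0,1,2,3,4,5],[0,1,2,3,4],[0,1,2,3,4,5]]],
Node.mk [0,820,182,1542,2448,27,976,3105,2216,2529,2937,36,2935,2939,3663,1747,861] [(0,0),(0,1),(0,2),(1,2),(2,1),(3,1)] [Ref.mk 1716 352 [0,1,2,3] [[0,1,2,3,4,6],[0,1,2,3,4],[0,1,2,3,4],[0,1,2,3,4]]],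
Node.mk [0,820,182,1542,2448,27,976,3105,2216,2529,2937,36,2935,2939,3663,1747] [(0,0),(0,1),(0,2),(0,3),(0,4),(0,5)] [Ref.mk 1545 406 [0,1,2,3] [[0,1,2,3,4,5,6],[0,1,2,3,4,5],[0,1,2,3,4],[0,1,2,3,4,5]],Ref.mk 978 347 [0,1,2,3] [[0,1,2,3,4,6],[0,1,2,3,4],[0,1,2,3,4],[0,1,2,3,4]],Ref.mk 1716 352 [0,1,2,3] [[0,1,2,3,4,6],[0,1,2,3,4],[0,1,2,3,4],[0,1,2,3,4]],Ref.mk 2940 409 [0,1,2,3] [[0,1,2,3,4,5,6],[0,1,2,3,4,5],[0,1,2,3,4],[0,1,2,3,4,5]],Ref.mk 861 410 [0,1,2,3] [[0,1,2,3,4,5,6],[0,1,2,3,4,5],[0,1,2,3,4],[0,1,2,3,4,5]]],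
Node.mk [0,820,182,1542,2448,27,976,3105,2216,2529,2937,36,2935,2939,3663,777] [(0,0),(0,2),(0,3),(1,0),(2,0),(2,1)] [Ref.mk 1747 411 [0,1,2,3] [[0,1,2,3,4,5],[0,1,2,3,4,5],[0,1,2,3,4],[0,1,2,3,4,5]]],
Node.mk [0,820,182,1542,2448,27,976,3105,2216,2529,2937,36,2935,2939,3663,939] [(0,0),(0,3),(0,4),(2,0),(2,2),(3,1)] [Ref.mk 1747 411 [0,1,2,3] [[0,1,2,3,4,5],[0,1,2,3,4,5],[0,1,2,3,4],[0,1,2,3,4,5]]],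
Node.mk [0,820,182,1542,2448,27,976,3105,2216,2529,2937,36,2935,2939,3663,1020] [(0,0),(0,2),(1,2),(2,1),(2,3),(3,1)] [],
Node.mk [0,820,182,1542,2448,27,976,3105,2216,2529,2937,36,2935,2939,3663,1101,1795,2610,825] [(0,0),(0,2),(0,3),(0,4),(1,2),(3,1)] [],
Node.mk [0,820,182,1542,2448,27,976,3105,2216,2529,2937,36,2935,2939,3663,1101,1795,2610,2940] [(0,0),(0,1),(0,2),(0,3),(0,4),(1,2)] [Ref.mk 1058 348 [0,1,2,3] [[0,1,2,3,4,5],[0,1,2,3,4],[0,1,2,3,4],[0,1,2,3,4]],Ref.mk 824 415 [0,1,2,3] [[0,5,2,3,4,6,1],[0,1,2,3,4,5],[0,1,2,3,4,5],[0,1,2,3,4,5]],Ref.mk 1059 348 [0,1,2,3] [[0,1,2,3,4,6],[0,1,2,3,4],[0,1,2,3,4],[0,1,2,3,4]],Ref.mk 825 415 [0,1,2,3] [[0,6,2,3,4,5,1],[0,1,2,3,4,5],[0,1,2,3,4,5],[0,1,2,3,4,5]],Ref.mk 1060 348 [0,1,2,3] [[0,1,2,3,4,7],[0,1,2,3,4],[0,1,2,3,4],[0,1,2,3,4]],Ref.mk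 826 415 [0,1,2,3] [[0,1,2,3,4,6,7],[0,1,2,3,4,5],[0,1,2,3,4,5],[0,1,2,3,4,5]]],
Node.mk [0,820,182,1542,2448,27,976,3105,2216,2529,2937,36,2935,2939,3663,1101,1795,2610] [(0,0),(0,1),(0,2),(0,3),(0,4),(0,5)] [Ref.mk 1059 348 [0,1,2,3] [[0,1,2,3,4,6],[0,1,2,3,4],[0,1,2,3,4],[0,1,2,3,4]],Ref.mk 825 415 [0,1,2,3] [[0,1,2,3,4,5,6],[0,1,2,3,4,5],[0,1,2,3,4,5],[0,1,2,3,4,5]],Ref.mk 2940 416 [0,1,2,3] [[0,1,2,3,4,5,6],[0,1,2,3,4,5],[0,1,2,3,4,5],[0,1,2,3,4,5]]],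
Node.mk [0,820,182,1542,2448,27,976,3105,2216,2529,2937,36,2935,2939,3663,1101,1795] [(2,0),(2,1),(2,2),(2,3),(2,4),(3,1)] [Ref.mk 2610 417 [0,1,2,3] [[0,1,2,3,4,5],[0,1,2,3,4,5],[0,1,2,3,4,5],[0,1,2,3,4,5]]],
Node.mk [0,820,182,1542,2448,27,976,3105,2216,2529,2937,36,2935,2939,3663,1101] [(0,0),(0,2),(0,3),(1,0),(1,2),(2,1)] [Ref.mk 1747 411 [0,1,2,3] [[0,1,2,3,4,5],[0,1,2,3,4,5],[0,1,2,3,4],[0,1,2,3,4,5]],Ref.mk 1795 418 [0,1,2,3] [[0,1,2,3,4,5],[0,1,2,3,4,5],[0,1,2,3,4],[0,1,2,3,4,5]]],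
Node.mk [0,820,182,1542,2448,27,976,3105,2216,2529,2937,36,2935,2939,3663,1182,1876,825] [(0,0),(0,2),(0,3),(0,4),(1,2),(3,1)] [],
Node.mk [0,820,182,1542,2448,27,976,3105,2216,2529,2937,36,2935,2939,3663,1182,1876,2940] [(0,0),(0,1),(0,2),(0,3),(0,4),(1,2)] [Ref.mk 1139 349 [0,1,2,3] [[0,1,2,3,4,5],[0,1,2,3,4],[0,1,2,3,4,5],[0,1,2,3,4]],Ref.mk 824 420 [0,1,2,3] [[0,5,2,3,4,6,1],[0,1,2,3,4,5],[0,1,2,3,4,5],[0,1,2,3,4,5]],Ref.mk 1140 349 [0,1,2,3] [[0,1,2,3,4,6],[0,1,2,3,4],[0,1,2,3,4,5],[0,1,2,3,4]],Ref.mk 825 420 [0,1,2,3] [[0,6,2,3,4,5,1],[0,1,2,3,4,5],[0,1,2,3,4,5],[0,1,2,3,4,5]],Ref.mk 1141 349 [0,1,2,3] [[0,1,2,3,4,7],[0,1,2,3,4],[0,1,2,3,4,5],[0,1,2,3,4]],Ref.mk 826 420 [0,1,2,3] [[0,1,2,3,4,6,7],[0,1,2,3,4,5],[0,1,2,3,4,5],[0,1,2,3,4,5]]],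
Node.mk [0,820,182,1542,2448,27,976,3105,2216,2529,2937,36,2935,2939,3663,1182,1876] [(0,0),(0,1),(0,2),(0,3),(0,4),(0,5)] [Ref.mk 1140 349 [0,1,2,3] [[0,1,2,3,4,6],[0,1,2,3,4],[0,1,2,3,4,5],[0,1,2,3,4]],Ref.mk 825 420 [0,1,2,3] [[0,1,2,3,4,5,6],[0,1,2,3,4,5],[0,1,2,3,4,5],[0,1,2,3,4,5]],Ref.mk 2940 421 [0,1,2,3] [[0,1,2,3,4,5,6],[0,1,2,3,4,5],[0,1,2,3,4,5],[0,1,2,3,4,5]]],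
Node.mk [0,820,182,1542,2448,27,976,3105,2216,2529,2937,36,2935,2939,3663,1182] [(0,0),(0,2),(0,3),(1,0),(1,2),(2,1)] [Ref.mk 1747 411 [0,1,2,3] [[0,1,2,3,4,5],[0,1,2,3,4,5],[0,1,2,3,4],[0,1,2,3,4,5]],Ref.mk 1876 422 [0,1,2,3] [[0,1,2,3,4,5],[0,1,2,3,4,5],[0,1,2,3,4,5],[0,1,2,3,4,5]]],
Node.mk [0,820,182,1542,2448,27,976,3105,2216,2529,2937,36,2935,2939,3663] [(1,0),(1,1),(1,2),(1,3),(1,4),(2,1)] [Ref.mk 45 405 [0,1,2,3] [[0,1,2,3,4,5],[0,1,2,3,4,5],[0,1,2,3,4],[0,1,2,3,4,5]],Ref.mk 1747 411 [0,1,2,3] [[0,1,2,3,4,5],[0,1,2,3,4,5],[0,1,2,3,4],[0,1,2,3,4,5]],Ref.mk 777 412 [0,1,2,3] [[0,1,2,3,4,5],[0,1,2,3,4,5],[0,1,2,3,4],[0,1,2,3,4,5]],Ref.mk 939 413 [0,1,2,3] [[0,1,2,3,4,5],[0,1,2,3,4,5],[0,1,2,3,4],[0,1,2,3,4,5]],Ref.mk 1020 414 [0,1,2,3]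 [[0,1,2,3,4,5],[0,1,2,3,4,5],[0,1,2,3,4],[0,1,2,3,4,5]],Ref.mk 1101 419 [0,1,2,3] [[0,1,2,3,4,5],[0,1,2,3,4,5],[0,1,2,3,4],[0,1,2,3,4,5]],Ref.mk 1182 423 [0,1,2,3] [[0,1,2,3,4,5],[0,1,2,3,4,5],[0,1,2,3,4,5],[0,1,2,3,4,5]]],
Node.mk [0,820,182,1542,2448,27,976,3105,2216,2529,2937,36,2935,2939,3808] [(0,0),(0,1),(1,0),(2,0),(2,2),(3,5)] [],
Node.mk [0,820,182,1542,2448,27,976,3105,2216,2529,2937,36,2935,2939,3970,2610,3900,4458] [(0,0),(0,2),(0,3),(1,0),(1,2),(2,1)] [],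
Node.mk [0,820,182,1542,2448,27,976,3105,2216,2529,2937,36,2935,2939,3970,2610,3900] [(3,0),(3,1),(3,2),(3,3),(3,4),(3,5)] [Ref.mk 4392 424 [0,1,2,3] [[0,1,2,3,4,5],[0,1,2,3,4],[0,1,2,3,4],[0,1,2,3,4,6]],Ref.mk 4618 98 [3,1,2,0] [[0,1,3,2,6],[0,1,2,3],[0,1,3,2],[0,1,3,2]],Ref.mk 4458 426 [0,1,2,3] [[0,1,2,3,4,5],[0,1,2,3,4],[0,1,2,3,4,5],[0,1,2,3,4,5,6]]],
Node.mk [0,820,182,1542,2448,27,976,3105,2216,2529,2937,36,2935,2939,3970,2610,1795,1545] [(0,0),(0,1),(0,2),(0,4),(1,0),(1,2)] [],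
Node.mk [0,820,182,1542,2448,27,976,3105,2216,2529,2937,36,2935,2939,3970,2610,1795,2940] [(0,0),(0,1),(0,2),(0,3),(0,4),(1,2)] [Ref.mk 1544 428 [0,1,2,3] [[0,1,2,5,4,6,3],[0,1,2,3,4],[0,1,2,3,4,5],[0,1,2,3,4,5]],Ref.mk 1058 348 [0,1,2,3] [[0,1,2,3,4,5],[0,1,2,3,4],[0,1,2,3,4],[0,1,2,3,4]],Ref.mk 1545 428 [0,1,2,3] [[0,1,2,6,4,5,3],[0,1,2,3,4],[0,1,2,3,4,5],[0,1,2,3,4,5]],Ref.mk 1059 348 [0,1,2,3] [[0,1,2,3,4,6],[0,1,2,3,4],[0,1,2,3,4],[0,1,2,3,4]],Ref.mk 1546 428 [0,1,2,3] [[0,1,2,3,4,6,7],[0,1,2,3,4],[0,1,2,3,4,5],[0,1,2,3,4,5]],Ref.mk 1060 348 [0,1,2,3] [[0,1,2,3,4,7],[0,1,2,3,4],[0,1,2,3,4],[0,1,2,3,4]]],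
Node.mk [0,820,182,1542,2448,27,976,3105,2216,2529,2937,36,2935,2939,3970,2610,1795] [(0,0),(0,1),(0,2),(0,3),(0,4),(0,5)] [Ref.mk 1545 428 [0,1,2,3] [[0,1,2,3,4,5,6],[0,1,2,3,4],[0,1,2,3,4,5],[0,1,2,3,4,5]],Ref.mk 1059 348 [0,1,2,3] [[0,1,2,3,4,6],[0,1,2,3,4],[0,1,2,3,4],[0,1,2,3,4]],Ref.mk 2940 429 [0,1,2,3] [[0,1,2,3,4,5,6],[0,1,2,3,4],[0,1,2,3,4,5],[0,1,2,3,4,5]]],
Node.mk [0,820,182,1542,2448,27,976,3105,2216,2529,2937,36,2935,2939,3970,2610] [(0,0),(0,1),(0,2),(1,2),(2,1),(3,1)] [Ref.mk 3900 427 [0,1,2,3] [[0,1,2,3,4,5],[0,1,2,3,4],[0,1,2,3,4,5],[0,1,2,3,4,5]],Ref.mk 1795 430 [0,1,2,3] [[0,1,2,3,4,5],[0,1,2,3,4],[0,1,2,3,4,5],[0,1,2,3,4,5]]],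
Node.mk [0,820,182,1542,2448,27,976,3105,2216,2529,2937,36,2935,2939,3970] [(1,0),(2,0),(2,1),(2,2),(2,3),(2,4)] [Ref.mk 2610 431 [0,1,2,3] [[0,1,2,3,4,5],[0,1,2,3,4],[0,1,2,3,4,5],[0,1,2,3,4,5]]],
Node.mk [0,820,182,1542,2448,27,976,3105,2216,2529,2937,36,2935,2939,4051,3900,3732] [(0,0),(0,1),(0,2),(1,0),(1,2),(3,5)] [],
Node.mk [0,820,182,1542,2448,27,976,3105,2216,2529,2937,36,2935,2939,4051,3900,2940] [(0,0),(0,1),(0,2),(0,3),(0,4),(1,2)] [Ref.mk 3731 433 [0,1,2,3] [[0,1,2,3,4,6,5],[0,1,2,3,4],[0,1,2,3,4,5],[0,1,2,3,4,5]],Ref.mk 977 347 [0,1,2,3] [[0,1,2,3,4,5],[0,1,2,3,4],[0,1,2,3,4],[0,1,2,3,4]],Ref.mk 3732 433 [0,1,2,3] [[0,1,2,3,4,5,6],[0,1,2,3,4],[0,1,2,3,4,5],[0,1,2,3,4,5]],Ref.mk 978 347 [0,1,2,3] [[0,1,2,3,4,6],[0,1,2,3,4],[0,1,2,3,4],[0,1,2,3,4]],Ref.mk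 3733 433 [0,1,2,3] [[0,1,2,3,4,6,7],[0,1,2,3,4],[0,1,2,3,4,5],[0,1,2,3,4,5]],Ref.mk 979 347 [0,1,2,3] [[0,1,2,3,4,7],[0,1,2,3,4],[0,1,2,3,4],[0,1,2,3,4]]],
Node.mk [0,820,182,1542,2448,27,976,3105,2216,2529,2937,36,2935,2939,4051,3900] [(0,0),(0,1),(0,2),(0,3),(0,4),(0,5)] [Ref.mk 3732 433 [0,1,2,3] [[0,1,2,3,4,5,6],[0,1,2,3,4],[0,1,2,3,4,5],[0,1,2,3,4,5]],Ref.mk 978 347 [0,1,2,3] [[0,1,2,3,4,6],[0,1,2,3,4],[0,1,2,3,4],[0,1,2,3,4]],Ref.mk 2940 434 [0,1,2,3] [[0,1,2,3,4,5,6],[0,1,2,3,4],[0,1,2,3,4,5],[0,1,2,3,4,5]]],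
Node.mk [0,820,182,1542,2448,27,976,3105,2216,2529,2937,36,2935,2939,4051,1876,1545] [(0,0),(0,1),(0,2),(0,4),(1,0),(1,2)] [],
Node.mk [0,820,182,1542,2448,27,976,3105,2216,2529,2937,36,2935,2939,4051,1876,2940] [(0,0),(0,1),(0,2),(0,3),(0,4),(1,2)] [Ref.mk 1544 436 [0,1,2,3] [[0,1,2,5,4,6,3],[0,1,2,3,4],[0,1,2,3,4,5],[0,1,2,3,4,5]],Ref.mk 1139 349 [0,1,2,3] [[0,1,2,3,4,5],[0,1,2,3,4],[0,1,2,3,4,5],[0,1,2,3,4]],Ref.mk 1545 436 [0,1,2,3] [[0,1,2,6,4,5,3],[0,1,2,3,4],[0,1,2,3,4,5],[0,1,2,3,4,5]],Ref.mk 1140 349 [0,1,2,3] [[0,1,2,3,4,6],[0,1,2,3,4],[0,1,2,3,4,5],[0,1,2,3,4]],Ref.mk 1546 436 [0,1,2,3] [[0,1,2,3,4,6,7],[0,1,2,3,4],[0,1,2,3,4,5],[0,1,2,3,4,5]],Ref.mk 1141 349 [0,1,2,3] [[0,1,2,3,4,7],[0,1,2,3,4],[0,1,2,3,4,5],[0,1,2,3,4]]],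
Node.mk [0,820,182,1542,2448,27,976,3105,2216,2529,2937,36,2935,2939,4051,1876] [(0,0),(0,1),(0,2),(0,3),(0,4),(0,5)] [Ref.mk 1545 436 [0,1,2,3] [[0,1,2,3,4,5,6],[0,1,2,3,4],[0,1,2,3,4,5],[0,1,2,3,4,5]],Ref.mk 1140 349 [0,1,2,3] [[0,1,2,3,4,6],[0,1,2,3,4],[0,1,2,3,4,5],[0,1,2,3,4]],Ref.mk 2940 437 [0,1,2,3] [[0,1,2,3,4,5,6],[0,1,2,3,4],[0,1,2,3,4,5],[0,1,2,3,4,5]]],
Node.mk [0,820,182,1542,2448,27,976,3105,2216,2529,2937,36,2935,2939,4051] [(0,0),(0,1),(0,2),(1,2),(2,1),(3,1)] [Ref.mk 3900 435 [0,1,2,3] [[0,1,2,3,4,5],[0,1,2,3,4],[0,1,2,3,4,5],[0,1,2,3,4,5]],Ref.mk 1876 438 [0,1,2,3] [[0,1,2,3,4,5],[0,1,2,3,4],[0,1,2,3,4,5],[0,1,2,3,4,5]]],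
Node.mk [0,820,182,1542,2448,27,976,3105,2216,2529,2937,36,2935,2939,3900,1795,2610,825] [(0,0),(0,2),(0,3),(0,4),(1,1),(1,2)] [],
Node.mk [0,820,182,1542,2448,27,976,3105,2216,2529,2937,36,2935,2939,3900,1795,2610,2940] [(0,0),(0,1),(0,2),(0,3),(0,4),(1,2)] [Ref.mk 824 440 [0,1,2,3] [[0,5,2,3,4,6,1],[0,1,2,3,4],[0,1,2,3,4,5],[0,1,2,3,4,5]],Ref.mk 1715 352 [0,1,2,3] [[0,1,2,3,4,5],[0,1,2,3,4],[0,1,2,3,4],[0,1,2,3,4]],Ref.mk 825 440 [0,1,2,3] [[0,6,2,3,4,5,1],[0,1,2,3,4],[0,1,2,3,4,5],[0,1,2,3,4,5]],Ref.mk 1716 352 [0,1,2,3] [[0,1,2,3,4,6],[0,1,2,3,4],[0,1,2,3,4],[0,1,2,3,4]],Ref.mk 826 440 [0,1,2,3] [[0,1,2,3,4,6,7],[0,1,2,3,4],[0,1,2,3,4,5],[0,1,2,3,4,5]],Ref.mk 1717 352 [0,1,2,3] [[0,1,2,3,4,7],[0,1,2,3,4],[0,1,2,3,4],[0,1,2,3,4]]],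
Node.mk [0,820,182,1542,2448,27,976,3105,2216,2529,2937,36,2935,2939,3900,1795,2610] [(0,0),(0,1),(0,2),(0,3),(0,4),(0,5)] [Ref.mk 825 440 [0,1,2,3] [[0,1,2,3,4,5,6],[0,1,2,3,4],[0,1,2,3,4,5],[0,1,2,3,4,5]],Ref.mk 1716 352 [0,1,2,3] [[0,1,2,3,4,6],[0,1,2,3,4],[0,1,2,3,4],[0,1,2,3,4]],Ref.mk 2940 441 [0,1,2,3] [[0,1,2,3,4,5,6],[0,1,2,3,4],[0,1,2,3,4,5],[0,1,2,3,4,5]]],
Node.mk [0,820,182,1542,2448,27,976,3105,2216,2529,2937,36,2935,2939,3900,1795] [(1,1),(2,0),(2,1),(2,2),(2,3),(2,4)] [Ref.mk 2610 442 [0,1,2,3] [[0,1,2,3,4,5],[0,1,2,3,4],[0,1,2,3,4,5],[0,1,2,3,4,5]]],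
Node.mk [0,820,182,1542,2448,27,976,3105,2216,2529,2937,36,2935,2939,3900,1876,825] [(0,0),(0,2),(0,3),(0,4),(1,1),(1,2)] [],
Node.mk [0,820,182,1542,2448,27,976,3105,2216,2529,2937,36,2935,2939,3900,1876,2940] [(0,0),(0,1),(0,2),(0,3),(0,4),(1,2)] [Ref.mk 824 444 [0,1,2,3] [[0,5,2,3,4,6,1],[0,1,2,3,4],[0,1,2,3,4,5],[0,1,2,3,4,5]],Ref.mk 1715 352 [0,1,2,3] [[0,1,2,3,4,5],[0,1,2,3,4],[0,1,2,3,4],[0,1,2,3,4]],Ref.mk 825 444 [0,1,2,3] [[0,6,2,3,4,5,1],[0,1,2,3,4],[0,1,2,3,4,5],[0,1,2,3,4,5]],Ref.mk 1716 352 [0,1,2,3] [[0,1,2,3,4,6],[0,1,2,3,4],[0,1,2,3,4],[0,1,2,3,4]],Ref.mk 826 444 [0,1,2,3] [[0,1,2,3,4,6,7],[0,1,2,3,4],[0,1,2,3,4,5],[0,1,2,3,4,5]],Ref.mk 1717 352 [0,1,2,3] [[0,1,2,3,4,7],[0,1,2,3,4],[0,1,2,3,4],[0,1,2,3,4]]],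
Node.mk [0,820,182,1542,2448,27,976,3105,2216,2529,2937,36,2935,2939,3900,1876] [(0,0),(0,1),(0,2),(0,3),(0,4),(0,5)] [Ref.mk 825 444 [0,1,2,3] [[0,1,2,3,4,5,6],[0,1,2,3,4],[0,1,2,3,4,5],[0,1,2,3,4,5]],Ref.mk 1716 352 [0,1,2,3] [[0,1,2,3,4,6],[0,1,2,3,4],[0,1,2,3,4],[0,1,2,3,4]],Ref.mk 2940 445 [0,1,2,3] [[0,1,2,3,4,5,6],[0,1,2,3,4],[0,1,2,3,4,5],[0,1,2,3,4,5]]],
Node.mk [0,820,182,1542,2448,27,976,3105,2216,2529,2937,36,2935,2939,3900] [(0,0),(0,3),(2,0),(2,1),(2,2),(2,3)] [Ref.mk 3970 432 [0,1,2,3] [[0,1,2,3,4,5],[0,1,2,3,4],[0,1,2,3,4],[0,1,2,3,4,5]],Ref.mk 4051 435 [0,1,2,3] [[0,1,2,3,4,5],[0,1,2,3,4],[0,1,2,3,4,5],[0,1,2,3,4,5]],Ref.mk 1795 443 [0,1,2,3] [[0,1,2,3,4,5],[0,1,2,3,4],[0,1,2,3,4],[0,1,2,3,4,5]],Ref.mk 1876 446 [0,1,2,3] [[0,1,2,3,4,5],[0,1,2,3,4],[0,1,2,3,4,5],[0,1,2,3,4,5]]]]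

/-- nodes -/
noncomputable def c7 : List Node := [
Node.mk [0,820,182,1542,2448,27,976,3105,2216,2529,2937,36,2935,2939] [(2,1),(3,0),(3,1),(3,2),(3,3),(3,4)] [Ref.mk 3663 424 [0,1,2,3] [[0,1,2,3,4,5],[0,1,2,3,4],[0,1,2,3,4],[0,1,2,3,4,5]],Ref.mk 3646 26 [3,1,2,0] [[0,1,3,2,5],[0,1,2,3],[0,1,3,2],[0,1,3,2]],Ref.mk 3808 425 [0,1,2,3] [[0,1,2,3,4,5],[0,1,2,3,4],[0,1,2,3,4],[0,1,2,3,4,5]],Ref.mk 3889 98 [3,1,2,0] [[0,1,3,2,5],[0,1,2,3],[0,1,3,2],[0,1,3,2]],Ref.mk 3970 432 [0,1,2,3] [[0,1,2,3,4,5],[0,1,2,3,4],[0,1,2,3,4],[0,1,2,3,4,5]],Ref.mk 4051 439 [0,1,2,3] [[0,1,2,3,4,5],[0,1,2,3,4],[0,1,2,3,4,5],[0,1,2,3,4,5]],Ref.mk 3900 447 [0,1,2,3] [[0,1,2,3,4,5],[0,1,2,3,4],[0,1,2,3,4],[0,1,2,3,4,5]]],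
Node.mk [0,820,182,1542,2448,27,976,3105,2216,2529,2937,36,2935] [(0,0),(0,1),(0,2),(0,3),(0,4),(2,1)] [Ref.mk 734 26 [0,1,2,3] [[0,1,2,3,5],[0,1,2,3],[0,1,2,3],[0,1,2,3]],Ref.mk 896 98 [0,1,2,3] [[0,1,2,3,5],[0,1,2,3],[0,1,2,3],[0,1,2,3]],Ref.mk 977 347 [0,1,2,3] [[0,1,2,3,4,5],[0,1,2,3,4],[0,1,2,3,4],[0,1,2,3,4]],Ref.mk 1058 348 [0,1,2,3] [[0,1,2,3,4,5],[0,1,2,3,4],[0,1,2,3,4],[0,1,2,3,4]],Ref.mk 1139 349 [0,1,2,3] [[0,1,2,3,4,5],[0,1,2,3,4],[0,1,2,3,4,5],[0,1,2,3,4]],Ref.mk 1715 352 [0,1,2,3] [[0,1,2,3,4,5],[0,1,2,3,4],[0,1,2,3,4],[0,1,2,3,4]],Ref.mk 2939 448 [0,1,2,3] [[0,1,2,3,4,5],[0,1,2,3,4],[0,1,2,3,4],[0,1,2,3,4]]],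
Node.mk [0,820,182,1542,2448,27,976,3105,2216,2529,2937,36,2938,977] [(0,0),(0,2),(1,0),(1,2),(2,3),(3,1)] [],
Node.mk [0,820,182,1542,2448,27,976,3105,2216,2529,2937,36,2938,1058] [(0,0),(0,2),(1,0),(1,1),(1,2),(3,1)] [],
Node.mk [0,820,182,1542,2448,27,976,3105,2216,2529,2937,36,2938,1139] [(0,0),(0,2),(1,0),(1,1),(1,2),(3,1)] [],
Node.mk [0,820,182,1542,2448,27,976,3105,2216,2529,2937,36,2938,1715,1783] [(0,0),(0,2),(1,0),(1,1),(1,2),(3,2)] [],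
Node.mk [0,820,182,1542,2448,27,976,3105,2216,2529,2937,36,2938,1715,1864] [(0,0),(0,2),(1,0),(1,1),(1,2),(3,2)] [],
Node.mk [0,820,182,1542,2448,27,976,3105,2216,2529,2937,36,2938,1715] [(0,0),(1,1),(2,0),(2,1),(2,2),(2,3)] [Ref.mk 1783 453 [0,1,2,3] [[0,1,2,3,4,5],[0,1,2,3,4],[0,1,2,3,4],[0,1,2,3,4]],Ref.mk 1864 454 [0,1,2,3] [[0,1,2,3,4,5],[0,1,2,3,4],[0,1,2,3,4,5],[0,1,2,3,4]],Ref.mk 1058 451 [0,1,2,3] [[0,1,2,3,4,5],[0,1,2,3,4],[0,1,2,3,4],[0,1,2,3,4]],Ref.mk 1139 452 [0,1,2,3] [[0,1,2,3,4,5],[0,1,2,3,4],[0,1,2,3,4,5],[0,1,2,3,4]]],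
Node.mk [0,820,182,1542,2448,27,976,3105,2216,2529,2937,36,2938,2939,3663,45,2610,255] [(0,0),(0,3),(1,1),(2,0),(2,3),(3,0)] [],
Node.mk [0,820,182,1542,2448,27,976,3105,2216,2529,2937,36,2938,2939,3663,45,2610,1713,1545] [(0,0),(0,2),(1,0),(1,2),(2,1),(3,2)] [],
Node.mk [0,820,182,1542,2448,27,976,3105,2216,2529,2937,36,2938,2939,3663,45,2610,1713,825] [(0,0),(0,2),(1,1),(1,2),(2,1),(3,1)] [],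
Node.mk [0,820,182,1542,2448,27,976,3105,2216,2529,2937,36,2938,2939,3663,45,2610,1713,2940] [(0,0),(0,1),(0,2),(0,3),(0,4),(1,2)] [Ref.mk 1544 457 [0,1,2,3] [[0,1,2,3,4,6,5],[0,1,2,3,4,5],[0,1,2,3,4,5],[0,1,2,3,4,5]],Ref.mk 977 450 [0,1,2,3] [[0,1,2,3,4,5],[0,1,2,3,4],[0,1,2,3,4],[0,1,2,3,4]],Ref.mk 824 355 [0,1,2,3] [[0,5,2,3,4,6,1],[0,1,2,3,4,5],[0,1,2,3,4,5],[0,1,2,3,4,5]],Ref.mk 1715 455 [0,1,2,3] [[0,1,2,3,4,5],[0,1,2,3,4],[0,1,2,3,4],[0,1,2,3,4]],Ref.mk 1545 457 [0,1,2,3] [[0,1,2,3,4,5,6],[0,1,2,3,4,5],[0,1,2,3,4,5],[0,1,2,3,4,5]],Ref.mk 978 450 [0,1,2,3] [[0,1,2,3,4,6],[0,1,2,3,4],[0,1,2,3,4],[0,1,2,3,4]],Ref.mk 825 355 [0,1,2,3] [[0,6,2,3,4,5,1],[0,1,2,3,4,5],[0,1,2,3,4,5],[0,1,2,3,4,5]],Ref.mk 1716 455 [0,1,2,3] [[0,1,2,3,4,6],[0,1,2,3,4],[0,1,2,3,4],[0,1,2,3,4]],Ref.mk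 1546 457 [0,1,2,3] [[0,1,2,3,4,6,7],[0,1,2,3,4,5],[0,1,2,3,4,5],[0,1,2,3,4,5]],Ref.mk 979 450 [0,1,2,3] [[0,1,2,3,4,7],[0,1,2,3,4],[0,1,2,3,4],[0,1,2,3,4]],Ref.mk 826 458 [0,1,2,3] [[0,1,2,3,4,6,7],[0,1,2,3,4,5],[0,1,2,3,4,5],[0,1,2,3,4,5]],Ref.mk 1717 455 [0,1,2,3] [[0,1,2,3,4,7],[0,1,2,3,4],[0,1,2,3,4],[0,1,2,3,4]]],
Node.mk [0,820,182,1542,2448,27,976,3105,2216,2529,2937,36,2938,2939,3663,45,2610,1713] [(0,0),(0,1),(0,2),(0,3),(0,4),(0,5)] [Ref.mk 1545 457 [0,1,2,3] [[0,1,2,3,4,5,6],[0,1,2,3,4,5],[0,1,2,3,4,5],[0,1,2,3,4,5]],Ref.mk 978 450 [0,1,2,3] [[0,1,2,3,4,6],[0,1,2,3,4],[0,1,2,3,4],[0,1,2,3,4]],Ref.mk 825 458 [0,1,2,3] [[0,1,2,3,4,5,6],[0,1,2,3,4,5],[0,1,2,3,4,5],[0,1,2,3,4,5]],Ref.mk 1716 455 [0,1,2,3] [[0,1,2,3,4,6],[0,1,2,3,4],[0,1,2,3,4],[0,1,2,3,4]],Ref.mk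 2940 459 [0,1,2,3] [[0,1,2,3,4,5,6],[0,1,2,3,4,5],[0,1,2,3,4,5],[0,1,2,3,4,5]]],
Node.mk [0,820,182,1542,2448,27,976,3105,2216,2529,2937,36,2938,2939,3663,45,2610,2442] [(0,0),(0,3),(1,1),(1,2),(2,3),(3,3)] [],
Node.mk [0,820,182,1542,2448,27,976,3105,2216,2529,2937,36,2938,2939,3663,45,2610,3171] [(0,0),(0,2),(0,3),(1,1),(2,3),(3,4)] [],
Node.mk [0,820,182,1542,2448,27,976,3105,2216,2529,2937,36,2938,2939,3663,45,2610,3900,3732] [(0,0),(0,2),(0,3),(1,0),(1,2),(2,1)] [Ref.mk 1716 455 [0,1,2,3] [[0,1,2,3,4,6],[0,1,2,3,4],[0,1,2,3,4],[0,1,2,3,4]]],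
Node.mk [0,820,182,1542,2448,27,976,3105,2216,2529,2937,36,2938,2939,3663,45,2610,3900,825] [(0,0),(0,2),(1,1),(1,2),(2,1),(3,1)] [],
Node.mk [0,820,182,1542,2448,27,976,3105,2216,2529,2937,36,2938,2939,3663,45,2610,3900,2940] [(0,0),(0,1),(0,2),(0,3),(0,4),(1,2)] [Ref.mk 3731 463 [0,1,2,3] [[0,1,2,3,4,6,5],[0,1,2,3,4,5],[0,1,2,3,4,5],[0,1,2,3,4,5]],Ref.mk 977 450 [0,1,2,3] [[0,1,2,3,4,5],[0,1,2,3,4],[0,1,2,3,4],[0,1,2,3,4]],Ref.mk 824 361 [0,1,2,3] [[0,5,2,3,4,6,1],[0,1,2,3,4,5],[0,1,2,3,4,5],[0,1,2,3,4,5]],Ref.mk 1715 455 [0,1,2,3] [[0,1,2,3,4,5],[0,1,2,3,4],[0,1,2,3,4],[0,1,2,3,4]],Ref.mk 3732 463 [0,1,2,3] [[0,1,2,3,4,5,6],[0,1,2,3,4,5],[0,1,2,3,4,5],[0,1,2,3,4,5]],Ref.mk 978 450 [0,1,2,3] [[0,1,2,3,4,6],[0,1,2,3,4],[0,1,2,3,4],[0,1,2,3,4]],Ref.mk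 825 361 [0,1,2,3] [[0,6,2,3,4,5,1],[0,1,2,3,4,5],[0,1,2,3,4,5],[0,1,2,3,4,5]],Ref.mk 1716 455 [0,1,2,3] [[0,1,2,3,4,6],[0,1,2,3,4],[0,1,2,3,4],[0,1,2,3,4]],Ref.mk 3733 463 [0,1,2,3] [[0,1,2,3,4,6,7],[0,1,2,3,4,5],[0,1,2,3,4,5],[0,1,2,3,4,5]],Ref.mk 979 450 [0,1,2,3] [[0,1,2,3,4,7],[0,1,2,3,4],[0,1,2,3,4],[0,1,2,3,4]],Ref.mk 826 464 [0,1,2,3] [[0,1,2,3,4,6,7],[0,1,2,3,4,5],[0,1,2,3,4,5],[0,1,2,3,4,5]],Ref.mk 1717 455 [0,1,2,3] [[0,1,2,3,4,7],[0,1,2,3,4],[0,1,2,3,4],[0,1,2,3,4]]],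
Node.mk [0,820,182,1542,2448,27,976,3105,2216,2529,2937,36,2938,2939,3663,45,2610,3900] [(0,0),(0,1),(0,2),(0,3),(0,4),(0,5)] [Ref.mk 3732 463 [0,1,2,3] [[0,1,2,3,4,5,6],[0,1,2,3,4,5],[0,1,2,3,4,5],[0,1,2,3,4,5]],Ref.mk 978 450 [0,1,2,3] [[0,1,2,3,4,6],[0,1,2,3,4],[0,1,2,3,4],[0,1,2,3,4]],Ref.mk 825 464 [0,1,2,3] [[0,1,2,3,4,5,6],[0,1,2,3,4,5],[0,1,2,3,4,5],[0,1,2,3,4,5]],Ref.mk 1716 455 [0,1,2,3] [[0,1,2,3,4,6],[0,1,2,3,4],[0,1,2,3,4],[0,1,2,3,4]],Ref.mk 2940 465 [0,1,2,3] [[0,1,2,3,4,5,6],[0,1,2,3,4,5],[0,1,2,3,4,5],[0,1,2,3,4,5]]],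
Node.mk [0,820,182,1542,2448,27,976,3105,2216,2529,2937,36,2938,2939,3663,45,2610,4629,4461] [(0,0),(0,2),(0,3),(1,0),(1,2),(2,1)] [Ref.mk 1716 455 [0,1,2,3] [[0,1,2,3,4,6],[0,1,2,3,4],[0,1,2,3,4],[0,1,2,3,4]]],
Node.mk [0,820,182,1542,2448,27,976,3105,2216,2529,2937,36,2938,2939,3663,45,2610,4629,825] [(0,0),(0,2),(1,1),(1,2),(2,1),(3,1)] [],
Node.mk [0,820,182,1542,2448,27,976,3105,2216,2529,2937,36,2938,2939,3663,45,2610,4629,2940] [(0,0),(0,1),(0,2),(0,3),(0,4),(1,2)] [Ref.mk 4460 467 [0,1,2,3] [[0,1,2,3,4,6,5],[0,1,2,3,4,5],[0,1,2,3,4,5],[0,1,2,3,4,5,6]],Ref.mk 977 450 [0,1,2,3] [[0,1,2,3,4,5],[0,1,2,3,4],[0,1,2,3,4],[0,1,2,3,4]],Ref.mk 824 365 [0,1,2,3] [[0,5,2,3,4,6,1],[0,1,2,3,4,5],[0,1,2,3,4,5],[0,1,2,3,4,5,6]],Ref.mk 1715 455 [0,1,2,3]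 [[0,1,2,3,4,5],[0,1,2,3,4],[0,1,2,3,4],[0,1,2,3,4]],Ref.mk 4461 467 [0,1,2,3] [[0,1,2,3,4,5,6],[0,1,2,3,4,5],[0,1,2,3,4,5],[0,1,2,3,4,5,6]],Ref.mk 978 450 [0,1,2,3] [[0,1,2,3,4,6],[0,1,2,3,4],[0,1,2,3,4],[0,1,2,3,4]],Ref.mk 825 365 [0,1,2,3] [[0,6,2,3,4,5,1],[0,1,2,3,4,5],[0,1,2,3,4,5],[0,1,2,3,4,5,6]],Ref.mk 1716 455 [0,1,2,3] [[0,1,2,3,4,6],[0,1,2,3,4],[0,1,2,3,4],[0,1,2,3,4]],Ref.mk 4462 467 [0,1,2,3] [[0,1,2,3,4,6,7],[0,1,2,3,4,5],[0,1,2,3,4,5],[0,1,2,3,4,5,6]],Ref.mk 979 450 [0,1,2,3] [[0,1,2,3,4,7],[0,1,2,3,4],[0,1,2,3,4],[0,1,2,3,4]],Ref.mk 826 468 [0,1,2,3] [[0,1,2,3,4,6,7],[0,1,2,3,4,5],[0,1,2,3,4,5],[0,1,2,3,4,5,6]],Ref.mk 1717 455 [0,1,2,3] [[0,1,2,3,4,7],[0,1,2,3,4],[0,1,2,3,4],[0,1,2,3,4]]],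
Node.mk [0,820,182,1542,2448,27,976,3105,2216,2529,2937,36,2938,2939,3663,45,2610,4629] [(0,0),(0,1),(0,2),(0,3),(0,4),(0,5)] [Ref.mk 4461 467 [0,1,2,3] [[0,1,2,3,4,5,6],[0,1,2,3,4,5],[0,1,2,3,4,5],[0,1,2,3,4,5,6]],Ref.mk 978 450 [0,1,2,3] [[0,1,2,3,4,6],[0,1,2,3,4],[0,1,2,3,4],[0,1,2,3,4]],Ref.mk 825 468 [0,1,2,3] [[0,1,2,3,4,5,6],[0,1,2,3,4,5],[0,1,2,3,4,5],[0,1,2,3,4,5,6]],Ref.mk 1716 455 [0,1,2,3] [[0,1,2,3,4,6],[0,1,2,3,4],[0,1,2,3,4],[0,1,2,3,4]],Ref.mk 2940 469 [0,1,2,3] [[0,1,2,3,4,5,6],[0,1,2,3,4,5],[0,1,2,3,4,5],[0,1,2,3,4,5,6]]],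
Node.mk [0,820,182,1542,2448,27,976,3105,2216,2529,2937,36,2938,2939,3663,45,2610,1633] [(0,0),(0,4),(1,1),(2,0),(2,2),(3,2)] [],
Node.mk [0,820,182,1542,2448,27,976,3105,2216,2529,2937,36,2938,2939,3663,45,2610,1714,244] [(0,0),(0,1),(1,0),(2,0),(2,3),(3,0)] [],
Node.mk [0,820,182,1542,2448,27,976,3105,2216,2529,2937,36,2938,2939,3663,45,2610,1714] [(0,0),(1,2),(2,1),(3,1),(3,2),(3,3)] [Ref.mk 244 472 [0,1,2,3] [[0,1,2,3,4,5],[0,1,2,3,4,5],[0,1,2,3,4,5],[0,1,2,3,4,5]],Ref.mk 3160 98 [3,1,2,0] [[0,1,3,2,4],[0,1,2,3],[0,1,3,2],[0,1,3,2]],Ref.mk 3889 98 [3,1,2,0] [[0,1,3,2,5],[0,1,2,3],[0,1,3,2],[0,1,3,2]],Ref.mk 4618 98 [3,1,2,0] [[0,1,3,2,6],[0,1,2,3],[0,1,3,2],[0,1,3,2]],Ref.mk 255 456 [0,1,2,3] [[0,1,2,3,4,5],[0,1,2,3,4,5],[0,1,2,3,4,5],[0,1,2,3,4,5]],Ref.mk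 3171 462 [0,1,2,3] [[0,1,2,3,4,5],[0,1,2,3,4,5],[0,1,2,3,4,5],[0,1,2,3,4,5]],Ref.mk 3900 466 [0,1,2,3] [[0,1,2,3,4,5],[0,1,2,3,4,5],[0,1,2,3,4,5],[0,1,2,3,4,5]],Ref.mk 4629 470 [0,1,2,3] [[0,1,2,3,4,5],[0,1,2,3,4,5],[0,1,2,3,4,5],[0,1,2,3,4,5,6]]],
Node.mk [0,820,182,1542,2448,27,976,3105,2216,2529,2937,36,2938,2939,3663,45,2610,1957,1545] [(0,0),(0,2),(1,0),(1,2),(2,1),(3,2)] [],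
Node.mk [0,820,182,1542,2448,27,976,3105,2216,2529,2937,36,2938,2939,3663,45,2610,1957,825] [(0,0),(0,2),(1,1),(1,2),(2,1),(3,1)] [],
Node.mk [0,820,182,1542,2448,27,976,3105,2216,2529,2937,36,2938,2939,3663,45,2610,1957,2940] [(0,0),(0,1),(0,2),(0,3),(0,4),(1,2)] [Ref.mk 1544 474 [0,1,2,3] [[0,1,2,5,4,6,3],[0,1,2,3,4,5],[0,1,2,3,4,5,6],[0,1,2,3,4,5]],Ref.mk 1220 452 [0,1,2,3] [[0,1,2,3,4,5],[0,1,2,3,4],[0,1,2,3,4,6],[0,1,2,3,4]],Ref.mk 824 376 [0,1,2,3] [[0,5,2,3,4,6,1],[0,1,2,3,4,5],[0,1,2,3,4,5,6],[0,1,2,3,4,5]],Ref.mk 1715 455 [0,1,2,3] [[0,1,2,3,4,5],[0,1,2,3,4],[0,1,2,3,4],[0,1,2,3,4]],Ref.mk 1545 474 [0,1,2,3] [[0,1,2,6,4,5,3],[0,1,2,3,4,5],[0,1,2,3,4,5,6],[0,1,2,3,4,5]],Ref.mk 1221 452 [0,1,2,3] [[0,1,2,3,4,6],[0,1,2,3,4],[0,1,2,3,4,6],[0,1,2,3,4]],Ref.mk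 825 376 [0,1,2,3] [[0,6,2,3,4,5,1],[0,1,2,3,4,5],[0,1,2,3,4,5,6],[0,1,2,3,4,5]],Ref.mk 1716 455 [0,1,2,3] [[0,1,2,3,4,6],[0,1,2,3,4],[0,1,2,3,4],[0,1,2,3,4]],Ref.mk 1546 474 [0,1,2,3] [[0,1,2,3,4,6,7],[0,1,2,3,4,5],[0,1,2,3,4,5,6],[0,1,2,3,4,5]],Ref.mk 1222 452 [0,1,2,3] [[0,1,2,3,4,7],[0,1,2,3,4],[0,1,2,3,4,6],[0,1,2,3,4]],Ref.mk 826 475 [0,1,2,3] [[0,1,2,3,4,6,7],[0,1,2,3,4,5],[0,1,2,3,4,5,6],[0,1,2,3,4,5]],Ref.mk 1717 455 [0,1,2,3] [[0,1,2,3,4,7],[0,1,2,3,4],[0,1,2,3,4],[0,1,2,3,4]]],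
Node.mk [0,820,182,1542,2448,27,976,3105,2216,2529,2937,36,2938,2939,3663,45,2610,1957] [(0,0),(0,1),(0,2),(0,3),(0,4),(0,5)] [Ref.mk 1545 474 [0,1,2,3] [[0,1,2,3,4,5,6],[0,1,2,3,4,5],[0,1,2,3,4,5,6],[0,1,2,3,4,5]],Ref.mk 1221 452 [0,1,2,3] [[0,1,2,3,4,6],[0,1,2,3,4],[0,1,2,3,4,6],[0,1,2,3,4]],Ref.mk 825 475 [0,1,2,3] [[0,1,2,3,4,5,6],[0,1,2,3,4,5],[0,1,2,3,4,5,6],[0,1,2,3,4,5]],Ref.mk 1716 455 [0,1,2,3] [[0,1,2,3,4,6],[0,1,2,3,4],[0,1,2,3,4],[0,1,2,3,4]],Ref.mk 2940 476 [0,1,2,3] [[0,1,2,3,4,5,6],[0,1,2,3,4,5],[0,1,2,3,4,5,6],[0,1,2,3,4,5]]],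
Node.mk [0,820,182,1542,2448,27,976,3105,2216,2529,2937,36,2938,2939,3663,45,2610] [(0,0),(0,1),(0,2),(2,0),(2,1),(3,1)] [Ref.mk 255 456 [0,1,2,3] [[0,1,2,3,4,5],[0,1,2,3,4,5],[0,1,2,3,4,5],[0,1,2,3,4,5]],Ref.mk 1713 460 [0,1,2,3] [[0,1,2,3,4,5],[0,1,2,3,4,5],[0,1,2,3,4,5],[0,1,2,3,4,5]],Ref.mk 2442 461 [0,1,2,3] [[0,1,2,3,4,5],[0,1,2,3,4,5],[0,1,2,3,4,5],[0,1,2,3,4,5]],Ref.mk 3171 462 [0,1,2,3] [[0,1,2,3,4,5],[0,1,2,3,4,5],[0,1,2,3,4,5],[0,1,2,3,4,5]],Ref.mk 3900 466 [0,1,2,3] [[0,1,2,3,4,5],[0,1,2,3,4,5],[0,1,2,3,4,5],[0,1,2,3,4,5]],Ref.mk 4629 470 [0,1,2,3] [[0,1,2,3,4,5],[0,1,2,3,4,5],[0,1,2,3,4,5],[0,1,2,3,4,5,6]],Ref.mk 1633 471 [0,1,2,3] [[0,1,2,3,4,5],[0,1,2,3,4,5],[0,1,2,3,4,5],[0,1,2,3,4,5]],Ref.mk 1714 473 [0,1,2,3] [[0,1,2,3,4,5],[0,1,2,3,4,5],[0,1,2,3,4,5],[0,1,2,3,4,5]],Ref.mk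 1795 404 [2,1,0,3] [[0,4,2,3,1,5],[0,1,2,3,4,5],[0,4,2,3,5,1],[0,2,1,4,3,5]],Ref.mk 1876 404 [2,1,0,3] [[0,5,2,3,1,4],[0,1,2,3,4,5],[0,4,2,3,5,1],[0,2,1,4,3,5]],Ref.mk 1957 477 [0,1,2,3] [[0,1,2,3,4,5],[0,1,2,3,4,5],[0,1,2,3,4,5,6],[0,1,2,3,4,5]],Ref.mk 1715 455 [0,1,2,3] [[0,1,2,3,4,5],[0,1,2,3,4],[0,1,2,3,4],[0,1,2,3,4]],Ref.mk 1716 455 [0,1,2,3] [[0,1,2,3,4,6],[0,1,2,3,4],[0,1,2,3,4],[0,1,2,3,4]]],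
Node.mk [0,820,182,1542,2448,27,976,3105,2216,2529,2937,36,2938,2939,3663,45,1146] [(0,0),(0,2),(1,0),(1,1),(1,2),(3,1)] [],
Node.mk [0,820,182,1542,2448,27,976,3105,2216,2529,2937,36,2938,2939,3663,45,1155] [(0,0),(0,3),(1,2),(1,3),(2,5),(3,1)] [Ref.mk 2917 26 [3,1,2,0] [[0,1,3,2,4],[0,1,2,3],[0,1,3,2],[0,1,3,2]]],
Node.mk [0,820,182,1542,2448,27,976,3105,2216,2529,2937,36,2938,2939,3663,45,1164] [(0,0),(0,3),(1,2),(1,3),(2,5),(3,1)] [],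
Node.mk [0,820,182,1542,2448,27,976,3105,2216,2529,2937,36,2938,2939,3663,45,1173,1738,2940,1216] [(0,0),(0,1),(0,2),(0,3),(1,2),(3,1)] [],
Node.mk [0,820,182,1542,2448,27,976,3105,2216,2529,2937,36,2938,2939,3663,45,1173,1738,2940,1254] [(0,0),(0,2),(0,3),(1,2),(1,4),(3,1)] [],
Node.mk [0,820,182,1542,2448,27,976,3105,2216,2529,2937,36,2938,2939,3663,45,1173,1738,2940] [(2,0),(2,1),(2,2),(2,3),(2,4),(2,5)] [Ref.mk 2691 478 [0,1,2,3] [[0,1,2,3,4,5],[0,1,2,3,4,5],[0,1,2,3,4,6],[0,1,2,3,4,5]],Ref.mk 1216 482 [0,1,2,3] [[0,1,2,3,4,5,6],[0,1,2,3,4,5],[0,1,2,3,4,5,6],[0,1,2,3,4,5]],Ref.mk 1254 483 [0,1,2,3] [[0,1,2,3,4,5,6],[0,1,2,3,4,5],[0,1,2,3,4,5,6],[0,1,2,3,4,5]]],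
Node.mk [0,820,182,1542,2448,27,976,3105,2216,2529,2937,36,2938,2939,3663,45,1173,1738,852] [(0,0),(0,1),(0,2),(1,2),(2,1),(3,1)] [],
Node.mk [0,820,182,1542,2448,27,976,3105,2216,2529,2937,36,2938,2939,3663,45,1173,1738] [(0,0),(0,1),(0,2),(0,3),(0,4),(0,5)] [Ref.mk 978 450 [0,1,2,3] [[0,1,2,3,4,6],[0,1,2,3,4],[0,1,2,3,4],[0,1,2,3,4]],Ref.mk 2940 484 [0,1,2,3] [[0,1,2,3,4,5,6],[0,1,2,3,4,5],[0,1,2,3,4,5],[0,1,2,3,4,5]],Ref.mk 852 485 [0,1,2,3] [[0,1,2,3,4,5,6],[0,1,2,3,4,5],[0,1,2,3,4,5],[0,1,2,3,4,5]]],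
Node.mk [0,820,182,1542,2448,27,976,3105,2216,2529,2937,36,2938,2939,3663,45,1173,1876,825] [(0,0),(0,2),(0,3),(0,4),(1,2),(3,1)] [],
Node.mk [0,820,182,1542,2448,27,976,3105,2216,2529,2937,36,2938,2939,3663,45,1173,1876,2940] [(0,0),(0,1),(0,2),(0,3),(0,4),(1,2)] [Ref.mk 1139 452 [0,1,2,3] [[0,1,2,3,4,5],[0,1,2,3,4],[0,1,2,3,4,5],[0,1,2,3,4]],Ref.mk 824 388 [0,1,2,3] [[0,5,2,3,4,6,1],[0,1,2,3,4,5],[0,1,2,3,4,5],[0,1,2,3,4,5]],Ref.mk 1140 452 [0,1,2,3] [[0,1,2,3,4,6],[0,1,2,3,4],[0,1,2,3,4,5],[0,1,2,3,4]],Ref.mk 825 388 [0,1,2,3] [[0,6,2,3,4,5,1],[0,1,2,3,4,5],[0,1,2,3,4,5],[0,1,2,3,4,5]],Ref.mk 1141 452 [0,1,2,3] [[0,1,2,3,4,7],[0,1,2,3,4],[0,1,2,3,4,5],[0,1,2,3,4]],Ref.mk 826 487 [0,1,2,3] [[0,1,2,3,4,6,7],[0,1,2,3,4,5],[0,1,2,3,4,5],[0,1,2,3,4,5]]],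
Node.mk [0,820,182,1542,2448,27,976,3105,2216,2529,2937,36,2938,2939,3663,45,1173,1876] [(0,0),(0,1),(0,2),(0,3),(0,4),(0,5)] [Ref.mk 1140 452 [0,1,2,3] [[0,1,2,3,4,6],[0,1,2,3,4],[0,1,2,3,4,5],[0,1,2,3,4]],Ref.mk 825 487 [0,1,2,3] [[0,1,2,3,4,5,6],[0,1,2,3,4,5],[0,1,2,3,4,5],[0,1,2,3,4,5]],Ref.mk 2940 488 [0,1,2,3] [[0,1,2,3,4,5,6],[0,1,2,3,4,5],[0,1,2,3,4,5],[0,1,2,3,4,5]]],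
Node.mk [0,820,182,1542,2448,27,976,3105,2216,2529,2937,36,2938,2939,3663,45,1173] [(0,0),(0,2),(0,3),(1,0),(1,2),(2,1)] [Ref.mk 1738 486 [0,1,2,3] [[0,1,2,3,4,5],[0,1,2,3,4,5],[0,1,2,3,4,5],[0,1,2,3,4,5]],Ref.mk 1876 489 [0,1,2,3] [[0,1,2,3,4,5],[0,1,2,3,4,5],[0,1,2,3,4,5],[0,1,2,3,4,5]]],
Node.mk [0,820,182,1542,2448,27,976,3105,2216,2529,2937,36,2938,2939,3663,45,1191,1756,2940,1216] [(0,0),(0,1),(0,2),(0,3),(1,2),(3,1)] [],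
Node.mk [0,820,182,1542,2448,27,976,3105,2216,2529,2937,36,2938,2939,3663,45,1191,1756,2940,1272] [(0,0),(0,2),(0,3),(1,2),(1,6),(3,1)] [],
Node.mk [0,820,182,1542,2448,27,976,3105,2216,2529,2937,36,2938,2939,3663,45,1191,1756,2940] [(2,0),(2,1),(2,2),(2,3),(2,4),(2,5)] [Ref.mk 2691 478 [0,1,2,3] [[0,1,2,3,4,5],[0,1,2,3,4,5],[0,1,2,3,4,6],[0,1,2,3,4,5]],Ref.mk 1216 491 [0,1,2,3] [[0,1,2,3,4,5,6],[0,1,2,3,4,5,6],[0,1,2,3,4,5,6],[0,1,2,3,4,5]],Ref.mk 1272 492 [0,1,2,3] [[0,1,2,3,4,5,6],[0,1,2,3,4,5,6],[0,1,2,3,4,5,6],[0,1,2,3,4,5]]],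
Node.mk [0,820,182,1542,2448,27,976,3105,2216,2529,2937,36,2938,2939,3663,45,1191,1756,870] [(0,0),(0,1),(0,2),(1,2),(2,1),(3,1)] [],
Node.mk [0,820,182,1542,2448,27,976,3105,2216,2529,2937,36,2938,2939,3663,45,1191,1756] [(0,0),(0,1),(0,2),(0,3),(0,4),(0,5)] [Ref.mk 978 450 [0,1,2,3] [[0,1,2,3,4,6],[0,1,2,3,4],[0,1,2,3,4],[0,1,2,3,4]],Ref.mk 2940 493 [0,1,2,3] [[0,1,2,3,4,5,6],[0,1,2,3,4,5,6],[0,1,2,3,4,5],[0,1,2,3,4,5]],Ref.mk 870 494 [0,1,2,3] [[0,1,2,3,4,5,6],[0,1,2,3,4,5,6],[0,1,2,3,4,5],[0,1,2,3,4,5]]],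
Node.mk [0,820,182,1542,2448,27,976,3105,2216,2529,2937,36,2938,2939,3663,45,1191,1876,825] [(0,0),(0,2),(0,3),(0,4),(1,2),(3,1)] [],
Node.mk [0,820,182,1542,2448,27,976,3105,2216,2529,2937,36,2938,2939,3663,45,1191,1876,2940] [(0,0),(0,1),(0,2),(0,3),(0,4),(1,2)] [Ref.mk 1139 452 [0,1,2,3] [[0,1,2,3,4,5],[0,1,2,3,4],[0,1,2,3,4,5],[0,1,2,3,4]],Ref.mk 824 397 [0,1,2,3] [[0,5,2,3,4,6,1],[0,1,2,3,4,5,6],[0,1,2,3,4,5],[0,1,2,3,4,5]],Ref.mk 1140 452 [0,1,2,3] [[0,1,2,3,4,6],[0,1,2,3,4],[0,1,2,3,4,5],[0,1,2,3,4]],Ref.mk 825 397 [0,1,2,3] [[0,6,2,3,4,5,1],[0,1,2,3,4,5,6],[0,1,2,3,4,5],[0,1,2,3,4,5]],Ref.mk 1141 452 [0,1,2,3] [[0,1,2,3,4,7],[0,1,2,3,4],[0,1,2,3,4,5],[0,1,2,3,4]],Ref.mk 826 496 [0,1,2,3] [[0,1,2,3,4,6,7],[0,1,2,3,4,5,6],[0,1,2,3,4,5],[0,1,2,3,4,5]]],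
Node.mk [0,820,182,1542,2448,27,976,3105,2216,2529,2937,36,2938,2939,3663,45,1191,1876] [(0,0),(0,1),(0,2),(0,3),(0,4),(0,5)] [Ref.mk 1140 452 [0,1,2,3] [[0,1,2,3,4,6],[0,1,2,3,4],[0,1,2,3,4,5],[0,1,2,3,4]],Ref.mk 825 496 [0,1,2,3] [[0,1,2,3,4,5,6],[0,1,2,3,4,5,6],[0,1,2,3,4,5],[0,1,2,3,4,5]],Ref.mk 2940 497 [0,1,2,3] [[0,1,2,3,4,5,6],[0,1,2,3,4,5,6],[0,1,2,3,4,5],[0,1,2,3,4,5]]],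
Node.mk [0,820,182,1542,2448,27,976,3105,2216,2529,2937,36,2938,2939,3663,45,1191] [(0,0),(0,2),(0,3),(1,0),(1,2),(2,1)] [Ref.mk 1756 495 [0,1,2,3] [[0,1,2,3,4,5],[0,1,2,3,4,5,6],[0,1,2,3,4,5],[0,1,2,3,4,5]],Ref.mk 1876 498 [0,1,2,3] [[0,1,2,3,4,5],[0,1,2,3,4,5,6],[0,1,2,3,4,5],[0,1,2,3,4,5]]],
Node.mk [0,820,182,1542,2448,27,976,3105,2216,2529,2937,36,2938,2939,3663,45,1876,1545] [(0,0),(0,2),(1,0),(1,2),(2,1),(3,2)] [],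
Node.mk [0,820,182,1542,2448,27,976,3105,2216,2529,2937,36,2938,2939,3663,45,1876,825] [(0,0),(0,2),(1,1),(1,2),(2,1),(3,1)] [],
Node.mk [0,820,182,1542,2448,27,976,3105,2216,2529,2937,36,2938,2939,3663,45,1876,2940] [(0,0),(0,1),(0,2),(0,3),(0,4),(1,2)] [Ref.mk 1544 500 [0,1,2,3] [[0,1,2,5,4,6,3],[0,1,2,3,4,5],[0,1,2,3,4,5],[0,1,2,3,4,5]],Ref.mk 1139 452 [0,1,2,3] [[0,1,2,3,4,5],[0,1,2,3,4],[0,1,2,3,4,5],[0,1,2,3,4]],Ref.mk 824 402 [0,1,2,3] [[0,5,2,3,4,6,1],[0,1,2,3,4,5],[0,1,2,3,4,5],[0,1,2,3,4,5]],Ref.mk 1715 455 [0,1,2,3] [[0,1,2,3,4,5],[0,1,2,3,4],[0,1,2,3,4],[0,1,2,3,4]],Ref.mk 1545 500 [0,1,2,3] [[0,1,2,6,4,5,3],[0,1,2,3,4,5],[0,1,2,3,4,5],[0,1,2,3,4,5]],Ref.mk 1140 452 [0,1,2,3] [[0,1,2,3,4,6],[0,1,2,3,4],[0,1,2,3,4,5],[0,1,2,3,4]],Ref.mk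 825 402 [0,1,2,3] [[0,6,2,3,4,5,1],[0,1,2,3,4,5],[0,1,2,3,4,5],[0,1,2,3,4,5]],Ref.mk 1716 455 [0,1,2,3] [[0,1,2,3,4,6],[0,1,2,3,4],[0,1,2,3,4],[0,1,2,3,4]],Ref.mk 1546 500 [0,1,2,3] [[0,1,2,3,4,6,7],[0,1,2,3,4,5],[0,1,2,3,4,5],[0,1,2,3,4,5]],Ref.mk 1141 452 [0,1,2,3] [[0,1,2,3,4,7],[0,1,2,3,4],[0,1,2,3,4,5],[0,1,2,3,4]],Ref.mk 826 501 [0,1,2,3] [[0,1,2,3,4,6,7],[0,1,2,3,4,5],[0,1,2,3,4,5],[0,1,2,3,4,5]],Ref.mk 1717 455 [0,1,2,3] [[0,1,2,3,4,7],[0,1,2,3,4],[0,1,2,3,4],[0,1,2,3,4]]],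
Node.mk [0,820,182,1542,2448,27,976,3105,2216,2529,2937,36,2938,2939,3663,45,1876] [(0,0),(0,1),(0,2),(0,3),(0,4),(0,5)] [Ref.mk 1545 500 [0,1,2,3] [[0,1,2,3,4,5,6],[0,1,2,3,4,5],[0,1,2,3,4,5],[0,1,2,3,4,5]],Ref.mk 1140 452 [0,1,2,3] [[0,1,2,3,4,6],[0,1,2,3,4],[0,1,2,3,4,5],[0,1,2,3,4]],Ref.mk 825 501 [0,1,2,3] [[0,1,2,3,4,5,6],[0,1,2,3,4,5],[0,1,2,3,4,5],[0,1,2,3,4,5]],Ref.mk 1716 455 [0,1,2,3] [[0,1,2,3,4,6],[0,1,2,3,4],[0,1,2,3,4],[0,1,2,3,4]],Ref.mk 2940 502 [0,1,2,3] [[0,1,2,3,4,5,6],[0,1,2,3,4,5],[0,1,2,3,4,5],[0,1,2,3,4,5]]],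
Node.mk [0,820,182,1542,2448,27,976,3105,2216,2529,2937,36,2938,2939,3663,45] [(1,0),(2,0),(2,1),(2,2),(2,3),(2,4)] [Ref.mk 2610 478 [0,1,2,3] [[0,1,2,3,4,5],[0,1,2,3,4,5],[0,1,2,3,4,5],[0,1,2,3,4,5]],Ref.mk 1146 479 [0,1,2,3] [[0,1,2,3,4,5],[0,1,2,3,4,5],[0,1,2,3,4,5],[0,1,2,3,4,5]],Ref.mk 1155 480 [0,1,2,3] [[0,1,2,3,4,5],[0,1,2,3,4,5],[0,1,2,3,4,5],[0,1,2,3,4,5]],Ref.mk 1164 481 [0,1,2,3] [[0,1,2,3,4,5],[0,1,2,3,4,5],[0,1,2,3,4,5],[0,1,2,3,4,5]],Ref.mk 1173 490 [0,1,2,3] [[0,1,2,3,4,5],[0,1,2,3,4,5],[0,1,2,3,4,5],[0,1,2,3,4,5]],Ref.mk 1182 490 [0,1,2,3] [[0,1,2,3,4,5],[0,1,2,3,5,4],[0,1,2,3,4,5],[0,1,2,3,4,5]],Ref.mk 1191 499 [0,1,2,3] [[0,1,2,3,4,5],[0,1,2,3,4,5,6],[0,1,2,3,4,5],[0,1,2,3,4,5]],Ref.mk 1876 503 [0,1,2,3] [[0,1,2,3,4,5],[0,1,2,3,4,5],[0,1,2,3,4,5],[0,1,2,3,4,5]]],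
Node.mk [0,820,182,1542,2448,27,976,3105,2216,2529,2937,36,2938,2939,3663,1747,1545] [(0,0),(0,2),(1,0),(1,2),(2,1),(3,2)] [],
Node.mk [0,820,182,1542,2448,27,976,3105,2216,2529,2937,36,2938,2939,3663,1747,2940,860] [(0,0),(0,1),(0,2),(1,2),(2,1),(3,1)] [Ref.mk 1715 410 [0,1,2,3] [[0,5,2,3,4,6,1],[0,5,2,3,4,1],[0,1,2,3,4],[0,1,2,3,4,5]]],
Node.mk [0,820,182,1542,2448,27,976,3105,2216,2529,2937,36,2938,2939,3663,1747,2940,862] [(0,0),(0,1),(0,2),(1,2),(2,1),(3,1)] [Ref.mk 1717 455 [0,1,2,3] [[0,1,2,3,4,7],[0,1,2,3,4],[0,1,2,3,4],[0,1,2,3,4]]],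
Node.mk [0,820,182,1542,2448,27,976,3105,2216,2529,2937,36,2938,2939,3663,1747,2940] [(0,0),(0,1),(0,2),(0,3),(0,4),(1,2)] [Ref.mk 1544 505 [0,1,2,3] [[0,1,2,5,4,6,3],[0,1,2,3,4,5],[0,1,2,3,4],[0,1,2,3,4,5]],Ref.mk 977 450 [0,1,2,3] [[0,1,2,3,4,5],[0,1,2,3,4],[0,1,2,3,4],[0,1,2,3,4]],Ref.mk 1715 455 [0,1,2,3] [[0,1,2,3,4,5],[0,1,2,3,4],[0,1,2,3,4],[0,1,2,3,4]],Ref.mk 860 506 [0,1,2,3] [[0,1,2,3,4,5,6],[0,1,2,3,4,5],[0,1,2,3,4],[0,1,2,3,4,5]],Ref.mk 1545 505 [0,1,2,3] [[0,1,2,6,4,5,3],[0,1,2,3,4,5],[0,1,2,3,4],[0,1,2,3,4,5]],Ref.mk 978 450 [0,1,2,3] [[0,1,2,3,4,6],[0,1,2,3,4],[0,1,2,3,4],[0,1,2,3,4]],Ref.mk 1716 455 [0,1,2,3] [[0,1,2,3,4,6],[0,1,2,3,4],[0,1,2,3,4],[0,1,2,3,4]],Ref.mk 861 506 [0,1,2,3] [[0,1,2,3,4,6,5],[0,1,2,3,4,5],[0,1,2,3,4],[0,1,2,3,4,5]],Ref.mk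 1546 505 [0,1,2,3] [[0,1,2,3,4,6,7],[0,1,2,3,4,5],[0,1,2,3,4],[0,1,2,3,4,5]],Ref.mk 979 450 [0,1,2,3] [[0,1,2,3,4,7],[0,1,2,3,4],[0,1,2,3,4],[0,1,2,3,4]],Ref.mk 1717 455 [0,1,2,3] [[0,1,2,3,4,7],[0,1,2,3,4],[0,1,2,3,4],[0,1,2,3,4]],Ref.mk 862 507 [0,1,2,3] [[0,1,2,3,4,5,6,7],[0,1,2,3,4,5],[0,1,2,3,4],[0,1,2,3,4,5]]],
Node.mk [0,820,182,1542,2448,27,976,3105,2216,2529,2937,36,2938,2939,3663,1747,861] [(0,0),(0,1),(0,2),(1,2),(2,1),(3,1)] [Ref.mk 1716 455 [0,1,2,3] [[0,1,2,3,4,6],[0,1,2,3,4],[0,1,2,3,4],[0,1,2,3,4]]],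
Node.mk [0,820,182,1542,2448,27,976,3105,2216,2529,2937,36,2938,2939,3663,1747] [(0,0),(0,1),(0,2),(0,3),(0,4),(0,5)] [Ref.mk 1545 505 [0,1,2,3] [[0,1,2,3,4,5,6],[0,1,2,3,4,5],[0,1,2,3,4],[0,1,2,3,4,5]],Ref.mk 978 450 [0,1,2,3] [[0,1,2,3,4,6],[0,1,2,3,4],[0,1,2,3,4],[0,1,2,3,4]],Ref.mk 1716 455 [0,1,2,3] [[0,1,2,3,4,6],[0,1,2,3,4],[0,1,2,3,4],[0,1,2,3,4]],Ref.mk 2940 508 [0,1,2,3] [[0,1,2,3,4,5,6],[0,1,2,3,4,5],[0,1,2,3,4],[0,1,2,3,4,5]],Ref.mk 861 509 [0,1,2,3] [[0,1,2,3,4,5,6],[0,1,2,3,4,5],[0,1,2,3,4],[0,1,2,3,4,5]]],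
Node.mk [0,820,182,1542,2448,27,976,3105,2216,2529,2937,36,2938,2939,3663,777] [(0,0),(0,2),(0,3),(1,0),(2,0),(2,1)] [Ref.mk 1747 510 [0,1,2,3] [[0,1,2,3,4,5],[0,1,2,3,4,5],[0,1,2,3,4],[0,1,2,3,4,5]]]]

end Vale.Agent.P045.R4N2
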