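import Vale.Agent.P045.Check

/-! Certificate data. -/

namespace Vale.Agent.P045.R4N2

open Vale.Agent.P045

/-- nodes -/
noncomputable def c8 : List Node := [
Node.mk [0,820,182,1542,2448,27,976,3105,2216,2529,2937,36,2938,2939,3663,939] [(0,0),(0,3),(0,4),(2,0),(2,2),(3,1)] [Ref.mk 1747 510 [0,1,2,3] [[0,1,2,3,4,5],[0,1,2,3,4,5],[0,1,2,3,4],[0,1,2,3,4,5]]],
Node.mk [0,820,182,1542,2448,27,976,3105,2216,2529,2937,36,2938,2939,3663,1020] [(0,0),(0,2),(1,2),(2,1),(2,3),(3,1)] [],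
Node.mk [0,820,182,1542,2448,27,976,3105,2216,2529,2937,36,2938,2939,3663,1101,1795,2610,825] [(0,0),(0,2),(0,3),(0,4),(1,2),(3,1)] [],
Node.mk [0,820,182,1542,2448,27,976,3105,2216,2529,2937,36,2938,2939,3663,1101,1795,2610,2940] [(0,0),(0,1),(0,2),(0,3),(0,4),(1,2)] [Ref.mk 1058 451 [0,1,2,3] [[0,1,2,3,4,5],[0,1,2,3,4],[0,1,2,3,4],[0,1,2,3,4]],Ref.mk 824 415 [0,1,2,3] [[0,5,2,3,4,6,1],[0,1,2,3,4,5],[0,1,2,3,4,5],[0,1,2,3,4,5]],Ref.mk 1059 451 [0,1,2,3] [[0,1,2,3,4,6],[0,1,2,3,4],[0,1,2,3,4],[0,1,2,3,4]],Ref.mk 825 415 [0,1,2,3] [[0,6,2,3,4,5,1],[0,1,2,3,4,5],[0,1,2,3,4,5],[0,1,2,3,4,5]],Ref.mk 1060 451 [0,1,2,3] [[0,1,2,3,4,7],[0,1,2,3,4],[0,1,2,3,4],[0,1,2,3,4]],Ref.mk 826 514 [0,1,2,3] [[0,1,2,3,4,6,7],[0,1,2,3,4,5],[0,1,2,3,4,5],[0,1,2,3,4,5]]],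
Node.mk [0,820,182,1542,2448,27,976,3105,2216,2529,2937,36,2938,2939,3663,1101,1795,2610] [(0,0),(0,1),(0,2),(0,3),(0,4),(0,5)] [Ref.mk 1059 451 [0,1,2,3] [[0,1,2,3,4,6],[0,1,2,3,4],[0,1,2,3,4],[0,1,2,3,4]],Ref.mk 825 514 [0,1,2,3] [[0,1,2,3,4,5,6],[0,1,2,3,4,5],[0,1,2,3,4,5],[0,1,2,3,4,5]],Ref.mk 2940 515 [0,1,2,3] [[0,1,2,3,4,5,6],[0,1,2,3,4,5],[0,1,2,3,4,5],[0,1,2,3,4,5]]],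
Node.mk [0,820,182,1542,2448,27,976,3105,2216,2529,2937,36,2938,2939,3663,1101,1795] [(2,0),(2,1),(2,2),(2,3),(2,4),(3,1)] [Ref.mk 2610 516 [0,1,2,3] [[0,1,2,3,4,5],[0,1,2,3,4,5],[0,1,2,3,4,5],[0,1,2,3,4,5]]],
Node.mk [0,820,182,1542,2448,27,976,3105,2216,2529,2937,36,2938,2939,3663,1101] [(0,0),(0,2),(0,3),(1,0),(1,2),(2,1)] [Ref.mk 1747 510 [0,1,2,3] [[0,1,2,3,4,5],[0,1,2,3,4,5],[0,1,2,3,4],[0,1,2,3,4,5]],Ref.mk 1795 517 [0,1,2,3] [[0,1,2,3,4,5],[0,1,2,3,4,5],[0,1,2,3,4],[0,1,2,3,4,5]]],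
Node.mk [0,820,182,1542,2448,27,976,3105,2216,2529,2937,36,2938,2939,3663,1182,1876,825] [(0,0),(0,2),(0,3),(0,4),(1,2),(3,1)] [],
Node.mk [0,820,182,1542,2448,27,976,3105,2216,2529,2937,36,2938,2939,3663,1182,1876,2940] [(0,0),(0,1),(0,2),(0,3),(0,4),(1,2)] [Ref.mk 1139 452 [0,1,2,3] [[0,1,2,3,4,5],[0,1,2,3,4],[0,1,2,3,4,5],[0,1,2,3,4]],Ref.mk 824 420 [0,1,2,3] [[0,5,2,3,4,6,1],[0,1,2,3,4,5],[0,1,2,3,4,5],[0,1,2,3,4,5]],Ref.mk 1140 452 [0,1,2,3] [[0,1,2,3,4,6],[0,1,2,3,4],[0,1,2,3,4,5],[0,1,2,3,4]],Ref.mk 825 420 [0,1,2,3] [[0,6,2,3,4,5,1],[0,1,2,3,4,5],[0,1,2,3,4,5],[0,1,2,3,4,5]],Ref.mk 1141 452 [0,1,2,3] [[0,1,2,3,4,7],[0,1,2,3,4],[0,1,2,3,4,5],[0,1,2,3,4]],Ref.mk 826 519 [0,1,2,3] [[0,1,2,3,4,6,7],[0,1,2,3,4,5],[0,1,2,3,4,5],[0,1,2,3,4,5]]],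
Node.mk [0,820,182,1542,2448,27,976,3105,2216,2529,2937,36,2938,2939,3663,1182,1876] [(0,0),(0,1),(0,2),(0,3),(0,4),(0,5)] [Ref.mk 1140 452 [0,1,2,3] [[0,1,2,3,4,6],[0,1,2,3,4],[0,1,2,3,4,5],[0,1,2,3,4]],Ref.mk 825 519 [0,1,2,3] [[0,1,2,3,4,5,6],[0,1,2,3,4,5],[0,1,2,3,4,5],[0,1,2,3,4,5]],Ref.mk 2940 520 [0,1,2,3] [[0,1,2,3,4,5,6],[0,1,2,3,4,5],[0,1,2,3,4,5],[0,1,2,3,4,5]]],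
Node.mk [0,820,182,1542,2448,27,976,3105,2216,2529,2937,36,2938,2939,3663,1182] [(0,0),(0,2),(0,3),(1,0),(1,2),(2,1)] [Ref.mk 1747 510 [0,1,2,3] [[0,1,2,3,4,5],[0,1,2,3,4,5],[0,1,2,3,4],[0,1,2,3,4,5]],Ref.mk 1876 521 [0,1,2,3] [[0,1,2,3,4,5],[0,1,2,3,4,5],[0,1,2,3,4,5],[0,1,2,3,4,5]]],
Node.mk [0,820,182,1542,2448,27,976,3105,2216,2529,2937,36,2938,2939,3663] [(1,0),(1,1),(1,2),(1,3),(1,4),(2,1)] [Ref.mk 45 504 [0,1,2,3] [[0,1,2,3,4,5],[0,1,2,3,4,5],[0,1,2,3,4],[0,1,2,3,4,5]],Ref.mk 1747 510 [0,1,2,3] [[0,1,2,3,4,5],[0,1,2,3,4,5],[0,1,2,3,4],[0,1,2,3,4,5]],Ref.mk 777 511 [0,1,2,3] [[0,1,2,3,4,5],[0,1,2,3,4,5],[0,1,2,3,4],[0,1,2,3,4,5]],Ref.mk 939 512 [0,1,2,3] [[0,1,2,3,4,5],[0,1,2,3,4,5],[0,1,2,3,4],[0,1,2,3,4,5]],Ref.mk 1020 513 [0,1,2,3]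 [[0,1,2,3,4,5],[0,1,2,3,4,5],[0,1,2,3,4],[0,1,2,3,4,5]],Ref.mk 1101 518 [0,1,2,3] [[0,1,2,3,4,5],[0,1,2,3,4,5],[0,1,2,3,4],[0,1,2,3,4,5]],Ref.mk 1182 522 [0,1,2,3] [[0,1,2,3,4,5],[0,1,2,3,4,5],[0,1,2,3,4,5],[0,1,2,3,4,5]]],
Node.mk [0,820,182,1542,2448,27,976,3105,2216,2529,2937,36,2938,2939,3808] [(0,0),(0,1),(1,0),(2,0),(2,2),(3,5)] [],
Node.mk [0,820,182,1542,2448,27,976,3105,2216,2529,2937,36,2938,2939,3970,2610] [(0,0),(0,1),(0,2),(1,2),(2,1),(3,1)] [Ref.mk 3900 438 [0,1,2,3] [[0,3,2,4,1,5],[0,1,2,3,4],[0,3,2,4,5,1],[0,5,1,3,4,2]],Ref.mk 1795 438 [2,1,0,3] [[0,4,2,3,1,5],[0,1,2,3,4],[0,4,2,3,5,1],[0,2,1,4,3,5]]],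
Node.mk [0,820,182,1542,2448,27,976,3105,2216,2529,2937,36,2938,2939,3970] [(1,0),(2,0),(2,1),(2,2),(2,3),(2,4)] [Ref.mk 2610 525 [0,1,2,3] [[0,1,2,3,4,5],[0,1,2,3,4],[0,1,2,3,4,5],[0,1,2,3,4,5]]],
Node.mk [0,820,182,1542,2448,27,976,3105,2216,2529,2937,36,2938,2939,4051,3900,3732] [(0,0),(0,1),(0,2),(1,0),(1,2),(3,5)] [],
Node.mk [0,820,182,1542,2448,27,976,3105,2216,2529,2937,36,2938,2939,4051,3900,2940] [(0,0),(0,1),(0,2),(0,3),(0,4),(1,2)] [Ref.mk 3731 527 [0,1,2,3] [[0,1,2,3,4,6,5],[0,1,2,3,4],[0,1,2,3,4,5],[0,1,2,3,4,5]],Ref.mk 977 450 [0,1,2,3] [[0,1,2,3,4,5],[0,1,2,3,4],[0,1,2,3,4],[0,1,2,3,4]],Ref.mk 3732 527 [0,1,2,3] [[0,1,2,3,4,5,6],[0,1,2,3,4],[0,1,2,3,4,5],[0,1,2,3,4,5]],Ref.mk 978 450 [0,1,2,3] [[0,1,2,3,4,6],[0,1,2,3,4],[0,1,2,3,4],[0,1,2,3,4]],Ref.mk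 3733 527 [0,1,2,3] [[0,1,2,3,4,6,7],[0,1,2,3,4],[0,1,2,3,4,5],[0,1,2,3,4,5]],Ref.mk 979 450 [0,1,2,3] [[0,1,2,3,4,7],[0,1,2,3,4],[0,1,2,3,4],[0,1,2,3,4]]],
Node.mk [0,820,182,1542,2448,27,976,3105,2216,2529,2937,36,2938,2939,4051,3900] [(0,0),(0,1),(0,2),(0,3),(0,4),(0,5)] [Ref.mk 3732 527 [0,1,2,3] [[0,1,2,3,4,5,6],[0,1,2,3,4],[0,1,2,3,4,5],[0,1,2,3,4,5]],Ref.mk 978 450 [0,1,2,3] [[0,1,2,3,4,6],[0,1,2,3,4],[0,1,2,3,4],[0,1,2,3,4]],Ref.mk 2940 528 [0,1,2,3] [[0,1,2,3,4,5,6],[0,1,2,3,4],[0,1,2,3,4,5],[0,1,2,3,4,5]]],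
Node.mk [0,820,182,1542,2448,27,976,3105,2216,2529,2937,36,2938,2939,4051,1876,1545] [(0,0),(0,1),(0,2),(0,4),(1,0),(1,2)] [],
Node.mk [0,820,182,1542,2448,27,976,3105,2216,2529,2937,36,2938,2939,4051,1876,2940] [(0,0),(0,1),(0,2),(0,3),(0,4),(1,2)] [Ref.mk 1544 530 [0,1,2,3] [[0,1,2,5,4,6,3],[0,1,2,3,4],[0,1,2,3,4,5],[0,1,2,3,4,5]],Ref.mk 1139 452 [0,1,2,3] [[0,1,2,3,4,5],[0,1,2,3,4],[0,1,2,3,4,5],[0,1,2,3,4]],Ref.mk 1545 530 [0,1,2,3] [[0,1,2,6,4,5,3],[0,1,2,3,4],[0,1,2,3,4,5],[0,1,2,3,4,5]],Ref.mk 1140 452 [0,1,2,3] [[0,1,2,3,4,6],[0,1,2,3,4],[0,1,2,3,4,5],[0,1,2,3,4]],Ref.mk 1546 530 [0,1,2,3] [[0,1,2,3,4,6,7],[0,1,2,3,4],[0,1,2,3,4,5],[0,1,2,3,4,5]],Ref.mk 1141 452 [0,1,2,3] [[0,1,2,3,4,7],[0,1,2,3,4],[0,1,2,3,4,5],[0,1,2,3,4]]],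
Node.mk [0,820,182,1542,2448,27,976,3105,2216,2529,2937,36,2938,2939,4051,1876] [(0,0),(0,1),(0,2),(0,3),(0,4),(0,5)] [Ref.mk 1545 530 [0,1,2,3] [[0,1,2,3,4,5,6],[0,1,2,3,4],[0,1,2,3,4,5],[0,1,2,3,4,5]],Ref.mk 1140 452 [0,1,2,3] [[0,1,2,3,4,6],[0,1,2,3,4],[0,1,2,3,4,5],[0,1,2,3,4]],Ref.mk 2940 531 [0,1,2,3] [[0,1,2,3,4,5,6],[0,1,2,3,4],[0,1,2,3,4,5],[0,1,2,3,4,5]]],
Node.mk [0,820,182,1542,2448,27,976,3105,2216,2529,2937,36,2938,2939,4051] [(0,0),(0,1),(0,2),(1,2),(2,1),(3,1)] [Ref.mk 3900 529 [0,1,2,3] [[0,1,2,3,4,5],[0,1,2,3,4],[0,1,2,3,4,5],[0,1,2,3,4,5]],Ref.mk 1876 532 [0,1,2,3] [[0,1,2,3,4,5],[0,1,2,3,4],[0,1,2,3,4,5],[0,1,2,3,4,5]]],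
Node.mk [0,820,182,1542,2448,27,976,3105,2216,2529,2937,36,2938,2939,3900,1795] [(1,1),(2,0),(2,1),(2,2),(2,3),(2,4)] [Ref.mk 2610 446 [2,1,0,3] [[0,4,2,3,1,5],[0,1,2,3,4],[0,4,2,3,5,1],[0,2,1,4,3,5]]],
Node.mk [0,820,182,1542,2448,27,976,3105,2216,2529,2937,36,2938,2939,3900,1876,825] [(0,0),(0,2),(0,3),(0,4),(1,1),(1,2)] [],
Node.mk [0,820,182,1542,2448,27,976,3105,2216,2529,2937,36,2938,2939,3900,1876,2940] [(0,0),(0,1),(0,2),(0,3),(0,4),(1,2)] [Ref.mk 824 444 [0,1,2,3] [[0,5,2,3,4,6,1],[0,1,2,3,4],[0,1,2,3,4,5],[0,1,2,3,4,5]],Ref.mk 1715 455 [0,1,2,3] [[0,1,2,3,4,5],[0,1,2,3,4],[0,1,2,3,4],[0,1,2,3,4]],Ref.mk 825 444 [0,1,2,3] [[0,6,2,3,4,5,1],[0,1,2,3,4],[0,1,2,3,4,5],[0,1,2,3,4,5]],Ref.mk 1716 455 [0,1,2,3] [[0,1,2,3,4,6],[0,1,2,3,4],[0,1,2,3,4],[0,1,2,3,4]],Ref.mk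 826 535 [0,1,2,3] [[0,1,2,3,4,6,7],[0,1,2,3,4],[0,1,2,3,4,5],[0,1,2,3,4,5]],Ref.mk 1717 455 [0,1,2,3] [[0,1,2,3,4,7],[0,1,2,3,4],[0,1,2,3,4],[0,1,2,3,4]]],
Node.mk [0,820,182,1542,2448,27,976,3105,2216,2529,2937,36,2938,2939,3900,1876] [(0,0),(0,1),(0,2),(0,3),(0,4),(0,5)] [Ref.mk 825 535 [0,1,2,3] [[0,1,2,3,4,5,6],[0,1,2,3,4],[0,1,2,3,4,5],[0,1,2,3,4,5]],Ref.mk 1716 455 [0,1,2,3] [[0,1,2,3,4,6],[0,1,2,3,4],[0,1,2,3,4],[0,1,2,3,4]],Ref.mk 2940 536 [0,1,2,3] [[0,1,2,3,4,5,6],[0,1,2,3,4],[0,1,2,3,4,5],[0,1,2,3,4,5]]],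
Node.mk [0,820,182,1542,2448,27,976,3105,2216,2529,2937,36,2938,2939,3900] [(0,0),(0,3),(2,0),(2,1),(2,2),(2,3)] [Ref.mk 3970 526 [0,1,2,3] [[0,1,2,3,4,5],[0,1,2,3,4],[0,1,2,3,4],[0,1,2,3,4,5]],Ref.mk 4051 529 [0,1,2,3] [[0,1,2,3,4,5],[0,1,2,3,4],[0,1,2,3,4,5],[0,1,2,3,4,5]],Ref.mk 1795 534 [0,1,2,3] [[0,1,2,3,4,5],[0,1,2,3,4],[0,1,2,3,4],[0,1,2,3,4,5]],Ref.mk 1876 537 [0,1,2,3] [[0,1,2,3,4,5],[0,1,2,3,4],[0,1,2,3,4,5],[0,1,2,3,4,5]]],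
Node.mk [0,820,182,1542,2448,27,976,3105,2216,2529,2937,36,2938,2939] [(2,1),(3,0),(3,1),(3,2),(3,3),(3,4)] [Ref.mk 3663 523 [0,1,2,3] [[0,1,2,3,4,5],[0,1,2,3,4],[0,1,2,3,4],[0,1,2,3,4,5]],Ref.mk 3646 26 [3,1,2,0] [[0,1,3,2,5],[0,1,2,3],[0,1,3,2],[0,1,3,2]],Ref.mk 3808 524 [0,1,2,3] [[0,1,2,3,4,5],[0,1,2,3,4],[0,1,2,3,4],[0,1,2,3,4,5]],Ref.mk 3889 98 [3,1,2,0] [[0,1,3,2,5],[0,1,2,3],[0,1,3,2],[0,1,3,2]],Ref.mk 3970 526 [0,1,2,3] [[0,1,2,3,4,5],[0,1,2,3,4],[0,1,2,3,4],[0,1,2,3,4,5]],Ref.mk 4051 533 [0,1,2,3] [[0,1,2,3,4,5],[0,1,2,3,4],[0,1,2,3,4,5],[0,1,2,3,4,5]],Ref.mk 3900 538 [0,1,2,3] [[0,1,2,3,4,5],[0,1,2,3,4],[0,1,2,3,4],[0,1,2,3,4,5]]],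
Node.mk [0,820,182,1542,2448,27,976,3105,2216,2529,2937,36,2938] [(0,0),(0,1),(0,2),(0,3),(0,4),(2,1)] [Ref.mk 734 26 [0,1,2,3] [[0,1,2,3,5],[0,1,2,3],[0,1,2,3],[0,1,2,3]],Ref.mk 896 98 [0,1,2,3] [[0,1,2,3,5],[0,1,2,3],[0,1,2,3],[0,1,2,3]],Ref.mk 977 450 [0,1,2,3] [[0,1,2,3,4,5],[0,1,2,3,4],[0,1,2,3,4],[0,1,2,3,4]],Ref.mk 1058 451 [0,1,2,3] [[0,1,2,3,4,5],[0,1,2,3,4],[0,1,2,3,4],[0,1,2,3,4]],Ref.mk 1139 452 [0,1,2,3] [[0,1,2,3,4,5],[0,1,2,3,4],[0,1,2,3,4,5],[0,1,2,3,4]],Ref.mk 1715 455 [0,1,2,3] [[0,1,2,3,4,5],[0,1,2,3,4],[0,1,2,3,4],[0,1,2,3,4]],Ref.mk 2939 539 [0,1,2,3] [[0,1,2,3,4,5],[0,1,2,3,4],[0,1,2,3,4],[0,1,2,3,4]]],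
Node.mk [0,820,182,1542,2448,27,976,3105,2216,2529,2937,36,2939,3663,45,2610,255] [(0,0),(0,3),(1,1),(2,0),(2,3),(3,0)] [],
Node.mk [0,820,182,1542,2448,27,976,3105,2216,2529,2937,36,2939,3663,45,2610,1713,244] [(0,0),(0,1),(1,0),(2,0),(2,3),(3,0)] [],
Node.mk [0,820,182,1542,2448,27,976,3105,2216,2529,2937,36,2939,3663,45,2610,1713,3171] [(0,0),(0,2),(0,3),(1,1),(1,2),(2,3)] [],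
Node.mk [0,820,182,1542,2448,27,976,3105,2216,2529,2937,36,2939,3663,45,2610,1713,3900] [(0,0),(0,2),(0,3),(1,1),(1,2),(2,3)] [],
Node.mk [0,820,182,1542,2448,27,976,3105,2216,2529,2937,36,2939,3663,45,2610,1713,4629] [(0,0),(0,2),(0,3),(1,1),(1,2),(2,3)] [],
Node.mk [0,820,182,1542,2448,27,976,3105,2216,2529,2937,36,2939,3663,45,2610,1713] [(0,0),(1,2),(2,1),(3,1),(3,2),(3,3)] [Ref.mk 244 542 [0,1,2,3] [[0,1,2,3,4,5],[0,1,2,3,4,5],[0,1,2,3,4,5],[0,1,2,3,4,5]],Ref.mk 3160 98 [3,1,2,0] [[0,1,3,2,4],[0,1,2,3],[0,1,3,2],[0,1,3,2]],Ref.mk 3889 98 [3,1,2,0] [[0,1,3,2,5],[0,1,2,3],[0,1,3,2],[0,1,3,2]],Ref.mk 4618 98 [3,1,2,0] [[0,1,3,2,6],[0,1,2,3],[0,1,3,2],[0,1,3,2]],Ref.mk 255 541 [0,1,2,3] [[0,1,2,3,4,5],[0,1,2,3,4,5],[0,1,2,3,4,5],[0,1,2,3,4,5]],Ref.mk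 3171 543 [0,1,2,3] [[0,1,2,3,4,5],[0,1,2,3,4,5],[0,1,2,3,4,5],[0,1,2,3,4,5]],Ref.mk 3900 544 [0,1,2,3] [[0,1,2,3,4,5],[0,1,2,3,4,5],[0,1,2,3,4,5],[0,1,2,3,4,5]],Ref.mk 4629 545 [0,1,2,3] [[0,1,2,3,4,5],[0,1,2,3,4,5],[0,1,2,3,4,5],[0,1,2,3,4,5,6]]],
Node.mk [0,820,182,1542,2448,27,976,3105,2216,2529,2937,36,2939,3663,45,2610,2442] [(0,0),(0,3),(1,1),(1,2),(2,3),(3,3)] [],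
Node.mk [0,820,182,1542,2448,27,976,3105,2216,2529,2937,36,2939,3663,45,2610,3171] [(0,0),(0,2),(0,3),(1,1),(2,3),(3,4)] [],
Node.mk [0,820,182,1542,2448,27,976,3105,2216,2529,2937,36,2939,3663,45,2610,3900,3970,4392,3732] [(0,0),(0,1),(0,2),(1,0),(1,2),(3,5)] [],
Node.mk [0,820,182,1542,2448,27,976,3105,2216,2529,2937,36,2939,3663,45,2610,3900,3970,4392,978] [(0,0),(0,1),(0,2),(0,3),(1,0),(1,2)] [],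
Node.mk [0,820,182,1542,2448,27,976,3105,2216,2529,2937,36,2939,3663,45,2610,3900,3970,4392,2940] [(0,0),(0,1),(0,2),(0,3),(0,4),(1,2)] [Ref.mk 3731 549 [0,1,2,3] [[0,1,2,3,4,6,5],[0,1,2,3,4,5],[0,1,2,3,4,5],[0,1,2,3,4,5,6]],Ref.mk 977 550 [0,1,2,3] [[0,1,2,3,4,6,5],[0,1,2,3,4,5],[0,1,2,3,4,5],[0,1,2,3,4,5,6]],Ref.mk 3732 549 [0,1,2,3] [[0,1,2,3,4,5,6],[0,1,2,3,4,5],[0,1,2,3,4,5],[0,1,2,3,4,5,6]],Ref.mk 978 550 [0,1,2,3] [[0,1,2,3,4,5,6],[0,1,2,3,4,5],[0,1,2,3,4,5],[0,1,2,3,4,5,6]],Ref.mk 3733 549 [0,1,2,3] [[0,1,2,3,4,6,7],[0,1,2,3,4,5],[0,1,2,3,4,5],[0,1,2,3,4,5,6]],Ref.mk 979 550 [0,1,2,3] [[0,1,2,3,4,6,7],[0,1,2,3,4,5],[0,1,2,3,4,5],[0,1,2,3,4,5,6]]],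
Node.mk [0,820,182,1542,2448,27,976,3105,2216,2529,2937,36,2939,3663,45,2610,3900,3970,4392] [(0,0),(0,1),(0,2),(0,3),(0,4),(0,5)] [Ref.mk 3732 549 [0,1,2,3] [[0,1,2,3,4,5,6],[0,1,2,3,4,5],[0,1,2,3,4,5],[0,1,2,3,4,5,6]],Ref.mk 978 550 [0,1,2,3] [[0,1,2,3,4,5,6],[0,1,2,3,4,5],[0,1,2,3,4,5],[0,1,2,3,4,5,6]],Ref.mk 2940 551 [0,1,2,3] [[0,1,2,3,4,5,6],[0,1,2,3,4,5],[0,1,2,3,4,5],[0,1,2,3,4,5,6]]],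
Node.mk [0,820,182,1542,2448,27,976,3105,2216,2529,2937,36,2939,3663,45,2610,3900,3970,4458] [(0,0),(0,2),(0,3),(1,0),(1,2),(2,1)] [],
Node.mk [0,820,182,1542,2448,27,976,3105,2216,2529,2937,36,2939,3663,45,2610,3900,3970] [(3,0),(3,1),(3,2),(3,3),(3,4),(3,5)] [Ref.mk 4392 552 [0,1,2,3] [[0,1,2,3,4,5],[0,1,2,3,4,5],[0,1,2,3,4,5],[0,1,2,3,4,5,6]],Ref.mk 4618 98 [3,1,2,0] [[0,1,3,2,6],[0,1,2,3],[0,1,3,2],[0,1,3,2]],Ref.mk 4458 553 [0,1,2,3] [[0,1,2,3,4,5],[0,1,2,3,4,5],[0,1,2,3,4,5],[0,1,2,3,4,5,6]]],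
Node.mk [0,820,182,1542,2448,27,976,3105,2216,2529,2937,36,2939,3663,45,2610,3900,4132,4392,3732] [(0,0),(0,1),(0,2),(1,0),(1,2),(3,5)] [],
Node.mk [0,820,182,1542,2448,27,976,3105,2216,2529,2937,36,2939,3663,45,2610,3900,4132,4392,978] [(0,0),(0,1),(0,2),(0,3),(1,0),(1,2)] [],
Node.mk [0,820,182,1542,2448,27,976,3105,2216,2529,2937,36,2939,3663,45,2610,3900,4132,4392,2940] [(0,0),(0,1),(0,2),(0,3),(0,4),(1,2)] [Ref.mk 3731 555 [0,1,2,3] [[0,1,2,3,4,6,5],[0,1,2,3,4,5],[0,1,2,3,4,5,6],[0,1,2,3,4,5,6]],Ref.mk 977 556 [0,1,2,3] [[0,1,2,3,4,6,5],[0,1,2,3,4,5],[0,1,2,3,4,5,6],[0,1,2,3,4,5,6]],Ref.mk 3732 555 [0,1,2,3] [[0,1,2,3,4,5,6],[0,1,2,3,4,5],[0,1,2,3,4,5,6],[0,1,2,3,4,5,6]],Ref.mk 978 556 [0,1,2,3] [[0,1,2,3,4,5,6],[0,1,2,3,4,5],[0,1,2,3,4,5,6],[0,1,2,3,4,5,6]],Ref.mk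 3733 555 [0,1,2,3] [[0,1,2,3,4,6,7],[0,1,2,3,4,5],[0,1,2,3,4,5,6],[0,1,2,3,4,5,6]],Ref.mk 979 556 [0,1,2,3] [[0,1,2,3,4,6,7],[0,1,2,3,4,5],[0,1,2,3,4,5,6],[0,1,2,3,4,5,6]]],
Node.mk [0,820,182,1542,2448,27,976,3105,2216,2529,2937,36,2939,3663,45,2610,3900,4132,4392] [(0,0),(0,1),(0,2),(0,3),(0,4),(0,5)] [Ref.mk 3732 555 [0,1,2,3] [[0,1,2,3,4,5,6],[0,1,2,3,4,5],[0,1,2,3,4,5,6],[0,1,2,3,4,5,6]],Ref.mk 978 556 [0,1,2,3] [[0,1,2,3,4,5,6],[0,1,2,3,4,5],[0,1,2,3,4,5,6],[0,1,2,3,4,5,6]],Ref.mk 2940 557 [0,1,2,3] [[0,1,2,3,4,5,6],[0,1,2,3,4,5],[0,1,2,3,4,5,6],[0,1,2,3,4,5,6]]],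
Node.mk [0,820,182,1542,2448,27,976,3105,2216,2529,2937,36,2939,3663,45,2610,3900,4132,4458] [(0,0),(0,2),(0,3),(1,0),(1,2),(2,1)] [],
Node.mk [0,820,182,1542,2448,27,976,3105,2216,2529,2937,36,2939,3663,45,2610,3900,4132] [(3,0),(3,1),(3,2),(3,3),(3,4),(3,5)] [Ref.mk 4392 558 [0,1,2,3] [[0,1,2,3,4,5],[0,1,2,3,4,5],[0,1,2,3,4,5,6],[0,1,2,3,4,5,6]],Ref.mk 4618 98 [3,1,2,0] [[0,1,3,2,6],[0,1,2,3],[0,1,3,2],[0,1,3,2]],Ref.mk 4458 559 [0,1,2,3] [[0,1,2,3,4,5],[0,1,2,3,4,5],[0,1,2,3,4,5,6],[0,1,2,3,4,5,6]]],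
Node.mk [0,820,182,1542,2448,27,976,3105,2216,2529,2937,36,2939,3663,45,2610,3900,1957,825] [(0,0),(0,2),(0,3),(0,4),(1,1),(1,2)] [],
Node.mk [0,820,182,1542,2448,27,976,3105,2216,2529,2937,36,2939,3663,45,2610,3900,1957,1716] [(0,0),(0,1),(0,2),(1,0),(1,1),(1,2)] [],
Node.mk [0,820,182,1542,2448,27,976,3105,2216,2529,2937,36,2939,3663,45,2610,3900,1957,2940] [(0,0),(0,1),(0,2),(0,3),(0,4),(1,2)] [Ref.mk 824 561 [0,1,2,3] [[0,1,2,3,4,6,5],[0,1,2,3,4,5],[0,1,2,3,4,5,6],[0,1,2,3,4,5]],Ref.mk 1715 562 [0,1,2,3] [[0,1,2,3,4,6,5],[0,1,2,3,4,5],[0,1,2,3,4,5,6],[0,1,2,3,4,5]],Ref.mk 825 376 [0,1,2,3] [[0,6,2,3,4,5,1],[0,1,2,3,4,5],[0,1,2,3,4,5,6],[0,1,2,3,4,5]],Ref.mk 1716 562 [0,1,2,3] [[0,1,2,3,4,5,6],[0,1,2,3,4,5],[0,1,2,3,4,5,6],[0,1,2,3,4,5]],Ref.mk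 826 561 [0,1,2,3] [[0,1,2,3,4,6,7],[0,1,2,3,4,5],[0,1,2,3,4,5,6],[0,1,2,3,4,5]],Ref.mk 1717 562 [0,1,2,3] [[0,1,2,3,4,6,7],[0,1,2,3,4,5],[0,1,2,3,4,5,6],[0,1,2,3,4,5]]],
Node.mk [0,820,182,1542,2448,27,976,3105,2216,2529,2937,36,2939,3663,45,2610,3900,1957] [(0,0),(0,1),(0,2),(0,3),(0,4),(0,5)] [Ref.mk 825 561 [0,1,2,3] [[0,1,2,3,4,5,6],[0,1,2,3,4,5],[0,1,2,3,4,5,6],[0,1,2,3,4,5]],Ref.mk 1716 562 [0,1,2,3] [[0,1,2,3,4,5,6],[0,1,2,3,4,5],[0,1,2,3,4,5,6],[0,1,2,3,4,5]],Ref.mk 2940 563 [0,1,2,3] [[0,1,2,3,4,5,6],[0,1,2,3,4,5],[0,1,2,3,4,5,6],[0,1,2,3,4,5]]],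
Node.mk [0,820,182,1542,2448,27,976,3105,2216,2529,2937,36,2939,3663,45,2610,3900] [(0,0),(0,3),(2,0),(2,1),(2,2),(2,3)] [Ref.mk 3970 554 [0,1,2,3] [[0,1,2,3,4,5],[0,1,2,3,4,5],[0,1,2,3,4,5],[0,1,2,3,4,5]],Ref.mk 4051 554 [0,1,2,3] [[0,1,2,3,4,5],[0,1,2,3,4,5],[0,1,2,3,5,4],[0,1,2,3,4,5]],Ref.mk 4132 560 [0,1,2,3] [[0,1,2,3,4,5],[0,1,2,3,4,5],[0,1,2,3,4,5,6],[0,1,2,3,4,5]],Ref.mk 1795 404 [2,1,0,3] [[0,4,2,3,1,5],[0,1,2,3,4,5],[0,4,2,3,5,1],[0,2,1,4,3,5]],Ref.mk 1876 404 [2,1,0,3] [[0,5,2,3,1,4],[0,1,2,3,4,5],[0,4,2,3,5,1],[0,2,1,4,3,5]],Ref.mk 1957 564 [0,1,2,3] [[0,1,2,3,4,5],[0,1,2,3,4,5],[0,1,2,3,4,5,6],[0,1,2,3,4,5]]],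
Node.mk [0,820,182,1542,2448,27,976,3105,2216,2529,2937,36,2939,3663,45,2610,4629,4699,4461] [(0,0),(0,1),(0,2),(1,0),(1,2),(3,6)] [],
Node.mk [0,820,182,1542,2448,27,976,3105,2216,2529,2937,36,2939,3663,45,2610,4629,4699,978] [(0,0),(0,1),(0,2),(0,3),(1,0),(1,2)] [],
Node.mk [0,820,182,1542,2448,27,976,3105,2216,2529,2937,36,2939,3663,45,2610,4629,4699,2940] [(0,0),(0,1),(0,2),(0,3),(0,4),(1,2)] [Ref.mk 4460 566 [0,1,2,3] [[0,1,2,3,4,6,5],[0,1,2,3,4,5],[0,1,2,3,4,5],[0,1,2,3,4,5,6]],Ref.mk 977 567 [0,1,2,3] [[0,1,2,3,4,6,5],[0,1,2,3,4,5],[0,1,2,3,4,5],[0,1,2,3,4,5,6]],Ref.mk 4461 566 [0,1,2,3] [[0,1,2,3,4,5,6],[0,1,2,3,4,5],[0,1,2,3,4,5],[0,1,2,3,4,5,6]],Ref.mk 978 567 [0,1,2,3] [[0,1,2,3,4,5,6],[0,1,2,3,4,5],[0,1,2,3,4,5],[0,1,2,3,4,5,6]],Ref.mk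 4462 566 [0,1,2,3] [[0,1,2,3,4,6,7],[0,1,2,3,4,5],[0,1,2,3,4,5],[0,1,2,3,4,5,6]],Ref.mk 979 567 [0,1,2,3] [[0,1,2,3,4,6,7],[0,1,2,3,4,5],[0,1,2,3,4,5],[0,1,2,3,4,5,6]]],
Node.mk [0,820,182,1542,2448,27,976,3105,2216,2529,2937,36,2939,3663,45,2610,4629,4699] [(0,0),(0,1),(0,2),(0,3),(0,4),(0,5)] [Ref.mk 4461 566 [0,1,2,3] [[0,1,2,3,4,5,6],[0,1,2,3,4,5],[0,1,2,3,4,5],[0,1,2,3,4,5,6]],Ref.mk 978 567 [0,1,2,3] [[0,1,2,3,4,5,6],[0,1,2,3,4,5],[0,1,2,3,4,5],[0,1,2,3,4,5,6]],Ref.mk 2940 568 [0,1,2,3] [[0,1,2,3,4,5,6],[0,1,2,3,4,5],[0,1,2,3,4,5],[0,1,2,3,4,5,6]]],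
Node.mk [0,820,182,1542,2448,27,976,3105,2216,2529,2937,36,2939,3663,45,2610,4629,4861,4461] [(0,0),(0,1),(0,2),(1,0),(1,2),(3,6)] [],
Node.mk [0,820,182,1542,2448,27,976,3105,2216,2529,2937,36,2939,3663,45,2610,4629,4861,978] [(0,0),(0,1),(0,2),(0,3),(1,0),(1,2)] [],
Node.mk [0,820,182,1542,2448,27,976,3105,2216,2529,2937,36,2939,3663,45,2610,4629,4861,2940] [(0,0),(0,1),(0,2),(0,3),(0,4),(1,2)] [Ref.mk 4460 570 [0,1,2,3] [[0,1,2,3,4,6,5],[0,1,2,3,4,5],[0,1,2,3,4,5,6],[0,1,2,3,4,5,6]],Ref.mk 977 571 [0,1,2,3] [[0,1,2,3,4,6,5],[0,1,2,3,4,5],[0,1,2,3,4,5,6],[0,1,2,3,4,5,6]],Ref.mk 4461 570 [0,1,2,3] [[0,1,2,3,4,5,6],[0,1,2,3,4,5],[0,1,2,3,4,5,6],[0,1,2,3,4,5,6]],Ref.mk 978 571 [0,1,2,3] [[0,1,2,3,4,5,6],[0,1,2,3,4,5],[0,1,2,3,4,5,6],[0,1,2,3,4,5,6]],Ref.mk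 4462 570 [0,1,2,3] [[0,1,2,3,4,6,7],[0,1,2,3,4,5],[0,1,2,3,4,5,6],[0,1,2,3,4,5,6]],Ref.mk 979 571 [0,1,2,3] [[0,1,2,3,4,6,7],[0,1,2,3,4,5],[0,1,2,3,4,5,6],[0,1,2,3,4,5,6]]],
Node.mk [0,820,182,1542,2448,27,976,3105,2216,2529,2937,36,2939,3663,45,2610,4629,4861] [(0,0),(0,1),(0,2),(0,3),(0,4),(0,5)] [Ref.mk 4461 570 [0,1,2,3] [[0,1,2,3,4,5,6],[0,1,2,3,4,5],[0,1,2,3,4,5,6],[0,1,2,3,4,5,6]],Ref.mk 978 571 [0,1,2,3] [[0,1,2,3,4,5,6],[0,1,2,3,4,5],[0,1,2,3,4,5,6],[0,1,2,3,4,5,6]],Ref.mk 2940 572 [0,1,2,3] [[0,1,2,3,4,5,6],[0,1,2,3,4,5],[0,1,2,3,4,5,6],[0,1,2,3,4,5,6]]],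
Node.mk [0,820,182,1542,2448,27,976,3105,2216,2529,2937,36,2939,3663,45,2610,4629,1957,825] [(0,0),(0,2),(0,3),(0,4),(1,1),(1,2)] [],
Node.mk [0,820,182,1542,2448,27,976,3105,2216,2529,2937,36,2939,3663,45,2610,4629,1957,1716] [(0,0),(0,1),(0,2),(1,0),(1,1),(1,2)] []]

/-- nodes -/
noncomputable def c9 : List Node := [
Node.mk [0,820,182,1542,2448,27,976,3105,2216,2529,2937,36,2939,3663,45,2610,4629,1957,2940] [(0,0),(0,1),(0,2),(0,3),(0,4),(1,2)] [Ref.mk 824 574 [0,1,2,3] [[0,1,2,3,4,6,5],[0,1,2,3,4,5],[0,1,2,3,4,5,6],[0,1,2,3,4,5,6]],Ref.mk 1715 575 [0,1,2,3] [[0,1,2,3,4,6,5],[0,1,2,3,4,5],[0,1,2,3,4,5,6],[0,1,2,3,4,5,6]],Ref.mk 825 376 [0,1,2,3] [[0,6,2,3,4,5,1],[0,1,2,3,4,5],[0,1,2,3,4,5,6],[0,1,2,3,4,5]],Ref.mk 1716 575 [0,1,2,3]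 [[0,1,2,3,4,5,6],[0,1,2,3,4,5],[0,1,2,3,4,5,6],[0,1,2,3,4,5,6]],Ref.mk 826 574 [0,1,2,3] [[0,1,2,3,4,6,7],[0,1,2,3,4,5],[0,1,2,3,4,5,6],[0,1,2,3,4,5,6]],Ref.mk 1717 575 [0,1,2,3] [[0,1,2,3,4,6,7],[0,1,2,3,4,5],[0,1,2,3,4,5,6],[0,1,2,3,4,5,6]]],
Node.mk [0,820,182,1542,2448,27,976,3105,2216,2529,2937,36,2939,3663,45,2610,4629,1957] [(0,0),(0,1),(0,2),(0,3),(0,4),(0,5)] [Ref.mk 825 574 [0,1,2,3] [[0,1,2,3,4,5,6],[0,1,2,3,4,5],[0,1,2,3,4,5,6],[0,1,2,3,4,5,6]],Ref.mk 1716 575 [0,1,2,3] [[0,1,2,3,4,5,6],[0,1,2,3,4,5],[0,1,2,3,4,5,6],[0,1,2,3,4,5,6]],Ref.mk 2940 576 [0,1,2,3] [[0,1,2,3,4,5,6],[0,1,2,3,4,5],[0,1,2,3,4,5,6],[0,1,2,3,4,5,6]]],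
Node.mk [0,820,182,1542,2448,27,976,3105,2216,2529,2937,36,2939,3663,45,2610,4629] [(0,0),(0,3),(2,0),(2,1),(2,2),(2,3)] [Ref.mk 4699 569 [0,1,2,3] [[0,1,2,3,4,5],[0,1,2,3,4,5],[0,1,2,3,4,5],[0,1,2,3,4,5,6]],Ref.mk 4780 569 [0,1,2,3] [[0,1,2,3,4,5],[0,1,2,3,4,5],[0,1,2,3,5,4],[0,1,2,3,4,5,6]],Ref.mk 4861 573 [0,1,2,3] [[0,1,2,3,4,5],[0,1,2,3,4,5],[0,1,2,3,4,5,6],[0,1,2,3,4,5,6]],Ref.mk 1795 404 [2,1,0,3] [[0,4,2,3,1,5],[0,1,2,3,4,5],[0,4,2,3,5,1],[0,2,1,4,3,5]],Ref.mk 1876 404 [2,1,0,3] [[0,5,2,3,1,4],[0,1,2,3,4,5],[0,4,2,3,5,1],[0,2,1,4,3,5]],Ref.mk 1957 577 [0,1,2,3] [[0,1,2,3,4,5],[0,1,2,3,4,5],[0,1,2,3,4,5,6],[0,1,2,3,4,5,6]]],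
Node.mk [0,820,182,1542,2448,27,976,3105,2216,2529,2937,36,2939,3663,45,2610,1633] [(0,0),(0,4),(1,1),(2,0),(2,2),(3,2)] [],
Node.mk [0,820,182,1542,2448,27,976,3105,2216,2529,2937,36,2939,3663,45,2610,1714,244] [(0,0),(0,1),(1,0),(2,0),(2,3),(3,0)] [],
Node.mk [0,820,182,1542,2448,27,976,3105,2216,2529,2937,36,2939,3663,45,2610,1714] [(0,0),(1,2),(2,1),(3,1),(3,2),(3,3)] [Ref.mk 244 580 [0,1,2,3] [[0,1,2,3,4,5],[0,1,2,3,4,5],[0,1,2,3,4,5],[0,1,2,3,4,5]],Ref.mk 3160 98 [3,1,2,0] [[0,1,3,2,4],[0,1,2,3],[0,1,3,2],[0,1,3,2]],Ref.mk 3889 98 [3,1,2,0] [[0,1,3,2,5],[0,1,2,3],[0,1,3,2],[0,1,3,2]],Ref.mk 4618 98 [3,1,2,0] [[0,1,3,2,6],[0,1,2,3],[0,1,3,2],[0,1,3,2]],Ref.mk 255 541 [0,1,2,3] [[0,1,2,3,4,5],[0,1,2,3,4,5],[0,1,2,3,4,5],[0,1,2,3,4,5]],Ref.mk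 3171 548 [0,1,2,3] [[0,1,2,3,4,5],[0,1,2,3,4,5],[0,1,2,3,4,5],[0,1,2,3,4,5]],Ref.mk 3900 565 [0,1,2,3] [[0,1,2,3,4,5],[0,1,2,3,4,5],[0,1,2,3,4,5],[0,1,2,3,4,5]],Ref.mk 4629 578 [0,1,2,3] [[0,1,2,3,4,5],[0,1,2,3,4,5],[0,1,2,3,4,5],[0,1,2,3,4,5,6]]],
Node.mk [0,820,182,1542,2448,27,976,3105,2216,2529,2937,36,2939,3663,45,2610,1957,487] [(0,0),(0,1),(1,0),(2,0),(2,6),(3,0)] [],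
Node.mk [0,820,182,1542,2448,27,976,3105,2216,2529,2937,36,2939,3663,45,2610,1957,2674] [(0,0),(0,1),(1,0),(1,2),(2,6),(3,3)] [],
Node.mk [0,820,182,1542,2448,27,976,3105,2216,2529,2937,36,2939,3663,45,2610,1957,4132,1545] [(0,0),(0,1),(0,2),(0,4),(1,0),(1,2)] [],
Node.mk [0,820,182,1542,2448,27,976,3105,2216,2529,2937,36,2939,3663,45,2610,1957,4132,1221] [(0,0),(0,1),(0,2),(1,0),(1,2),(2,6)] [],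
Node.mk [0,820,182,1542,2448,27,976,3105,2216,2529,2937,36,2939,3663,45,2610,1957,4132,2940] [(0,0),(0,1),(0,2),(0,3),(0,4),(1,2)] [Ref.mk 1544 584 [0,1,2,3] [[0,1,2,5,4,6,3],[0,1,2,3,4,5],[0,1,2,3,4,5,6],[0,1,2,3,4,5]],Ref.mk 1220 585 [0,1,2,3] [[0,1,2,3,4,6,5],[0,1,2,3,4,5],[0,1,2,3,4,5,6],[0,1,2,3,4,5]],Ref.mk 1545 584 [0,1,2,3] [[0,1,2,6,4,5,3],[0,1,2,3,4,5],[0,1,2,3,4,5,6],[0,1,2,3,4,5]],Ref.mk 1221 585 [0,1,2,3] [[0,1,2,3,4,5,6],[0,1,2,3,4,5],[0,1,2,3,4,5,6],[0,1,2,3,4,5]],Ref.mk 1546 584 [0,1,2,3] [[0,1,2,3,4,6,7],[0,1,2,3,4,5],[0,1,2,3,4,5,6],[0,1,2,3,4,5]],Ref.mk 1222 585 [0,1,2,3] [[0,1,2,3,4,6,7],[0,1,2,3,4,5],[0,1,2,3,4,5,6],[0,1,2,3,4,5]]],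
Node.mk [0,820,182,1542,2448,27,976,3105,2216,2529,2937,36,2939,3663,45,2610,1957,4132] [(0,0),(0,1),(0,2),(0,3),(0,4),(0,5)] [Ref.mk 1545 584 [0,1,2,3] [[0,1,2,3,4,5,6],[0,1,2,3,4,5],[0,1,2,3,4,5,6],[0,1,2,3,4,5]],Ref.mk 1221 585 [0,1,2,3] [[0,1,2,3,4,5,6],[0,1,2,3,4,5],[0,1,2,3,4,5,6],[0,1,2,3,4,5]],Ref.mk 2940 586 [0,1,2,3] [[0,1,2,3,4,5,6],[0,1,2,3,4,5],[0,1,2,3,4,5,6],[0,1,2,3,4,5]]],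
Node.mk [0,820,182,1542,2448,27,976,3105,2216,2529,2937,36,2939,3663,45,2610,1957,4861,1545] [(0,0),(0,1),(0,2),(0,4),(1,0),(1,2)] [],
Node.mk [0,820,182,1542,2448,27,976,3105,2216,2529,2937,36,2939,3663,45,2610,1957,4861,1221] [(0,0),(0,1),(0,2),(1,0),(1,2),(2,6)] [],
Node.mk [0,820,182,1542,2448,27,976,3105,2216,2529,2937,36,2939,3663,45,2610,1957,4861,2940] [(0,0),(0,1),(0,2),(0,3),(0,4),(1,2)] [Ref.mk 1544 588 [0,1,2,3] [[0,1,2,5,4,6,3],[0,1,2,3,4,5],[0,1,2,3,4,5,6],[0,1,2,3,4,5,6]],Ref.mk 1220 589 [0,1,2,3] [[0,1,2,3,4,6,5],[0,1,2,3,4,5],[0,1,2,3,4,5,6],[0,1,2,3,4,5,6]],Ref.mk 1545 588 [0,1,2,3] [[0,1,2,6,4,5,3],[0,1,2,3,4,5],[0,1,2,3,4,5,6],[0,1,2,3,4,5,6]],Ref.mk 1221 589 [0,1,2,3] [[0,1,2,3,4,5,6],[0,1,2,3,4,5],[0,1,2,3,4,5,6],[0,1,2,3,4,5,6]],Ref.mk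 1546 588 [0,1,2,3] [[0,1,2,3,4,6,7],[0,1,2,3,4,5],[0,1,2,3,4,5,6],[0,1,2,3,4,5,6]],Ref.mk 1222 589 [0,1,2,3] [[0,1,2,3,4,6,7],[0,1,2,3,4,5],[0,1,2,3,4,5,6],[0,1,2,3,4,5,6]]],
Node.mk [0,820,182,1542,2448,27,976,3105,2216,2529,2937,36,2939,3663,45,2610,1957,4861] [(0,0),(0,1),(0,2),(0,3),(0,4),(0,5)] [Ref.mk 1545 588 [0,1,2,3] [[0,1,2,3,4,5,6],[0,1,2,3,4,5],[0,1,2,3,4,5,6],[0,1,2,3,4,5,6]],Ref.mk 1221 589 [0,1,2,3] [[0,1,2,3,4,5,6],[0,1,2,3,4,5],[0,1,2,3,4,5,6],[0,1,2,3,4,5,6]],Ref.mk 2940 590 [0,1,2,3] [[0,1,2,3,4,5,6],[0,1,2,3,4,5],[0,1,2,3,4,5,6],[0,1,2,3,4,5,6]]],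
Node.mk [0,820,182,1542,2448,27,976,3105,2216,2529,2937,36,2939,3663,45,2610,1957] [(0,0),(0,2),(2,1),(3,1),(3,2),(3,4)] [Ref.mk 487 582 [0,1,2,3] [[0,1,2,3,4,5],[0,1,2,3,4,5],[0,1,2,3,4,5,6],[0,1,2,3,4,5]],Ref.mk 2674 583 [0,1,2,3] [[0,1,2,3,4,5],[0,1,2,3,4,5],[0,1,2,3,4,5,6],[0,1,2,3,4,5]],Ref.mk 4132 587 [0,1,2,3] [[0,1,2,3,4,5],[0,1,2,3,4,5],[0,1,2,3,4,5,6],[0,1,2,3,4,5]],Ref.mk 4861 591 [0,1,2,3] [[0,1,2,3,4,5],[0,1,2,3,4,5],[0,1,2,3,4,5,6],[0,1,2,3,4,5,6]],Ref.mk 255 541 [0,1,2,3] [[0,1,2,3,4,5],[0,1,2,3,4,5],[0,1,2,3,4,5],[0,1,2,3,4,5]],Ref.mk 2442 547 [0,1,2,3] [[0,1,2,3,4,5],[0,1,2,3,4,5],[0,1,2,3,4,5],[0,1,2,3,4,5]],Ref.mk 3900 564 [0,1,2,3] [[0,1,2,3,4,5],[0,1,2,3,4,5],[0,1,2,3,4,5,6],[0,1,2,3,4,5]],Ref.mk 4629 577 [0,1,2,3]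 [[0,1,2,3,4,5],[0,1,2,3,4,5],[0,1,2,3,4,5,6],[0,1,2,3,4,5,6]]],
Node.mk [0,820,182,1542,2448,27,976,3105,2216,2529,2937,36,2939,3663,45,2610,1715,244] [(0,0),(0,1),(1,0),(2,0),(2,3),(3,0)] [],
Node.mk [0,820,182,1542,2448,27,976,3105,2216,2529,2937,36,2939,3663,45,2610,1715] [(0,0),(1,2),(2,1),(3,1),(3,2),(3,3)] [Ref.mk 244 593 [0,1,2,3] [[0,1,2,3,4,5],[0,1,2,3,4,5],[0,1,2,3,4,5],[0,1,2,3,4,5]],Ref.mk 3160 98 [3,1,2,0] [[0,1,3,2,4],[0,1,2,3],[0,1,3,2],[0,1,3,2]],Ref.mk 3889 98 [3,1,2,0] [[0,1,3,2,5],[0,1,2,3],[0,1,3,2],[0,1,3,2]],Ref.mk 4618 98 [3,1,2,0] [[0,1,3,2,6],[0,1,2,3],[0,1,3,2],[0,1,3,2]],Ref.mk 255 541 [0,1,2,3] [[0,1,2,3,4,5],[0,1,2,3,4,5],[0,1,2,3,4,5],[0,1,2,3,4,5]],Ref.mk 3171 548 [0,1,2,3] [[0,1,2,3,4,5],[0,1,2,3,4,5],[0,1,2,3,4,5],[0,1,2,3,4,5]],Ref.mk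 3900 565 [0,1,2,3] [[0,1,2,3,4,5],[0,1,2,3,4,5],[0,1,2,3,4,5],[0,1,2,3,4,5]],Ref.mk 4629 578 [0,1,2,3] [[0,1,2,3,4,5],[0,1,2,3,4,5],[0,1,2,3,4,5],[0,1,2,3,4,5,6]]],
Node.mk [0,820,182,1542,2448,27,976,3105,2216,2529,2937,36,2939,3663,45,2610,1716,244] [(0,0),(0,1),(1,0),(2,0),(2,3),(3,0)] [],
Node.mk [0,820,182,1542,2448,27,976,3105,2216,2529,2937,36,2939,3663,45,2610,1716] [(0,0),(1,2),(2,1),(3,1),(3,2),(3,3)] [Ref.mk 244 595 [0,1,2,3] [[0,1,2,3,4,5,6],[0,1,2,3,4,5],[0,1,2,3,4,5],[0,1,2,3,4,5]],Ref.mk 3160 98 [3,1,2,0] [[0,1,3,2,4],[0,1,2,3],[0,1,3,2],[0,1,3,2]],Ref.mk 3889 98 [3,1,2,0] [[0,1,3,2,5],[0,1,2,3],[0,1,3,2],[0,1,3,2]],Ref.mk 4618 98 [3,1,2,0] [[0,1,3,2,6],[0,1,2,3],[0,1,3,2],[0,1,3,2]],Ref.mk 255 541 [0,1,2,3] [[0,1,2,3,4,5],[0,1,2,3,4,5],[0,1,2,3,4,5],[0,1,2,3,4,5]],Ref.mk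 3171 548 [0,1,2,3] [[0,1,2,3,4,5],[0,1,2,3,4,5],[0,1,2,3,4,5],[0,1,2,3,4,5]],Ref.mk 3900 565 [0,1,2,3] [[0,1,2,3,4,5],[0,1,2,3,4,5],[0,1,2,3,4,5],[0,1,2,3,4,5]],Ref.mk 4629 578 [0,1,2,3] [[0,1,2,3,4,5],[0,1,2,3,4,5],[0,1,2,3,4,5],[0,1,2,3,4,5,6]]],
Node.mk [0,820,182,1542,2448,27,976,3105,2216,2529,2937,36,2939,3663,45,2610] [(0,0),(0,1),(0,2),(2,0),(2,1),(3,1)] [Ref.mk 255 541 [0,1,2,3] [[0,1,2,3,4,5],[0,1,2,3,4,5],[0,1,2,3,4,5],[0,1,2,3,4,5]],Ref.mk 1713 546 [0,1,2,3] [[0,1,2,3,4,5],[0,1,2,3,4,5],[0,1,2,3,4,5],[0,1,2,3,4,5]],Ref.mk 2442 547 [0,1,2,3] [[0,1,2,3,4,5],[0,1,2,3,4,5],[0,1,2,3,4,5],[0,1,2,3,4,5]],Ref.mk 3171 548 [0,1,2,3] [[0,1,2,3,4,5],[0,1,2,3,4,5],[0,1,2,3,4,5],[0,1,2,3,4,5]],Ref.mk 3900 565 [0,1,2,3] [[0,1,2,3,4,5],[0,1,2,3,4,5],[0,1,2,3,4,5],[0,1,2,3,4,5]],Ref.mk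 4629 578 [0,1,2,3] [[0,1,2,3,4,5],[0,1,2,3,4,5],[0,1,2,3,4,5],[0,1,2,3,4,5,6]],Ref.mk 1633 579 [0,1,2,3] [[0,1,2,3,4,5],[0,1,2,3,4,5],[0,1,2,3,4,5],[0,1,2,3,4,5]],Ref.mk 1714 581 [0,1,2,3] [[0,1,2,3,4,5],[0,1,2,3,4,5],[0,1,2,3,4,5],[0,1,2,3,4,5]],Ref.mk 1795 404 [2,1,0,3] [[0,4,2,3,1,5],[0,1,2,3,4,5],[0,4,2,3,5,1],[0,2,1,4,3,5]],Ref.mk 1876 404 [2,1,0,3] [[0,5,2,3,1,4],[0,1,2,3,4,5],[0,4,2,3,5,1],[0,2,1,4,3,5]],Ref.mk 1957 592 [0,1,2,3] [[0,1,2,3,4,5],[0,1,2,3,4,5],[0,1,2,3,4,5,6],[0,1,2,3,4,5]],Ref.mk 1715 594 [0,1,2,3] [[0,1,2,3,4,5],[0,1,2,3,4,5],[0,1,2,3,4,5],[0,1,2,3,4,5]],Ref.mk 1716 596 [0,1,2,3] [[0,1,2,3,4,5,6],[0,1,2,3,4,5],[0,1,2,3,4,5],[0,1,2,3,4,5]]],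
Node.mk [0,820,182,1542,2448,27,976,3105,2216,2529,2937,36,2939,3663,45,1146] [(0,0),(0,2),(1,0),(1,1),(1,2),(3,1)] [],
Node.mk [0,820,182,1542,2448,27,976,3105,2216,2529,2937,36,2939,3663,45,1155] [(0,0),(0,3),(1,2),(1,3),(2,5),(3,1)] [Ref.mk 2917 26 [3,1,2,0] [[0,1,3,2,4],[0,1,2,3],[0,1,3,2],[0,1,3,2]]],
Node.mk [0,820,182,1542,2448,27,976,3105,2216,2529,2937,36,2939,3663,45,1164] [(0,0),(0,3),(1,2),(1,3),(2,5),(3,1)] [],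
Node.mk [0,820,182,1542,2448,27,976,3105,2216,2529,2937,36,2939,3663,45,1173,1738,978] [(0,0),(0,1),(0,2),(0,3),(1,2),(3,1)] [],
Node.mk [0,820,182,1542,2448,27,976,3105,2216,2529,2937,36,2939,3663,45,1173,1738,2940,1216] [(0,0),(0,1),(0,2),(0,3),(1,2),(3,1)] [],
Node.mk [0,820,182,1542,2448,27,976,3105,2216,2529,2937,36,2939,3663,45,1173,1738,2940] [(2,0),(2,1),(2,2),(2,3),(2,4),(2,5)] [Ref.mk 2691 597 [0,1,2,3] [[0,1,2,3,4,5],[0,1,2,3,4,5],[0,1,2,3,4,6],[0,1,2,3,4,5]],Ref.mk 1216 602 [0,1,2,3] [[0,1,2,3,4,5,6],[0,1,2,3,4,5],[0,1,2,3,4,5,6],[0,1,2,3,4,5]],Ref.mk 1254 601 [2,1,0,3] [[0,1,2,3,5,4,6],[4,1,2,3,0,5],[0,1,2,3,6,4],[0,1,2,4,3,5]]],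
Node.mk [0,820,182,1542,2448,27,976,3105,2216,2529,2937,36,2939,3663,45,1173,1738,852] [(0,0),(0,1),(0,2),(1,2),(2,1),(3,1)] [],
Node.mk [0,820,182,1542,2448,27,976,3105,2216,2529,2937,36,2939,3663,45,1173,1738] [(0,0),(0,1),(0,2),(0,3),(0,4),(0,5)] [Ref.mk 978 601 [0,1,2,3] [[0,1,2,3,4,5,6],[0,1,2,3,4,5],[0,1,2,3,4,5],[0,1,2,3,4,5]],Ref.mk 2940 603 [0,1,2,3] [[0,1,2,3,4,5,6],[0,1,2,3,4,5],[0,1,2,3,4,5],[0,1,2,3,4,5]],Ref.mk 852 604 [0,1,2,3] [[0,1,2,3,4,5,6],[0,1,2,3,4,5],[0,1,2,3,4,5],[0,1,2,3,4,5]]],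
Node.mk [0,820,182,1542,2448,27,976,3105,2216,2529,2937,36,2939,3663,45,1173,1876,1140] [(0,0),(0,1),(0,2),(1,2),(3,1),(3,2)] [],
Node.mk [0,820,182,1542,2448,27,976,3105,2216,2529,2937,36,2939,3663,45,1173,1876,825] [(0,0),(0,2),(0,3),(0,4),(1,2),(3,1)] [],
Node.mk [0,820,182,1542,2448,27,976,3105,2216,2529,2937,36,2939,3663,45,1173,1876] [(0,0),(0,1),(0,2),(0,3),(0,4),(0,5)] [Ref.mk 1140 606 [0,1,2,3] [[0,1,2,3,4,5,6],[0,1,2,3,4,5],[0,1,2,3,4,5],[0,1,2,3,4,5]],Ref.mk 825 607 [0,1,2,3] [[0,1,2,3,4,5,6],[0,1,2,3,4,5],[0,1,2,3,4,5],[0,1,2,3,4,5]],Ref.mk 2940 592 [2,1,0,3] [[0,5,2,3,1,4],[0,1,2,3,4,5],[0,4,2,3,5,6,1],[0,2,1,4,3,5]]],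
Node.mk [0,820,182,1542,2448,27,976,3105,2216,2529,2937,36,2939,3663,45,1173] [(0,0),(0,2),(0,3),(1,0),(1,2),(2,1)] [Ref.mk 1738 605 [0,1,2,3] [[0,1,2,3,4,5],[0,1,2,3,4,5],[0,1,2,3,4,5],[0,1,2,3,4,5]],Ref.mk 1876 608 [0,1,2,3] [[0,1,2,3,4,5],[0,1,2,3,4,5],[0,1,2,3,4,5],[0,1,2,3,4,5]]],
Node.mk [0,820,182,1542,2448,27,976,3105,2216,2529,2937,36,2939,3663,45,1191,1756,978] [(0,0),(0,1),(0,2),(0,3),(1,2),(3,1)] [],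
Node.mk [0,820,182,1542,2448,27,976,3105,2216,2529,2937,36,2939,3663,45,1191,1756,2940,1216] [(0,0),(0,1),(0,2),(0,3),(1,2),(3,1)] [],
Node.mk [0,820,182,1542,2448,27,976,3105,2216,2529,2937,36,2939,3663,45,1191,1756,2940,1272] [(0,0),(0,2),(0,3),(1,2),(1,6),(3,1)] [],
Node.mk [0,820,182,1542,2448,27,976,3105,2216,2529,2937,36,2939,3663,45,1191,1756,2940] [(2,0),(2,1),(2,2),(2,3),(2,4),(2,5)] [Ref.mk 2691 597 [0,1,2,3] [[0,1,2,3,4,5],[0,1,2,3,4,5],[0,1,2,3,4,6],[0,1,2,3,4,5]],Ref.mk 1216 611 [0,1,2,3] [[0,1,2,3,4,5,6],[0,1,2,3,4,5,6],[0,1,2,3,4,5,6],[0,1,2,3,4,5]],Ref.mk 1272 612 [0,1,2,3] [[0,1,2,3,4,5,6],[0,1,2,3,4,5,6],[0,1,2,3,4,5,6],[0,1,2,3,4,5]]],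
Node.mk [0,820,182,1542,2448,27,976,3105,2216,2529,2937,36,2939,3663,45,1191,1756,870] [(0,0),(0,1),(0,2),(1,2),(2,1),(3,1)] [],
Node.mk [0,820,182,1542,2448,27,976,3105,2216,2529,2937,36,2939,3663,45,1191,1756] [(0,0),(0,1),(0,2),(0,3),(0,4),(0,5)] [Ref.mk 978 610 [0,1,2,3] [[0,1,2,3,4,5,6],[0,1,2,3,4,5,6],[0,1,2,3,4,5],[0,1,2,3,4,5]],Ref.mk 2940 613 [0,1,2,3] [[0,1,2,3,4,5,6],[0,1,2,3,4,5,6],[0,1,2,3,4,5],[0,1,2,3,4,5]],Ref.mk 870 614 [0,1,2,3] [[0,1,2,3,4,5,6],[0,1,2,3,4,5,6],[0,1,2,3,4,5],[0,1,2,3,4,5]]],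
Node.mk [0,820,182,1542,2448,27,976,3105,2216,2529,2937,36,2939,3663,45,1191,1876,1140] [(0,0),(0,1),(0,2),(1,2),(3,1),(3,2)] [],
Node.mk [0,820,182,1542,2448,27,976,3105,2216,2529,2937,36,2939,3663,45,1191,1876,825] [(0,0),(0,2),(0,3),(0,4),(1,2),(3,1)] [],
Node.mk [0,820,182,1542,2448,27,976,3105,2216,2529,2937,36,2939,3663,45,1191,1876] [(0,0),(0,1),(0,2),(0,3),(0,4),(0,5)] [Ref.mk 1140 616 [0,1,2,3] [[0,1,2,3,4,5,6],[0,1,2,3,4,5,6],[0,1,2,3,4,5],[0,1,2,3,4,5]],Ref.mk 825 617 [0,1,2,3] [[0,1,2,3,4,5,6],[0,1,2,3,4,5,6],[0,1,2,3,4,5],[0,1,2,3,4,5]],Ref.mk 2940 592 [2,1,0,3] [[0,5,2,3,1,4],[0,1,2,3,4,5],[0,4,2,3,5,6,1],[0,2,1,4,3,5]]],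
Node.mk [0,820,182,1542,2448,27,976,3105,2216,2529,2937,36,2939,3663,45,1191] [(0,0),(0,2),(0,3),(1,0),(1,2),(2,1)] [Ref.mk 1756 615 [0,1,2,3] [[0,1,2,3,4,5],[0,1,2,3,4,5,6],[0,1,2,3,4,5],[0,1,2,3,4,5]],Ref.mk 1876 618 [0,1,2,3] [[0,1,2,3,4,5],[0,1,2,3,4,5,6],[0,1,2,3,4,5],[0,1,2,3,4,5]]],
Node.mk [0,820,182,1542,2448,27,976,3105,2216,2529,2937,36,2939,3663,45,1876] [(0,0),(0,2),(0,4),(1,0),(1,1),(1,2)] [Ref.mk 1729 600 [2,1,0,3] [[0,5,2,3,1,4],[0,1,2,3,4,5],[0,4,2,3,5,1],[0,2,1,4,3,5]],Ref.mk 1738 608 [2,1,0,3] [[0,5,2,3,1,4],[0,1,2,3,4,5],[0,4,2,3,5,1],[0,2,1,4,3,5]],Ref.mk 1747 608 [2,1,0,3] [[0,5,2,3,1,4],[0,1,2,3,5,4],[0,4,2,3,5,1],[0,2,1,4,3,5]],Ref.mk 1756 618 [2,1,0,3] [[0,5,2,3,1,4],[0,1,2,3,4,5,6],[0,4,2,3,5,1],[0,2,1,4,3,5]],Ref.mk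 1164 600 [0,1,2,3] [[0,1,2,3,4,5],[0,1,2,3,4,5],[0,1,2,3,4,5],[0,1,2,3,4,5]],Ref.mk 1173 608 [0,1,2,3] [[0,1,2,3,4,5],[0,1,2,3,4,5],[0,1,2,3,4,5],[0,1,2,3,4,5]],Ref.mk 1182 608 [0,1,2,3] [[0,1,2,3,4,5],[0,1,2,3,5,4],[0,1,2,3,4,5],[0,1,2,3,4,5]],Ref.mk 1191 618 [0,1,2,3] [[0,1,2,3,4,5],[0,1,2,3,4,5,6],[0,1,2,3,4,5],[0,1,2,3,4,5]]],
Node.mk [0,820,182,1542,2448,27,976,3105,2216,2529,2937,36,2939,3663,45] [(1,0),(2,0),(2,1),(2,2),(2,3),(2,4)] [Ref.mk 2610 597 [0,1,2,3] [[0,1,2,3,4,5],[0,1,2,3,4,5],[0,1,2,3,4,5],[0,1,2,3,4,5]],Ref.mk 1146 598 [0,1,2,3] [[0,1,2,3,4,5],[0,1,2,3,4,5],[0,1,2,3,4,5],[0,1,2,3,4,5]],Ref.mk 1155 599 [0,1,2,3] [[0,1,2,3,4,5],[0,1,2,3,4,5],[0,1,2,3,4,5],[0,1,2,3,4,5]],Ref.mk 1164 600 [0,1,2,3] [[0,1,2,3,4,5],[0,1,2,3,4,5],[0,1,2,3,4,5],[0,1,2,3,4,5]],Ref.mk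 1173 609 [0,1,2,3] [[0,1,2,3,4,5],[0,1,2,3,4,5],[0,1,2,3,4,5],[0,1,2,3,4,5]],Ref.mk 1182 609 [0,1,2,3] [[0,1,2,3,4,5],[0,1,2,3,5,4],[0,1,2,3,4,5],[0,1,2,3,4,5]],Ref.mk 1191 619 [0,1,2,3] [[0,1,2,3,4,5],[0,1,2,3,4,5,6],[0,1,2,3,4,5],[0,1,2,3,4,5]],Ref.mk 1876 620 [0,1,2,3] [[0,1,2,3,4,5],[0,1,2,3,4,5],[0,1,2,3,4,5],[0,1,2,3,4,5]]],
Node.mk [0,820,182,1542,2448,27,976,3105,2216,2529,2937,36,2939,3663,1747,2610,1101,865] [(0,0),(0,1),(0,2),(1,2),(2,1),(3,1)] [],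
Node.mk [0,820,182,1542,2448,27,976,3105,2216,2529,2937,36,2939,3663,1747,2610,1101,1029] [(0,0),(0,1),(0,2),(0,3),(1,2),(3,1)] [],
Node.mk [0,820,182,1542,2448,27,976,3105,2216,2529,2937,36,2939,3663,1747,2610,1101] [(1,0),(1,1),(1,2),(1,3),(1,4),(1,5)] [Ref.mk 54 615 [0,1,2,3] [[0,1,2,3,4,5],[0,1,2,3,4,6,5],[0,1,2,3,5,4],[0,1,2,3,4,5]],Ref.mk 865 622 [0,1,2,3] [[0,1,2,3,4,5],[0,1,2,3,4,5,6],[0,1,2,3,4,5],[0,1,2,3,4,5]],Ref.mk 1029 623 [0,1,2,3] [[0,1,2,3,4,5],[0,1,2,3,4,5,6],[0,1,2,3,4,5],[0,1,2,3,4,5]]],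
Node.mk [0,820,182,1542,2448,27,976,3105,2216,2529,2937,36,2939,3663,1747,2610,1263,865] [(0,0),(0,1),(0,2),(1,2),(2,1),(3,1)] [],
Node.mk [0,820,182,1542,2448,27,976,3105,2216,2529,2937,36,2939,3663,1747,2610,1263,1029] [(0,0),(0,1),(0,2),(0,3),(1,2),(3,1)] [],
Node.mk [0,820,182,1542,2448,27,976,3105,2216,2529,2937,36,2939,3663,1747,2610,1263] [(1,0),(1,1),(1,2),(1,3),(1,4),(1,5)] [Ref.mk 54 615 [0,1,2,3] [[0,1,2,3,4,5],[0,1,2,3,4,6,5],[0,1,2,3,5,6],[0,1,2,3,4,5]],Ref.mk 865 625 [0,1,2,3] [[0,1,2,3,4,5],[0,1,2,3,4,5,6],[0,1,2,3,4,5,6],[0,1,2,3,4,5]],Ref.mk 1029 626 [0,1,2,3] [[0,1,2,3,4,5],[0,1,2,3,4,5,6],[0,1,2,3,4,5,6],[0,1,2,3,4,5]]],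
Node.mk [0,820,182,1542,2448,27,976,3105,2216,2529,2937,36,2939,3663,1747,2610,1957,1756] [(0,0),(0,1),(0,2),(1,2),(2,3),(3,2)] [],
Node.mk [0,820,182,1542,2448,27,976,3105,2216,2529,2937,36,2939,3663,1747,2610,1957,1597] [(0,0),(0,1),(0,2),(0,4),(1,2),(3,2)] [],
Node.mk [0,820,182,1542,2448,27,976,3105,2216,2529,2937,36,2939,3663,1747,2610,1957] [(1,0),(1,1),(1,2),(1,3),(1,4),(1,5)] [Ref.mk 54 618 [2,1,0,3] [[0,6,2,3,1,5],[0,1,2,3,4,6,5],[0,4,2,3,5,1],[0,2,1,4,3,5]],Ref.mk 1756 628 [0,1,2,3] [[0,1,2,3,4,5],[0,1,2,3,4,5,6],[0,1,2,3,4,5,6],[0,1,2,3,4,5]],Ref.mk 1597 629 [0,1,2,3] [[0,1,2,3,4,5],[0,1,2,3,4,5,6],[0,1,2,3,4,5,6],[0,1,2,3,4,5]]],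
Node.mk [0,820,182,1542,2448,27,976,3105,2216,2529,2937,36,2939,3663,1747,2610] [(0,0),(0,1),(2,0),(2,1),(2,2),(2,3)] [Ref.mk 1101 624 [0,1,2,3] [[0,1,2,3,4,5],[0,1,2,3,4,5],[0,1,2,3,4,5],[0,1,2,3,4,5]],Ref.mk 1182 624 [0,1,2,3] [[0,1,2,3,4,5],[0,1,2,3,4,5],[0,1,2,3,5,4],[0,1,2,3,4,5]],Ref.mk 1263 627 [0,1,2,3] [[0,1,2,3,4,5],[0,1,2,3,4,5],[0,1,2,3,4,5,6],[0,1,2,3,4,5]],Ref.mk 1795 422 [2,1,0,3] [[0,4,2,3,1,5],[0,1,2,3,4,5],[0,4,2,3,5,1],[0,2,1,4,3,5]],Ref.mk 1876 422 [2,1,0,3] [[0,5,2,3,1,4],[0,1,2,3,4,5],[0,4,2,3,5,1],[0,2,1,4,3,5]],Ref.mk 1957 630 [0,1,2,3] [[0,1,2,3,4,5],[0,1,2,3,4,5],[0,1,2,3,4,5,6],[0,1,2,3,4,5]]],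
Node.mk [0,820,182,1542,2448,27,976,3105,2216,2529,2937,36,2939,3663,1747,1182,865] [(0,0),(0,1),(0,2),(1,2),(2,1),(3,1)] [],
Node.mk [0,820,182,1542,2448,27,976,3105,2216,2529,2937,36,2939,3663,1747,1182,1029] [(0,0),(0,1),(0,2),(0,3),(1,2),(3,1)] [],
Node.mk [0,820,182,1542,2448,27,976,3105,2216,2529,2937,36,2939,3663,1747,1182] [(1,0),(1,1),(1,2),(1,3),(1,4),(1,5)] [Ref.mk 54 615 [0,1,2,3] [[0,1,2,3,4,5],[0,1,2,3,4,6,5],[0,1,2,3,4,5],[0,1,2,3,4,5]],Ref.mk 865 632 [0,1,2,3] [[0,1,2,3,4,5],[0,1,2,3,4,5,6],[0,1,2,3,4,5],[0,1,2,3,4,5]],Ref.mk 1029 633 [0,1,2,3] [[0,1,2,3,4,5],[0,1,2,3,4,5,6],[0,1,2,3,4,5],[0,1,2,3,4,5]]],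
Node.mk [0,820,182,1542,2448,27,976,3105,2216,2529,2937,36,2939,3663,1747,1876,1756] [(0,0),(0,1),(0,2),(1,2),(2,3),(3,2)] [],
Node.mk [0,820,182,1542,2448,27,976,3105,2216,2529,2937,36,2939,3663,1747,1876,1597] [(0,0),(0,1),(0,2),(0,4),(1,2),(3,2)] [],
Node.mk [0,820,182,1542,2448,27,976,3105,2216,2529,2937,36,2939,3663,1747,1876] [(1,0),(1,1),(1,2),(1,3),(1,4),(1,5)] [Ref.mk 54 618 [2,1,0,3] [[0,5,2,3,1,4],[0,1,2,3,4,6,5],[0,4,2,3,5,1],[0,2,1,4,3,5]],Ref.mk 1756 635 [0,1,2,3] [[0,1,2,3,4,5],[0,1,2,3,4,5,6],[0,1,2,3,4,5],[0,1,2,3,4,5]],Ref.mk 1597 636 [0,1,2,3] [[0,1,2,3,4,5],[0,1,2,3,4,5,6],[0,1,2,3,4,5],[0,1,2,3,4,5]]],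
Node.mk [0,820,182,1542,2448,27,976,3105,2216,2529,2937,36,2939,3663,1747] [(0,1),(2,0),(2,1),(2,2),(2,3),(2,4)] [Ref.mk 2610 631 [0,1,2,3] [[0,1,2,3,4,5],[0,1,2,3,4,5],[0,1,2,3,4,5],[0,1,2,3,4,5]],Ref.mk 1182 634 [0,1,2,3] [[0,1,2,3,4,5],[0,1,2,3,4,5],[0,1,2,3,4,5],[0,1,2,3,4,5]],Ref.mk 1876 637 [0,1,2,3] [[0,1,2,3,4,5],[0,1,2,3,4,5],[0,1,2,3,4,5],[0,1,2,3,4,5]]],
Node.mk [0,820,182,1542,2448,27,976,3105,2216,2529,2937,36,2939,3663,777] [(0,0),(0,2),(0,3),(1,0),(2,0),(2,1)] [Ref.mk 1747 638 [0,1,2,3] [[0,1,2,3,4,5],[0,1,2,3,4,5],[0,1,2,3,4],[0,1,2,3,4,5]]]]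

/-- nodes -/
noncomputable def c10 : List Node := [
Node.mk [0,820,182,1542,2448,27,976,3105,2216,2529,2937,36,2939,3663,939] [(0,0),(0,3),(0,4),(2,0),(2,2),(3,1)] [Ref.mk 1747 638 [0,1,2,3] [[0,1,2,3,4,5],[0,1,2,3,4,5],[0,1,2,3,4],[0,1,2,3,4,5]]],
Node.mk [0,820,182,1542,2448,27,976,3105,2216,2529,2937,36,2939,3663,1020] [(0,0),(0,2),(1,2),(2,1),(2,3),(3,1)] [],
Node.mk [0,820,182,1542,2448,27,976,3105,2216,2529,2937,36,2939,3663,1101,1795] [(2,0),(2,1),(2,2),(2,3),(2,4),(3,1)] [Ref.mk 2610 411 [2,1,0,3] [[0,4,2,3,1,5],[0,1,2,3,4,5],[0,4,2,3,5],[0,2,1,4,3,5]]],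
Node.mk [0,820,182,1542,2448,27,976,3105,2216,2529,2937,36,2939,3663,1101] [(0,0),(0,2),(0,3),(1,0),(1,2),(2,1)] [Ref.mk 1747 638 [0,1,2,3] [[0,1,2,3,4,5],[0,1,2,3,4,5],[0,1,2,3,4],[0,1,2,3,4,5]],Ref.mk 1795 642 [0,1,2,3] [[0,1,2,3,4,5],[0,1,2,3,4,5],[0,1,2,3,4],[0,1,2,3,4,5]]],
Node.mk [0,820,182,1542,2448,27,976,3105,2216,2529,2937,36,2939,3663,1182] [(0,0),(0,2),(0,3),(1,0),(1,2),(2,1)] [Ref.mk 1747 634 [0,1,2,3] [[0,1,2,3,4,5],[0,1,2,3,4,5],[0,1,2,3,4,5],[0,1,2,3,4,5]],Ref.mk 1876 637 [2,1,0,3] [[0,5,2,3,1,4],[0,1,2,3,4,5],[0,4,2,3,5,1],[0,2,1,4,3,5]]],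
Node.mk [0,820,182,1542,2448,27,976,3105,2216,2529,2937,36,2939,3663] [(1,0),(1,1),(1,2),(1,3),(1,4),(2,1)] [Ref.mk 45 621 [0,1,2,3] [[0,1,2,3,4,5],[0,1,2,3,4,5],[0,1,2,3,4],[0,1,2,3,4,5]],Ref.mk 1747 638 [0,1,2,3] [[0,1,2,3,4,5],[0,1,2,3,4,5],[0,1,2,3,4],[0,1,2,3,4,5]],Ref.mk 777 639 [0,1,2,3] [[0,1,2,3,4,5],[0,1,2,3,4,5],[0,1,2,3,4],[0,1,2,3,4,5]],Ref.mk 939 640 [0,1,2,3] [[0,1,2,3,4,5],[0,1,2,3,4,5],[0,1,2,3,4],[0,1,2,3,4,5]],Ref.mk 1020 641 [0,1,2,3] [[0,1,2,3,4,5],[0,1,2,3,4,5],[0,1,2,3,4],[0,1,2,3,4,5]],Ref.mk 1101 643 [0,1,2,3] [[0,1,2,3,4,5],[0,1,2,3,4,5],[0,1,2,3,4],[0,1,2,3,4,5]],Ref.mk 1182 644 [0,1,2,3] [[0,1,2,3,4,5],[0,1,2,3,4,5],[0,1,2,3,4,5],[0,1,2,3,4,5]]],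
Node.mk [0,820,182,1542,2448,27,976,3105,2216,2529,2937,36,2939,3808] [(0,0),(0,1),(1,0),(2,0),(2,2),(3,5)] [],
Node.mk [0,820,182,1542,2448,27,976,3105,2216,2529,2937,36,2939,3970,2610,3900,4458] [(0,0),(0,2),(0,3),(1,0),(1,2),(2,1)] [],
Node.mk [0,820,182,1542,2448,27,976,3105,2216,2529,2937,36,2939,3970,2610,3900] [(3,0),(3,1),(3,2),(3,3),(3,4),(3,5)] [Ref.mk 4392 645 [0,1,2,3] [[0,1,2,3,4,5],[0,1,2,3,4],[0,1,2,3,4],[0,1,2,3,4,6]],Ref.mk 4618 98 [3,1,2,0] [[0,1,3,2,6],[0,1,2,3],[0,1,3,2],[0,1,3,2]],Ref.mk 4458 647 [0,1,2,3] [[0,1,2,3,4,5],[0,1,2,3,4],[0,1,2,3,4,5],[0,1,2,3,4,5,6]]],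
Node.mk [0,820,182,1542,2448,27,976,3105,2216,2529,2937,36,2939,3970,2610] [(0,0),(0,1),(0,2),(1,2),(2,1),(3,1)] [Ref.mk 3900 648 [0,1,2,3] [[0,1,2,3,4,5],[0,1,2,3,4],[0,1,2,3,4,5],[0,1,2,3,4,5]],Ref.mk 1795 438 [2,1,0,3] [[0,4,2,3,1,5],[0,1,2,3,4],[0,4,2,3,5,1],[0,2,1,4,3,5]]],
Node.mk [0,820,182,1542,2448,27,976,3105,2216,2529,2937,36,2939,3970] [(1,0),(2,0),(2,1),(2,2),(2,3),(2,4)] [Ref.mk 2610 649 [0,1,2,3] [[0,1,2,3,4,5],[0,1,2,3,4],[0,1,2,3,4,5],[0,1,2,3,4,5]]],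
Node.mk [0,820,182,1542,2448,27,976,3105,2216,2529,2937,36,2939,4051,3900,4392,3732] [(0,0),(0,1),(0,2),(1,0),(1,2),(3,5)] [],
Node.mk [0,820,182,1542,2448,27,976,3105,2216,2529,2937,36,2939,4051,3900,4392,978] [(0,0),(0,1),(0,2),(0,3),(1,0),(1,2)] [],
Node.mk [0,820,182,1542,2448,27,976,3105,2216,2529,2937,36,2939,4051,3900,4392,2940] [(0,0),(0,1),(0,2),(0,3),(0,4),(1,2)] [Ref.mk 3731 651 [0,1,2,3] [[0,1,2,3,4,6,5],[0,1,2,3,4],[0,1,2,3,4,5],[0,1,2,3,4,5,6]],Ref.mk 977 652 [0,1,2,3] [[0,1,2,3,4,6,5],[0,1,2,3,4],[0,1,2,3,4,5],[0,1,2,3,4,5,6]],Ref.mk 3732 651 [0,1,2,3] [[0,1,2,3,4,5,6],[0,1,2,3,4],[0,1,2,3,4,5],[0,1,2,3,4,5,6]],Ref.mk 978 652 [0,1,2,3] [[0,1,2,3,4,5,6],[0,1,2,3,4],[0,1,2,3,4,5],[0,1,2,3,4,5,6]],Ref.mk 3733 651 [0,1,2,3]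 [[0,1,2,3,4,6,7],[0,1,2,3,4],[0,1,2,3,4,5],[0,1,2,3,4,5,6]],Ref.mk 979 652 [0,1,2,3] [[0,1,2,3,4,6,7],[0,1,2,3,4],[0,1,2,3,4,5],[0,1,2,3,4,5,6]]],
Node.mk [0,820,182,1542,2448,27,976,3105,2216,2529,2937,36,2939,4051,3900,4392] [(0,0),(0,1),(0,2),(0,3),(0,4),(0,5)] [Ref.mk 3732 651 [0,1,2,3] [[0,1,2,3,4,5,6],[0,1,2,3,4],[0,1,2,3,4,5],[0,1,2,3,4,5,6]],Ref.mk 978 652 [0,1,2,3] [[0,1,2,3,4,5,6],[0,1,2,3,4],[0,1,2,3,4,5],[0,1,2,3,4,5,6]],Ref.mk 2940 653 [0,1,2,3] [[0,1,2,3,4,5,6],[0,1,2,3,4],[0,1,2,3,4,5],[0,1,2,3,4,5,6]]],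
Node.mk [0,820,182,1542,2448,27,976,3105,2216,2529,2937,36,2939,4051,3900,4458] [(0,0),(0,2),(0,3),(1,0),(1,2),(2,1)] [],
Node.mk [0,820,182,1542,2448,27,976,3105,2216,2529,2937,36,2939,4051,3900] [(3,0),(3,1),(3,2),(3,3),(3,4),(3,5)] [Ref.mk 4392 654 [0,1,2,3] [[0,1,2,3,4,5],[0,1,2,3,4],[0,1,2,3,4,5],[0,1,2,3,4,5,6]],Ref.mk 4618 98 [3,1,2,0] [[0,1,3,2,6],[0,1,2,3],[0,1,3,2],[0,1,3,2]],Ref.mk 4458 655 [0,1,2,3] [[0,1,2,3,4,5],[0,1,2,3,4],[0,1,2,3,4,5],[0,1,2,3,4,5,6]]],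
Node.mk [0,820,182,1542,2448,27,976,3105,2216,2529,2937,36,2939,4051,1876,1545] [(0,0),(0,1),(0,2),(0,4),(1,0),(1,2)] [],
Node.mk [0,820,182,1542,2448,27,976,3105,2216,2529,2937,36,2939,4051,1876,1140] [(0,0),(0,1),(0,2),(1,0),(1,2),(2,5)] [],
Node.mk [0,820,182,1542,2448,27,976,3105,2216,2529,2937,36,2939,4051,1876,2940] [(0,0),(0,1),(0,2),(0,3),(0,4),(1,2)] [Ref.mk 1544 657 [0,1,2,3] [[0,1,2,5,4,6,3],[0,1,2,3,4],[0,1,2,3,4,5],[0,1,2,3,4,5]],Ref.mk 1139 658 [0,1,2,3] [[0,1,2,3,4,6,5],[0,1,2,3,4],[0,1,2,3,4,5],[0,1,2,3,4,5]],Ref.mk 1545 657 [0,1,2,3] [[0,1,2,6,4,5,3],[0,1,2,3,4],[0,1,2,3,4,5],[0,1,2,3,4,5]],Ref.mk 1140 658 [0,1,2,3] [[0,1,2,3,4,5,6],[0,1,2,3,4],[0,1,2,3,4,5],[0,1,2,3,4,5]],Ref.mk 1546 657 [0,1,2,3] [[0,1,2,3,4,6,7],[0,1,2,3,4],[0,1,2,3,4,5],[0,1,2,3,4,5]],Ref.mk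 1141 658 [0,1,2,3] [[0,1,2,3,4,6,7],[0,1,2,3,4],[0,1,2,3,4,5],[0,1,2,3,4,5]]],
Node.mk [0,820,182,1542,2448,27,976,3105,2216,2529,2937,36,2939,4051,1876] [(0,0),(0,1),(0,2),(0,3),(0,4),(0,5)] [Ref.mk 1545 657 [0,1,2,3] [[0,1,2,3,4,5,6],[0,1,2,3,4],[0,1,2,3,4,5],[0,1,2,3,4,5]],Ref.mk 1140 658 [0,1,2,3] [[0,1,2,3,4,5,6],[0,1,2,3,4],[0,1,2,3,4,5],[0,1,2,3,4,5]],Ref.mk 2940 659 [0,1,2,3] [[0,1,2,3,4,5,6],[0,1,2,3,4],[0,1,2,3,4,5],[0,1,2,3,4,5]]],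
Node.mk [0,820,182,1542,2448,27,976,3105,2216,2529,2937,36,2939,4051] [(0,0),(0,1),(0,2),(1,2),(2,1),(3,1)] [Ref.mk 3900 656 [0,1,2,3] [[0,1,2,3,4,5],[0,1,2,3,4],[0,1,2,3,4,5],[0,1,2,3,4,5]],Ref.mk 1876 660 [0,1,2,3] [[0,1,2,3,4,5],[0,1,2,3,4],[0,1,2,3,4,5],[0,1,2,3,4,5]]],
Node.mk [0,820,182,1542,2448,27,976,3105,2216,2529,2937,36,2939,3900,1795] [(1,1),(2,0),(2,1),(2,2),(2,3),(2,4)] [Ref.mk 2610 446 [2,1,0,3] [[0,4,2,3,1,5],[0,1,2,3,4],[0,4,2,3,5,1],[0,2,1,4,3,5]]],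
Node.mk [0,820,182,1542,2448,27,976,3105,2216,2529,2937,36,2939,3900,1876,825] [(0,0),(0,2),(0,3),(0,4),(1,1),(1,2)] [],
Node.mk [0,820,182,1542,2448,27,976,3105,2216,2529,2937,36,2939,3900,1876,1716] [(0,0),(0,1),(0,2),(1,0),(1,1),(1,2)] [],
Node.mk [0,820,182,1542,2448,27,976,3105,2216,2529,2937,36,2939,3900,1876,2940] [(0,0),(0,1),(0,2),(0,3),(0,4),(1,2)] [Ref.mk 824 444 [0,1,2,3] [[0,5,2,3,4,6,1],[0,1,2,3,4],[0,1,2,3,4,5],[0,1,2,3,4,5]],Ref.mk 1715 664 [0,1,2,3] [[0,1,2,3,4,6,5],[0,1,2,3,4],[0,1,2,3,4,5],[0,1,2,3,4,5]],Ref.mk 825 444 [0,1,2,3] [[0,6,2,3,4,5,1],[0,1,2,3,4],[0,1,2,3,4,5],[0,1,2,3,4,5]],Ref.mk 1716 664 [0,1,2,3] [[0,1,2,3,4,5,6],[0,1,2,3,4],[0,1,2,3,4,5],[0,1,2,3,4,5]],Ref.mk 826 663 [0,1,2,3] [[0,1,2,3,4,6,7],[0,1,2,3,4],[0,1,2,3,4,5],[0,1,2,3,4,5]],Ref.mk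 1717 664 [0,1,2,3] [[0,1,2,3,4,6,7],[0,1,2,3,4],[0,1,2,3,4,5],[0,1,2,3,4,5]]],
Node.mk [0,820,182,1542,2448,27,976,3105,2216,2529,2937,36,2939,3900,1876] [(0,0),(0,1),(0,2),(0,3),(0,4),(0,5)] [Ref.mk 825 663 [0,1,2,3] [[0,1,2,3,4,5,6],[0,1,2,3,4],[0,1,2,3,4,5],[0,1,2,3,4,5]],Ref.mk 1716 664 [0,1,2,3] [[0,1,2,3,4,5,6],[0,1,2,3,4],[0,1,2,3,4,5],[0,1,2,3,4,5]],Ref.mk 2940 665 [0,1,2,3] [[0,1,2,3,4,5,6],[0,1,2,3,4],[0,1,2,3,4,5],[0,1,2,3,4,5]]],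
Node.mk [0,820,182,1542,2448,27,976,3105,2216,2529,2937,36,2939,3900] [(0,0),(0,3),(2,0),(2,1),(2,2),(2,3)] [Ref.mk 3970 650 [0,1,2,3] [[0,1,2,3,4,5],[0,1,2,3,4],[0,1,2,3,4],[0,1,2,3,4,5]],Ref.mk 4051 656 [0,1,2,3] [[0,1,2,3,4,5],[0,1,2,3,4],[0,1,2,3,4,5],[0,1,2,3,4,5]],Ref.mk 1795 662 [0,1,2,3] [[0,1,2,3,4,5],[0,1,2,3,4],[0,1,2,3,4],[0,1,2,3,4,5]],Ref.mk 1876 666 [0,1,2,3] [[0,1,2,3,4,5],[0,1,2,3,4],[0,1,2,3,4,5],[0,1,2,3,4,5]]],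
Node.mk [0,820,182,1542,2448,27,976,3105,2216,2529,2937,36,2939] [(2,1),(3,0),(3,1),(3,2),(3,3),(3,4)] [Ref.mk 3663 645 [0,1,2,3] [[0,1,2,3,4,5],[0,1,2,3,4],[0,1,2,3,4],[0,1,2,3,4,5]],Ref.mk 3646 26 [3,1,2,0] [[0,1,3,2,5],[0,1,2,3],[0,1,3,2],[0,1,3,2]],Ref.mk 3808 646 [0,1,2,3] [[0,1,2,3,4,5],[0,1,2,3,4],[0,1,2,3,4],[0,1,2,3,4,5]],Ref.mk 3889 98 [3,1,2,0] [[0,1,3,2,5],[0,1,2,3],[0,1,3,2],[0,1,3,2]],Ref.mk 3970 650 [0,1,2,3] [[0,1,2,3,4,5],[0,1,2,3,4],[0,1,2,3,4],[0,1,2,3,4,5]],Ref.mk 4051 661 [0,1,2,3] [[0,1,2,3,4,5],[0,1,2,3,4],[0,1,2,3,4,5],[0,1,2,3,4,5]],Ref.mk 3900 667 [0,1,2,3] [[0,1,2,3,4,5],[0,1,2,3,4],[0,1,2,3,4],[0,1,2,3,4,5]]],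
Node.mk [0,820,182,1542,2448,27,976,3105,2216,2529,2937,36] [(0,0),(0,2),(0,3),(1,0),(2,1),(3,2)] [Ref.mk 2935 449 [0,1,2,3] [[0,1,2,3,4],[0,1,2,3,4],[0,1,2,3,4],[0,1,2,3,4]],Ref.mk 2938 540 [0,1,2,3] [[0,1,2,3,4],[0,1,2,3,4],[0,1,2,3,4],[0,1,2,3,4]],Ref.mk 2939 668 [0,1,2,3] [[0,1,2,3,4,5],[0,1,2,3,4],[0,1,2,3,4],[0,1,2,3,4]]],
Node.mk [0,820,182,1542,2448,27,976,3105,2216,2529,2937,1738,9,1715] [(0,0),(0,2),(1,2),(2,1),(2,3),(3,2)] [],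
Node.mk [0,820,182,1542,2448,27,976,3105,2216,2529,2937,1738,9,2939,1020] [(0,0),(0,2),(1,2),(2,1),(2,3),(3,1)] [],
Node.mk [0,820,182,1542,2448,27,976,3105,2216,2529,2937,1738,9,2939,1588] [(0,0),(0,2),(0,4),(1,2),(2,1),(3,2)] [Ref.mk 1020 671 [0,1,2,3] [[0,1,2,3,4,5],[0,1,2,3,4,5],[0,1,2,3,4],[0,1,2,3,4]]],
Node.mk [0,820,182,1542,2448,27,976,3105,2216,2529,2937,1738,9,2939] [(0,1),(1,0),(1,1),(1,2),(1,3),(1,4)] [Ref.mk 45 668 [0,1,2,3] [[0,1,2,3,4,5],[0,1,2,3,5],[0,1,2,3,4],[0,1,2,3,4]],Ref.mk 1020 671 [0,1,2,3] [[0,1,2,3,4,5],[0,1,2,3,4,5],[0,1,2,3,4],[0,1,2,3,4]],Ref.mk 1588 672 [0,1,2,3] [[0,1,2,3,4,5],[0,1,2,3,4,5],[0,1,2,3,4],[0,1,2,3,4]]],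
Node.mk [0,820,182,1542,2448,27,976,3105,2216,2529,2937,1738,9,851] [(0,0),(0,1),(0,2),(0,3),(1,0),(2,1)] [Ref.mk 2938 455 [0,1,2,3] [[0,5,2,3,4,1],[0,4,2,3,1],[0,1,2,3,4],[0,1,2,3,4]],Ref.mk 1715 670 [0,1,2,3] [[0,1,2,3,4,5],[0,1,2,3,4],[0,1,2,3,4],[0,1,2,3,4]],Ref.mk 2939 352 [0,1,2,3] [[0,5,2,3,4,1],[0,4,2,3,1],[0,1,2,3,4],[0,1,2,3,4]],Ref.mk 2940 673 [0,1,2,3] [[0,1,2,3,4,6],[0,1,2,3,4],[0,1,2,3,4],[0,1,2,3,4]]],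
Node.mk [0,820,182,1542,2448,27,976,3105,2216,2529,2937,1738,9] [(0,0),(0,1),(0,2),(0,3),(0,4),(1,0)] [Ref.mk 1715 670 [0,1,2,3] [[0,1,2,3,4,5],[0,1,2,3,4],[0,1,2,3,4],[0,1,2,3,4]],Ref.mk 2939 673 [0,1,2,3] [[0,1,2,3,4,5],[0,1,2,3,4],[0,1,2,3,4],[0,1,2,3,4]],Ref.mk 851 674 [0,1,2,3] [[0,1,2,3,4,5],[0,1,2,3,4],[0,1,2,3,4],[0,1,2,3,4]]],
Node.mk [0,820,182,1542,2448,27,976,3105,2216,2529,2937,1738] [(0,3),(1,0),(1,2),(1,3),(2,1),(3,2)] [Ref.mk 9 675 [0,1,2,3] [[0,1,2,3,4],[0,1,2,3,4],[0,1,2,3,4],[0,1,2,3,4]],Ref.mk 36 669 [0,1,2,3] [[0,1,2,3,4],[0,1,2,3,4],[0,1,2,3,4],[0,1,2,3,4]],Ref.mk 45 669 [0,1,2,3] [[0,1,2,3,4],[0,1,2,3,5],[0,1,2,3,4],[0,1,2,3,4]]],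
Node.mk [0,820,182,1542,2448,27,976,3105,2216,2529,2937] [(0,3),(1,0),(1,1),(1,2),(1,3),(2,1)] [Ref.mk 36 669 [0,1,2,3] [[0,1,2,3,4],[0,1,2,3,4],[0,1,2,3,4],[0,1,2,3,4]],Ref.mk 1738 676 [0,1,2,3] [[0,1,2,3,4],[0,1,2,3,4],[0,1,2,3,4],[0,1,2,3,4]]],
Node.mk [0,820,182,1542,2448,27,976,3105,2216,2529,2938,2935,36,977] [(0,0),(0,2),(1,0),(1,2),(2,3),(3,1)] [],
Node.mk [0,820,182,1542,2448,27,976,3105,2216,2529,2938,2935,36,1058] [(0,0),(0,2),(1,0),(1,1),(1,2),(3,1)] [],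
Node.mk [0,820,182,1542,2448,27,976,3105,2216,2529,2938,2935,36,1139] [(0,0),(0,2),(1,0),(1,1),(1,2),(3,1)] [],
Node.mk [0,820,182,1542,2448,27,976,3105,2216,2529,2938,2935,36,1715,1783] [(0,0),(0,2),(1,0),(1,1),(1,2),(3,2)] [],
Node.mk [0,820,182,1542,2448,27,976,3105,2216,2529,2938,2935,36,1715,1864] [(0,0),(0,1),(0,2),(1,0),(1,2),(3,2)] [Ref.mk 1146 454 [0,1,2,3] [[0,3,2,1,4,5],[0,1,2,3,4],[0,5,2,3,4,1],[0,1,2,3,4]]],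
Node.mk [0,820,182,1542,2448,27,976,3105,2216,2529,2938,2935,36,1715] [(0,0),(1,1),(2,0),(2,1),(2,2),(2,3)] [Ref.mk 1783 681 [0,1,2,3] [[0,1,2,3,4,5],[0,1,2,3,4],[0,1,2,3,4],[0,1,2,3,4]],Ref.mk 1864 682 [0,1,2,3] [[0,1,2,3,4,5],[0,1,2,3,4],[0,1,2,3,4,5],[0,1,2,3,4]],Ref.mk 1058 679 [0,1,2,3] [[0,1,2,3,4,5],[0,1,2,3,4],[0,1,2,3,4],[0,1,2,3,4]],Ref.mk 1139 680 [0,1,2,3] [[0,1,2,3,4,5],[0,1,2,3,4],[0,1,2,3,4,5],[0,1,2,3,4]]],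
Node.mk [0,820,182,1542,2448,27,976,3105,2216,2529,2938,2935,36,2939,3663,45,2610,255] [(0,0),(0,3),(1,1),(2,0),(2,3),(3,0)] [],
Node.mk [0,820,182,1542,2448,27,976,3105,2216,2529,2938,2935,36,2939,3663,45,2610,1713,1545] [(0,0),(0,2),(1,0),(1,2),(2,1),(3,2)] [],
Node.mk [0,820,182,1542,2448,27,976,3105,2216,2529,2938,2935,36,2939,3663,45,2610,1713,825] [(0,0),(0,2),(1,1),(1,2),(2,1),(3,1)] [],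
Node.mk [0,820,182,1542,2448,27,976,3105,2216,2529,2938,2935,36,2939,3663,45,2610,1713,2940] [(0,0),(0,1),(0,2),(0,3),(0,4),(1,2)] [Ref.mk 1544 685 [0,1,2,3] [[0,1,2,3,4,6,5],[0,1,2,3,4,5],[0,1,2,3,4,5],[0,1,2,3,4,5]],Ref.mk 977 678 [0,1,2,3] [[0,1,2,3,4,5],[0,1,2,3,4],[0,1,2,3,4],[0,1,2,3,4]],Ref.mk 824 686 [0,1,2,3] [[0,5,2,3,4,6,1],[0,1,2,3,4,5],[0,1,2,3,4,5],[0,1,2,3,4,5]],Ref.mk 1715 683 [0,1,2,3] [[0,1,2,3,4,5],[0,1,2,3,4],[0,1,2,3,4],[0,1,2,3,4]],Ref.mk 1545 685 [0,1,2,3] [[0,1,2,3,4,5,6],[0,1,2,3,4,5],[0,1,2,3,4,5],[0,1,2,3,4,5]],Ref.mk 978 678 [0,1,2,3] [[0,1,2,3,4,6],[0,1,2,3,4],[0,1,2,3,4],[0,1,2,3,4]],Ref.mk 825 686 [0,1,2,3] [[0,6,2,3,4,5,1],[0,1,2,3,4,5],[0,1,2,3,4,5],[0,1,2,3,4,5]],Ref.mk 1716 683 [0,1,2,3] [[0,1,2,3,4,6],[0,1,2,3,4],[0,1,2,3,4],[0,1,2,3,4]],Ref.mk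 1546 685 [0,1,2,3] [[0,1,2,3,4,6,7],[0,1,2,3,4,5],[0,1,2,3,4,5],[0,1,2,3,4,5]],Ref.mk 979 678 [0,1,2,3] [[0,1,2,3,4,7],[0,1,2,3,4],[0,1,2,3,4],[0,1,2,3,4]],Ref.mk 826 686 [0,1,2,3] [[0,1,2,3,4,6,7],[0,1,2,3,4,5],[0,1,2,3,4,5],[0,1,2,3,4,5]],Ref.mk 1717 683 [0,1,2,3] [[0,1,2,3,4,7],[0,1,2,3,4],[0,1,2,3,4],[0,1,2,3,4]]],
Node.mk [0,820,182,1542,2448,27,976,3105,2216,2529,2938,2935,36,2939,3663,45,2610,1713] [(0,0),(0,1),(0,2),(0,3),(0,4),(0,5)] [Ref.mk 1545 685 [0,1,2,3] [[0,1,2,3,4,5,6],[0,1,2,3,4,5],[0,1,2,3,4,5],[0,1,2,3,4,5]],Ref.mk 978 678 [0,1,2,3] [[0,1,2,3,4,6],[0,1,2,3,4],[0,1,2,3,4],[0,1,2,3,4]],Ref.mk 825 686 [0,1,2,3] [[0,1,2,3,4,5,6],[0,1,2,3,4,5],[0,1,2,3,4,5],[0,1,2,3,4,5]],Ref.mk 1716 683 [0,1,2,3] [[0,1,2,3,4,6],[0,1,2,3,4],[0,1,2,3,4],[0,1,2,3,4]],Ref.mk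 2940 687 [0,1,2,3] [[0,1,2,3,4,5,6],[0,1,2,3,4,5],[0,1,2,3,4,5],[0,1,2,3,4,5]]],
Node.mk [0,820,182,1542,2448,27,976,3105,2216,2529,2938,2935,36,2939,3663,45,2610,2442] [(0,0),(0,3),(1,1),(1,2),(2,3),(3,3)] [],
Node.mk [0,820,182,1542,2448,27,976,3105,2216,2529,2938,2935,36,2939,3663,45,2610,3171] [(0,0),(0,2),(0,3),(1,1),(2,3),(3,4)] [],
Node.mk [0,820,182,1542,2448,27,976,3105,2216,2529,2938,2935,36,2939,3663,45,2610,3900,3732] [(0,0),(0,2),(0,3),(1,0),(1,2),(2,1)] [Ref.mk 1716 683 [0,1,2,3] [[0,1,2,3,4,6],[0,1,2,3,4],[0,1,2,3,4],[0,1,2,3,4]]],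
Node.mk [0,820,182,1542,2448,27,976,3105,2216,2529,2938,2935,36,2939,3663,45,2610,3900,825] [(0,0),(0,2),(1,1),(1,2),(2,1),(3,1)] [],
Node.mk [0,820,182,1542,2448,27,976,3105,2216,2529,2938,2935,36,2939,3663,45,2610,3900,2940] [(0,0),(0,1),(0,2),(0,3),(0,4),(1,2)] [Ref.mk 3731 691 [0,1,2,3] [[0,1,2,3,4,6,5],[0,1,2,3,4,5],[0,1,2,3,4,5],[0,1,2,3,4,5]],Ref.mk 977 678 [0,1,2,3] [[0,1,2,3,4,5],[0,1,2,3,4],[0,1,2,3,4],[0,1,2,3,4]],Ref.mk 824 692 [0,1,2,3] [[0,5,2,3,4,6,1],[0,1,2,3,4,5],[0,1,2,3,4,5],[0,1,2,3,4,5]],Ref.mk 1715 683 [0,1,2,3] [[0,1,2,3,4,5],[0,1,2,3,4],[0,1,2,3,4],[0,1,2,3,4]],Ref.mk 3732 691 [0,1,2,3] [[0,1,2,3,4,5,6],[0,1,2,3,4,5],[0,1,2,3,4,5],[0,1,2,3,4,5]],Ref.mk 978 678 [0,1,2,3] [[0,1,2,3,4,6],[0,1,2,3,4],[0,1,2,3,4],[0,1,2,3,4]],Ref.mk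 825 692 [0,1,2,3] [[0,6,2,3,4,5,1],[0,1,2,3,4,5],[0,1,2,3,4,5],[0,1,2,3,4,5]],Ref.mk 1716 683 [0,1,2,3] [[0,1,2,3,4,6],[0,1,2,3,4],[0,1,2,3,4],[0,1,2,3,4]],Ref.mk 3733 691 [0,1,2,3] [[0,1,2,3,4,6,7],[0,1,2,3,4,5],[0,1,2,3,4,5],[0,1,2,3,4,5]],Ref.mk 979 678 [0,1,2,3] [[0,1,2,3,4,7],[0,1,2,3,4],[0,1,2,3,4],[0,1,2,3,4]],Ref.mk 826 692 [0,1,2,3] [[0,1,2,3,4,6,7],[0,1,2,3,4,5],[0,1,2,3,4,5],[0,1,2,3,4,5]],Ref.mk 1717 683 [0,1,2,3] [[0,1,2,3,4,7],[0,1,2,3,4],[0,1,2,3,4],[0,1,2,3,4]]],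
Node.mk [0,820,182,1542,2448,27,976,3105,2216,2529,2938,2935,36,2939,3663,45,2610,3900] [(0,0),(0,1),(0,2),(0,3),(0,4),(0,5)] [Ref.mk 3732 691 [0,1,2,3] [[0,1,2,3,4,5,6],[0,1,2,3,4,5],[0,1,2,3,4,5],[0,1,2,3,4,5]],Ref.mk 978 678 [0,1,2,3] [[0,1,2,3,4,6],[0,1,2,3,4],[0,1,2,3,4],[0,1,2,3,4]],Ref.mk 825 692 [0,1,2,3] [[0,1,2,3,4,5,6],[0,1,2,3,4,5],[0,1,2,3,4,5],[0,1,2,3,4,5]],Ref.mk 1716 683 [0,1,2,3] [[0,1,2,3,4,6],[0,1,2,3,4],[0,1,2,3,4],[0,1,2,3,4]],Ref.mk 2940 693 [0,1,2,3] [[0,1,2,3,4,5,6],[0,1,2,3,4,5],[0,1,2,3,4,5],[0,1,2,3,4,5]]],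
Node.mk [0,820,182,1542,2448,27,976,3105,2216,2529,2938,2935,36,2939,3663,45,2610,4629,4461] [(0,0),(0,2),(0,3),(1,0),(1,2),(2,1)] [Ref.mk 1716 683 [0,1,2,3] [[0,1,2,3,4,6],[0,1,2,3,4],[0,1,2,3,4],[0,1,2,3,4]]],
Node.mk [0,820,182,1542,2448,27,976,3105,2216,2529,2938,2935,36,2939,3663,45,2610,4629,825] [(0,0),(0,2),(1,1),(1,2),(2,1),(3,1)] [],
Node.mk [0,820,182,1542,2448,27,976,3105,2216,2529,2938,2935,36,2939,3663,45,2610,4629,2940] [(0,0),(0,1),(0,2),(0,3),(0,4),(1,2)] [Ref.mk 4460 695 [0,1,2,3] [[0,1,2,3,4,6,5],[0,1,2,3,4,5],[0,1,2,3,4,5],[0,1,2,3,4,5,6]],Ref.mk 977 678 [0,1,2,3] [[0,1,2,3,4,5],[0,1,2,3,4],[0,1,2,3,4],[0,1,2,3,4]],Ref.mk 824 696 [0,1,2,3] [[0,5,2,3,4,6,1],[0,1,2,3,4,5],[0,1,2,3,4,5],[0,1,2,3,4,5,6]],Ref.mk 1715 683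 [0,1,2,3] [[0,1,2,3,4,5],[0,1,2,3,4],[0,1,2,3,4],[0,1,2,3,4]],Ref.mk 4461 695 [0,1,2,3] [[0,1,2,3,4,5,6],[0,1,2,3,4,5],[0,1,2,3,4,5],[0,1,2,3,4,5,6]],Ref.mk 978 678 [0,1,2,3] [[0,1,2,3,4,6],[0,1,2,3,4],[0,1,2,3,4],[0,1,2,3,4]],Ref.mk 825 696 [0,1,2,3] [[0,6,2,3,4,5,1],[0,1,2,3,4,5],[0,1,2,3,4,5],[0,1,2,3,4,5,6]],Ref.mk 1716 683 [0,1,2,3] [[0,1,2,3,4,6],[0,1,2,3,4],[0,1,2,3,4],[0,1,2,3,4]],Ref.mk 4462 695 [0,1,2,3] [[0,1,2,3,4,6,7],[0,1,2,3,4,5],[0,1,2,3,4,5],[0,1,2,3,4,5,6]],Ref.mk 979 678 [0,1,2,3] [[0,1,2,3,4,7],[0,1,2,3,4],[0,1,2,3,4],[0,1,2,3,4]],Ref.mk 826 696 [0,1,2,3] [[0,1,2,3,4,6,7],[0,1,2,3,4,5],[0,1,2,3,4,5],[0,1,2,3,4,5,6]],Ref.mk 1717 683 [0,1,2,3] [[0,1,2,3,4,7],[0,1,2,3,4],[0,1,2,3,4],[0,1,2,3,4]]],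
Node.mk [0,820,182,1542,2448,27,976,3105,2216,2529,2938,2935,36,2939,3663,45,2610,4629] [(0,0),(0,1),(0,2),(0,3),(0,4),(0,5)] [Ref.mk 4461 695 [0,1,2,3] [[0,1,2,3,4,5,6],[0,1,2,3,4,5],[0,1,2,3,4,5],[0,1,2,3,4,5,6]],Ref.mk 978 678 [0,1,2,3] [[0,1,2,3,4,6],[0,1,2,3,4],[0,1,2,3,4],[0,1,2,3,4]],Ref.mk 825 696 [0,1,2,3] [[0,1,2,3,4,5,6],[0,1,2,3,4,5],[0,1,2,3,4,5],[0,1,2,3,4,5,6]],Ref.mk 1716 683 [0,1,2,3] [[0,1,2,3,4,6],[0,1,2,3,4],[0,1,2,3,4],[0,1,2,3,4]],Ref.mk 2940 697 [0,1,2,3] [[0,1,2,3,4,5,6],[0,1,2,3,4,5],[0,1,2,3,4,5],[0,1,2,3,4,5,6]]],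
Node.mk [0,820,182,1542,2448,27,976,3105,2216,2529,2938,2935,36,2939,3663,45,2610,1633] [(0,0),(0,4),(1,1),(2,0),(2,2),(3,2)] [],
Node.mk [0,820,182,1542,2448,27,976,3105,2216,2529,2938,2935,36,2939,3663,45,2610,1714,244] [(0,0),(0,1),(1,0),(2,0),(2,3),(3,0)] [],
Node.mk [0,820,182,1542,2448,27,976,3105,2216,2529,2938,2935,36,2939,3663,45,2610,1714] [(0,0),(1,2),(2,1),(3,1),(3,2),(3,3)] [Ref.mk 244 700 [0,1,2,3] [[0,1,2,3,4,5],[0,1,2,3,4,5],[0,1,2,3,4,5],[0,1,2,3,4,5]],Ref.mk 3160 98 [3,1,2,0] [[0,1,3,2,4],[0,1,2,3],[0,1,3,2],[0,1,3,2]],Ref.mk 3889 98 [3,1,2,0] [[0,1,3,2,5],[0,1,2,3],[0,1,3,2],[0,1,3,2]],Ref.mk 4618 98 [3,1,2,0] [[0,1,3,2,6],[0,1,2,3],[0,1,3,2],[0,1,3,2]],Ref.mk 255 684 [0,1,2,3] [[0,1,2,3,4,5],[0,1,2,3,4,5],[0,1,2,3,4,5],[0,1,2,3,4,5]],Ref.mk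 3171 690 [0,1,2,3] [[0,1,2,3,4,5],[0,1,2,3,4,5],[0,1,2,3,4,5],[0,1,2,3,4,5]],Ref.mk 3900 694 [0,1,2,3] [[0,1,2,3,4,5],[0,1,2,3,4,5],[0,1,2,3,4,5],[0,1,2,3,4,5]],Ref.mk 4629 698 [0,1,2,3] [[0,1,2,3,4,5],[0,1,2,3,4,5],[0,1,2,3,4,5],[0,1,2,3,4,5,6]]],
Node.mk [0,820,182,1542,2448,27,976,3105,2216,2529,2938,2935,36,2939,3663,45,2610,1795,1545] [(0,0),(0,2),(1,0),(1,2),(2,1),(3,2)] [],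
Node.mk [0,820,182,1542,2448,27,976,3105,2216,2529,2938,2935,36,2939,3663,45,2610,1795,825] [(0,0),(0,2),(1,1),(1,2),(2,1),(3,1)] []]

/-- nodes -/
noncomputable def c11 : List Node := [
Node.mk [0,820,182,1542,2448,27,976,3105,2216,2529,2938,2935,36,2939,3663,45,2610,1795,2940] [(0,0),(0,1),(0,2),(0,3),(0,4),(1,2)] [Ref.mk 1544 371 [0,1,2,3] [[0,1,2,5,4,6,3],[0,1,2,3,4,5],[0,1,2,3,4,5],[0,1,2,3,4,5]],Ref.mk 1058 679 [0,1,2,3] [[0,1,2,3,4,5],[0,1,2,3,4],[0,1,2,3,4],[0,1,2,3,4]],Ref.mk 824 703 [0,1,2,3] [[0,5,2,3,4,6,1],[0,1,2,3,4,5],[0,1,2,3,4,5],[0,1,2,3,4,5]],Ref.mk 1715 683 [0,1,2,3] [[0,1,2,3,4,5],[0,1,2,3,4],[0,1,2,3,4],[0,1,2,3,4]],Ref.mk 1545 371 [0,1,2,3] [[0,1,2,6,4,5,3],[0,1,2,3,4,5],[0,1,2,3,4,5],[0,1,2,3,4,5]],Ref.mk 1059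 679 [0,1,2,3] [[0,1,2,3,4,6],[0,1,2,3,4],[0,1,2,3,4],[0,1,2,3,4]],Ref.mk 825 703 [0,1,2,3] [[0,6,2,3,4,5,1],[0,1,2,3,4,5],[0,1,2,3,4,5],[0,1,2,3,4,5]],Ref.mk 1716 683 [0,1,2,3] [[0,1,2,3,4,6],[0,1,2,3,4],[0,1,2,3,4],[0,1,2,3,4]],Ref.mk 1546 702 [0,1,2,3] [[0,1,2,3,4,6,7],[0,1,2,3,4,5],[0,1,2,3,4,5],[0,1,2,3,4,5]],Ref.mk 1060 679 [0,1,2,3] [[0,1,2,3,4,7],[0,1,2,3,4],[0,1,2,3,4],[0,1,2,3,4]],Ref.mk 826 703 [0,1,2,3] [[0,1,2,3,4,6,7],[0,1,2,3,4,5],[0,1,2,3,4,5],[0,1,2,3,4,5]],Ref.mk 1717 683 [0,1,2,3] [[0,1,2,3,4,7],[0,1,2,3,4],[0,1,2,3,4],[0,1,2,3,4]]],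
Node.mk [0,820,182,1542,2448,27,976,3105,2216,2529,2938,2935,36,2939,3663,45,2610,1795] [(0,0),(0,1),(0,2),(0,3),(0,4),(0,5)] [Ref.mk 1545 702 [0,1,2,3] [[0,1,2,3,4,5,6],[0,1,2,3,4,5],[0,1,2,3,4,5],[0,1,2,3,4,5]],Ref.mk 1059 679 [0,1,2,3] [[0,1,2,3,4,6],[0,1,2,3,4],[0,1,2,3,4],[0,1,2,3,4]],Ref.mk 825 703 [0,1,2,3] [[0,1,2,3,4,5,6],[0,1,2,3,4,5],[0,1,2,3,4,5],[0,1,2,3,4,5]],Ref.mk 1716 683 [0,1,2,3] [[0,1,2,3,4,6],[0,1,2,3,4],[0,1,2,3,4],[0,1,2,3,4]],Ref.mk 2940 704 [0,1,2,3] [[0,1,2,3,4,5,6],[0,1,2,3,4,5],[0,1,2,3,4,5],[0,1,2,3,4,5]]],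
Node.mk [0,820,182,1542,2448,27,976,3105,2216,2529,2938,2935,36,2939,3663,45,2610,1957,1545] [(0,0),(0,2),(1,0),(1,2),(2,1),(3,2)] [],
Node.mk [0,820,182,1542,2448,27,976,3105,2216,2529,2938,2935,36,2939,3663,45,2610,1957,825] [(0,0),(0,2),(1,1),(1,2),(2,1),(3,1)] [],
Node.mk [0,820,182,1542,2448,27,976,3105,2216,2529,2938,2935,36,2939,3663,45,2610,1957,2940] [(0,0),(0,1),(0,2),(0,3),(0,4),(1,2)] [Ref.mk 1544 375 [0,1,2,3] [[0,1,2,5,4,6,3],[0,1,2,3,4,5],[0,1,2,3,4,5,6],[0,1,2,3,4,5]],Ref.mk 1220 680 [0,1,2,3] [[0,1,2,3,4,5],[0,1,2,3,4],[0,1,2,3,4,6],[0,1,2,3,4]],Ref.mk 824 707 [0,1,2,3] [[0,5,2,3,4,6,1],[0,1,2,3,4,5],[0,1,2,3,4,5,6],[0,1,2,3,4,5]],Ref.mk 1715 683 [0,1,2,3] [[0,1,2,3,4,5],[0,1,2,3,4],[0,1,2,3,4],[0,1,2,3,4]],Ref.mk 1545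 375 [0,1,2,3] [[0,1,2,6,4,5,3],[0,1,2,3,4,5],[0,1,2,3,4,5,6],[0,1,2,3,4,5]],Ref.mk 1221 680 [0,1,2,3] [[0,1,2,3,4,6],[0,1,2,3,4],[0,1,2,3,4,6],[0,1,2,3,4]],Ref.mk 825 707 [0,1,2,3] [[0,6,2,3,4,5,1],[0,1,2,3,4,5],[0,1,2,3,4,5,6],[0,1,2,3,4,5]],Ref.mk 1716 683 [0,1,2,3] [[0,1,2,3,4,6],[0,1,2,3,4],[0,1,2,3,4],[0,1,2,3,4]],Ref.mk 1546 706 [0,1,2,3] [[0,1,2,3,4,6,7],[0,1,2,3,4,5],[0,1,2,3,4,5,6],[0,1,2,3,4,5]],Ref.mk 1222 680 [0,1,2,3] [[0,1,2,3,4,7],[0,1,2,3,4],[0,1,2,3,4,6],[0,1,2,3,4]],Ref.mk 826 707 [0,1,2,3] [[0,1,2,3,4,6,7],[0,1,2,3,4,5],[0,1,2,3,4,5,6],[0,1,2,3,4,5]],Ref.mk 1717 683 [0,1,2,3] [[0,1,2,3,4,7],[0,1,2,3,4],[0,1,2,3,4],[0,1,2,3,4]]],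
Node.mk [0,820,182,1542,2448,27,976,3105,2216,2529,2938,2935,36,2939,3663,45,2610,1957] [(0,0),(0,1),(0,2),(0,3),(0,4),(0,5)] [Ref.mk 1545 706 [0,1,2,3] [[0,1,2,3,4,5,6],[0,1,2,3,4,5],[0,1,2,3,4,5,6],[0,1,2,3,4,5]],Ref.mk 1221 680 [0,1,2,3] [[0,1,2,3,4,6],[0,1,2,3,4],[0,1,2,3,4,6],[0,1,2,3,4]],Ref.mk 825 707 [0,1,2,3] [[0,1,2,3,4,5,6],[0,1,2,3,4,5],[0,1,2,3,4,5,6],[0,1,2,3,4,5]],Ref.mk 1716 683 [0,1,2,3] [[0,1,2,3,4,6],[0,1,2,3,4],[0,1,2,3,4],[0,1,2,3,4]],Ref.mk 2940 708 [0,1,2,3] [[0,1,2,3,4,5,6],[0,1,2,3,4,5],[0,1,2,3,4,5,6],[0,1,2,3,4,5]]],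
Node.mk [0,820,182,1542,2448,27,976,3105,2216,2529,2938,2935,36,2939,3663,45,2610] [(0,0),(0,1),(0,2),(2,0),(2,1),(3,1)] [Ref.mk 255 684 [0,1,2,3] [[0,1,2,3,4,5],[0,1,2,3,4,5],[0,1,2,3,4,5],[0,1,2,3,4,5]],Ref.mk 1713 688 [0,1,2,3] [[0,1,2,3,4,5],[0,1,2,3,4,5],[0,1,2,3,4,5],[0,1,2,3,4,5]],Ref.mk 2442 689 [0,1,2,3] [[0,1,2,3,4,5],[0,1,2,3,4,5],[0,1,2,3,4,5],[0,1,2,3,4,5]],Ref.mk 3171 690 [0,1,2,3] [[0,1,2,3,4,5],[0,1,2,3,4,5],[0,1,2,3,4,5],[0,1,2,3,4,5]],Ref.mk 3900 694 [0,1,2,3] [[0,1,2,3,4,5],[0,1,2,3,4,5],[0,1,2,3,4,5],[0,1,2,3,4,5]],Ref.mk 4629 698 [0,1,2,3] [[0,1,2,3,4,5],[0,1,2,3,4,5],[0,1,2,3,4,5],[0,1,2,3,4,5,6]],Ref.mk 1633 699 [0,1,2,3] [[0,1,2,3,4,5],[0,1,2,3,4,5],[0,1,2,3,4,5],[0,1,2,3,4,5]],Ref.mk 1714 701 [0,1,2,3] [[0,1,2,3,4,5],[0,1,2,3,4,5],[0,1,2,3,4,5],[0,1,2,3,4,5]],Ref.mk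 1795 705 [0,1,2,3] [[0,1,2,3,4,5],[0,1,2,3,4,5],[0,1,2,3,4,5],[0,1,2,3,4,5]],Ref.mk 1876 705 [0,1,2,3] [[0,1,2,3,4,5],[0,1,2,3,4,5],[0,1,2,3,5,4],[0,1,2,3,4,5]],Ref.mk 1957 709 [0,1,2,3] [[0,1,2,3,4,5],[0,1,2,3,4,5],[0,1,2,3,4,5,6],[0,1,2,3,4,5]],Ref.mk 1715 683 [0,1,2,3] [[0,1,2,3,4,5],[0,1,2,3,4],[0,1,2,3,4],[0,1,2,3,4]],Ref.mk 1716 683 [0,1,2,3] [[0,1,2,3,4,6],[0,1,2,3,4],[0,1,2,3,4],[0,1,2,3,4]]],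
Node.mk [0,820,182,1542,2448,27,976,3105,2216,2529,2938,2935,36,2939,3663,45,1146] [(0,0),(0,2),(1,0),(1,1),(1,2),(3,1)] [],
Node.mk [0,820,182,1542,2448,27,976,3105,2216,2529,2938,2935,36,2939,3663,45,1155] [(0,0),(0,3),(1,2),(1,3),(2,5),(3,1)] [Ref.mk 2917 26 [3,1,2,0] [[0,1,3,2,4],[0,1,2,3],[0,1,3,2],[0,1,3,2]]],
Node.mk [0,820,182,1542,2448,27,976,3105,2216,2529,2938,2935,36,2939,3663,45,1164] [(0,0),(0,3),(1,2),(1,3),(2,5),(3,1)] [],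
Node.mk [0,820,182,1542,2448,27,976,3105,2216,2529,2938,2935,36,2939,3663,45,1173,1738,2940,1216] [(0,0),(0,1),(0,2),(0,3),(1,2),(3,1)] [],
Node.mk [0,820,182,1542,2448,27,976,3105,2216,2529,2938,2935,36,2939,3663,45,1173,1738,2940,1254] [(0,0),(0,2),(0,3),(1,2),(1,4),(3,1)] [],
Node.mk [0,820,182,1542,2448,27,976,3105,2216,2529,2938,2935,36,2939,3663,45,1173,1738,2940] [(2,0),(2,1),(2,2),(2,3),(2,4),(2,5)] [Ref.mk 2691 710 [0,1,2,3] [[0,1,2,3,4,5],[0,1,2,3,4,5],[0,1,2,3,4,6],[0,1,2,3,4,5]],Ref.mk 1216 714 [0,1,2,3] [[0,1,2,3,4,5,6],[0,1,2,3,4,5],[0,1,2,3,4,5,6],[0,1,2,3,4,5]],Ref.mk 1254 715 [0,1,2,3] [[0,1,2,3,4,5,6],[0,1,2,3,4,5],[0,1,2,3,4,5,6],[0,1,2,3,4,5]]],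
Node.mk [0,820,182,1542,2448,27,976,3105,2216,2529,2938,2935,36,2939,3663,45,1173,1738,852] [(0,0),(0,1),(0,2),(1,2),(2,1),(3,1)] [],
Node.mk [0,820,182,1542,2448,27,976,3105,2216,2529,2938,2935,36,2939,3663,45,1173,1738] [(0,0),(0,1),(0,2),(0,3),(0,4),(0,5)] [Ref.mk 978 678 [0,1,2,3] [[0,1,2,3,4,6],[0,1,2,3,4],[0,1,2,3,4],[0,1,2,3,4]],Ref.mk 2940 716 [0,1,2,3] [[0,1,2,3,4,5,6],[0,1,2,3,4,5],[0,1,2,3,4,5],[0,1,2,3,4,5]],Ref.mk 852 717 [0,1,2,3] [[0,1,2,3,4,5,6],[0,1,2,3,4,5],[0,1,2,3,4,5],[0,1,2,3,4,5]]],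
Node.mk [0,820,182,1542,2448,27,976,3105,2216,2529,2938,2935,36,2939,3663,45,1173,1876,825] [(0,0),(0,2),(0,3),(0,4),(1,2),(3,1)] [],
Node.mk [0,820,182,1542,2448,27,976,3105,2216,2529,2938,2935,36,2939,3663,45,1173,1876,2940] [(0,0),(0,1),(0,2),(0,3),(0,4),(1,2)] [Ref.mk 1139 680 [0,1,2,3] [[0,1,2,3,4,5],[0,1,2,3,4],[0,1,2,3,4,5],[0,1,2,3,4]],Ref.mk 824 719 [0,1,2,3] [[0,5,2,3,4,6,1],[0,1,2,3,4,5],[0,1,2,3,4,5],[0,1,2,3,4,5]],Ref.mk 1140 680 [0,1,2,3] [[0,1,2,3,4,6],[0,1,2,3,4],[0,1,2,3,4,5],[0,1,2,3,4]],Ref.mk 825 719 [0,1,2,3] [[0,6,2,3,4,5,1],[0,1,2,3,4,5],[0,1,2,3,4,5],[0,1,2,3,4,5]],Ref.mk 1141 680 [0,1,2,3] [[0,1,2,3,4,7],[0,1,2,3,4],[0,1,2,3,4,5],[0,1,2,3,4]],Ref.mk 826 719 [0,1,2,3] [[0,1,2,3,4,6,7],[0,1,2,3,4,5],[0,1,2,3,4,5],[0,1,2,3,4,5]]],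
Node.mk [0,820,182,1542,2448,27,976,3105,2216,2529,2938,2935,36,2939,3663,45,1173,1876] [(0,0),(0,1),(0,2),(0,3),(0,4),(0,5)] [Ref.mk 1140 680 [0,1,2,3] [[0,1,2,3,4,6],[0,1,2,3,4],[0,1,2,3,4,5],[0,1,2,3,4]],Ref.mk 825 719 [0,1,2,3] [[0,1,2,3,4,5,6],[0,1,2,3,4,5],[0,1,2,3,4,5],[0,1,2,3,4,5]],Ref.mk 2940 720 [0,1,2,3] [[0,1,2,3,4,5,6],[0,1,2,3,4,5],[0,1,2,3,4,5],[0,1,2,3,4,5]]],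
Node.mk [0,820,182,1542,2448,27,976,3105,2216,2529,2938,2935,36,2939,3663,45,1173] [(0,0),(0,2),(0,3),(1,0),(1,2),(2,1)] [Ref.mk 1738 718 [0,1,2,3] [[0,1,2,3,4,5],[0,1,2,3,4,5],[0,1,2,3,4,5],[0,1,2,3,4,5]],Ref.mk 1876 721 [0,1,2,3] [[0,1,2,3,4,5],[0,1,2,3,4,5],[0,1,2,3,4,5],[0,1,2,3,4,5]]],
Node.mk [0,820,182,1542,2448,27,976,3105,2216,2529,2938,2935,36,2939,3663,45,1191,1756,2940,1216] [(0,0),(0,1),(0,2),(0,3),(1,2),(3,1)] [],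
Node.mk [0,820,182,1542,2448,27,976,3105,2216,2529,2938,2935,36,2939,3663,45,1191,1756,2940,1272] [(0,0),(0,2),(0,3),(1,2),(1,6),(3,1)] [],
Node.mk [0,820,182,1542,2448,27,976,3105,2216,2529,2938,2935,36,2939,3663,45,1191,1756,2940] [(2,0),(2,1),(2,2),(2,3),(2,4),(2,5)] [Ref.mk 2691 710 [0,1,2,3] [[0,1,2,3,4,5],[0,1,2,3,4,5],[0,1,2,3,4,6],[0,1,2,3,4,5]],Ref.mk 1216 723 [0,1,2,3] [[0,1,2,3,4,5,6],[0,1,2,3,4,5,6],[0,1,2,3,4,5,6],[0,1,2,3,4,5]],Ref.mk 1272 724 [0,1,2,3] [[0,1,2,3,4,5,6],[0,1,2,3,4,5,6],[0,1,2,3,4,5,6],[0,1,2,3,4,5]]],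
Node.mk [0,820,182,1542,2448,27,976,3105,2216,2529,2938,2935,36,2939,3663,45,1191,1756,870] [(0,0),(0,1),(0,2),(1,2),(2,1),(3,1)] [],
Node.mk [0,820,182,1542,2448,27,976,3105,2216,2529,2938,2935,36,2939,3663,45,1191,1756] [(0,0),(0,1),(0,2),(0,3),(0,4),(0,5)] [Ref.mk 978 678 [0,1,2,3] [[0,1,2,3,4,6],[0,1,2,3,4],[0,1,2,3,4],[0,1,2,3,4]],Ref.mk 2940 725 [0,1,2,3] [[0,1,2,3,4,5,6],[0,1,2,3,4,5,6],[0,1,2,3,4,5],[0,1,2,3,4,5]],Ref.mk 870 726 [0,1,2,3] [[0,1,2,3,4,5,6],[0,1,2,3,4,5,6],[0,1,2,3,4,5],[0,1,2,3,4,5]]],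
Node.mk [0,820,182,1542,2448,27,976,3105,2216,2529,2938,2935,36,2939,3663,45,1191,1876,825] [(0,0),(0,2),(0,3),(0,4),(1,2),(3,1)] [],
Node.mk [0,820,182,1542,2448,27,976,3105,2216,2529,2938,2935,36,2939,3663,45,1191,1876,2940] [(0,0),(0,1),(0,2),(0,3),(0,4),(1,2)] [Ref.mk 1139 680 [0,1,2,3] [[0,1,2,3,4,5],[0,1,2,3,4],[0,1,2,3,4,5],[0,1,2,3,4]],Ref.mk 824 728 [0,1,2,3] [[0,5,2,3,4,6,1],[0,1,2,3,4,5,6],[0,1,2,3,4,5],[0,1,2,3,4,5]],Ref.mk 1140 680 [0,1,2,3] [[0,1,2,3,4,6],[0,1,2,3,4],[0,1,2,3,4,5],[0,1,2,3,4]],Ref.mk 825 728 [0,1,2,3] [[0,6,2,3,4,5,1],[0,1,2,3,4,5,6],[0,1,2,3,4,5],[0,1,2,3,4,5]],Ref.mk 1141 680 [0,1,2,3] [[0,1,2,3,4,7],[0,1,2,3,4],[0,1,2,3,4,5],[0,1,2,3,4]],Ref.mk 826 728 [0,1,2,3] [[0,1,2,3,4,6,7],[0,1,2,3,4,5,6],[0,1,2,3,4,5],[0,1,2,3,4,5]]],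
Node.mk [0,820,182,1542,2448,27,976,3105,2216,2529,2938,2935,36,2939,3663,45,1191,1876] [(0,0),(0,1),(0,2),(0,3),(0,4),(0,5)] [Ref.mk 1140 680 [0,1,2,3] [[0,1,2,3,4,6],[0,1,2,3,4],[0,1,2,3,4,5],[0,1,2,3,4]],Ref.mk 825 728 [0,1,2,3] [[0,1,2,3,4,5,6],[0,1,2,3,4,5,6],[0,1,2,3,4,5],[0,1,2,3,4,5]],Ref.mk 2940 729 [0,1,2,3] [[0,1,2,3,4,5,6],[0,1,2,3,4,5,6],[0,1,2,3,4,5],[0,1,2,3,4,5]]],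
Node.mk [0,820,182,1542,2448,27,976,3105,2216,2529,2938,2935,36,2939,3663,45,1191] [(0,0),(0,2),(0,3),(1,0),(1,2),(2,1)] [Ref.mk 1756 727 [0,1,2,3] [[0,1,2,3,4,5],[0,1,2,3,4,5,6],[0,1,2,3,4,5],[0,1,2,3,4,5]],Ref.mk 1876 730 [0,1,2,3] [[0,1,2,3,4,5],[0,1,2,3,4,5,6],[0,1,2,3,4,5],[0,1,2,3,4,5]]],
Node.mk [0,820,182,1542,2448,27,976,3105,2216,2529,2938,2935,36,2939,3663,45,1876,1545] [(0,0),(0,2),(1,0),(1,2),(2,1),(3,2)] [],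
Node.mk [0,820,182,1542,2448,27,976,3105,2216,2529,2938,2935,36,2939,3663,45,1876,825] [(0,0),(0,2),(1,1),(1,2),(2,1),(3,1)] [],
Node.mk [0,820,182,1542,2448,27,976,3105,2216,2529,2938,2935,36,2939,3663,45,1876,2940] [(0,0),(0,1),(0,2),(0,3),(0,4),(1,2)] [Ref.mk 1544 401 [0,1,2,3] [[0,1,2,5,4,6,3],[0,1,2,3,4,5],[0,1,2,3,4,5],[0,1,2,3,4,5]],Ref.mk 1139 680 [0,1,2,3] [[0,1,2,3,4,5],[0,1,2,3,4],[0,1,2,3,4,5],[0,1,2,3,4]],Ref.mk 824 733 [0,1,2,3] [[0,5,2,3,4,6,1],[0,1,2,3,4,5],[0,1,2,3,4,5],[0,1,2,3,4,5]],Ref.mk 1715 683 [0,1,2,3] [[0,1,2,3,4,5],[0,1,2,3,4],[0,1,2,3,4],[0,1,2,3,4]],Ref.mk 1545 401 [0,1,2,3] [[0,1,2,6,4,5,3],[0,1,2,3,4,5],[0,1,2,3,4,5],[0,1,2,3,4,5]],Ref.mk 1140 680 [0,1,2,3] [[0,1,2,3,4,6],[0,1,2,3,4],[0,1,2,3,4,5],[0,1,2,3,4]],Ref.mk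 825 733 [0,1,2,3] [[0,6,2,3,4,5,1],[0,1,2,3,4,5],[0,1,2,3,4,5],[0,1,2,3,4,5]],Ref.mk 1716 683 [0,1,2,3] [[0,1,2,3,4,6],[0,1,2,3,4],[0,1,2,3,4],[0,1,2,3,4]],Ref.mk 1546 732 [0,1,2,3] [[0,1,2,3,4,6,7],[0,1,2,3,4,5],[0,1,2,3,4,5],[0,1,2,3,4,5]],Ref.mk 1141 680 [0,1,2,3] [[0,1,2,3,4,7],[0,1,2,3,4],[0,1,2,3,4,5],[0,1,2,3,4]],Ref.mk 826 733 [0,1,2,3] [[0,1,2,3,4,6,7],[0,1,2,3,4,5],[0,1,2,3,4,5],[0,1,2,3,4,5]],Ref.mk 1717 683 [0,1,2,3] [[0,1,2,3,4,7],[0,1,2,3,4],[0,1,2,3,4],[0,1,2,3,4]]],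
Node.mk [0,820,182,1542,2448,27,976,3105,2216,2529,2938,2935,36,2939,3663,45,1876] [(0,0),(0,1),(0,2),(0,3),(0,4),(0,5)] [Ref.mk 1545 732 [0,1,2,3] [[0,1,2,3,4,5,6],[0,1,2,3,4,5],[0,1,2,3,4,5],[0,1,2,3,4,5]],Ref.mk 1140 680 [0,1,2,3] [[0,1,2,3,4,6],[0,1,2,3,4],[0,1,2,3,4,5],[0,1,2,3,4]],Ref.mk 825 733 [0,1,2,3] [[0,1,2,3,4,5,6],[0,1,2,3,4,5],[0,1,2,3,4,5],[0,1,2,3,4,5]],Ref.mk 1716 683 [0,1,2,3] [[0,1,2,3,4,6],[0,1,2,3,4],[0,1,2,3,4],[0,1,2,3,4]],Ref.mk 2940 734 [0,1,2,3] [[0,1,2,3,4,5,6],[0,1,2,3,4,5],[0,1,2,3,4,5],[0,1,2,3,4,5]]],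
Node.mk [0,820,182,1542,2448,27,976,3105,2216,2529,2938,2935,36,2939,3663,45] [(1,0),(2,0),(2,1),(2,2),(2,3),(2,4)] [Ref.mk 2610 710 [0,1,2,3] [[0,1,2,3,4,5],[0,1,2,3,4,5],[0,1,2,3,4,5],[0,1,2,3,4,5]],Ref.mk 1146 711 [0,1,2,3] [[0,1,2,3,4,5],[0,1,2,3,4,5],[0,1,2,3,4,5],[0,1,2,3,4,5]],Ref.mk 1155 712 [0,1,2,3] [[0,1,2,3,4,5],[0,1,2,3,4,5],[0,1,2,3,4,5],[0,1,2,3,4,5]],Ref.mk 1164 713 [0,1,2,3] [[0,1,2,3,4,5],[0,1,2,3,4,5],[0,1,2,3,4,5],[0,1,2,3,4,5]],Ref.mk 1173 722 [0,1,2,3] [[0,1,2,3,4,5],[0,1,2,3,4,5],[0,1,2,3,4,5],[0,1,2,3,4,5]],Ref.mk 1182 722 [0,1,2,3] [[0,1,2,3,4,5],[0,1,2,3,5,4],[0,1,2,3,4,5],[0,1,2,3,4,5]],Ref.mk 1191 731 [0,1,2,3] [[0,1,2,3,4,5],[0,1,2,3,4,5,6],[0,1,2,3,4,5],[0,1,2,3,4,5]],Ref.mk 1876 735 [0,1,2,3] [[0,1,2,3,4,5],[0,1,2,3,4,5],[0,1,2,3,4,5],[0,1,2,3,4,5]]],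
Node.mk [0,820,182,1542,2448,27,976,3105,2216,2529,2938,2935,36,2939,3663,1747,1545] [(0,0),(0,2),(1,0),(1,2),(2,1),(3,2)] [],
Node.mk [0,820,182,1542,2448,27,976,3105,2216,2529,2938,2935,36,2939,3663,1747,2940,860] [(0,0),(0,1),(0,2),(1,2),(2,1),(3,1)] [Ref.mk 1715 683 [0,1,2,3] [[0,1,2,3,4,5],[0,1,2,3,4],[0,1,2,3,4],[0,1,2,3,4]]],
Node.mk [0,820,182,1542,2448,27,976,3105,2216,2529,2938,2935,36,2939,3663,1747,2940,862] [(0,0),(0,1),(0,2),(1,2),(2,1),(3,1)] [Ref.mk 1717 683 [0,1,2,3] [[0,1,2,3,4,7],[0,1,2,3,4],[0,1,2,3,4],[0,1,2,3,4]]],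
Node.mk [0,820,182,1542,2448,27,976,3105,2216,2529,2938,2935,36,2939,3663,1747,2940] [(0,0),(0,1),(0,2),(0,3),(0,4),(1,2)] [Ref.mk 1544 406 [0,1,2,3] [[0,1,2,5,4,6,3],[0,1,2,3,4,5],[0,1,2,3,4],[0,1,2,3,4,5]],Ref.mk 977 678 [0,1,2,3] [[0,1,2,3,4,5],[0,1,2,3,4],[0,1,2,3,4],[0,1,2,3,4]],Ref.mk 1715 683 [0,1,2,3] [[0,1,2,3,4,5],[0,1,2,3,4],[0,1,2,3,4],[0,1,2,3,4]],Ref.mk 860 738 [0,1,2,3] [[0,1,2,3,4,5,6],[0,1,2,3,4,5],[0,1,2,3,4],[0,1,2,3,4,5]],Ref.mk 1545 406 [0,1,2,3] [[0,1,2,6,4,5,3],[0,1,2,3,4,5],[0,1,2,3,4],[0,1,2,3,4,5]],Ref.mk 978 678 [0,1,2,3] [[0,1,2,3,4,6],[0,1,2,3,4],[0,1,2,3,4],[0,1,2,3,4]],Ref.mk 1716 683 [0,1,2,3] [[0,1,2,3,4,6],[0,1,2,3,4],[0,1,2,3,4],[0,1,2,3,4]],Ref.mk 861 738 [0,1,2,3] [[0,1,2,3,4,6,5],[0,1,2,3,4,5],[0,1,2,3,4],[0,1,2,3,4,5]],Ref.mk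 1546 737 [0,1,2,3] [[0,1,2,3,4,6,7],[0,1,2,3,4,5],[0,1,2,3,4],[0,1,2,3,4,5]],Ref.mk 979 678 [0,1,2,3] [[0,1,2,3,4,7],[0,1,2,3,4],[0,1,2,3,4],[0,1,2,3,4]],Ref.mk 1717 683 [0,1,2,3] [[0,1,2,3,4,7],[0,1,2,3,4],[0,1,2,3,4],[0,1,2,3,4]],Ref.mk 862 739 [0,1,2,3] [[0,1,2,3,4,5,6,7],[0,1,2,3,4,5],[0,1,2,3,4],[0,1,2,3,4,5]]],
Node.mk [0,820,182,1542,2448,27,976,3105,2216,2529,2938,2935,36,2939,3663,1747,861] [(0,0),(0,1),(0,2),(1,2),(2,1),(3,1)] [Ref.mk 1716 683 [0,1,2,3] [[0,1,2,3,4,6],[0,1,2,3,4],[0,1,2,3,4],[0,1,2,3,4]]],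
Node.mk [0,820,182,1542,2448,27,976,3105,2216,2529,2938,2935,36,2939,3663,1747] [(0,0),(0,1),(0,2),(0,3),(0,4),(0,5)] [Ref.mk 1545 737 [0,1,2,3] [[0,1,2,3,4,5,6],[0,1,2,3,4,5],[0,1,2,3,4],[0,1,2,3,4,5]],Ref.mk 978 678 [0,1,2,3] [[0,1,2,3,4,6],[0,1,2,3,4],[0,1,2,3,4],[0,1,2,3,4]],Ref.mk 1716 683 [0,1,2,3] [[0,1,2,3,4,6],[0,1,2,3,4],[0,1,2,3,4],[0,1,2,3,4]],Ref.mk 2940 740 [0,1,2,3] [[0,1,2,3,4,5,6],[0,1,2,3,4,5],[0,1,2,3,4],[0,1,2,3,4,5]],Ref.mk 861 741 [0,1,2,3] [[0,1,2,3,4,5,6],[0,1,2,3,4,5],[0,1,2,3,4],[0,1,2,3,4,5]]],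
Node.mk [0,820,182,1542,2448,27,976,3105,2216,2529,2938,2935,36,2939,3663,777] [(0,0),(0,2),(0,3),(1,0),(2,0),(2,1)] [Ref.mk 1747 742 [0,1,2,3] [[0,1,2,3,4,5],[0,1,2,3,4,5],[0,1,2,3,4],[0,1,2,3,4,5]]],
Node.mk [0,820,182,1542,2448,27,976,3105,2216,2529,2938,2935,36,2939,3663,939] [(0,0),(0,3),(0,4),(2,0),(2,2),(3,1)] [Ref.mk 1747 742 [0,1,2,3] [[0,1,2,3,4,5],[0,1,2,3,4,5],[0,1,2,3,4],[0,1,2,3,4,5]]],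
Node.mk [0,820,182,1542,2448,27,976,3105,2216,2529,2938,2935,36,2939,3663,1020] [(0,0),(0,2),(1,2),(2,1),(2,3),(3,1)] [],
Node.mk [0,820,182,1542,2448,27,976,3105,2216,2529,2938,2935,36,2939,3663,1101,1795,2610,825] [(0,0),(0,2),(0,3),(0,4),(1,2),(3,1)] [],
Node.mk [0,820,182,1542,2448,27,976,3105,2216,2529,2938,2935,36,2939,3663,1101,1795,2610,2940] [(0,0),(0,1),(0,2),(0,3),(0,4),(1,2)] [Ref.mk 1058 679 [0,1,2,3] [[0,1,2,3,4,5],[0,1,2,3,4],[0,1,2,3,4],[0,1,2,3,4]],Ref.mk 824 746 [0,1,2,3] [[0,5,2,3,4,6,1],[0,1,2,3,4,5],[0,1,2,3,4,5],[0,1,2,3,4,5]],Ref.mk 1059 679 [0,1,2,3] [[0,1,2,3,4,6],[0,1,2,3,4],[0,1,2,3,4],[0,1,2,3,4]],Ref.mk 825 746 [0,1,2,3] [[0,6,2,3,4,5,1],[0,1,2,3,4,5],[0,1,2,3,4,5],[0,1,2,3,4,5]],Ref.mk 1060 679 [0,1,2,3]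 [[0,1,2,3,4,7],[0,1,2,3,4],[0,1,2,3,4],[0,1,2,3,4]],Ref.mk 826 746 [0,1,2,3] [[0,1,2,3,4,6,7],[0,1,2,3,4,5],[0,1,2,3,4,5],[0,1,2,3,4,5]]],
Node.mk [0,820,182,1542,2448,27,976,3105,2216,2529,2938,2935,36,2939,3663,1101,1795,2610] [(0,0),(0,1),(0,2),(0,3),(0,4),(0,5)] [Ref.mk 1059 679 [0,1,2,3] [[0,1,2,3,4,6],[0,1,2,3,4],[0,1,2,3,4],[0,1,2,3,4]],Ref.mk 825 746 [0,1,2,3] [[0,1,2,3,4,5,6],[0,1,2,3,4,5],[0,1,2,3,4,5],[0,1,2,3,4,5]],Ref.mk 2940 747 [0,1,2,3] [[0,1,2,3,4,5,6],[0,1,2,3,4,5],[0,1,2,3,4,5],[0,1,2,3,4,5]]],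
Node.mk [0,820,182,1542,2448,27,976,3105,2216,2529,2938,2935,36,2939,3663,1101,1795] [(2,0),(2,1),(2,2),(2,3),(2,4),(3,1)] [Ref.mk 2610 748 [0,1,2,3] [[0,1,2,3,4,5],[0,1,2,3,4,5],[0,1,2,3,4,5],[0,1,2,3,4,5]]],
Node.mk [0,820,182,1542,2448,27,976,3105,2216,2529,2938,2935,36,2939,3663,1101] [(0,0),(0,2),(0,3),(1,0),(1,2),(2,1)] [Ref.mk 1747 742 [0,1,2,3] [[0,1,2,3,4,5],[0,1,2,3,4,5],[0,1,2,3,4],[0,1,2,3,4,5]],Ref.mk 1795 749 [0,1,2,3] [[0,1,2,3,4,5],[0,1,2,3,4,5],[0,1,2,3,4],[0,1,2,3,4,5]]],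
Node.mk [0,820,182,1542,2448,27,976,3105,2216,2529,2938,2935,36,2939,3663,1182,1876,825] [(0,0),(0,2),(0,3),(0,4),(1,2),(3,1)] [],
Node.mk [0,820,182,1542,2448,27,976,3105,2216,2529,2938,2935,36,2939,3663,1182,1876,2940] [(0,0),(0,1),(0,2),(0,3),(0,4),(1,2)] [Ref.mk 1139 680 [0,1,2,3] [[0,1,2,3,4,5],[0,1,2,3,4],[0,1,2,3,4,5],[0,1,2,3,4]],Ref.mk 824 751 [0,1,2,3] [[0,5,2,3,4,6,1],[0,1,2,3,4,5],[0,1,2,3,4,5],[0,1,2,3,4,5]],Ref.mk 1140 680 [0,1,2,3] [[0,1,2,3,4,6],[0,1,2,3,4],[0,1,2,3,4,5],[0,1,2,3,4]],Ref.mk 825 751 [0,1,2,3] [[0,6,2,3,4,5,1],[0,1,2,3,4,5],[0,1,2,3,4,5],[0,1,2,3,4,5]],Ref.mk 1141 680 [0,1,2,3] [[0,1,2,3,4,7],[0,1,2,3,4],[0,1,2,3,4,5],[0,1,2,3,4]],Ref.mk 826 751 [0,1,2,3] [[0,1,2,3,4,6,7],[0,1,2,3,4,5],[0,1,2,3,4,5],[0,1,2,3,4,5]]],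
Node.mk [0,820,182,1542,2448,27,976,3105,2216,2529,2938,2935,36,2939,3663,1182,1876] [(0,0),(0,1),(0,2),(0,3),(0,4),(0,5)] [Ref.mk 1140 680 [0,1,2,3] [[0,1,2,3,4,6],[0,1,2,3,4],[0,1,2,3,4,5],[0,1,2,3,4]],Ref.mk 825 751 [0,1,2,3] [[0,1,2,3,4,5,6],[0,1,2,3,4,5],[0,1,2,3,4,5],[0,1,2,3,4,5]],Ref.mk 2940 752 [0,1,2,3] [[0,1,2,3,4,5,6],[0,1,2,3,4,5],[0,1,2,3,4,5],[0,1,2,3,4,5]]],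
Node.mk [0,820,182,1542,2448,27,976,3105,2216,2529,2938,2935,36,2939,3663,1182] [(0,0),(0,2),(0,3),(1,0),(1,2),(2,1)] [Ref.mk 1747 742 [0,1,2,3] [[0,1,2,3,4,5],[0,1,2,3,4,5],[0,1,2,3,4],[0,1,2,3,4,5]],Ref.mk 1876 753 [0,1,2,3] [[0,1,2,3,4,5],[0,1,2,3,4,5],[0,1,2,3,4,5],[0,1,2,3,4,5]]],
Node.mk [0,820,182,1542,2448,27,976,3105,2216,2529,2938,2935,36,2939,3663] [(1,0),(1,1),(1,2),(1,3),(1,4),(2,1)] [Ref.mk 45 736 [0,1,2,3] [[0,1,2,3,4,5],[0,1,2,3,4,5],[0,1,2,3,4],[0,1,2,3,4,5]],Ref.mk 1747 742 [0,1,2,3] [[0,1,2,3,4,5],[0,1,2,3,4,5],[0,1,2,3,4],[0,1,2,3,4,5]],Ref.mk 777 743 [0,1,2,3] [[0,1,2,3,4,5],[0,1,2,3,4,5],[0,1,2,3,4],[0,1,2,3,4,5]],Ref.mk 939 744 [0,1,2,3] [[0,1,2,3,4,5],[0,1,2,3,4,5],[0,1,2,3,4],[0,1,2,3,4,5]],Ref.mk 1020 745 [0,1,2,3]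 [[0,1,2,3,4,5],[0,1,2,3,4,5],[0,1,2,3,4],[0,1,2,3,4,5]],Ref.mk 1101 750 [0,1,2,3] [[0,1,2,3,4,5],[0,1,2,3,4,5],[0,1,2,3,4],[0,1,2,3,4,5]],Ref.mk 1182 754 [0,1,2,3] [[0,1,2,3,4,5],[0,1,2,3,4,5],[0,1,2,3,4,5],[0,1,2,3,4,5]]],
Node.mk [0,820,182,1542,2448,27,976,3105,2216,2529,2938,2935,36,2939,3808] [(0,0),(0,1),(1,0),(2,0),(2,2),(3,5)] [],
Node.mk [0,820,182,1542,2448,27,976,3105,2216,2529,2938,2935,36,2939,3970] [(1,0),(2,0),(2,1),(2,2),(2,3),(2,4)] [Ref.mk 2610 533 [2,1,0,3] [[0,1,2,4,3,5],[0,1,2,3,4],[0,1,2,4,5,3],[0,1,5,4,3,2]]],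
Node.mk [0,820,182,1542,2448,27,976,3105,2216,2529,2938,2935,36,2939,4051,3900,3732] [(0,0),(0,1),(0,2),(1,0),(1,2),(3,5)] [],
Node.mk [0,820,182,1542,2448,27,976,3105,2216,2529,2938,2935,36,2939,4051,3900,2940] [(0,0),(0,1),(0,2),(0,3),(0,4),(1,2)] [Ref.mk 3731 758 [0,1,2,3] [[0,1,2,3,4,6,5],[0,1,2,3,4],[0,1,2,3,4,5],[0,1,2,3,4,5]],Ref.mk 977 678 [0,1,2,3] [[0,1,2,3,4,5],[0,1,2,3,4],[0,1,2,3,4],[0,1,2,3,4]],Ref.mk 3732 758 [0,1,2,3] [[0,1,2,3,4,5,6],[0,1,2,3,4],[0,1,2,3,4,5],[0,1,2,3,4,5]],Ref.mk 978 678 [0,1,2,3] [[0,1,2,3,4,6],[0,1,2,3,4],[0,1,2,3,4],[0,1,2,3,4]],Ref.mk 3733 758 [0,1,2,3] [[0,1,2,3,4,6,7],[0,1,2,3,4],[0,1,2,3,4,5],[0,1,2,3,4,5]],Ref.mk 979 678 [0,1,2,3] [[0,1,2,3,4,7],[0,1,2,3,4],[0,1,2,3,4],[0,1,2,3,4]]],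
Node.mk [0,820,182,1542,2448,27,976,3105,2216,2529,2938,2935,36,2939,4051,3900] [(0,0),(0,1),(0,2),(0,3),(0,4),(0,5)] [Ref.mk 3732 758 [0,1,2,3] [[0,1,2,3,4,5,6],[0,1,2,3,4],[0,1,2,3,4,5],[0,1,2,3,4,5]],Ref.mk 978 678 [0,1,2,3] [[0,1,2,3,4,6],[0,1,2,3,4],[0,1,2,3,4],[0,1,2,3,4]],Ref.mk 2940 759 [0,1,2,3] [[0,1,2,3,4,5,6],[0,1,2,3,4],[0,1,2,3,4,5],[0,1,2,3,4,5]]],
Node.mk [0,820,182,1542,2448,27,976,3105,2216,2529,2938,2935,36,2939,4051,1876,1545] [(0,0),(0,1),(0,2),(0,4),(1,0),(1,2)] [],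
Node.mk [0,820,182,1542,2448,27,976,3105,2216,2529,2938,2935,36,2939,4051,1876,2940] [(0,0),(0,1),(0,2),(0,3),(0,4),(1,2)] [Ref.mk 1544 436 [0,1,2,3] [[0,1,2,5,4,6,3],[0,1,2,3,4],[0,1,2,3,4,5],[0,1,2,3,4,5]],Ref.mk 1139 680 [0,1,2,3] [[0,1,2,3,4,5],[0,1,2,3,4],[0,1,2,3,4,5],[0,1,2,3,4]],Ref.mk 1545 436 [0,1,2,3] [[0,1,2,6,4,5,3],[0,1,2,3,4],[0,1,2,3,4,5],[0,1,2,3,4,5]],Ref.mk 1140 680 [0,1,2,3] [[0,1,2,3,4,6],[0,1,2,3,4],[0,1,2,3,4,5],[0,1,2,3,4]],Ref.mk 1546 761 [0,1,2,3] [[0,1,2,3,4,6,7],[0,1,2,3,4],[0,1,2,3,4,5],[0,1,2,3,4,5]],Ref.mk 1141 680 [0,1,2,3] [[0,1,2,3,4,7],[0,1,2,3,4],[0,1,2,3,4,5],[0,1,2,3,4]]],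
Node.mk [0,820,182,1542,2448,27,976,3105,2216,2529,2938,2935,36,2939,4051,1876] [(0,0),(0,1),(0,2),(0,3),(0,4),(0,5)] [Ref.mk 1545 761 [0,1,2,3] [[0,1,2,3,4,5,6],[0,1,2,3,4],[0,1,2,3,4,5],[0,1,2,3,4,5]],Ref.mk 1140 680 [0,1,2,3] [[0,1,2,3,4,6],[0,1,2,3,4],[0,1,2,3,4,5],[0,1,2,3,4]],Ref.mk 2940 762 [0,1,2,3] [[0,1,2,3,4,5,6],[0,1,2,3,4],[0,1,2,3,4,5],[0,1,2,3,4,5]]],
Node.mk [0,820,182,1542,2448,27,976,3105,2216,2529,2938,2935,36,2939,4051] [(0,0),(0,1),(0,2),(1,2),(2,1),(3,1)] [Ref.mk 3900 760 [0,1,2,3] [[0,1,2,3,4,5],[0,1,2,3,4],[0,1,2,3,4,5],[0,1,2,3,4,5]],Ref.mk 1876 763 [0,1,2,3] [[0,1,2,3,4,5],[0,1,2,3,4],[0,1,2,3,4,5],[0,1,2,3,4,5]]],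
Node.mk [0,820,182,1542,2448,27,976,3105,2216,2529,2938,2935,36,2939,3900,1795,2610,825] [(0,0),(0,2),(0,3),(0,4),(1,1),(1,2)] [],
Node.mk [0,820,182,1542,2448,27,976,3105,2216,2529,2938,2935,36,2939,3900,1795,2610,2940] [(0,0),(0,1),(0,2),(0,3),(0,4),(1,2)] [Ref.mk 824 765 [0,1,2,3] [[0,5,2,3,4,6,1],[0,1,2,3,4],[0,1,2,3,4,5],[0,1,2,3,4,5]],Ref.mk 1715 683 [0,1,2,3] [[0,1,2,3,4,5],[0,1,2,3,4],[0,1,2,3,4],[0,1,2,3,4]],Ref.mk 825 765 [0,1,2,3] [[0,6,2,3,4,5,1],[0,1,2,3,4],[0,1,2,3,4,5],[0,1,2,3,4,5]],Ref.mk 1716 683 [0,1,2,3] [[0,1,2,3,4,6],[0,1,2,3,4],[0,1,2,3,4],[0,1,2,3,4]],Ref.mk 826 765 [0,1,2,3] [[0,1,2,3,4,6,7],[0,1,2,3,4],[0,1,2,3,4,5],[0,1,2,3,4,5]],Ref.mk 1717 683 [0,1,2,3] [[0,1,2,3,4,7],[0,1,2,3,4],[0,1,2,3,4],[0,1,2,3,4]]],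
Node.mk [0,820,182,1542,2448,27,976,3105,2216,2529,2938,2935,36,2939,3900,1795,2610] [(0,0),(0,1),(0,2),(0,3),(0,4),(0,5)] [Ref.mk 825 765 [0,1,2,3] [[0,1,2,3,4,5,6],[0,1,2,3,4],[0,1,2,3,4,5],[0,1,2,3,4,5]],Ref.mk 1716 683 [0,1,2,3] [[0,1,2,3,4,6],[0,1,2,3,4],[0,1,2,3,4],[0,1,2,3,4]],Ref.mk 2940 766 [0,1,2,3] [[0,1,2,3,4,5,6],[0,1,2,3,4],[0,1,2,3,4,5],[0,1,2,3,4,5]]]]

/-- nodes -/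
noncomputable def c12 : List Node := [
Node.mk [0,820,182,1542,2448,27,976,3105,2216,2529,2938,2935,36,2939,3900,1795] [(1,1),(2,0),(2,1),(2,2),(2,3),(2,4)] [Ref.mk 2610 767 [0,1,2,3] [[0,1,2,3,4,5],[0,1,2,3,4],[0,1,2,3,4,5],[0,1,2,3,4,5]]],
Node.mk [0,820,182,1542,2448,27,976,3105,2216,2529,2938,2935,36,2939,3900,1876,825] [(0,0),(0,2),(0,3),(0,4),(1,1),(1,2)] [],
Node.mk [0,820,182,1542,2448,27,976,3105,2216,2529,2938,2935,36,2939,3900,1876,2940] [(0,0),(0,1),(0,2),(0,3),(0,4),(1,2)] [Ref.mk 824 769 [0,1,2,3] [[0,5,2,3,4,6,1],[0,1,2,3,4],[0,1,2,3,4,5],[0,1,2,3,4,5]],Ref.mk 1715 683 [0,1,2,3] [[0,1,2,3,4,5],[0,1,2,3,4],[0,1,2,3,4],[0,1,2,3,4]],Ref.mk 825 769 [0,1,2,3] [[0,6,2,3,4,5,1],[0,1,2,3,4],[0,1,2,3,4,5],[0,1,2,3,4,5]],Ref.mk 1716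 683 [0,1,2,3] [[0,1,2,3,4,6],[0,1,2,3,4],[0,1,2,3,4],[0,1,2,3,4]],Ref.mk 826 769 [0,1,2,3] [[0,1,2,3,4,6,7],[0,1,2,3,4],[0,1,2,3,4,5],[0,1,2,3,4,5]],Ref.mk 1717 683 [0,1,2,3] [[0,1,2,3,4,7],[0,1,2,3,4],[0,1,2,3,4],[0,1,2,3,4]]],
Node.mk [0,820,182,1542,2448,27,976,3105,2216,2529,2938,2935,36,2939,3900,1876] [(0,0),(0,1),(0,2),(0,3),(0,4),(0,5)] [Ref.mk 825 769 [0,1,2,3] [[0,1,2,3,4,5,6],[0,1,2,3,4],[0,1,2,3,4,5],[0,1,2,3,4,5]],Ref.mk 1716 683 [0,1,2,3] [[0,1,2,3,4,6],[0,1,2,3,4],[0,1,2,3,4],[0,1,2,3,4]],Ref.mk 2940 770 [0,1,2,3] [[0,1,2,3,4,5,6],[0,1,2,3,4],[0,1,2,3,4,5],[0,1,2,3,4,5]]],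
Node.mk [0,820,182,1542,2448,27,976,3105,2216,2529,2938,2935,36,2939,3900] [(0,0),(0,3),(2,0),(2,1),(2,2),(2,3)] [Ref.mk 3970 757 [0,1,2,3] [[0,1,2,3,4,5],[0,1,2,3,4],[0,1,2,3,4],[0,1,2,3,4,5]],Ref.mk 4051 760 [0,1,2,3] [[0,1,2,3,4,5],[0,1,2,3,4],[0,1,2,3,4,5],[0,1,2,3,4,5]],Ref.mk 1795 768 [0,1,2,3] [[0,1,2,3,4,5],[0,1,2,3,4],[0,1,2,3,4],[0,1,2,3,4,5]],Ref.mk 1876 771 [0,1,2,3] [[0,1,2,3,4,5],[0,1,2,3,4],[0,1,2,3,4,5],[0,1,2,3,4,5]]],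
Node.mk [0,820,182,1542,2448,27,976,3105,2216,2529,2938,2935,36,2939] [(2,1),(3,0),(3,1),(3,2),(3,3),(3,4)] [Ref.mk 3663 755 [0,1,2,3] [[0,1,2,3,4,5],[0,1,2,3,4],[0,1,2,3,4],[0,1,2,3,4,5]],Ref.mk 3646 26 [3,1,2,0] [[0,1,3,2,5],[0,1,2,3],[0,1,3,2],[0,1,3,2]],Ref.mk 3808 756 [0,1,2,3] [[0,1,2,3,4,5],[0,1,2,3,4],[0,1,2,3,4],[0,1,2,3,4,5]],Ref.mk 3889 98 [3,1,2,0] [[0,1,3,2,5],[0,1,2,3],[0,1,3,2],[0,1,3,2]],Ref.mk 3970 757 [0,1,2,3] [[0,1,2,3,4,5],[0,1,2,3,4],[0,1,2,3,4],[0,1,2,3,4,5]],Ref.mk 4051 764 [0,1,2,3] [[0,1,2,3,4,5],[0,1,2,3,4],[0,1,2,3,4,5],[0,1,2,3,4,5]],Ref.mk 3900 772 [0,1,2,3] [[0,1,2,3,4,5],[0,1,2,3,4],[0,1,2,3,4],[0,1,2,3,4,5]]],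
Node.mk [0,820,182,1542,2448,27,976,3105,2216,2529,2938,2935,36] [(0,0),(0,1),(0,2),(0,3),(0,4),(2,1)] [Ref.mk 734 26 [0,1,2,3] [[0,1,2,3,5],[0,1,2,3],[0,1,2,3],[0,1,2,3]],Ref.mk 896 98 [0,1,2,3] [[0,1,2,3,5],[0,1,2,3],[0,1,2,3],[0,1,2,3]],Ref.mk 977 678 [0,1,2,3] [[0,1,2,3,4,5],[0,1,2,3,4],[0,1,2,3,4],[0,1,2,3,4]],Ref.mk 1058 679 [0,1,2,3] [[0,1,2,3,4,5],[0,1,2,3,4],[0,1,2,3,4],[0,1,2,3,4]],Ref.mk 1139 680 [0,1,2,3] [[0,1,2,3,4,5],[0,1,2,3,4],[0,1,2,3,4,5],[0,1,2,3,4]],Ref.mk 1715 683 [0,1,2,3] [[0,1,2,3,4,5],[0,1,2,3,4],[0,1,2,3,4],[0,1,2,3,4]],Ref.mk 2939 773 [0,1,2,3] [[0,1,2,3,4,5],[0,1,2,3,4],[0,1,2,3,4],[0,1,2,3,4]]],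
Node.mk [0,820,182,1542,2448,27,976,3105,2216,2529,2938,2935,1738,9,1715] [(0,0),(0,2),(1,2),(2,1),(2,3),(3,2)] [],
Node.mk [0,820,182,1542,2448,27,976,3105,2216,2529,2938,2935,1738,9,2939,1020] [(0,0),(0,2),(1,2),(2,1),(2,3),(3,1)] [],
Node.mk [0,820,182,1542,2448,27,976,3105,2216,2529,2938,2935,1738,9,2939,1588] [(0,0),(0,2),(0,4),(1,2),(2,1),(3,2)] [Ref.mk 1020 776 [0,1,2,3] [[0,1,2,3,4,5],[0,1,2,3,4,5],[0,1,2,3,4],[0,1,2,3,4]]],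
Node.mk [0,820,182,1542,2448,27,976,3105,2216,2529,2938,2935,1738,9,2939] [(0,1),(1,0),(1,1),(1,2),(1,3),(1,4)] [Ref.mk 45 773 [0,1,2,3] [[0,1,2,3,4,5],[0,1,2,3,5],[0,1,2,3,4],[0,1,2,3,4]],Ref.mk 1020 776 [0,1,2,3] [[0,1,2,3,4,5],[0,1,2,3,4,5],[0,1,2,3,4],[0,1,2,3,4]],Ref.mk 1588 777 [0,1,2,3] [[0,1,2,3,4,5],[0,1,2,3,4,5],[0,1,2,3,4],[0,1,2,3,4]]],
Node.mk [0,820,182,1542,2448,27,976,3105,2216,2529,2938,2935,1738,9,851] [(0,0),(0,1),(0,2),(0,4),(1,0),(3,1)] [Ref.mk 2937 455 [0,1,2,3] [[0,5,2,3,4,1],[0,4,2,3,1],[0,1,2,3,4],[0,1,2,3,4]],Ref.mk 1715 775 [0,1,2,3] [[0,1,2,3,4,5],[0,1,2,3,4],[0,1,2,3,4],[0,1,2,3,4]],Ref.mk 2939 778 [0,1,2,3] [[0,1,2,3,4,5],[0,1,2,3,4],[0,1,2,3,4],[0,1,2,3,4]],Ref.mk 2940 778 [0,1,2,3] [[0,1,2,3,4,6],[0,1,2,3,4],[0,1,2,3,4],[0,1,2,3,4]]],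
Node.mk [0,820,182,1542,2448,27,976,3105,2216,2529,2938,2935,1738,9] [(0,0),(0,1),(0,2),(0,3),(0,4),(1,0)] [Ref.mk 1715 775 [0,1,2,3] [[0,1,2,3,4,5],[0,1,2,3,4],[0,1,2,3,4],[0,1,2,3,4]],Ref.mk 2939 778 [0,1,2,3] [[0,1,2,3,4,5],[0,1,2,3,4],[0,1,2,3,4],[0,1,2,3,4]],Ref.mk 851 779 [0,1,2,3] [[0,1,2,3,4,5],[0,1,2,3,4],[0,1,2,3,4],[0,1,2,3,4]]],
Node.mk [0,820,182,1542,2448,27,976,3105,2216,2529,2938,2935,1738] [(0,3),(1,0),(1,2),(1,3),(2,1),(3,2)] [Ref.mk 9 780 [0,1,2,3] [[0,1,2,3,4],[0,1,2,3,4],[0,1,2,3,4],[0,1,2,3,4]],Ref.mk 36 774 [0,1,2,3] [[0,1,2,3,4],[0,1,2,3,4],[0,1,2,3,4],[0,1,2,3,4]],Ref.mk 45 774 [0,1,2,3] [[0,1,2,3,4],[0,1,2,3,5],[0,1,2,3,4],[0,1,2,3,4]]],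
Node.mk [0,820,182,1542,2448,27,976,3105,2216,2529,2938,2935] [(0,3),(1,0),(1,1),(1,2),(1,3),(2,1)] [Ref.mk 36 774 [0,1,2,3] [[0,1,2,3,4],[0,1,2,3,4],[0,1,2,3,4],[0,1,2,3,4]],Ref.mk 1738 781 [0,1,2,3] [[0,1,2,3,4],[0,1,2,3,4],[0,1,2,3,4],[0,1,2,3,4]]],
Node.mk [0,820,182,1542,2448,27,976,3105,2216,2529,2938,2939,36,3663,45,2610,1227] [(0,0),(0,2),(1,0),(1,1),(1,2),(3,1)] [],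
Node.mk [0,820,182,1542,2448,27,976,3105,2216,2529,2938,2939,36,3663,45,2610,1083] [(0,0),(0,3),(1,2),(1,3),(2,4),(3,1)] [],
Node.mk [0,820,182,1542,2448,27,976,3105,2216,2529,2938,2939,36,3663,45,2610,1245] [(0,0),(0,3),(1,2),(1,3),(2,6),(3,1)] [],
Node.mk [0,820,182,1542,2448,27,976,3105,2216,2529,2938,2939,36,3663,45,2610,1254,1738,978] [(0,0),(0,1),(0,2),(0,3),(1,2),(3,1)] [],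
Node.mk [0,820,182,1542,2448,27,976,3105,2216,2529,2938,2939,36,3663,45,2610,1254,1738,2940,851] [(0,0),(0,1),(0,2),(1,2),(2,1),(3,1)] [],
Node.mk [0,820,182,1542,2448,27,976,3105,2216,2529,2938,2939,36,3663,45,2610,1254,1738,2940,853] [(0,0),(0,1),(0,2),(1,2),(2,1),(3,1)] [],
Node.mk [0,820,182,1542,2448,27,976,3105,2216,2529,2938,2939,36,3663,45,2610,1254,1738,2940] [(0,0),(0,1),(0,2),(0,3),(0,4),(1,2)] [Ref.mk 977 786 [0,1,2,3] [[0,1,2,3,5,6,4],[0,1,2,3,4,5],[0,1,2,3,4,5,6],[0,1,2,3,4,5]],Ref.mk 851 787 [0,1,2,3] [[0,1,2,3,4,5,6],[0,1,2,3,4,5],[0,1,2,3,4,5,6],[0,1,2,3,4,5]],Ref.mk 978 786 [0,1,2,3] [[0,1,2,3,6,5,4],[0,1,2,3,4,5],[0,1,2,3,4,5,6],[0,1,2,3,4,5]],Ref.mk 852 787 [0,1,2,3] [[0,1,2,3,4,6,5],[0,1,2,3,4,5],[0,1,2,3,4,5,6],[0,1,2,3,4,5]],Ref.mk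 979 786 [0,1,2,3] [[0,1,2,3,4,6,7],[0,1,2,3,4,5],[0,1,2,3,4,5,6],[0,1,2,3,4,5]],Ref.mk 853 788 [0,1,2,3] [[0,1,2,3,4,5,6,7],[0,1,2,3,4,5],[0,1,2,3,4,5,6],[0,1,2,3,4,5]]],
Node.mk [0,820,182,1542,2448,27,976,3105,2216,2529,2938,2939,36,3663,45,2610,1254,1738,852] [(0,0),(0,1),(0,2),(1,2),(2,1),(3,1)] [],
Node.mk [0,820,182,1542,2448,27,976,3105,2216,2529,2938,2939,36,3663,45,2610,1254,1738] [(0,0),(0,1),(0,2),(0,3),(0,4),(0,5)] [Ref.mk 978 786 [0,1,2,3] [[0,1,2,3,4,5,6],[0,1,2,3,4,5],[0,1,2,3,4,5,6],[0,1,2,3,4,5]],Ref.mk 2940 789 [0,1,2,3] [[0,1,2,3,4,5,6],[0,1,2,3,4,5],[0,1,2,3,4,5,6],[0,1,2,3,4,5]],Ref.mk 852 790 [0,1,2,3] [[0,1,2,3,4,5,6],[0,1,2,3,4,5],[0,1,2,3,4,5,6],[0,1,2,3,4,5]]],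
Node.mk [0,820,182,1542,2448,27,976,3105,2216,2529,2938,2939,36,3663,45,2610,1254,1957,1221] [(0,0),(0,1),(0,2),(1,2),(3,1),(3,2)] [],
Node.mk [0,820,182,1542,2448,27,976,3105,2216,2529,2938,2939,36,3663,45,2610,1254,1957,825] [(0,0),(0,2),(0,3),(0,4),(1,2),(3,1)] [],
Node.mk [0,820,182,1542,2448,27,976,3105,2216,2529,2938,2939,36,3663,45,2610,1254,1957,2940] [(0,0),(0,1),(0,2),(0,3),(0,4),(1,2)] [Ref.mk 1220 792 [0,1,2,3] [[0,1,2,3,4,6,5],[0,1,2,3,4,5],[0,1,2,3,4,5,6],[0,1,2,3,4,5]],Ref.mk 824 719 [0,1,2,3] [[0,5,2,3,4,6,1],[0,1,2,3,4,5],[0,1,2,3,5,6],[0,1,2,3,4,5]],Ref.mk 1221 792 [0,1,2,3] [[0,1,2,3,4,5,6],[0,1,2,3,4,5],[0,1,2,3,4,5,6],[0,1,2,3,4,5]],Ref.mk 825 719 [0,1,2,3] [[0,6,2,3,4,5,1],[0,1,2,3,4,5],[0,1,2,3,5,6],[0,1,2,3,4,5]],Ref.mk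 1222 792 [0,1,2,3] [[0,1,2,3,4,6,7],[0,1,2,3,4,5],[0,1,2,3,4,5,6],[0,1,2,3,4,5]],Ref.mk 826 793 [0,1,2,3] [[0,1,2,3,4,6,7],[0,1,2,3,4,5],[0,1,2,3,4,5,6],[0,1,2,3,4,5]]],
Node.mk [0,820,182,1542,2448,27,976,3105,2216,2529,2938,2939,36,3663,45,2610,1254,1957] [(0,0),(0,1),(0,2),(0,3),(0,4),(0,5)] [Ref.mk 1221 792 [0,1,2,3] [[0,1,2,3,4,5,6],[0,1,2,3,4,5],[0,1,2,3,4,5,6],[0,1,2,3,4,5]],Ref.mk 825 793 [0,1,2,3] [[0,1,2,3,4,5,6],[0,1,2,3,4,5],[0,1,2,3,4,5,6],[0,1,2,3,4,5]],Ref.mk 2940 794 [0,1,2,3] [[0,1,2,3,4,5,6],[0,1,2,3,4,5],[0,1,2,3,4,5,6],[0,1,2,3,4,5]]],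
Node.mk [0,820,182,1542,2448,27,976,3105,2216,2529,2938,2939,36,3663,45,2610,1254] [(0,0),(0,2),(0,3),(1,0),(1,2),(2,1)] [Ref.mk 1738 791 [0,1,2,3] [[0,1,2,3,4,5],[0,1,2,3,4,5],[0,1,2,3,4,5,6],[0,1,2,3,4,5]],Ref.mk 1957 795 [0,1,2,3] [[0,1,2,3,4,5],[0,1,2,3,4,5],[0,1,2,3,4,5,6],[0,1,2,3,4,5]]],
Node.mk [0,820,182,1542,2448,27,976,3105,2216,2529,2938,2939,36,3663,45,2610,1272,1756,978] [(0,0),(0,1),(0,2),(0,3),(1,2),(3,1)] [],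
Node.mk [0,820,182,1542,2448,27,976,3105,2216,2529,2938,2939,36,3663,45,2610,1272,1756,2940,869] [(0,0),(0,1),(0,2),(1,2),(2,1),(3,1)] [],
Node.mk [0,820,182,1542,2448,27,976,3105,2216,2529,2938,2939,36,3663,45,2610,1272,1756,2940,871] [(0,0),(0,1),(0,2),(1,2),(2,1),(3,1)] [],
Node.mk [0,820,182,1542,2448,27,976,3105,2216,2529,2938,2939,36,3663,45,2610,1272,1756,2940] [(0,0),(0,1),(0,2),(0,3),(0,4),(1,2)] [Ref.mk 977 797 [0,1,2,3] [[0,1,2,3,5,6,4],[0,1,2,3,4,5,6],[0,1,2,3,4,5,6],[0,1,2,3,4,5]],Ref.mk 869 798 [0,1,2,3] [[0,1,2,3,4,5,6],[0,1,2,3,4,5,6],[0,1,2,3,4,5,6],[0,1,2,3,4,5]],Ref.mk 978 797 [0,1,2,3] [[0,1,2,3,6,5,4],[0,1,2,3,4,5,6],[0,1,2,3,4,5,6],[0,1,2,3,4,5]],Ref.mk 870 798 [0,1,2,3] [[0,1,2,3,4,6,5],[0,1,2,3,4,5,6],[0,1,2,3,4,5,6],[0,1,2,3,4,5]],Ref.mk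 979 797 [0,1,2,3] [[0,1,2,3,4,6,7],[0,1,2,3,4,5,6],[0,1,2,3,4,5,6],[0,1,2,3,4,5]],Ref.mk 871 799 [0,1,2,3] [[0,1,2,3,4,5,6,7],[0,1,2,3,4,5,6],[0,1,2,3,4,5,6],[0,1,2,3,4,5]]],
Node.mk [0,820,182,1542,2448,27,976,3105,2216,2529,2938,2939,36,3663,45,2610,1272,1756,870] [(0,0),(0,1),(0,2),(1,2),(2,1),(3,1)] [],
Node.mk [0,820,182,1542,2448,27,976,3105,2216,2529,2938,2939,36,3663,45,2610,1272,1756] [(0,0),(0,1),(0,2),(0,3),(0,4),(0,5)] [Ref.mk 978 797 [0,1,2,3] [[0,1,2,3,4,5,6],[0,1,2,3,4,5,6],[0,1,2,3,4,5,6],[0,1,2,3,4,5]],Ref.mk 2940 800 [0,1,2,3] [[0,1,2,3,4,5,6],[0,1,2,3,4,5,6],[0,1,2,3,4,5,6],[0,1,2,3,4,5]],Ref.mk 870 801 [0,1,2,3] [[0,1,2,3,4,5,6],[0,1,2,3,4,5,6],[0,1,2,3,4,5,6],[0,1,2,3,4,5]]],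
Node.mk [0,820,182,1542,2448,27,976,3105,2216,2529,2938,2939,36,3663,45,2610,1272,1957,1221] [(0,0),(0,1),(0,2),(1,2),(3,1),(3,2)] [],
Node.mk [0,820,182,1542,2448,27,976,3105,2216,2529,2938,2939,36,3663,45,2610,1272,1957,825] [(0,0),(0,2),(0,3),(0,4),(0,5),(1,1)] [Ref.mk 1216 803 [0,1,2,3] [[0,6,2,3,4,5,1],[0,1,2,3,4,5,6],[0,1,2,3,4,5,6],[0,1,2,3,4,5]],Ref.mk 2935 800 [2,1,0,3] [[0,6,2,1,3,4,5],[0,6,2,3,4,5,1],[0,3,2,4,5,1,6],[0,1,2,4,3,5]],Ref.mk 1221 803 [0,1,2,3] [[0,1,2,3,4,5,6],[0,1,2,3,4,5,6],[0,1,2,3,4,5,6],[0,1,2,3,4,5]],Ref.mk 2940 728 [0,1,2,3] [[0,6,2,3,4,5,1],[0,1,2,3,4,5,6],[0,1,2,3,5,6],[0,1,2,3,4,5]],Ref.mk 1222 803 [0,1,2,3] [[0,6,2,3,4,5,7],[0,1,2,3,4,5,6],[0,1,2,3,4,5,6],[0,1,2,3,4,5]],Ref.mk 2941 800 [2,1,0,3] [[0,6,2,1,3,4,5],[0,6,2,3,4,5,1],[0,3,2,4,5,7,6],[0,1,2,4,3,5]]],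
Node.mk [0,820,182,1542,2448,27,976,3105,2216,2529,2938,2939,36,3663,45,2610,1272,1957] [(0,0),(0,1),(0,2),(0,3),(0,4),(0,5)] [Ref.mk 1221 803 [0,1,2,3] [[0,1,2,3,4,5,6],[0,1,2,3,4,5,6],[0,1,2,3,4,5,6],[0,1,2,3,4,5]],Ref.mk 825 804 [0,1,2,3] [[0,1,2,3,4,5,6],[0,1,2,3,4,5,6],[0,1,2,3,4,5,6],[0,1,2,3,4,5]],Ref.mk 2940 800 [2,1,0,3] [[0,6,2,1,3,4,5],[0,6,2,3,4,5,1],[0,3,2,4,5,6,1],[0,1,2,4,3,5]]],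
Node.mk [0,820,182,1542,2448,27,976,3105,2216,2529,2938,2939,36,3663,45,2610,1272] [(0,0),(0,2),(0,3),(1,0),(1,2),(2,1)] [Ref.mk 1756 802 [0,1,2,3] [[0,1,2,3,4,5],[0,1,2,3,4,5,6],[0,1,2,3,4,5,6],[0,1,2,3,4,5]],Ref.mk 1957 805 [0,1,2,3] [[0,1,2,3,4,5],[0,1,2,3,4,5,6],[0,1,2,3,4,5,6],[0,1,2,3,4,5]]],
Node.mk [0,820,182,1542,2448,27,976,3105,2216,2529,2938,2939,36,3663,45,2610,1795,2691,1738,1545] [(0,0),(0,1),(0,2),(0,4),(1,2),(3,2)] [],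
Node.mk [0,820,182,1542,2448,27,976,3105,2216,2529,2938,2939,36,3663,45,2610,1795,2691,1738,1716] [(0,0),(0,1),(0,2),(1,2),(2,3),(3,2)] [],
Node.mk [0,820,182,1542,2448,27,976,3105,2216,2529,2938,2939,36,3663,45,2610,1795,2691,1738,2940] [(0,0),(0,1),(0,2),(0,3),(0,4),(1,2)] [Ref.mk 1544 807 [0,1,2,3] [[0,1,2,3,4,6,5],[0,1,2,3,4,5],[0,1,2,3,4,5,6],[0,1,2,3,4,5]],Ref.mk 1715 808 [0,1,2,3] [[0,1,2,3,4,6,5],[0,1,2,3,4,5],[0,1,2,3,4,5,6],[0,1,2,3,4,5]],Ref.mk 1545 807 [0,1,2,3] [[0,1,2,3,4,5,6],[0,1,2,3,4,5],[0,1,2,3,4,5,6],[0,1,2,3,4,5]],Ref.mk 1716 808 [0,1,2,3] [[0,1,2,3,4,5,6],[0,1,2,3,4,5],[0,1,2,3,4,5,6],[0,1,2,3,4,5]],Ref.mk 1546 807 [0,1,2,3] [[0,1,2,3,4,6,7],[0,1,2,3,4,5],[0,1,2,3,4,5,6],[0,1,2,3,4,5]],Ref.mk 1717 808 [0,1,2,3] [[0,1,2,3,4,6,7],[0,1,2,3,4,5],[0,1,2,3,4,5,6],[0,1,2,3,4,5]]],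
Node.mk [0,820,182,1542,2448,27,976,3105,2216,2529,2938,2939,36,3663,45,2610,1795,2691,1738] [(0,0),(0,1),(0,2),(0,3),(0,4),(0,5)] [Ref.mk 1545 807 [0,1,2,3] [[0,1,2,3,4,5,6],[0,1,2,3,4,5],[0,1,2,3,4,5,6],[0,1,2,3,4,5]],Ref.mk 1716 808 [0,1,2,3] [[0,1,2,3,4,5,6],[0,1,2,3,4,5],[0,1,2,3,4,5,6],[0,1,2,3,4,5]],Ref.mk 2940 809 [0,1,2,3] [[0,1,2,3,4,5,6],[0,1,2,3,4,5],[0,1,2,3,4,5,6],[0,1,2,3,4,5]]],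
Node.mk [0,820,182,1542,2448,27,976,3105,2216,2529,2938,2939,36,3663,45,2610,1795,2691,1756,1545] [(0,0),(0,1),(0,2),(0,4),(1,2),(3,2)] [],
Node.mk [0,820,182,1542,2448,27,976,3105,2216,2529,2938,2939,36,3663,45,2610,1795,2691,1756,1716] [(0,0),(0,1),(0,2),(1,2),(2,3),(3,2)] [],
Node.mk [0,820,182,1542,2448,27,976,3105,2216,2529,2938,2939,36,3663,45,2610,1795,2691,1756,2940] [(0,0),(0,1),(0,2),(0,3),(0,4),(1,2)] [Ref.mk 1544 811 [0,1,2,3] [[0,1,2,3,4,6,5],[0,1,2,3,4,5,6],[0,1,2,3,4,5,6],[0,1,2,3,4,5]],Ref.mk 1715 812 [0,1,2,3] [[0,1,2,3,4,6,5],[0,1,2,3,4,5,6],[0,1,2,3,4,5,6],[0,1,2,3,4,5]],Ref.mk 1545 811 [0,1,2,3] [[0,1,2,3,4,5,6],[0,1,2,3,4,5,6],[0,1,2,3,4,5,6],[0,1,2,3,4,5]],Ref.mk 1716 812 [0,1,2,3] [[0,1,2,3,4,5,6],[0,1,2,3,4,5,6],[0,1,2,3,4,5,6],[0,1,2,3,4,5]],Ref.mk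 1546 811 [0,1,2,3] [[0,1,2,3,4,6,7],[0,1,2,3,4,5,6],[0,1,2,3,4,5,6],[0,1,2,3,4,5]],Ref.mk 1717 812 [0,1,2,3] [[0,1,2,3,4,6,7],[0,1,2,3,4,5,6],[0,1,2,3,4,5,6],[0,1,2,3,4,5]]],
Node.mk [0,820,182,1542,2448,27,976,3105,2216,2529,2938,2939,36,3663,45,2610,1795,2691,1756] [(0,0),(0,1),(0,2),(0,3),(0,4),(0,5)] [Ref.mk 1545 811 [0,1,2,3] [[0,1,2,3,4,5,6],[0,1,2,3,4,5,6],[0,1,2,3,4,5,6],[0,1,2,3,4,5]],Ref.mk 1716 812 [0,1,2,3] [[0,1,2,3,4,5,6],[0,1,2,3,4,5,6],[0,1,2,3,4,5,6],[0,1,2,3,4,5]],Ref.mk 2940 813 [0,1,2,3] [[0,1,2,3,4,5,6],[0,1,2,3,4,5,6],[0,1,2,3,4,5,6],[0,1,2,3,4,5]]],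
Node.mk [0,820,182,1542,2448,27,976,3105,2216,2529,2938,2939,36,3663,45,2610,1795,2691] [(0,0),(0,4),(1,0),(1,1),(1,2),(1,3)] [Ref.mk 1738 810 [0,1,2,3] [[0,1,2,3,4,5],[0,1,2,3,4,5],[0,1,2,3,4,5,6],[0,1,2,3,4,5]],Ref.mk 1747 810 [0,1,2,3] [[0,1,2,3,4,5],[0,1,2,3,5,4],[0,1,2,3,4,5,6],[0,1,2,3,4,5]],Ref.mk 1756 814 [0,1,2,3] [[0,1,2,3,4,5],[0,1,2,3,4,5,6],[0,1,2,3,4,5,6],[0,1,2,3,4,5]],Ref.mk 1092 795 [0,1,2,3] [[0,1,2,3,4,5],[0,1,2,3,4,5],[0,1,2,3,5,6,4],[0,1,2,3,4,5]],Ref.mk 1101 795 [0,1,2,3] [[0,1,2,3,4,5],[0,1,2,3,5,4],[0,1,2,3,5,6,4],[0,1,2,3,4,5]],Ref.mk 1110 725 [2,1,0,3] [[0,4,2,1,3,5,6],[0,6,2,3,4,5,1],[0,3,2,4,5,1],[0,1,2,4,3,5]]],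
Node.mk [0,820,182,1542,2448,27,976,3105,2216,2529,2938,2939,36,3663,45,2610,1795,1945] [(0,0),(0,2),(1,0),(1,1),(1,2),(3,2)] [],
Node.mk [0,820,182,1542,2448,27,976,3105,2216,2529,2938,2939,36,3663,45,2610,1795,1219] [(0,0),(0,2),(0,4),(1,0),(1,2),(3,1)] [],
Node.mk [0,820,182,1542,2448,27,976,3105,2216,2529,2938,2939,36,3663,45,2610,1795,1957] [(0,0),(0,2),(0,4),(1,1),(1,2),(3,2)] [],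
Node.mk [0,820,182,1542,2448,27,976,3105,2216,2529,2938,2939,36,3663,45,2610,1795] [(2,0),(2,1),(2,2),(2,3),(2,4),(2,5)] [Ref.mk 2691 815 [0,1,2,3] [[0,1,2,3,4,5],[0,1,2,3,4,5],[0,1,2,3,4,5,6],[0,1,2,3,4,5]],Ref.mk 1945 816 [0,1,2,3] [[0,1,2,3,4,5],[0,1,2,3,4,5],[0,1,2,3,4,5,6],[0,1,2,3,4,5]],Ref.mk 1227 783 [0,1,2,3] [[0,1,2,3,4,5],[0,1,2,3,4,5],[0,1,2,3,4,5,6],[0,1,2,3,4,5]],Ref.mk 1219 817 [0,1,2,3] [[0,1,2,3,4,5],[0,1,2,3,4,5],[0,1,2,3,4,5,6],[0,1,2,3,4,5]],Ref.mk 1957 818 [0,1,2,3] [[0,1,2,3,4,5],[0,1,2,3,4,5],[0,1,2,3,4,5,6],[0,1,2,3,4,5]]],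
Node.mk [0,820,182,1542,2448,27,976,3105,2216,2529,2938,2939,36,3663,45,2610,1957,1738,1545] [(0,0),(0,1),(0,2),(0,4),(1,2),(3,2)] [],
Node.mk [0,820,182,1542,2448,27,976,3105,2216,2529,2938,2939,36,3663,45,2610,1957,1738,1716] [(0,0),(0,1),(0,2),(1,2),(2,3),(3,2)] [],
Node.mk [0,820,182,1542,2448,27,976,3105,2216,2529,2938,2939,36,3663,45,2610,1957,1738,2940] [(0,0),(0,1),(0,2),(0,3),(0,4),(1,2)] [Ref.mk 1544 820 [0,1,2,3] [[0,1,2,3,4,6,5],[0,1,2,3,4,5],[0,1,2,3,4,5,6],[0,1,2,3,4,5]],Ref.mk 1715 821 [0,1,2,3] [[0,1,2,3,4,6,5],[0,1,2,3,4,5],[0,1,2,3,4,5,6],[0,1,2,3,4,5]],Ref.mk 1545 474 [0,1,2,3] [[0,1,2,6,4,5,3],[0,1,2,3,4,5],[0,1,2,3,4,5,6],[0,1,2,3,4,5]],Ref.mk 1716 821 [0,1,2,3] [[0,1,2,3,4,5,6],[0,1,2,3,4,5],[0,1,2,3,4,5,6],[0,1,2,3,4,5]],Ref.mk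 1546 820 [0,1,2,3] [[0,1,2,3,4,6,7],[0,1,2,3,4,5],[0,1,2,3,4,5,6],[0,1,2,3,4,5]],Ref.mk 1717 821 [0,1,2,3] [[0,1,2,3,4,6,7],[0,1,2,3,4,5],[0,1,2,3,4,5,6],[0,1,2,3,4,5]]],
Node.mk [0,820,182,1542,2448,27,976,3105,2216,2529,2938,2939,36,3663,45,2610,1957,1738] [(0,0),(0,1),(0,2),(0,3),(0,4),(0,5)] [Ref.mk 1545 820 [0,1,2,3] [[0,1,2,3,4,5,6],[0,1,2,3,4,5],[0,1,2,3,4,5,6],[0,1,2,3,4,5]],Ref.mk 1716 821 [0,1,2,3] [[0,1,2,3,4,5,6],[0,1,2,3,4,5],[0,1,2,3,4,5,6],[0,1,2,3,4,5]],Ref.mk 2940 822 [0,1,2,3] [[0,1,2,3,4,5,6],[0,1,2,3,4,5],[0,1,2,3,4,5,6],[0,1,2,3,4,5]]],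
Node.mk [0,820,182,1542,2448,27,976,3105,2216,2529,2938,2939,36,3663,45,2610,1957,1756,1545] [(0,0),(0,1),(0,2),(0,4),(1,2),(3,2)] [],
Node.mk [0,820,182,1542,2448,27,976,3105,2216,2529,2938,2939,36,3663,45,2610,1957,1756,1716] [(0,0),(0,1),(0,2),(1,2),(2,3),(3,2)] [],
Node.mk [0,820,182,1542,2448,27,976,3105,2216,2529,2938,2939,36,3663,45,2610,1957,1756,2940] [(0,0),(0,1),(0,2),(0,3),(0,4),(1,2)] [Ref.mk 1544 824 [0,1,2,3] [[0,1,2,3,4,6,5],[0,1,2,3,4,5,6],[0,1,2,3,4,5,6],[0,1,2,3,4,5]],Ref.mk 1715 825 [0,1,2,3] [[0,1,2,3,4,6,5],[0,1,2,3,4,5,6],[0,1,2,3,4,5,6],[0,1,2,3,4,5]],Ref.mk 1545 474 [0,1,2,3] [[0,1,2,6,4,5,3],[0,1,2,3,4,5],[0,1,2,3,4,5,6],[0,1,2,3,4,5]],Ref.mk 1716 825 [0,1,2,3] [[0,1,2,3,4,5,6],[0,1,2,3,4,5,6],[0,1,2,3,4,5,6],[0,1,2,3,4,5]],Ref.mk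 1546 824 [0,1,2,3] [[0,1,2,3,4,6,7],[0,1,2,3,4,5,6],[0,1,2,3,4,5,6],[0,1,2,3,4,5]],Ref.mk 1717 825 [0,1,2,3] [[0,1,2,3,4,6,7],[0,1,2,3,4,5,6],[0,1,2,3,4,5,6],[0,1,2,3,4,5]]],
Node.mk [0,820,182,1542,2448,27,976,3105,2216,2529,2938,2939,36,3663,45,2610,1957,1756] [(0,0),(0,1),(0,2),(0,3),(0,4),(0,5)] [Ref.mk 1545 824 [0,1,2,3] [[0,1,2,3,4,5,6],[0,1,2,3,4,5,6],[0,1,2,3,4,5,6],[0,1,2,3,4,5]],Ref.mk 1716 825 [0,1,2,3] [[0,1,2,3,4,5,6],[0,1,2,3,4,5,6],[0,1,2,3,4,5,6],[0,1,2,3,4,5]],Ref.mk 2940 826 [0,1,2,3] [[0,1,2,3,4,5,6],[0,1,2,3,4,5,6],[0,1,2,3,4,5,6],[0,1,2,3,4,5]]],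
Node.mk [0,820,182,1542,2448,27,976,3105,2216,2529,2938,2939,36,3663,45,2610,1957] [(0,0),(0,4),(1,0),(1,1),(1,2),(1,3)] [Ref.mk 1738 823 [0,1,2,3] [[0,1,2,3,4,5],[0,1,2,3,4,5],[0,1,2,3,4,5,6],[0,1,2,3,4,5]],Ref.mk 1747 823 [0,1,2,3] [[0,1,2,3,4,5],[0,1,2,3,5,4],[0,1,2,3,4,5,6],[0,1,2,3,4,5]],Ref.mk 1756 827 [0,1,2,3] [[0,1,2,3,4,5],[0,1,2,3,4,5,6],[0,1,2,3,4,5,6],[0,1,2,3,4,5]],Ref.mk 1254 795 [0,1,2,3] [[0,1,2,3,4,5],[0,1,2,3,4,5],[0,1,2,3,4,5,6],[0,1,2,3,4,5]],Ref.mk 1263 795 [0,1,2,3] [[0,1,2,3,4,5],[0,1,2,3,5,4],[0,1,2,3,4,5,6],[0,1,2,3,4,5]],Ref.mk 1272 805 [0,1,2,3] [[0,1,2,3,4,5],[0,1,2,3,4,5,6],[0,1,2,3,4,5,6],[0,1,2,3,4,5]]],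
Node.mk [0,820,182,1542,2448,27,976,3105,2216,2529,2938,2939,36,3663,45,2610] [(1,0),(1,2),(2,0),(2,1),(2,2),(2,3)] [Ref.mk 1065 711 [2,1,0,3] [[0,4,2,1,3,5],[0,1,2,3,4,5],[0,3,2,4,5,1],[0,1,2,4,3,5]],Ref.mk 1146 711 [2,1,0,3] [[0,5,2,1,3,4],[0,1,2,3,4,5],[0,3,2,4,5,1],[0,1,2,4,3,5]],Ref.mk 1227 783 [0,1,2,3] [[0,1,2,3,4,5],[0,1,2,3,4,5],[0,1,2,3,4,5,6],[0,1,2,3,4,5]],Ref.mk 1083 784 [0,1,2,3] [[0,1,2,3,4,5],[0,1,2,3,4,5],[0,1,2,3,4,5],[0,1,2,3,4,5]],Ref.mk 1164 784 [0,1,2,3] [[0,1,2,3,4,5],[0,1,2,3,4,5],[0,1,2,3,5,4],[0,1,2,3,4,5]],Ref.mk 1245 785 [0,1,2,3] [[0,1,2,3,4,5],[0,1,2,3,4,5],[0,1,2,3,4,5,6],[0,1,2,3,4,5]],Ref.mk 1092 754 [2,1,0,3] [[0,4,2,1,3,5],[0,4,2,3,5,1],[0,3,2,4,5,1],[0,1,2,4,3,5]],Ref.mk 1173 754 [2,1,0,3] [[0,5,2,1,3,4],[0,4,2,3,5,1],[0,3,2,4,5,1],[0,1,2,4,3,5]],Ref.mk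 1254 796 [0,1,2,3] [[0,1,2,3,4,5],[0,1,2,3,4,5],[0,1,2,3,4,5,6],[0,1,2,3,4,5]],Ref.mk 1101 754 [2,1,0,3] [[0,4,2,1,3,5],[0,5,2,3,4,1],[0,3,2,4,5,1],[0,1,2,4,3,5]],Ref.mk 1182 754 [2,1,0,3] [[0,5,2,1,3,4],[0,5,2,3,4,1],[0,3,2,4,5,1],[0,1,2,4,3,5]],Ref.mk 1263 796 [0,1,2,3] [[0,1,2,3,4,5],[0,1,2,3,5,4],[0,1,2,3,4,5,6],[0,1,2,3,4,5]],Ref.mk 1110 731 [2,1,0,3] [[0,4,2,1,3,5],[0,6,2,3,4,5,1],[0,3,2,4,5,1],[0,1,2,4,3,5]],Ref.mk 1191 731 [2,1,0,3] [[0,5,2,1,3,4],[0,6,2,3,4,5,1],[0,3,2,4,5,1],[0,1,2,4,3,5]],Ref.mk 1272 806 [0,1,2,3] [[0,1,2,3,4,5],[0,1,2,3,4,5,6],[0,1,2,3,4,5,6],[0,1,2,3,4,5]],Ref.mk 1795 819 [0,1,2,3] [[0,1,2,3,4,5],[0,1,2,3,4,5],[0,1,2,3,4,5],[0,1,2,3,4,5]],Ref.mk 1876 819 [0,1,2,3] [[0,1,2,3,4,5],[0,1,2,3,4,5],[0,1,2,3,5,4],[0,1,2,3,4,5]],Ref.mk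 1957 828 [0,1,2,3] [[0,1,2,3,4,5],[0,1,2,3,4,5],[0,1,2,3,4,5,6],[0,1,2,3,4,5]]],
Node.mk [0,820,182,1542,2448,27,976,3105,2216,2529,2938,2939,36,3663,45,1146] [(0,0),(0,2),(1,0),(1,1),(1,2),(3,1)] [],
Node.mk [0,820,182,1542,2448,27,976,3105,2216,2529,2938,2939,36,3663,45,1155] [(0,0),(0,3),(1,2),(1,3),(2,5),(3,1)] [Ref.mk 2917 26 [3,1,2,0] [[0,1,3,2,4],[0,1,2,3],[0,1,3,2],[0,1,3,2]]]]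

/-- nodes -/
noncomputable def c13 : List Node := [
Node.mk [0,820,182,1542,2448,27,976,3105,2216,2529,2938,2939,36,3663,45,1164] [(0,0),(0,3),(1,2),(1,3),(2,5),(3,1)] [],
Node.mk [0,820,182,1542,2448,27,976,3105,2216,2529,2938,2939,36,3663,45,1173,1738,1216] [(0,0),(0,1),(0,2),(0,3),(1,2),(3,1)] [],
Node.mk [0,820,182,1542,2448,27,976,3105,2216,2529,2938,2939,36,3663,45,1173,1738,1254] [(0,0),(0,2),(0,3),(1,2),(1,4),(3,1)] [],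
Node.mk [0,820,182,1542,2448,27,976,3105,2216,2529,2938,2939,36,3663,45,1173,1738] [(2,0),(2,1),(2,2),(2,3),(2,4),(2,5)] [Ref.mk 2691 791 [0,1,2,3] [[0,1,2,3,4,5],[0,1,2,3,4,5],[0,1,2,3,4,6,5],[0,1,2,3,4,5]],Ref.mk 1216 833 [0,1,2,3] [[0,1,2,3,4,5],[0,1,2,3,4,5],[0,1,2,3,4,5,6],[0,1,2,3,4,5]],Ref.mk 1254 834 [0,1,2,3] [[0,1,2,3,4,5],[0,1,2,3,4,5],[0,1,2,3,4,5,6],[0,1,2,3,4,5]]],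
Node.mk [0,820,182,1542,2448,27,976,3105,2216,2529,2938,2939,36,3663,45,1173,1876,1227] [(0,0),(0,2),(0,3),(0,4),(1,2),(3,1)] [],
Node.mk [0,820,182,1542,2448,27,976,3105,2216,2529,2938,2939,36,3663,45,1173,1876,1219] [(0,0),(0,2),(0,4),(1,0),(1,2),(3,1)] [],
Node.mk [0,820,182,1542,2448,27,976,3105,2216,2529,2938,2939,36,3663,45,1173,1876] [(2,0),(2,1),(2,2),(2,3),(2,4),(2,5)] [Ref.mk 2691 795 [0,1,2,3] [[0,1,2,3,4,5],[0,1,2,3,4,5],[0,1,2,3,4,6,5],[0,1,2,3,4,5]],Ref.mk 1227 836 [0,1,2,3] [[0,1,2,3,4,5],[0,1,2,3,4,5],[0,1,2,3,4,5,6],[0,1,2,3,4,5]],Ref.mk 1219 837 [0,1,2,3] [[0,1,2,3,4,5],[0,1,2,3,4,5],[0,1,2,3,4,5,6],[0,1,2,3,4,5]]],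
Node.mk [0,820,182,1542,2448,27,976,3105,2216,2529,2938,2939,36,3663,45,1173] [(0,0),(0,2),(0,3),(1,0),(1,2),(2,1)] [Ref.mk 1738 835 [0,1,2,3] [[0,1,2,3,4,5],[0,1,2,3,4,5],[0,1,2,3,4,5],[0,1,2,3,4,5]],Ref.mk 1876 838 [0,1,2,3] [[0,1,2,3,4,5],[0,1,2,3,4,5],[0,1,2,3,4,5],[0,1,2,3,4,5]]],
Node.mk [0,820,182,1542,2448,27,976,3105,2216,2529,2938,2939,36,3663,45,1191,1756,978] [(0,0),(0,1),(0,2),(0,3),(1,2),(3,1)] [],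
Node.mk [0,820,182,1542,2448,27,976,3105,2216,2529,2938,2939,36,3663,45,1191,1756,870] [(0,0),(0,1),(0,2),(1,2),(2,1),(3,1)] [],
Node.mk [0,820,182,1542,2448,27,976,3105,2216,2529,2938,2939,36,3663,45,1191,1756] [(0,0),(0,1),(0,2),(0,3),(0,4),(0,5)] [Ref.mk 978 840 [0,1,2,3] [[0,1,2,3,4,5,6],[0,1,2,3,4,5,6],[0,1,2,3,4,5],[0,1,2,3,4,5]],Ref.mk 2940 805 [2,1,0,3] [[0,5,2,1,3,4],[0,6,2,3,4,5,1],[0,3,2,4,5,6,1],[0,1,2,4,3,5]],Ref.mk 870 841 [0,1,2,3] [[0,1,2,3,4,5,6],[0,1,2,3,4,5,6],[0,1,2,3,4,5],[0,1,2,3,4,5]]],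
Node.mk [0,820,182,1542,2448,27,976,3105,2216,2529,2938,2939,36,3663,45,1191] [(0,0),(0,2),(0,3),(1,0),(1,2),(2,1)] [Ref.mk 1756 842 [0,1,2,3] [[0,1,2,3,4,5],[0,1,2,3,4,5,6],[0,1,2,3,4,5],[0,1,2,3,4,5]],Ref.mk 1876 842 [2,1,0,3] [[0,5,2,1,3,4],[0,6,2,3,4,5,1],[0,3,2,4,5,1],[0,1,2,4,3,5]]],
Node.mk [0,820,182,1542,2448,27,976,3105,2216,2529,2938,2939,36,3663,45,1876,1738,1945] [(0,0),(0,1),(0,2),(0,4),(1,2),(3,2)] [],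
Node.mk [0,820,182,1542,2448,27,976,3105,2216,2529,2938,2939,36,3663,45,1876,1738,1957] [(0,0),(0,2),(0,4),(1,1),(1,2),(3,2)] [],
Node.mk [0,820,182,1542,2448,27,976,3105,2216,2529,2938,2939,36,3663,45,1876,1738] [(2,0),(2,1),(2,2),(2,3),(2,4),(2,5)] [Ref.mk 2691 823 [0,1,2,3] [[0,1,2,3,4,5],[0,1,2,3,4,5],[0,1,2,3,4,6,5],[0,1,2,3,4,5]],Ref.mk 1945 844 [0,1,2,3] [[0,1,2,3,4,5],[0,1,2,3,4,5],[0,1,2,3,4,5,6],[0,1,2,3,4,5]],Ref.mk 1957 845 [0,1,2,3] [[0,1,2,3,4,5],[0,1,2,3,4,5],[0,1,2,3,4,5,6],[0,1,2,3,4,5]]],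
Node.mk [0,820,182,1542,2448,27,976,3105,2216,2529,2938,2939,36,3663,45,1876,1756,1945] [(0,0),(0,1),(0,2),(0,4),(1,2),(3,2)] [],
Node.mk [0,820,182,1542,2448,27,976,3105,2216,2529,2938,2939,36,3663,45,1876,1756,1957] [(0,0),(0,2),(0,4),(1,1),(1,2),(3,2)] [],
Node.mk [0,820,182,1542,2448,27,976,3105,2216,2529,2938,2939,36,3663,45,1876,1756] [(2,0),(2,1),(2,2),(2,3),(2,4),(2,5)] [Ref.mk 2691 827 [0,1,2,3] [[0,1,2,3,4,5],[0,1,2,3,4,5,6],[0,1,2,3,4,6,5],[0,1,2,3,4,5]],Ref.mk 1945 847 [0,1,2,3] [[0,1,2,3,4,5],[0,1,2,3,4,5,6],[0,1,2,3,4,5,6],[0,1,2,3,4,5]],Ref.mk 1957 848 [0,1,2,3] [[0,1,2,3,4,5],[0,1,2,3,4,5,6],[0,1,2,3,4,5,6],[0,1,2,3,4,5]]],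
Node.mk [0,820,182,1542,2448,27,976,3105,2216,2529,2938,2939,36,3663,45,1876] [(0,0),(0,4),(1,0),(1,1),(1,2),(1,3)] [Ref.mk 1738 846 [0,1,2,3] [[0,1,2,3,4,5],[0,1,2,3,4,5],[0,1,2,3,4,5],[0,1,2,3,4,5]],Ref.mk 1747 846 [0,1,2,3] [[0,1,2,3,4,5],[0,1,2,3,5,4],[0,1,2,3,4,5],[0,1,2,3,4,5]],Ref.mk 1756 849 [0,1,2,3] [[0,1,2,3,4,5],[0,1,2,3,4,5,6],[0,1,2,3,4,5],[0,1,2,3,4,5]],Ref.mk 1173 838 [0,1,2,3] [[0,1,2,3,4,5],[0,1,2,3,4,5],[0,1,2,3,4,5],[0,1,2,3,4,5]],Ref.mk 1182 838 [0,1,2,3] [[0,1,2,3,4,5],[0,1,2,3,5,4],[0,1,2,3,4,5],[0,1,2,3,4,5]],Ref.mk 1191 842 [2,1,0,3] [[0,5,2,1,3,4],[0,6,2,3,4,5,1],[0,3,2,4,5,1],[0,1,2,4,3,5]]],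
Node.mk [0,820,182,1542,2448,27,976,3105,2216,2529,2938,2939,36,3663,45] [(1,0),(2,0),(2,1),(2,2),(2,3),(2,4)] [Ref.mk 2610 829 [0,1,2,3] [[0,1,2,3,4,5],[0,1,2,3,4,5],[0,1,2,3,4,5],[0,1,2,3,4,5]],Ref.mk 1146 830 [0,1,2,3] [[0,1,2,3,4,5],[0,1,2,3,4,5],[0,1,2,3,4,5],[0,1,2,3,4,5]],Ref.mk 1155 831 [0,1,2,3] [[0,1,2,3,4,5],[0,1,2,3,4,5],[0,1,2,3,4,5],[0,1,2,3,4,5]],Ref.mk 1164 832 [0,1,2,3] [[0,1,2,3,4,5],[0,1,2,3,4,5],[0,1,2,3,4,5],[0,1,2,3,4,5]],Ref.mk 1173 839 [0,1,2,3] [[0,1,2,3,4,5],[0,1,2,3,4,5],[0,1,2,3,4,5],[0,1,2,3,4,5]],Ref.mk 1182 839 [0,1,2,3] [[0,1,2,3,4,5],[0,1,2,3,5,4],[0,1,2,3,4,5],[0,1,2,3,4,5]],Ref.mk 1191 843 [0,1,2,3] [[0,1,2,3,4,5],[0,1,2,3,4,5,6],[0,1,2,3,4,5],[0,1,2,3,4,5]],Ref.mk 1876 850 [0,1,2,3] [[0,1,2,3,4,5],[0,1,2,3,4,5],[0,1,2,3,4,5],[0,1,2,3,4,5]]],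
Node.mk [0,820,182,1542,2448,27,976,3105,2216,2529,2938,2939,36,3663,1747,2610,1263,865] [(0,0),(0,1),(0,2),(1,2),(2,1),(3,1)] [],
Node.mk [0,820,182,1542,2448,27,976,3105,2216,2529,2938,2939,36,3663,1747,2610,1263,1029] [(0,0),(0,1),(0,2),(0,3),(1,2),(3,1)] [],
Node.mk [0,820,182,1542,2448,27,976,3105,2216,2529,2938,2939,36,3663,1747,2610,1263] [(1,0),(1,1),(1,2),(1,3),(1,4),(1,5)] [Ref.mk 54 802 [0,1,2,3] [[0,1,2,3,4,5],[0,1,2,3,4,6,5],[0,1,2,3,4,5,6],[0,1,2,3,4,5]],Ref.mk 865 852 [0,1,2,3] [[0,1,2,3,4,5],[0,1,2,3,4,5,6],[0,1,2,3,4,5,6],[0,1,2,3,4,5]],Ref.mk 1029 853 [0,1,2,3] [[0,1,2,3,4,5],[0,1,2,3,4,5,6],[0,1,2,3,4,5,6],[0,1,2,3,4,5]]],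
Node.mk [0,820,182,1542,2448,27,976,3105,2216,2529,2938,2939,36,3663,1747,2610,1795,1756] [(0,0),(0,1),(0,2),(1,2),(2,3),(3,2)] [],
Node.mk [0,820,182,1542,2448,27,976,3105,2216,2529,2938,2939,36,3663,1747,2610,1795,1597] [(0,0),(0,1),(0,2),(0,4),(1,2),(3,2)] [],
Node.mk [0,820,182,1542,2448,27,976,3105,2216,2529,2938,2939,36,3663,1747,2610,1795] [(1,0),(1,1),(1,2),(1,3),(1,4),(1,5)] [Ref.mk 54 849 [0,1,2,3] [[0,1,2,3,4,5],[0,1,2,3,4,6,5],[0,1,2,3,5,4],[0,1,2,3,4,5]],Ref.mk 1756 855 [0,1,2,3] [[0,1,2,3,4,5],[0,1,2,3,4,5,6],[0,1,2,3,4,5],[0,1,2,3,4,5]],Ref.mk 1597 856 [0,1,2,3] [[0,1,2,3,4,5],[0,1,2,3,4,5,6],[0,1,2,3,4,5],[0,1,2,3,4,5]]],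
Node.mk [0,820,182,1542,2448,27,976,3105,2216,2529,2938,2939,36,3663,1747,2610,1957,1756] [(0,0),(0,1),(0,2),(1,2),(2,3),(3,2)] [],
Node.mk [0,820,182,1542,2448,27,976,3105,2216,2529,2938,2939,36,3663,1747,2610,1957,1597] [(0,0),(0,1),(0,2),(0,4),(1,2),(3,2)] [],
Node.mk [0,820,182,1542,2448,27,976,3105,2216,2529,2938,2939,36,3663,1747,2610,1957] [(1,0),(1,1),(1,2),(1,3),(1,4),(1,5)] [Ref.mk 54 827 [0,1,2,3] [[0,1,2,3,4,5],[0,1,2,3,4,6,5],[0,1,2,3,4,5,6],[0,1,2,3,4,5]],Ref.mk 1756 858 [0,1,2,3] [[0,1,2,3,4,5],[0,1,2,3,4,5,6],[0,1,2,3,4,5,6],[0,1,2,3,4,5]],Ref.mk 1597 859 [0,1,2,3] [[0,1,2,3,4,5],[0,1,2,3,4,5,6],[0,1,2,3,4,5,6],[0,1,2,3,4,5]]],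
Node.mk [0,820,182,1542,2448,27,976,3105,2216,2529,2938,2939,36,3663,1747,2610] [(0,0),(0,1),(2,0),(2,1),(2,2),(2,3)] [Ref.mk 1101 753 [2,1,0,3] [[0,4,2,1,3,5],[0,5,2,3,4,1],[0,3,2,4,5,1],[0,1,2,4,3,5]],Ref.mk 1182 753 [2,1,0,3] [[0,5,2,1,3,4],[0,5,2,3,4,1],[0,3,2,4,5,1],[0,1,2,4,3,5]],Ref.mk 1263 854 [0,1,2,3] [[0,1,2,3,4,5],[0,1,2,3,4,5],[0,1,2,3,4,5,6],[0,1,2,3,4,5]],Ref.mk 1795 857 [0,1,2,3] [[0,1,2,3,4,5],[0,1,2,3,4,5],[0,1,2,3,4,5],[0,1,2,3,4,5]],Ref.mk 1876 857 [0,1,2,3] [[0,1,2,3,4,5],[0,1,2,3,4,5],[0,1,2,3,5,4],[0,1,2,3,4,5]],Ref.mk 1957 860 [0,1,2,3] [[0,1,2,3,4,5],[0,1,2,3,4,5],[0,1,2,3,4,5,6],[0,1,2,3,4,5]]],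
Node.mk [0,820,182,1542,2448,27,976,3105,2216,2529,2938,2939,36,3663,1747,1182,865] [(0,0),(0,1),(0,2),(1,2),(2,1),(3,1)] [],
Node.mk [0,820,182,1542,2448,27,976,3105,2216,2529,2938,2939,36,3663,1747,1182,1029] [(0,0),(0,1),(0,2),(0,3),(1,2),(3,1)] [],
Node.mk [0,820,182,1542,2448,27,976,3105,2216,2529,2938,2939,36,3663,1747,1182] [(1,0),(1,1),(1,2),(1,3),(1,4),(1,5)] [Ref.mk 54 842 [0,1,2,3] [[0,1,2,3,4,5],[0,1,2,3,4,6,5],[0,1,2,3,4,5],[0,1,2,3,4,5]],Ref.mk 865 862 [0,1,2,3] [[0,1,2,3,4,5],[0,1,2,3,4,5,6],[0,1,2,3,4,5],[0,1,2,3,4,5]],Ref.mk 1029 863 [0,1,2,3] [[0,1,2,3,4,5],[0,1,2,3,4,5,6],[0,1,2,3,4,5],[0,1,2,3,4,5]]],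
Node.mk [0,820,182,1542,2448,27,976,3105,2216,2529,2938,2939,36,3663,1747,1876,1756] [(0,0),(0,1),(0,2),(1,2),(2,3),(3,2)] [],
Node.mk [0,820,182,1542,2448,27,976,3105,2216,2529,2938,2939,36,3663,1747,1876,1597] [(0,0),(0,1),(0,2),(0,4),(1,2),(3,2)] [],
Node.mk [0,820,182,1542,2448,27,976,3105,2216,2529,2938,2939,36,3663,1747,1876] [(1,0),(1,1),(1,2),(1,3),(1,4),(1,5)] [Ref.mk 54 849 [0,1,2,3] [[0,1,2,3,4,5],[0,1,2,3,4,6,5],[0,1,2,3,4,5],[0,1,2,3,4,5]],Ref.mk 1756 865 [0,1,2,3] [[0,1,2,3,4,5],[0,1,2,3,4,5,6],[0,1,2,3,4,5],[0,1,2,3,4,5]],Ref.mk 1597 866 [0,1,2,3] [[0,1,2,3,4,5],[0,1,2,3,4,5,6],[0,1,2,3,4,5],[0,1,2,3,4,5]]],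
Node.mk [0,820,182,1542,2448,27,976,3105,2216,2529,2938,2939,36,3663,1747] [(0,1),(2,0),(2,1),(2,2),(2,3),(2,4)] [Ref.mk 2610 861 [0,1,2,3] [[0,1,2,3,4,5],[0,1,2,3,4,5],[0,1,2,3,4,5],[0,1,2,3,4,5]],Ref.mk 1182 864 [0,1,2,3] [[0,1,2,3,4,5],[0,1,2,3,4,5],[0,1,2,3,4,5],[0,1,2,3,4,5]],Ref.mk 1876 867 [0,1,2,3] [[0,1,2,3,4,5],[0,1,2,3,4,5],[0,1,2,3,4,5],[0,1,2,3,4,5]]],
Node.mk [0,820,182,1542,2448,27,976,3105,2216,2529,2938,2939,36,3663,777] [(0,0),(0,2),(0,3),(1,0),(2,0),(2,1)] [Ref.mk 1747 868 [0,1,2,3] [[0,1,2,3,4,5],[0,1,2,3,4,5],[0,1,2,3,4],[0,1,2,3,4,5]]],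
Node.mk [0,820,182,1542,2448,27,976,3105,2216,2529,2938,2939,36,3663,939] [(0,0),(0,3),(0,4),(2,0),(2,2),(3,1)] [Ref.mk 1747 868 [0,1,2,3] [[0,1,2,3,4,5],[0,1,2,3,4,5],[0,1,2,3,4],[0,1,2,3,4,5]]],
Node.mk [0,820,182,1542,2448,27,976,3105,2216,2529,2938,2939,36,3663,1020] [(0,0),(0,2),(1,2),(2,1),(2,3),(3,1)] [],
Node.mk [0,820,182,1542,2448,27,976,3105,2216,2529,2938,2939,36,3663,1101] [(2,0),(2,1),(2,2),(2,3),(2,4),(3,1)] [Ref.mk 2610 754 [2,1,0,3] [[0,4,2,1,3,5],[0,5,2,3,4,1],[0,3,2,4,5,1],[0,1,2,4,3,5]]],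
Node.mk [0,820,182,1542,2448,27,976,3105,2216,2529,2938,2939,36,3663,1182] [(0,0),(0,2),(0,3),(1,0),(1,2),(2,1)] [Ref.mk 1747 864 [0,1,2,3] [[0,1,2,3,4,5],[0,1,2,3,4,5],[0,1,2,3,4,5],[0,1,2,3,4,5]],Ref.mk 1876 864 [2,1,0,3] [[0,5,2,1,3,4],[0,5,2,3,4,1],[0,3,2,4,5,1],[0,1,2,4,3,5]]],
Node.mk [0,820,182,1542,2448,27,976,3105,2216,2529,2938,2939,36,3663] [(1,0),(1,1),(1,2),(1,3),(1,4),(2,1)] [Ref.mk 45 851 [0,1,2,3] [[0,1,2,3,4,5],[0,1,2,3,4,5],[0,1,2,3,4],[0,1,2,3,4,5]],Ref.mk 1747 868 [0,1,2,3] [[0,1,2,3,4,5],[0,1,2,3,4,5],[0,1,2,3,4],[0,1,2,3,4,5]],Ref.mk 777 869 [0,1,2,3] [[0,1,2,3,4,5],[0,1,2,3,4,5],[0,1,2,3,4],[0,1,2,3,4,5]],Ref.mk 939 870 [0,1,2,3] [[0,1,2,3,4,5],[0,1,2,3,4,5],[0,1,2,3,4],[0,1,2,3,4,5]],Ref.mk 1020 871 [0,1,2,3] [[0,1,2,3,4,5],[0,1,2,3,4,5],[0,1,2,3,4],[0,1,2,3,4,5]],Ref.mk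 1101 872 [0,1,2,3] [[0,1,2,3,4,5],[0,1,2,3,4,5],[0,1,2,3,4],[0,1,2,3,4,5]],Ref.mk 1182 873 [0,1,2,3] [[0,1,2,3,4,5],[0,1,2,3,4,5],[0,1,2,3,4,5],[0,1,2,3,4,5]]],
Node.mk [0,820,182,1542,2448,27,976,3105,2216,2529,2938,2939,36,3808] [(0,0),(0,1),(1,0),(2,0),(2,2),(3,5)] [],
Node.mk [0,820,182,1542,2448,27,976,3105,2216,2529,2938,2939,36,4051,3900,4392] [(0,1),(1,0),(1,1),(1,2),(1,3),(1,4)] [Ref.mk 45 850 [2,1,0,3] [[0,1,2,5,3,4],[0,1,2,3,4,5],[0,1,2,4,5,3],[0,1,5,4,3,6]],Ref.mk 1182 864 [0,1,2,3] [[0,3,2,1,4,5],[0,5,2,3,4,1],[0,5,2,3,4,1],[0,1,5,3,4,6]],Ref.mk 3775 867 [2,1,0,3] [[0,1,2,5,3,4],[0,1,2,3,4,5],[0,1,2,4,5,3],[0,1,5,4,3,6]]],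
Node.mk [0,820,182,1542,2448,27,976,3105,2216,2529,2938,2939,36,4051,3900,4458] [(0,0),(0,2),(0,3),(1,0),(1,2),(2,1)] [],
Node.mk [0,820,182,1542,2448,27,976,3105,2216,2529,2938,2939,36,4051,3900] [(3,0),(3,1),(3,2),(3,3),(3,4),(3,5)] [Ref.mk 4392 876 [0,1,2,3] [[0,1,2,3,4,5],[0,1,2,3,4],[0,1,2,3,4,5],[0,1,2,3,4,5,6]],Ref.mk 4618 98 [3,1,2,0] [[0,1,3,2,6],[0,1,2,3],[0,1,3,2],[0,1,3,2]],Ref.mk 4458 877 [0,1,2,3] [[0,1,2,3,4,5],[0,1,2,3,4],[0,1,2,3,4,5],[0,1,2,3,4,5,6]]],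
Node.mk [0,820,182,1542,2448,27,976,3105,2216,2529,2938,2939,36,4051] [(0,0),(0,1),(0,2),(1,2),(2,1),(3,1)] [Ref.mk 3900 878 [0,1,2,3] [[0,1,2,3,4,5],[0,1,2,3,4],[0,1,2,3,4,5],[0,1,2,3,4,5]],Ref.mk 1876 878 [2,1,0,3] [[0,1,2,5,3,4],[0,1,2,3,4],[0,1,2,4,5,3],[0,1,5,4,3,2]]],
Node.mk [0,820,182,1542,2448,27,976,3105,2216,2529,2938,2939,36,3900,2610,1795,4629] [(0,0),(0,2),(0,3),(1,1),(1,2),(2,3)] [],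
Node.mk [0,820,182,1542,2448,27,976,3105,2216,2529,2938,2939,36,3900,2610,1795,4468] [(0,0),(0,2),(0,3),(0,4),(1,1),(1,2)] [],
Node.mk [0,820,182,1542,2448,27,976,3105,2216,2529,2938,2939,36,3900,2610,1795] [(3,0),(3,1),(3,2),(3,3),(3,4),(3,5)] [Ref.mk 4392 874 [0,1,2,3] [[0,1,2,3,4,5],[0,1,2,3,4],[0,1,2,3,4],[0,1,2,3,4,6]],Ref.mk 4629 880 [0,1,2,3] [[0,1,2,3,4,5],[0,1,2,3,4],[0,1,2,3,4,5],[0,1,2,3,4,5,6]],Ref.mk 4468 881 [0,1,2,3] [[0,1,2,3,4,5],[0,1,2,3,4],[0,1,2,3,4,5],[0,1,2,3,4,5,6]]],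
Node.mk [0,820,182,1542,2448,27,976,3105,2216,2529,2938,2939,36,3900,2610,1957,4629] [(0,0),(0,2),(0,3),(1,1),(1,2),(2,3)] [],
Node.mk [0,820,182,1542,2448,27,976,3105,2216,2529,2938,2939,36,3900,2610,1957,4468] [(0,0),(0,2),(0,3),(0,4),(1,1),(1,2)] [],
Node.mk [0,820,182,1542,2448,27,976,3105,2216,2529,2938,2939,36,3900,2610,1957] [(3,0),(3,1),(3,2),(3,3),(3,4),(3,5)] [Ref.mk 4392 874 [0,1,2,3] [[0,1,2,3,4,5],[0,1,2,3,4],[0,1,2,3,4],[0,1,2,3,4,6]],Ref.mk 4629 883 [0,1,2,3] [[0,1,2,3,4,5],[0,1,2,3,4],[0,1,2,3,4,5,6],[0,1,2,3,4,5,6]],Ref.mk 4468 884 [0,1,2,3] [[0,1,2,3,4,5],[0,1,2,3,4],[0,1,2,3,4,5,6],[0,1,2,3,4,5,6]]],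
Node.mk [0,820,182,1542,2448,27,976,3105,2216,2529,2938,2939,36,3900,2610] [(0,0),(0,3),(2,0),(2,1),(2,2),(2,3)] [Ref.mk 3970 532 [2,1,0,3] [[0,1,2,4,3,5],[0,1,2,3,4],[0,1,2,4,5,3],[0,1,5,4,3,2]],Ref.mk 4051 532 [2,1,0,3] [[0,1,2,5,3,4],[0,1,2,3,4],[0,1,2,4,5,3],[0,1,5,4,3,2]],Ref.mk 4132 878 [0,1,2,3] [[0,1,2,3,4,5],[0,1,2,3,4],[0,1,2,3,5,6],[0,1,2,3,4,5]],Ref.mk 1795 882 [0,1,2,3] [[0,1,2,3,4,5],[0,1,2,3,4],[0,1,2,3,4,5],[0,1,2,3,4,5]],Ref.mk 1876 882 [0,1,2,3] [[0,1,2,3,4,5],[0,1,2,3,4],[0,1,2,3,5,4],[0,1,2,3,4,5]],Ref.mk 1957 885 [0,1,2,3] [[0,1,2,3,4,5],[0,1,2,3,4],[0,1,2,3,4,5,6],[0,1,2,3,4,5]]],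
Node.mk [0,820,182,1542,2448,27,976,3105,2216,2529,2938,2939,36,3900,1876,1227] [(0,0),(0,2),(0,3),(0,4),(1,1),(1,2)] [],
Node.mk [0,820,182,1542,2448,27,976,3105,2216,2529,2938,2939,36,3900,1876,1957] [(0,0),(0,2),(0,4),(1,1),(1,2),(3,2)] [],
Node.mk [0,820,182,1542,2448,27,976,3105,2216,2529,2938,2939,36,3900,1876] [(2,0),(2,1),(2,2),(2,3),(2,4),(2,5)] [Ref.mk 2691 885 [0,1,2,3] [[0,1,2,3,4,5],[0,1,2,3,4],[0,1,2,3,4,6,5],[0,1,2,3,4,5]],Ref.mk 1227 887 [0,1,2,3] [[0,1,2,3,4,5],[0,1,2,3,4],[0,1,2,3,4,5,6],[0,1,2,3,4,5]],Ref.mk 1957 888 [0,1,2,3] [[0,1,2,3,4,5],[0,1,2,3,4],[0,1,2,3,4,5,6],[0,1,2,3,4,5]]],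
Node.mk [0,820,182,1542,2448,27,976,3105,2216,2529,2938,2939,36,3900] [(0,3),(2,0),(2,1),(2,2),(2,3),(2,4)] [Ref.mk 2610 886 [0,1,2,3] [[0,1,2,3,4,5],[0,1,2,3,4],[0,1,2,3,4,5],[0,1,2,3,4,5]],Ref.mk 4051 878 [0,1,2,3] [[0,1,2,3,4,5],[0,1,2,3,4],[0,1,2,3,4,5],[0,1,2,3,4,5]],Ref.mk 1876 889 [0,1,2,3] [[0,1,2,3,4,5],[0,1,2,3,4],[0,1,2,3,4,5],[0,1,2,3,4,5]]],
Node.mk [0,820,182,1542,2448,27,976,3105,2216,2529,2938,2939,36] [(2,1),(3,0),(3,1),(3,2),(3,3),(3,4)] [Ref.mk 3663 874 [0,1,2,3] [[0,1,2,3,4,5],[0,1,2,3,4],[0,1,2,3,4],[0,1,2,3,4,5]],Ref.mk 3646 26 [3,1,2,0] [[0,1,3,2,5],[0,1,2,3],[0,1,3,2],[0,1,3,2]],Ref.mk 3808 875 [0,1,2,3] [[0,1,2,3,4,5],[0,1,2,3,4],[0,1,2,3,4],[0,1,2,3,4,5]],Ref.mk 3889 98 [3,1,2,0] [[0,1,3,2,5],[0,1,2,3],[0,1,3,2],[0,1,3,2]],Ref.mk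 3970 540 [2,1,0,3] [[0,1,2,4,3],[0,1,2,3,4],[0,1,2,4,5],[0,1,5,4,3]],Ref.mk 4051 879 [0,1,2,3] [[0,1,2,3,4,5],[0,1,2,3,4],[0,1,2,3,4,5],[0,1,2,3,4,5]],Ref.mk 3900 890 [0,1,2,3] [[0,1,2,3,4,5],[0,1,2,3,4],[0,1,2,3,4],[0,1,2,3,4,5]]],
Node.mk [0,820,182,1542,2448,27,976,3105,2216,2529,2938,2939,1738,9,45,3900,1756] [(0,0),(0,1),(0,2),(1,2),(2,3),(3,2)] [],
Node.mk [0,820,182,1542,2448,27,976,3105,2216,2529,2938,2939,1738,9,45,3900,1029] [(0,0),(0,1),(0,2),(0,3),(1,2),(2,3)] [],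
Node.mk [0,820,182,1542,2448,27,976,3105,2216,2529,2938,2939,1738,9,45,3900] [(1,0),(1,1),(1,2),(1,3),(1,4),(1,5)] [Ref.mk 54 891 [0,1,2,3] [[0,1,2,3,4,5],[0,1,2,3,6],[0,1,2,3,4],[0,1,2,3,4]],Ref.mk 1756 892 [0,1,2,3] [[0,1,2,3,4,5],[0,1,2,3,4,5,6],[0,1,2,3,4],[0,1,2,3,4,5]],Ref.mk 1029 893 [0,1,2,3] [[0,1,2,3,4,5],[0,1,2,3,4,5,6],[0,1,2,3,4],[0,1,2,3,4,5]]],
Node.mk [0,820,182,1542,2448,27,976,3105,2216,2529,2938,2939,1738,9,45,3766,3970,4051] [(0,0),(0,1),(0,2),(0,4),(1,0),(1,2)] [Ref.mk 3900 894 [0,1,2,3] [[0,1,2,3,4,5],[0,1,2,3,4,5],[0,1,2,3,4],[0,1,2,3,4,5]]]]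

/-- nodes -/
noncomputable def c14 : List Node := [
Node.mk [0,820,182,1542,2448,27,976,3105,2216,2529,2938,2939,1738,9,45,3766,3970] [(0,0),(2,0),(2,1),(2,2),(2,3),(2,4)] [Ref.mk 4051 895 [0,1,2,3] [[0,1,2,3,4,5],[0,1,2,3,4,5],[0,1,2,3,4,5],[0,1,2,3,4,5]]],
Node.mk [0,820,182,1542,2448,27,976,3105,2216,2529,2938,2939,1738,9,45,3766,4051,1545] [(0,0),(0,1),(0,2),(0,4),(1,0),(1,2)] [],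
Node.mk [0,820,182,1542,2448,27,976,3105,2216,2529,2938,2939,1738,9,45,3766,4051] [(0,0),(0,1),(0,2),(0,3),(0,4),(1,2)] [Ref.mk 1544 895 [2,1,0,3] [[0,1,2,5,3,4],[0,1,2,3,4,5],[0,1,2,4,5,3],[0,1,5,4,3,2]],Ref.mk 1545 897 [0,1,2,3] [[0,1,2,3,4,5,6],[0,1,2,3,4,5],[0,1,2,3,4,5],[0,1,2,3,4,5]]],
Node.mk [0,820,182,1542,2448,27,976,3105,2216,2529,2938,2939,1738,9,45,3766] [(0,0),(0,4),(1,4),(2,0),(2,1),(2,2)] [Ref.mk 3889 98 [3,1,2,0] [[0,1,3,2,5],[0,1,2,3],[0,1,3,2],[0,1,3,2]],Ref.mk 3970 896 [0,1,2,3] [[0,1,2,3,4,5],[0,1,2,3,4,5],[0,1,2,3,4],[0,1,2,3,4,5]],Ref.mk 4051 898 [0,1,2,3] [[0,1,2,3,4,5],[0,1,2,3,4,5],[0,1,2,3,4,5],[0,1,2,3,4,5]],Ref.mk 3900 894 [0,1,2,3] [[0,1,2,3,4,5],[0,1,2,3,4,5],[0,1,2,3,4],[0,1,2,3,4,5]]],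
Node.mk [0,820,182,1542,2448,27,976,3105,2216,2529,2938,2939,1738,9,45] [(0,1),(3,0),(3,1),(3,2),(3,3),(3,4)] [Ref.mk 3663 868 [0,1,2,3] [[0,1,2,3,4,5],[0,1,2,3,5,4],[0,1,2,3,4],[0,1,2,3,4,5]],Ref.mk 3900 894 [0,1,2,3] [[0,1,2,3,4,5],[0,1,2,3,4,5],[0,1,2,3,4],[0,1,2,3,4,5]],Ref.mk 3766 899 [0,1,2,3] [[0,1,2,3,4,5],[0,1,2,3,4,5],[0,1,2,3,4],[0,1,2,3,4,5]]],
Node.mk [0,820,182,1542,2448,27,976,3105,2216,2529,2938,2939,1738,9,1020] [(0,0),(0,2),(1,2),(2,1),(2,3),(3,1)] [],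
Node.mk [0,820,182,1542,2448,27,976,3105,2216,2529,2938,2939,1738,9,1588] [(0,0),(0,2),(0,4),(1,2),(2,1),(3,2)] [Ref.mk 1020 901 [0,1,2,3] [[0,1,2,3,4,5],[0,1,2,3,4,5],[0,1,2,3,4],[0,1,2,3,4]]],
Node.mk [0,820,182,1542,2448,27,976,3105,2216,2529,2938,2939,1738,9] [(0,1),(1,0),(1,1),(1,2),(1,3),(1,4)] [Ref.mk 45 900 [0,1,2,3] [[0,1,2,3,4,5],[0,1,2,3,4,5],[0,1,2,3,4],[0,1,2,3,4]],Ref.mk 1020 901 [0,1,2,3] [[0,1,2,3,4,5],[0,1,2,3,4,5],[0,1,2,3,4],[0,1,2,3,4]],Ref.mk 1588 902 [0,1,2,3] [[0,1,2,3,4,5],[0,1,2,3,4,5],[0,1,2,3,4],[0,1,2,3,4]]],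
Node.mk [0,820,182,1542,2448,27,976,3105,2216,2529,2938,2939,1738] [(0,3),(1,0),(1,2),(1,3),(2,1),(3,2)] [Ref.mk 9 903 [0,1,2,3] [[0,1,2,3,4,5],[0,1,2,3,4],[0,1,2,3,4],[0,1,2,3,4]],Ref.mk 36 891 [0,1,2,3] [[0,1,2,3,4,5],[0,1,2,3,4],[0,1,2,3,4],[0,1,2,3,4]],Ref.mk 45 891 [0,1,2,3] [[0,1,2,3,4,5],[0,1,2,3,5],[0,1,2,3,4],[0,1,2,3,4]]],
Node.mk [0,820,182,1542,2448,27,976,3105,2216,2529,2938,2939] [(0,3),(1,0),(1,1),(1,2),(1,3),(2,1)] [Ref.mk 36 891 [0,1,2,3] [[0,1,2,3,4,5],[0,1,2,3,4],[0,1,2,3,4],[0,1,2,3,4]],Ref.mk 1738 904 [0,1,2,3] [[0,1,2,3,4,5],[0,1,2,3,4],[0,1,2,3,4],[0,1,2,3,4]]],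
Node.mk [0,820,182,1542,2448,27,976,3105,2216,2529,2938] [(0,0),(0,2),(0,4),(1,0),(2,3),(3,1)] [Ref.mk 2935 782 [0,1,2,3] [[0,1,2,3,4],[0,1,2,3],[0,1,2,3,4],[0,1,2,3,4]],Ref.mk 2937 677 [0,1,2,3] [[0,1,2,3,4],[0,1,2,3],[0,1,2,3,4],[0,1,2,3,4]],Ref.mk 2939 905 [0,1,2,3] [[0,1,2,3,4,5],[0,1,2,3],[0,1,2,3,4],[0,1,2,3,4]]],
Node.mk [0,820,182,1542,2448,27,976,3105,2216,2529,2939,36,3663,45,2610,255] [(0,0),(0,3),(1,1),(2,0),(2,3),(3,0)] [],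
Node.mk [0,820,182,1542,2448,27,976,3105,2216,2529,2939,36,3663,45,2610,1713,244] [(0,0),(0,1),(1,0),(2,0),(2,3),(3,0)] [],
Node.mk [0,820,182,1542,2448,27,976,3105,2216,2529,2939,36,3663,45,2610,1713,3171] [(0,0),(0,2),(0,3),(1,1),(1,2),(2,3)] [],
Node.mk [0,820,182,1542,2448,27,976,3105,2216,2529,2939,36,3663,45,2610,1713,3900] [(0,0),(0,2),(0,3),(1,1),(1,2),(2,3)] [],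
Node.mk [0,820,182,1542,2448,27,976,3105,2216,2529,2939,36,3663,45,2610,1713,4629] [(0,0),(0,2),(0,3),(1,1),(1,2),(2,3)] [],
Node.mk [0,820,182,1542,2448,27,976,3105,2216,2529,2939,36,3663,45,2610,1713] [(0,0),(1,2),(2,1),(3,1),(3,2),(3,3)] [Ref.mk 244 908 [0,1,2,3] [[0,1,2,3,4,5],[0,1,2,3,4,5],[0,1,2,3,4,5],[0,1,2,3,4,5]],Ref.mk 3160 98 [3,1,2,0] [[0,1,3,2,4],[0,1,2,3],[0,1,3,2],[0,1,3,2]],Ref.mk 3889 98 [3,1,2,0] [[0,1,3,2,5],[0,1,2,3],[0,1,3,2],[0,1,3,2]],Ref.mk 4618 98 [3,1,2,0] [[0,1,3,2,6],[0,1,2,3],[0,1,3,2],[0,1,3,2]],Ref.mk 255 907 [0,1,2,3] [[0,1,2,3,4,5],[0,1,2,3,4,5],[0,1,2,3,4,5],[0,1,2,3,4,5]],Ref.mk 3171 909 [0,1,2,3] [[0,1,2,3,4,5],[0,1,2,3,4,5],[0,1,2,3,4,5],[0,1,2,3,4,5]],Ref.mk 3900 910 [0,1,2,3] [[0,1,2,3,4,5],[0,1,2,3,4,5],[0,1,2,3,4,5],[0,1,2,3,4,5]],Ref.mk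 4629 911 [0,1,2,3] [[0,1,2,3,4,5],[0,1,2,3,4,5],[0,1,2,3,4,5],[0,1,2,3,4,5,6]]],
Node.mk [0,820,182,1542,2448,27,976,3105,2216,2529,2939,36,3663,45,2610,2442] [(0,0),(0,3),(1,1),(1,2),(2,3),(3,3)] [],
Node.mk [0,820,182,1542,2448,27,976,3105,2216,2529,2939,36,3663,45,2610,3171] [(0,0),(0,2),(0,3),(1,1),(2,3),(3,4)] [],
Node.mk [0,820,182,1542,2448,27,976,3105,2216,2529,2939,36,3663,45,2610,3900,4392,3732] [(0,0),(0,2),(1,0),(1,1),(1,2),(2,1)] [],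
Node.mk [0,820,182,1542,2448,27,976,3105,2216,2529,2939,36,3663,45,2610,3900,4392,978] [(0,0),(0,2),(1,0),(1,2),(2,3),(3,1)] [],
Node.mk [0,820,182,1542,2448,27,976,3105,2216,2529,2939,36,3663,45,2610,3900,4392,825] [(0,0),(0,2),(1,1),(1,2),(2,1),(3,1)] [],
Node.mk [0,820,182,1542,2448,27,976,3105,2216,2529,2939,36,3663,45,2610,3900,4392,1716] [(0,0),(0,2),(0,3),(1,1),(1,2),(2,3)] [Ref.mk 3732 915 [0,1,2,3] [[0,1,2,3,4,5,6],[0,1,2,3,4,5],[0,1,2,3,4,5],[0,1,2,3,4,5,6]]],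
Node.mk [0,820,182,1542,2448,27,976,3105,2216,2529,2939,36,3663,45,2610,3900,4392,2940] [(0,0),(0,1),(0,2),(0,3),(0,4),(1,2)] [Ref.mk 3731 915 [0,1,2,3] [[0,1,2,3,4,6,5],[0,1,2,3,4,5],[0,1,2,3,4,5],[0,1,2,3,4,5,6]],Ref.mk 977 916 [0,1,2,3] [[0,1,2,3,4,6,5],[0,1,2,3,4,5],[0,1,2,3,4,5],[0,1,2,3,4,5,6]],Ref.mk 824 917 [0,1,2,3] [[0,1,2,3,4,6,5],[0,1,2,3,4,5],[0,1,2,3,4,5],[0,1,2,3,4,5,6]],Ref.mk 1715 918 [0,1,2,3] [[0,1,2,3,4,6,5],[0,1,2,3,4,5],[0,1,2,3,4,5],[0,1,2,3,4,5,6]],Ref.mk 3732 915 [0,1,2,3] [[0,1,2,3,4,5,6],[0,1,2,3,4,5],[0,1,2,3,4,5],[0,1,2,3,4,5,6]],Ref.mk 978 916 [0,1,2,3] [[0,1,2,3,4,5,6],[0,1,2,3,4,5],[0,1,2,3,4,5],[0,1,2,3,4,5,6]],Ref.mk 825 917 [0,1,2,3] [[0,1,2,3,4,5,6],[0,1,2,3,4,5],[0,1,2,3,4,5],[0,1,2,3,4,5,6]],Ref.mk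 1716 918 [0,1,2,3] [[0,1,2,3,4,5,6],[0,1,2,3,4,5],[0,1,2,3,4,5],[0,1,2,3,4,5,6]],Ref.mk 3733 915 [0,1,2,3] [[0,1,2,3,4,6,7],[0,1,2,3,4,5],[0,1,2,3,4,5],[0,1,2,3,4,5,6]],Ref.mk 979 916 [0,1,2,3] [[0,1,2,3,4,6,7],[0,1,2,3,4,5],[0,1,2,3,4,5],[0,1,2,3,4,5,6]],Ref.mk 826 917 [0,1,2,3] [[0,1,2,3,4,6,7],[0,1,2,3,4,5],[0,1,2,3,4,5],[0,1,2,3,4,5,6]],Ref.mk 1717 918 [0,1,2,3] [[0,1,2,3,4,6,7],[0,1,2,3,4,5],[0,1,2,3,4,5],[0,1,2,3,4,5,6]]],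
Node.mk [0,820,182,1542,2448,27,976,3105,2216,2529,2939,36,3663,45,2610,3900,4392] [(0,0),(0,1),(0,2),(0,3),(0,4),(0,5)] [Ref.mk 3732 915 [0,1,2,3] [[0,1,2,3,4,5,6],[0,1,2,3,4,5],[0,1,2,3,4,5],[0,1,2,3,4,5,6]],Ref.mk 978 916 [0,1,2,3] [[0,1,2,3,4,5,6],[0,1,2,3,4,5],[0,1,2,3,4,5],[0,1,2,3,4,5,6]],Ref.mk 825 917 [0,1,2,3] [[0,1,2,3,4,5,6],[0,1,2,3,4,5],[0,1,2,3,4,5],[0,1,2,3,4,5,6]],Ref.mk 1716 918 [0,1,2,3] [[0,1,2,3,4,5,6],[0,1,2,3,4,5],[0,1,2,3,4,5],[0,1,2,3,4,5,6]],Ref.mk 2940 919 [0,1,2,3] [[0,1,2,3,4,5,6],[0,1,2,3,4,5],[0,1,2,3,4,5],[0,1,2,3,4,5,6]]],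
Node.mk [0,820,182,1542,2448,27,976,3105,2216,2529,2939,36,3663,45,2610,3900,4458] [(0,0),(0,2),(0,3),(1,0),(1,2),(2,1)] [],
Node.mk [0,820,182,1542,2448,27,976,3105,2216,2529,2939,36,3663,45,2610,3900,4629] [(0,0),(0,2),(0,3),(1,1),(1,2),(2,3)] [],
Node.mk [0,820,182,1542,2448,27,976,3105,2216,2529,2939,36,3663,45,2610,3900,4468] [(0,0),(0,2),(0,4),(1,1),(1,2),(2,1)] [Ref.mk 4618 98 [3,1,2,0] [[0,1,3,2,6],[0,1,2,3],[0,1,3,2],[0,1,3,2]]],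
Node.mk [0,820,182,1542,2448,27,976,3105,2216,2529,2939,36,3663,45,2610,3900] [(3,0),(3,1),(3,2),(3,3),(3,4),(3,5)] [Ref.mk 4392 920 [0,1,2,3] [[0,1,2,3,4,5],[0,1,2,3,4,5],[0,1,2,3,4,5],[0,1,2,3,4,5,6]],Ref.mk 4618 98 [3,1,2,0] [[0,1,3,2,6],[0,1,2,3],[0,1,3,2],[0,1,3,2]],Ref.mk 4458 921 [0,1,2,3] [[0,1,2,3,4,5],[0,1,2,3,4,5],[0,1,2,3,4,5],[0,1,2,3,4,5,6]],Ref.mk 4629 922 [0,1,2,3] [[0,1,2,3,4,5],[0,1,2,3,4,5],[0,1,2,3,4,5],[0,1,2,3,4,5,6]],Ref.mk 4468 923 [0,1,2,3] [[0,1,2,3,4,5],[0,1,2,3,4,5],[0,1,2,3,4,5],[0,1,2,3,4,5,6]]],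
Node.mk [0,820,182,1542,2448,27,976,3105,2216,2529,2939,36,3663,45,2610,4629,4461] [(0,0),(0,2),(1,0),(1,1),(1,2),(2,1)] [],
Node.mk [0,820,182,1542,2448,27,976,3105,2216,2529,2939,36,3663,45,2610,4629,978] [(0,0),(0,2),(1,0),(1,2),(2,3),(3,1)] [],
Node.mk [0,820,182,1542,2448,27,976,3105,2216,2529,2939,36,3663,45,2610,4629,825] [(0,0),(0,2),(1,1),(1,2),(2,1),(3,1)] [],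
Node.mk [0,820,182,1542,2448,27,976,3105,2216,2529,2939,36,3663,45,2610,4629,1716] [(0,0),(0,2),(0,3),(1,1),(1,2),(2,3)] [Ref.mk 4461 925 [0,1,2,3] [[0,1,2,6,4,5,3],[0,1,2,3,4,5],[0,1,2,3,4,5],[0,1,6,3,4,5,2]]],
Node.mk [0,820,182,1542,2448,27,976,3105,2216,2529,2939,36,3663,45,2610,4629,2940] [(0,0),(0,1),(0,2),(0,3),(0,4),(1,2)] [Ref.mk 4460 596 [0,1,2,3] [[0,1,2,5,4,6,3],[0,1,2,3,4,5],[0,1,2,3,4,5],[0,1,6,3,4,5]],Ref.mk 977 926 [0,1,2,3] [[0,1,2,3,4,6,5],[0,1,2,3,4,5],[0,1,2,3,4,5],[0,1,2,3,4,5,6]],Ref.mk 824 927 [0,1,2,3] [[0,1,2,3,4,6,5],[0,1,2,3,4,5],[0,1,2,3,4,5],[0,1,2,3,4,5,6]],Ref.mk 1715 928 [0,1,2,3] [[0,1,2,3,4,6,5],[0,1,2,3,4,5],[0,1,2,3,4,5],[0,1,2,3,4,5,6]],Ref.mk 4461 596 [0,1,2,3] [[0,1,2,6,4,5,3],[0,1,2,3,4,5],[0,1,2,3,4,5],[0,1,6,3,4,5]],Ref.mk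 978 926 [0,1,2,3] [[0,1,2,3,4,5,6],[0,1,2,3,4,5],[0,1,2,3,4,5],[0,1,2,3,4,5,6]],Ref.mk 825 927 [0,1,2,3] [[0,1,2,3,4,5,6],[0,1,2,3,4,5],[0,1,2,3,4,5],[0,1,2,3,4,5,6]],Ref.mk 1716 928 [0,1,2,3] [[0,1,2,3,4,5,6],[0,1,2,3,4,5],[0,1,2,3,4,5],[0,1,2,3,4,5,6]],Ref.mk 4462 925 [0,1,2,3] [[0,1,2,3,4,6,7],[0,1,2,3,4,5],[0,1,2,3,4,5],[0,1,2,3,4,5,6]],Ref.mk 979 926 [0,1,2,3] [[0,1,2,3,4,6,7],[0,1,2,3,4,5],[0,1,2,3,4,5],[0,1,2,3,4,5,6]],Ref.mk 826 927 [0,1,2,3] [[0,1,2,3,4,6,7],[0,1,2,3,4,5],[0,1,2,3,4,5],[0,1,2,3,4,5,6]],Ref.mk 1717 928 [0,1,2,3] [[0,1,2,3,4,6,7],[0,1,2,3,4,5],[0,1,2,3,4,5],[0,1,2,3,4,5,6]]],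
Node.mk [0,820,182,1542,2448,27,976,3105,2216,2529,2939,36,3663,45,2610,4629] [(0,0),(0,1),(0,2),(0,3),(0,4),(0,5)] [Ref.mk 4461 925 [0,1,2,3] [[0,1,2,3,4,5,6],[0,1,2,3,4,5],[0,1,2,3,4,5],[0,1,2,3,4,5,6]],Ref.mk 978 926 [0,1,2,3] [[0,1,2,3,4,5,6],[0,1,2,3,4,5],[0,1,2,3,4,5],[0,1,2,3,4,5,6]],Ref.mk 825 927 [0,1,2,3] [[0,1,2,3,4,5,6],[0,1,2,3,4,5],[0,1,2,3,4,5],[0,1,2,3,4,5,6]],Ref.mk 1716 928 [0,1,2,3] [[0,1,2,3,4,5,6],[0,1,2,3,4,5],[0,1,2,3,4,5],[0,1,2,3,4,5,6]],Ref.mk 2940 929 [0,1,2,3] [[0,1,2,3,4,5,6],[0,1,2,3,4,5],[0,1,2,3,4,5],[0,1,2,3,4,5,6]]],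
Node.mk [0,820,182,1542,2448,27,976,3105,2216,2529,2939,36,3663,45,2610,1633] [(0,0),(0,4),(1,1),(2,0),(2,2),(3,2)] [],
Node.mk [0,820,182,1542,2448,27,976,3105,2216,2529,2939,36,3663,45,2610,1714,244] [(0,0),(0,1),(1,0),(2,0),(2,3),(3,0)] [],
Node.mk [0,820,182,1542,2448,27,976,3105,2216,2529,2939,36,3663,45,2610,1714] [(0,0),(1,2),(2,1),(3,1),(3,2),(3,3)] [Ref.mk 244 932 [0,1,2,3] [[0,1,2,3,4,5],[0,1,2,3,4,5],[0,1,2,3,4,5],[0,1,2,3,4,5]],Ref.mk 3160 98 [3,1,2,0] [[0,1,3,2,4],[0,1,2,3],[0,1,3,2],[0,1,3,2]],Ref.mk 3889 98 [3,1,2,0] [[0,1,3,2,5],[0,1,2,3],[0,1,3,2],[0,1,3,2]],Ref.mk 4618 98 [3,1,2,0] [[0,1,3,2,6],[0,1,2,3],[0,1,3,2],[0,1,3,2]],Ref.mk 255 907 [0,1,2,3] [[0,1,2,3,4,5],[0,1,2,3,4,5],[0,1,2,3,4,5],[0,1,2,3,4,5]],Ref.mk 3171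 914 [0,1,2,3] [[0,1,2,3,4,5],[0,1,2,3,4,5],[0,1,2,3,4,5],[0,1,2,3,4,5]],Ref.mk 3900 924 [0,1,2,3] [[0,1,2,3,4,5],[0,1,2,3,4,5],[0,1,2,3,4,5],[0,1,2,3,4,5]],Ref.mk 4629 930 [0,1,2,3] [[0,1,2,3,4,5],[0,1,2,3,4,5],[0,1,2,3,4,5],[0,1,2,3,4,5,6]]],
Node.mk [0,820,182,1542,2448,27,976,3105,2216,2529,2939,36,3663,45,2610,1795,325] [(0,0),(0,1),(1,0),(2,0),(2,4),(3,0)] [],
Node.mk [0,820,182,1542,2448,27,976,3105,2216,2529,2939,36,3663,45,2610,1795,2512] [(0,0),(0,1),(1,0),(1,2),(2,4),(3,3)] [],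
Node.mk [0,820,182,1542,2448,27,976,3105,2216,2529,2939,36,3663,45,2610,1795,3970,1545] [(0,0),(0,1),(0,2),(0,4),(1,0),(1,2)] [],
Node.mk [0,820,182,1542,2448,27,976,3105,2216,2529,2939,36,3663,45,2610,1795,3970,1059] [(0,0),(0,1),(0,2),(1,0),(1,2),(2,4)] [],
Node.mk [0,820,182,1542,2448,27,976,3105,2216,2529,2939,36,3663,45,2610,1795,3970,2940] [(0,0),(0,1),(0,2),(0,3),(0,4),(1,2)] [Ref.mk 1544 936 [0,1,2,3] [[0,1,2,3,4,6,5],[0,1,2,3,4,5],[0,1,2,3,4,5],[0,1,2,3,4,5]],Ref.mk 1058 937 [0,1,2,3] [[0,1,2,3,4,6,5],[0,1,2,3,4,5],[0,1,2,3,4,5],[0,1,2,3,4,5]],Ref.mk 1545 936 [0,1,2,3] [[0,1,2,3,4,5,6],[0,1,2,3,4,5],[0,1,2,3,4,5],[0,1,2,3,4,5]],Ref.mk 1059 937 [0,1,2,3] [[0,1,2,3,4,5,6],[0,1,2,3,4,5],[0,1,2,3,4,5],[0,1,2,3,4,5]],Ref.mk 1546 936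 [0,1,2,3] [[0,1,2,3,4,6,7],[0,1,2,3,4,5],[0,1,2,3,4,5],[0,1,2,3,4,5]],Ref.mk 1060 937 [0,1,2,3] [[0,1,2,3,4,6,7],[0,1,2,3,4,5],[0,1,2,3,4,5],[0,1,2,3,4,5]]],
Node.mk [0,820,182,1542,2448,27,976,3105,2216,2529,2939,36,3663,45,2610,1795,3970] [(0,0),(0,1),(0,2),(0,3),(0,4),(0,5)] [Ref.mk 1545 936 [0,1,2,3] [[0,1,2,3,4,5,6],[0,1,2,3,4,5],[0,1,2,3,4,5],[0,1,2,3,4,5]],Ref.mk 1059 937 [0,1,2,3] [[0,1,2,3,4,5,6],[0,1,2,3,4,5],[0,1,2,3,4,5],[0,1,2,3,4,5]],Ref.mk 2940 938 [0,1,2,3] [[0,1,2,3,4,5,6],[0,1,2,3,4,5],[0,1,2,3,4,5],[0,1,2,3,4,5]]],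
Node.mk [0,820,182,1542,2448,27,976,3105,2216,2529,2939,36,3663,45,2610,1795,4699,1545] [(0,0),(0,1),(0,2),(0,4),(1,0),(1,2)] [],
Node.mk [0,820,182,1542,2448,27,976,3105,2216,2529,2939,36,3663,45,2610,1795,4699,1059] [(0,0),(0,1),(0,2),(1,0),(1,2),(2,4)] [],
Node.mk [0,820,182,1542,2448,27,976,3105,2216,2529,2939,36,3663,45,2610,1795,4699,2940] [(0,0),(0,1),(0,2),(0,3),(0,4),(1,2)] [Ref.mk 1544 940 [0,1,2,3] [[0,1,2,3,4,6,5],[0,1,2,3,4,5],[0,1,2,3,4,5],[0,1,2,3,4,5,6]],Ref.mk 1058 941 [0,1,2,3] [[0,1,2,3,4,6,5],[0,1,2,3,4,5],[0,1,2,3,4,5],[0,1,2,3,4,5,6]],Ref.mk 1545 940 [0,1,2,3] [[0,1,2,3,4,5,6],[0,1,2,3,4,5],[0,1,2,3,4,5],[0,1,2,3,4,5,6]],Ref.mk 1059 941 [0,1,2,3] [[0,1,2,3,4,5,6],[0,1,2,3,4,5],[0,1,2,3,4,5],[0,1,2,3,4,5,6]],Ref.mk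 1546 940 [0,1,2,3] [[0,1,2,3,4,6,7],[0,1,2,3,4,5],[0,1,2,3,4,5],[0,1,2,3,4,5,6]],Ref.mk 1060 941 [0,1,2,3] [[0,1,2,3,4,6,7],[0,1,2,3,4,5],[0,1,2,3,4,5],[0,1,2,3,4,5,6]]],
Node.mk [0,820,182,1542,2448,27,976,3105,2216,2529,2939,36,3663,45,2610,1795,4699] [(0,0),(0,1),(0,2),(0,3),(0,4),(0,5)] [Ref.mk 1545 940 [0,1,2,3] [[0,1,2,3,4,5,6],[0,1,2,3,4,5],[0,1,2,3,4,5],[0,1,2,3,4,5,6]],Ref.mk 1059 941 [0,1,2,3] [[0,1,2,3,4,5,6],[0,1,2,3,4,5],[0,1,2,3,4,5],[0,1,2,3,4,5,6]],Ref.mk 2940 942 [0,1,2,3] [[0,1,2,3,4,5,6],[0,1,2,3,4,5],[0,1,2,3,4,5],[0,1,2,3,4,5,6]]],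
Node.mk [0,820,182,1542,2448,27,976,3105,2216,2529,2939,36,3663,45,2610,1795] [(0,0),(0,2),(2,1),(3,1),(3,2),(3,4)] [Ref.mk 325 934 [0,1,2,3] [[0,1,2,3,4,5],[0,1,2,3,4,5],[0,1,2,3,4,5],[0,1,2,3,4,5]],Ref.mk 2512 935 [0,1,2,3] [[0,1,2,3,4,5],[0,1,2,3,4,5],[0,1,2,3,4,5],[0,1,2,3,4,5]],Ref.mk 3970 939 [0,1,2,3] [[0,1,2,3,4,5],[0,1,2,3,4,5],[0,1,2,3,4,5],[0,1,2,3,4,5]],Ref.mk 4699 943 [0,1,2,3] [[0,1,2,3,4,5],[0,1,2,3,4,5],[0,1,2,3,4,5],[0,1,2,3,4,5,6]],Ref.mk 255 907 [0,1,2,3] [[0,1,2,3,4,5],[0,1,2,3,4,5],[0,1,2,3,4,5],[0,1,2,3,4,5]],Ref.mk 2442 913 [0,1,2,3] [[0,1,2,3,4,5],[0,1,2,3,4,5],[0,1,2,3,4,5],[0,1,2,3,4,5]],Ref.mk 3900 924 [0,1,2,3] [[0,1,2,3,4,5],[0,1,2,3,4,5],[0,1,2,3,4,5],[0,1,2,3,4,5]],Ref.mk 4629 930 [0,1,2,3] [[0,1,2,3,4,5],[0,1,2,3,4,5],[0,1,2,3,4,5],[0,1,2,3,4,5,6]]],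
Node.mk [0,820,182,1542,2448,27,976,3105,2216,2529,2939,36,3663,45,2610,1957,487] [(0,0),(0,1),(1,0),(2,0),(2,6),(3,0)] [],
Node.mk [0,820,182,1542,2448,27,976,3105,2216,2529,2939,36,3663,45,2610,1957,2674] [(0,0),(0,1),(1,0),(1,2),(2,6),(3,3)] [],
Node.mk [0,820,182,1542,2448,27,976,3105,2216,2529,2939,36,3663,45,2610,1957,4132,1545] [(0,0),(0,1),(0,2),(0,4),(1,0),(1,2)] [],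
Node.mk [0,820,182,1542,2448,27,976,3105,2216,2529,2939,36,3663,45,2610,1957,4132,1221] [(0,0),(0,1),(0,2),(1,0),(1,2),(2,6)] [],
Node.mk [0,820,182,1542,2448,27,976,3105,2216,2529,2939,36,3663,45,2610,1957,4132,2940] [(0,0),(0,1),(0,2),(0,3),(0,4),(1,2)] [Ref.mk 1544 584 [0,1,2,3] [[0,1,2,5,4,6,3],[0,1,2,3,4,5],[0,1,2,3,4,5,6],[0,1,2,3,4,5]],Ref.mk 1220 948 [0,1,2,3] [[0,1,2,3,4,6,5],[0,1,2,3,4,5],[0,1,2,3,4,5,6],[0,1,2,3,4,5]],Ref.mk 1545 584 [0,1,2,3] [[0,1,2,6,4,5,3],[0,1,2,3,4,5],[0,1,2,3,4,5,6],[0,1,2,3,4,5]],Ref.mk 1221 948 [0,1,2,3] [[0,1,2,3,4,5,6],[0,1,2,3,4,5],[0,1,2,3,4,5,6],[0,1,2,3,4,5]],Ref.mk 1546 947 [0,1,2,3] [[0,1,2,3,4,6,7],[0,1,2,3,4,5],[0,1,2,3,4,5,6],[0,1,2,3,4,5]],Ref.mk 1222 948 [0,1,2,3] [[0,1,2,3,4,6,7],[0,1,2,3,4,5],[0,1,2,3,4,5,6],[0,1,2,3,4,5]]],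
Node.mk [0,820,182,1542,2448,27,976,3105,2216,2529,2939,36,3663,45,2610,1957,4132] [(0,0),(0,1),(0,2),(0,3),(0,4),(0,5)] [Ref.mk 1545 947 [0,1,2,3] [[0,1,2,3,4,5,6],[0,1,2,3,4,5],[0,1,2,3,4,5,6],[0,1,2,3,4,5]],Ref.mk 1221 948 [0,1,2,3] [[0,1,2,3,4,5,6],[0,1,2,3,4,5],[0,1,2,3,4,5,6],[0,1,2,3,4,5]],Ref.mk 2940 949 [0,1,2,3] [[0,1,2,3,4,5,6],[0,1,2,3,4,5],[0,1,2,3,4,5,6],[0,1,2,3,4,5]]],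
Node.mk [0,820,182,1542,2448,27,976,3105,2216,2529,2939,36,3663,45,2610,1957,4861,1545] [(0,0),(0,1),(0,2),(0,4),(1,0),(1,2)] [],
Node.mk [0,820,182,1542,2448,27,976,3105,2216,2529,2939,36,3663,45,2610,1957,4861,1221] [(0,0),(0,1),(0,2),(1,0),(1,2),(2,6)] [],
Node.mk [0,820,182,1542,2448,27,976,3105,2216,2529,2939,36,3663,45,2610,1957,4861,2940] [(0,0),(0,1),(0,2),(0,3),(0,4),(1,2)] [Ref.mk 1544 588 [0,1,2,3] [[0,1,2,5,4,6,3],[0,1,2,3,4,5],[0,1,2,3,4,5,6],[0,1,2,3,4,5,6]],Ref.mk 1220 952 [0,1,2,3] [[0,1,2,3,4,6,5],[0,1,2,3,4,5],[0,1,2,3,4,5,6],[0,1,2,3,4,5,6]],Ref.mk 1545 588 [0,1,2,3] [[0,1,2,6,4,5,3],[0,1,2,3,4,5],[0,1,2,3,4,5,6],[0,1,2,3,4,5,6]],Ref.mk 1221 952 [0,1,2,3] [[0,1,2,3,4,5,6],[0,1,2,3,4,5],[0,1,2,3,4,5,6],[0,1,2,3,4,5,6]],Ref.mk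 1546 951 [0,1,2,3] [[0,1,2,3,4,6,7],[0,1,2,3,4,5],[0,1,2,3,4,5,6],[0,1,2,3,4,5,6]],Ref.mk 1222 952 [0,1,2,3] [[0,1,2,3,4,6,7],[0,1,2,3,4,5],[0,1,2,3,4,5,6],[0,1,2,3,4,5,6]]],
Node.mk [0,820,182,1542,2448,27,976,3105,2216,2529,2939,36,3663,45,2610,1957,4861] [(0,0),(0,1),(0,2),(0,3),(0,4),(0,5)] [Ref.mk 1545 951 [0,1,2,3] [[0,1,2,3,4,5,6],[0,1,2,3,4,5],[0,1,2,3,4,5,6],[0,1,2,3,4,5,6]],Ref.mk 1221 952 [0,1,2,3] [[0,1,2,3,4,5,6],[0,1,2,3,4,5],[0,1,2,3,4,5,6],[0,1,2,3,4,5,6]],Ref.mk 2940 953 [0,1,2,3] [[0,1,2,3,4,5,6],[0,1,2,3,4,5],[0,1,2,3,4,5,6],[0,1,2,3,4,5,6]]],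
Node.mk [0,820,182,1542,2448,27,976,3105,2216,2529,2939,36,3663,45,2610,1957] [(0,0),(0,2),(2,1),(3,1),(3,2),(3,4)] [Ref.mk 487 945 [0,1,2,3] [[0,1,2,3,4,5],[0,1,2,3,4,5],[0,1,2,3,4,5,6],[0,1,2,3,4,5]],Ref.mk 2674 946 [0,1,2,3] [[0,1,2,3,4,5],[0,1,2,3,4,5],[0,1,2,3,4,5,6],[0,1,2,3,4,5]],Ref.mk 4132 950 [0,1,2,3] [[0,1,2,3,4,5],[0,1,2,3,4,5],[0,1,2,3,4,5,6],[0,1,2,3,4,5]],Ref.mk 4861 954 [0,1,2,3] [[0,1,2,3,4,5],[0,1,2,3,4,5],[0,1,2,3,4,5,6],[0,1,2,3,4,5,6]],Ref.mk 255 907 [0,1,2,3] [[0,1,2,3,4,5],[0,1,2,3,4,5],[0,1,2,3,4,5],[0,1,2,3,4,5]],Ref.mk 2442 913 [0,1,2,3] [[0,1,2,3,4,5],[0,1,2,3,4,5],[0,1,2,3,4,5],[0,1,2,3,4,5]],Ref.mk 3900 924 [0,1,2,3] [[0,1,2,3,4,5],[0,1,2,3,4,5],[0,1,2,3,4,5],[0,1,2,3,4,5]],Ref.mk 4629 930 [0,1,2,3] [[0,1,2,3,4,5],[0,1,2,3,4,5],[0,1,2,3,4,5],[0,1,2,3,4,5,6]]],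
Node.mk [0,820,182,1542,2448,27,976,3105,2216,2529,2939,36,3663,45,2610,1715,244] [(0,0),(0,1),(1,0),(2,0),(2,3),(3,0)] [],
Node.mk [0,820,182,1542,2448,27,976,3105,2216,2529,2939,36,3663,45,2610,1715] [(0,0),(1,2),(2,1),(3,1),(3,2),(3,3)] [Ref.mk 244 956 [0,1,2,3] [[0,1,2,3,4,5],[0,1,2,3,4,5],[0,1,2,3,4,5],[0,1,2,3,4,5]],Ref.mk 3160 98 [3,1,2,0] [[0,1,3,2,4],[0,1,2,3],[0,1,3,2],[0,1,3,2]],Ref.mk 3889 98 [3,1,2,0] [[0,1,3,2,5],[0,1,2,3],[0,1,3,2],[0,1,3,2]],Ref.mk 4618 98 [3,1,2,0] [[0,1,3,2,6],[0,1,2,3],[0,1,3,2],[0,1,3,2]],Ref.mk 255 907 [0,1,2,3] [[0,1,2,3,4,5],[0,1,2,3,4,5],[0,1,2,3,4,5],[0,1,2,3,4,5]],Ref.mk 3171 914 [0,1,2,3] [[0,1,2,3,4,5],[0,1,2,3,4,5],[0,1,2,3,4,5],[0,1,2,3,4,5]],Ref.mk 3900 924 [0,1,2,3] [[0,1,2,3,4,5],[0,1,2,3,4,5],[0,1,2,3,4,5],[0,1,2,3,4,5]],Ref.mk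 4629 930 [0,1,2,3] [[0,1,2,3,4,5],[0,1,2,3,4,5],[0,1,2,3,4,5],[0,1,2,3,4,5,6]]],
Node.mk [0,820,182,1542,2448,27,976,3105,2216,2529,2939,36,3663,45,2610,1716,244] [(0,0),(0,1),(1,0),(2,0),(2,3),(3,0)] [],
Node.mk [0,820,182,1542,2448,27,976,3105,2216,2529,2939,36,3663,45,2610,1716] [(0,0),(1,2),(2,1),(3,1),(3,2),(3,3)] [Ref.mk 244 958 [0,1,2,3] [[0,1,2,3,4,5,6],[0,1,2,3,4,5],[0,1,2,3,4,5],[0,1,2,3,4,5]],Ref.mk 3160 98 [3,1,2,0] [[0,1,3,2,4],[0,1,2,3],[0,1,3,2],[0,1,3,2]],Ref.mk 3889 98 [3,1,2,0] [[0,1,3,2,5],[0,1,2,3],[0,1,3,2],[0,1,3,2]],Ref.mk 4618 98 [3,1,2,0] [[0,1,3,2,6],[0,1,2,3],[0,1,3,2],[0,1,3,2]],Ref.mk 255 907 [0,1,2,3] [[0,1,2,3,4,5],[0,1,2,3,4,5],[0,1,2,3,4,5],[0,1,2,3,4,5]],Ref.mk 3171 914 [0,1,2,3] [[0,1,2,3,4,5],[0,1,2,3,4,5],[0,1,2,3,4,5],[0,1,2,3,4,5]],Ref.mk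 3900 924 [0,1,2,3] [[0,1,2,3,4,5],[0,1,2,3,4,5],[0,1,2,3,4,5],[0,1,2,3,4,5]],Ref.mk 4629 928 [0,1,2,3] [[0,1,2,3,4,5,6],[0,1,2,3,4,5],[0,1,2,3,4,5],[0,1,2,3,4,5,6]]]]

/-- nodes -/
noncomputable def c15 : List Node := [
Node.mk [0,820,182,1542,2448,27,976,3105,2216,2529,2939,36,3663,45,2610] [(0,0),(0,1),(0,2),(2,0),(2,1),(3,1)] [Ref.mk 255 907 [0,1,2,3] [[0,1,2,3,4,5],[0,1,2,3,4,5],[0,1,2,3,4,5],[0,1,2,3,4,5]],Ref.mk 1713 912 [0,1,2,3] [[0,1,2,3,4,5],[0,1,2,3,4,5],[0,1,2,3,4,5],[0,1,2,3,4,5]],Ref.mk 2442 913 [0,1,2,3] [[0,1,2,3,4,5],[0,1,2,3,4,5],[0,1,2,3,4,5],[0,1,2,3,4,5]],Ref.mk 3171 914 [0,1,2,3] [[0,1,2,3,4,5],[0,1,2,3,4,5],[0,1,2,3,4,5],[0,1,2,3,4,5]],Ref.mk 3900 924 [0,1,2,3] [[0,1,2,3,4,5],[0,1,2,3,4,5],[0,1,2,3,4,5],[0,1,2,3,4,5]],Ref.mk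 4629 930 [0,1,2,3] [[0,1,2,3,4,5],[0,1,2,3,4,5],[0,1,2,3,4,5],[0,1,2,3,4,5,6]],Ref.mk 1633 931 [0,1,2,3] [[0,1,2,3,4,5],[0,1,2,3,4,5],[0,1,2,3,4,5],[0,1,2,3,4,5]],Ref.mk 1714 933 [0,1,2,3] [[0,1,2,3,4,5],[0,1,2,3,4,5],[0,1,2,3,4,5],[0,1,2,3,4,5]],Ref.mk 1795 944 [0,1,2,3] [[0,1,2,3,4,5],[0,1,2,3,4,5],[0,1,2,3,4,5],[0,1,2,3,4,5]],Ref.mk 1876 944 [0,1,2,3] [[0,1,2,3,4,5],[0,1,2,3,4,5],[0,1,2,3,5,4],[0,1,2,3,4,5]],Ref.mk 1957 955 [0,1,2,3] [[0,1,2,3,4,5],[0,1,2,3,4,5],[0,1,2,3,4,5,6],[0,1,2,3,4,5]],Ref.mk 1715 957 [0,1,2,3] [[0,1,2,3,4,5],[0,1,2,3,4,5],[0,1,2,3,4,5],[0,1,2,3,4,5]],Ref.mk 1716 959 [0,1,2,3] [[0,1,2,3,4,5,6],[0,1,2,3,4,5],[0,1,2,3,4,5],[0,1,2,3,4,5]]],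
Node.mk [0,820,182,1542,2448,27,976,3105,2216,2529,2939,36,3663,45,1146] [(0,0),(0,2),(1,0),(1,1),(1,2),(3,1)] [],
Node.mk [0,820,182,1542,2448,27,976,3105,2216,2529,2939,36,3663,45,1155] [(0,0),(0,3),(1,2),(1,3),(2,5),(3,1)] [Ref.mk 2917 26 [3,1,2,0] [[0,1,3,2,4],[0,1,2,3],[0,1,3,2],[0,1,3,2]]],
Node.mk [0,820,182,1542,2448,27,976,3105,2216,2529,2939,36,3663,45,1164] [(0,0),(0,3),(1,2),(1,3),(2,5),(3,1)] [],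
Node.mk [0,820,182,1542,2448,27,976,3105,2216,2529,2939,36,3663,45,1173,1738,978] [(0,0),(0,1),(0,2),(0,3),(1,2),(3,1)] [],
Node.mk [0,820,182,1542,2448,27,976,3105,2216,2529,2939,36,3663,45,1173,1738,2940,1216] [(0,0),(0,1),(0,2),(0,3),(1,2),(3,1)] [],
Node.mk [0,820,182,1542,2448,27,976,3105,2216,2529,2939,36,3663,45,1173,1738,2940,1254] [(0,0),(0,2),(0,3),(1,2),(1,4),(3,1)] [],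
Node.mk [0,820,182,1542,2448,27,976,3105,2216,2529,2939,36,3663,45,1173,1738,2940] [(2,0),(2,1),(2,2),(2,3),(2,4),(2,5)] [Ref.mk 2691 960 [0,1,2,3] [[0,1,2,3,4,5],[0,1,2,3,4,5],[0,1,2,3,4,6],[0,1,2,3,4,5]],Ref.mk 1216 965 [0,1,2,3] [[0,1,2,3,4,5,6],[0,1,2,3,4,5],[0,1,2,3,4,5,6],[0,1,2,3,4,5]],Ref.mk 1254 966 [0,1,2,3] [[0,1,2,3,4,5,6],[0,1,2,3,4,5],[0,1,2,3,4,5,6],[0,1,2,3,4,5]]],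
Node.mk [0,820,182,1542,2448,27,976,3105,2216,2529,2939,36,3663,45,1173,1738,852] [(0,0),(0,1),(0,2),(0,5),(2,1),(3,1)] [Ref.mk 2937 604 [0,1,2,3] [[0,1,2,3,4,5,6],[0,1,2,3,4,5],[0,1,2,3,4,5],[0,1,2,3,4,5]],Ref.mk 2938 835 [0,1,2,3] [[0,1,2,3,4,5],[0,1,2,3,4,5],[0,1,2,3,4,5],[0,1,2,3,4,5]],Ref.mk 2940 967 [0,1,2,3] [[0,1,2,3,4,5,6],[0,1,2,3,4,5],[0,1,2,3,4,5],[0,1,2,3,4,5]],Ref.mk 2941 967 [0,1,2,3] [[0,1,2,3,4,5,7],[0,1,2,3,4,5],[0,1,2,3,4,5],[0,1,2,3,4,5]]],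
Node.mk [0,820,182,1542,2448,27,976,3105,2216,2529,2939,36,3663,45,1173,1738] [(0,0),(0,1),(0,2),(0,3),(0,4),(0,5)] [Ref.mk 978 964 [0,1,2,3] [[0,1,2,3,4,5,6],[0,1,2,3,4,5],[0,1,2,3,4,5],[0,1,2,3,4,5]],Ref.mk 2940 967 [0,1,2,3] [[0,1,2,3,4,5,6],[0,1,2,3,4,5],[0,1,2,3,4,5],[0,1,2,3,4,5]],Ref.mk 852 968 [0,1,2,3] [[0,1,2,3,4,5,6],[0,1,2,3,4,5],[0,1,2,3,4,5],[0,1,2,3,4,5]]],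
Node.mk [0,820,182,1542,2448,27,976,3105,2216,2529,2939,36,3663,45,1173,1876,1227] [(0,0),(0,2),(0,3),(0,4),(1,2),(3,1)] [],
Node.mk [0,820,182,1542,2448,27,976,3105,2216,2529,2939,36,3663,45,1173,1876,1219] [(0,0),(0,2),(0,4),(1,0),(1,2),(3,1)] [],
Node.mk [0,820,182,1542,2448,27,976,3105,2216,2529,2939,36,3663,45,1173,1876] [(2,0),(2,1),(2,2),(2,3),(2,4),(2,5)] [Ref.mk 2691 955 [0,1,2,3] [[0,1,2,3,4,5],[0,1,2,3,4,5],[0,1,2,3,4,6,5],[0,1,2,3,4,5]],Ref.mk 1227 970 [0,1,2,3] [[0,1,2,3,4,5],[0,1,2,3,4,5],[0,1,2,3,4,5,6],[0,1,2,3,4,5]],Ref.mk 1219 971 [0,1,2,3] [[0,1,2,3,4,5],[0,1,2,3,4,5],[0,1,2,3,4,5,6],[0,1,2,3,4,5]]],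
Node.mk [0,820,182,1542,2448,27,976,3105,2216,2529,2939,36,3663,45,1173] [(0,0),(0,2),(0,3),(1,0),(1,2),(2,1)] [Ref.mk 1738 969 [0,1,2,3] [[0,1,2,3,4,5],[0,1,2,3,4,5],[0,1,2,3,4,5],[0,1,2,3,4,5]],Ref.mk 1876 972 [0,1,2,3] [[0,1,2,3,4,5],[0,1,2,3,4,5],[0,1,2,3,4,5],[0,1,2,3,4,5]]],
Node.mk [0,820,182,1542,2448,27,976,3105,2216,2529,2939,36,3663,45,1191,1756,978] [(0,0),(0,1),(0,2),(0,3),(1,2),(3,1)] [],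
Node.mk [0,820,182,1542,2448,27,976,3105,2216,2529,2939,36,3663,45,1191,1756,2940,1216] [(0,0),(0,1),(0,2),(0,3),(1,2),(3,1)] [],
Node.mk [0,820,182,1542,2448,27,976,3105,2216,2529,2939,36,3663,45,1191,1756,2940,1272] [(0,0),(0,2),(0,3),(1,2),(1,6),(3,1)] [],
Node.mk [0,820,182,1542,2448,27,976,3105,2216,2529,2939,36,3663,45,1191,1756,2940] [(2,0),(2,1),(2,2),(2,3),(2,4),(2,5)] [Ref.mk 2691 960 [0,1,2,3] [[0,1,2,3,4,5],[0,1,2,3,4,5],[0,1,2,3,4,6],[0,1,2,3,4,5]],Ref.mk 1216 975 [0,1,2,3] [[0,1,2,3,4,5,6],[0,1,2,3,4,5,6],[0,1,2,3,4,5,6],[0,1,2,3,4,5]],Ref.mk 1272 976 [0,1,2,3] [[0,1,2,3,4,5,6],[0,1,2,3,4,5,6],[0,1,2,3,4,5,6],[0,1,2,3,4,5]]],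
Node.mk [0,820,182,1542,2448,27,976,3105,2216,2529,2939,36,3663,45,1191,1756,870] [(0,0),(0,1),(0,2),(0,5),(2,1),(3,1)] [Ref.mk 2937 614 [0,1,2,3] [[0,1,2,3,4,5,6],[0,1,2,3,4,5,6],[0,1,2,3,4,5],[0,1,2,3,4,5]],Ref.mk 2938 841 [0,1,2,3] [[0,1,2,3,4,5,6],[0,1,2,3,4,5,6],[0,1,2,3,4,5],[0,1,2,3,4,5]],Ref.mk 2940 977 [0,1,2,3] [[0,1,2,3,4,5,6],[0,1,2,3,4,5,6],[0,1,2,3,4,5],[0,1,2,3,4,5]],Ref.mk 2941 977 [0,1,2,3] [[0,1,2,3,4,5,7],[0,1,2,3,4,5,6],[0,1,2,3,4,5],[0,1,2,3,4,5]]],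
Node.mk [0,820,182,1542,2448,27,976,3105,2216,2529,2939,36,3663,45,1191,1756] [(0,0),(0,1),(0,2),(0,3),(0,4),(0,5)] [Ref.mk 978 974 [0,1,2,3] [[0,1,2,3,4,5,6],[0,1,2,3,4,5,6],[0,1,2,3,4,5],[0,1,2,3,4,5]],Ref.mk 2940 977 [0,1,2,3] [[0,1,2,3,4,5,6],[0,1,2,3,4,5,6],[0,1,2,3,4,5],[0,1,2,3,4,5]],Ref.mk 870 978 [0,1,2,3] [[0,1,2,3,4,5,6],[0,1,2,3,4,5,6],[0,1,2,3,4,5],[0,1,2,3,4,5]]],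
Node.mk [0,820,182,1542,2448,27,976,3105,2216,2529,2939,36,3663,45,1191,1876,1227] [(0,0),(0,2),(0,3),(0,4),(1,2),(3,1)] [],
Node.mk [0,820,182,1542,2448,27,976,3105,2216,2529,2939,36,3663,45,1191,1876,1219] [(0,0),(0,2),(0,4),(1,0),(1,2),(3,1)] [],
Node.mk [0,820,182,1542,2448,27,976,3105,2216,2529,2939,36,3663,45,1191,1876] [(2,0),(2,1),(2,2),(2,3),(2,4),(2,5)] [Ref.mk 2691 955 [0,1,2,3] [[0,1,2,3,4,5],[0,1,2,3,4,5],[0,1,2,3,4,6,5],[0,1,2,3,4,5]],Ref.mk 1227 980 [0,1,2,3] [[0,1,2,3,4,5],[0,1,2,3,4,5,6],[0,1,2,3,4,5,6],[0,1,2,3,4,5]],Ref.mk 1219 981 [0,1,2,3] [[0,1,2,3,4,5],[0,1,2,3,4,5,6],[0,1,2,3,4,5,6],[0,1,2,3,4,5]]],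
Node.mk [0,820,182,1542,2448,27,976,3105,2216,2529,2939,36,3663,45,1191] [(0,0),(0,2),(0,3),(1,0),(1,2),(2,1)] [Ref.mk 1756 979 [0,1,2,3] [[0,1,2,3,4,5],[0,1,2,3,4,5,6],[0,1,2,3,4,5],[0,1,2,3,4,5]],Ref.mk 1876 982 [0,1,2,3] [[0,1,2,3,4,5],[0,1,2,3,4,5,6],[0,1,2,3,4,5],[0,1,2,3,4,5]]],
Node.mk [0,820,182,1542,2448,27,976,3105,2216,2529,2939,36,3663,45,1876,1738,1945] [(0,0),(0,1),(0,2),(0,4),(1,2),(3,2)] [],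
Node.mk [0,820,182,1542,2448,27,976,3105,2216,2529,2939,36,3663,45,1876,1738,1957] [(0,0),(0,2),(0,4),(1,1),(1,2),(3,2)] [],
Node.mk [0,820,182,1542,2448,27,976,3105,2216,2529,2939,36,3663,45,1876,1738] [(2,0),(2,1),(2,2),(2,3),(2,4),(2,5)] [Ref.mk 2691 955 [0,1,2,3] [[0,1,2,3,4,5],[0,1,2,3,4,5],[0,1,2,3,4,6,5],[0,1,2,3,4,5]],Ref.mk 1945 984 [0,1,2,3] [[0,1,2,3,4,5],[0,1,2,3,4,5],[0,1,2,3,4,5,6],[0,1,2,3,4,5]],Ref.mk 1957 985 [0,1,2,3] [[0,1,2,3,4,5],[0,1,2,3,4,5],[0,1,2,3,4,5,6],[0,1,2,3,4,5]]],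
Node.mk [0,820,182,1542,2448,27,976,3105,2216,2529,2939,36,3663,45,1876,1756,1945] [(0,0),(0,1),(0,2),(0,4),(1,2),(3,2)] [],
Node.mk [0,820,182,1542,2448,27,976,3105,2216,2529,2939,36,3663,45,1876,1756,1957] [(0,0),(0,2),(0,4),(1,1),(1,2),(3,2)] [],
Node.mk [0,820,182,1542,2448,27,976,3105,2216,2529,2939,36,3663,45,1876,1756] [(2,0),(2,1),(2,2),(2,3),(2,4),(2,5)] [Ref.mk 2691 955 [0,1,2,3] [[0,1,2,3,4,5],[0,1,2,3,4,5],[0,1,2,3,4,6,5],[0,1,2,3,4,5]],Ref.mk 1945 987 [0,1,2,3] [[0,1,2,3,4,5],[0,1,2,3,4,5,6],[0,1,2,3,4,5,6],[0,1,2,3,4,5]],Ref.mk 1957 988 [0,1,2,3] [[0,1,2,3,4,5],[0,1,2,3,4,5,6],[0,1,2,3,4,5,6],[0,1,2,3,4,5]]],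
Node.mk [0,820,182,1542,2448,27,976,3105,2216,2529,2939,36,3663,45,1876] [(0,0),(0,4),(1,0),(1,1),(1,2),(1,3)] [Ref.mk 1738 986 [0,1,2,3] [[0,1,2,3,4,5],[0,1,2,3,4,5],[0,1,2,3,4,5],[0,1,2,3,4,5]],Ref.mk 1747 986 [0,1,2,3] [[0,1,2,3,4,5],[0,1,2,3,5,4],[0,1,2,3,4,5],[0,1,2,3,4,5]],Ref.mk 1756 989 [0,1,2,3] [[0,1,2,3,4,5],[0,1,2,3,4,5,6],[0,1,2,3,4,5],[0,1,2,3,4,5]],Ref.mk 1173 972 [0,1,2,3] [[0,1,2,3,4,5],[0,1,2,3,4,5],[0,1,2,3,4,5],[0,1,2,3,4,5]],Ref.mk 1182 972 [0,1,2,3] [[0,1,2,3,4,5],[0,1,2,3,5,4],[0,1,2,3,4,5],[0,1,2,3,4,5]],Ref.mk 1191 982 [0,1,2,3] [[0,1,2,3,4,5],[0,1,2,3,4,5,6],[0,1,2,3,4,5],[0,1,2,3,4,5]]],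
Node.mk [0,820,182,1542,2448,27,976,3105,2216,2529,2939,36,3663,45] [(1,0),(2,0),(2,1),(2,2),(2,3),(2,4)] [Ref.mk 2610 960 [0,1,2,3] [[0,1,2,3,4,5],[0,1,2,3,4,5],[0,1,2,3,4,5],[0,1,2,3,4,5]],Ref.mk 1146 961 [0,1,2,3] [[0,1,2,3,4,5],[0,1,2,3,4,5],[0,1,2,3,4,5],[0,1,2,3,4,5]],Ref.mk 1155 962 [0,1,2,3] [[0,1,2,3,4,5],[0,1,2,3,4,5],[0,1,2,3,4,5],[0,1,2,3,4,5]],Ref.mk 1164 963 [0,1,2,3] [[0,1,2,3,4,5],[0,1,2,3,4,5],[0,1,2,3,4,5],[0,1,2,3,4,5]],Ref.mk 1173 973 [0,1,2,3] [[0,1,2,3,4,5],[0,1,2,3,4,5],[0,1,2,3,4,5],[0,1,2,3,4,5]],Ref.mk 1182 973 [0,1,2,3] [[0,1,2,3,4,5],[0,1,2,3,5,4],[0,1,2,3,4,5],[0,1,2,3,4,5]],Ref.mk 1191 983 [0,1,2,3] [[0,1,2,3,4,5],[0,1,2,3,4,5,6],[0,1,2,3,4,5],[0,1,2,3,4,5]],Ref.mk 1876 990 [0,1,2,3] [[0,1,2,3,4,5],[0,1,2,3,4,5],[0,1,2,3,4,5],[0,1,2,3,4,5]]],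
Node.mk [0,820,182,1542,2448,27,976,3105,2216,2529,2939,36,3663,1747,2610,865] [(0,0),(0,1),(0,2),(1,2),(2,1),(3,1)] [],
Node.mk [0,820,182,1542,2448,27,976,3105,2216,2529,2939,36,3663,1747,2610,1756] [(0,0),(0,1),(0,2),(1,2),(2,3),(3,2)] [],
Node.mk [0,820,182,1542,2448,27,976,3105,2216,2529,2939,36,3663,1747,2610,1029] [(0,0),(0,2),(1,2),(2,1),(2,3),(3,1)] [],
Node.mk [0,820,182,1542,2448,27,976,3105,2216,2529,2939,36,3663,1747,2610,1597] [(0,0),(0,2),(0,4),(1,2),(2,1),(3,2)] [Ref.mk 1029 994 [0,1,2,3] [[0,1,2,3,4,5],[0,1,2,3,4,5,6],[0,1,2,3,4,5],[0,1,2,3,4,5]]],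
Node.mk [0,820,182,1542,2448,27,976,3105,2216,2529,2939,36,3663,1747,2610] [(1,0),(1,1),(1,2),(1,3),(1,4),(1,5)] [Ref.mk 54 960 [0,1,2,3] [[0,1,2,3,4,5],[0,1,2,3,4,6],[0,1,2,3,4,5],[0,1,2,3,4,5]],Ref.mk 865 992 [0,1,2,3] [[0,1,2,3,4,5],[0,1,2,3,4,5,6],[0,1,2,3,4,5],[0,1,2,3,4,5]],Ref.mk 1756 993 [0,1,2,3] [[0,1,2,3,4,5],[0,1,2,3,4,5,6],[0,1,2,3,4,5],[0,1,2,3,4,5]],Ref.mk 1029 994 [0,1,2,3] [[0,1,2,3,4,5],[0,1,2,3,4,5,6],[0,1,2,3,4,5],[0,1,2,3,4,5]],Ref.mk 1597 995 [0,1,2,3] [[0,1,2,3,4,5],[0,1,2,3,4,5,6],[0,1,2,3,4,5],[0,1,2,3,4,5]]],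
Node.mk [0,820,182,1542,2448,27,976,3105,2216,2529,2939,36,3663,1747,1182,865] [(0,0),(0,1),(0,2),(1,2),(2,1),(3,1)] [],
Node.mk [0,820,182,1542,2448,27,976,3105,2216,2529,2939,36,3663,1747,1182,1029] [(0,0),(0,1),(0,2),(0,3),(1,2),(3,1)] [],
Node.mk [0,820,182,1542,2448,27,976,3105,2216,2529,2939,36,3663,1747,1182] [(1,0),(1,1),(1,2),(1,3),(1,4),(1,5)] [Ref.mk 54 979 [0,1,2,3] [[0,1,2,3,4,5],[0,1,2,3,4,6,5],[0,1,2,3,4,5],[0,1,2,3,4,5]],Ref.mk 865 997 [0,1,2,3] [[0,1,2,3,4,5],[0,1,2,3,4,5,6],[0,1,2,3,4,5],[0,1,2,3,4,5]],Ref.mk 1029 998 [0,1,2,3] [[0,1,2,3,4,5],[0,1,2,3,4,5,6],[0,1,2,3,4,5],[0,1,2,3,4,5]]],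
Node.mk [0,820,182,1542,2448,27,976,3105,2216,2529,2939,36,3663,1747,1876,1756] [(0,0),(0,1),(0,2),(1,2),(2,3),(3,2)] [],
Node.mk [0,820,182,1542,2448,27,976,3105,2216,2529,2939,36,3663,1747,1876,1597] [(0,0),(0,1),(0,2),(0,4),(1,2),(3,2)] [],
Node.mk [0,820,182,1542,2448,27,976,3105,2216,2529,2939,36,3663,1747,1876] [(1,0),(1,1),(1,2),(1,3),(1,4),(1,5)] [Ref.mk 54 989 [0,1,2,3] [[0,1,2,3,4,5],[0,1,2,3,4,6,5],[0,1,2,3,4,5],[0,1,2,3,4,5]],Ref.mk 1756 1000 [0,1,2,3] [[0,1,2,3,4,5],[0,1,2,3,4,5,6],[0,1,2,3,4,5],[0,1,2,3,4,5]],Ref.mk 1597 1001 [0,1,2,3] [[0,1,2,3,4,5],[0,1,2,3,4,5,6],[0,1,2,3,4,5],[0,1,2,3,4,5]]],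
Node.mk [0,820,182,1542,2448,27,976,3105,2216,2529,2939,36,3663,1747] [(0,1),(2,0),(2,1),(2,2),(2,3),(2,4)] [Ref.mk 2610 996 [0,1,2,3] [[0,1,2,3,4,5],[0,1,2,3,4,5],[0,1,2,3,4,5],[0,1,2,3,4,5]],Ref.mk 1182 999 [0,1,2,3] [[0,1,2,3,4,5],[0,1,2,3,4,5],[0,1,2,3,4,5],[0,1,2,3,4,5]],Ref.mk 1876 1002 [0,1,2,3] [[0,1,2,3,4,5],[0,1,2,3,4,5],[0,1,2,3,4,5],[0,1,2,3,4,5]]],
Node.mk [0,820,182,1542,2448,27,976,3105,2216,2529,2939,36,3663,777] [(0,0),(0,2),(0,3),(1,0),(2,0),(2,1)] [Ref.mk 1747 1003 [0,1,2,3] [[0,1,2,3,4,5],[0,1,2,3,4,5],[0,1,2,3,4],[0,1,2,3,4,5]]],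
Node.mk [0,820,182,1542,2448,27,976,3105,2216,2529,2939,36,3663,939] [(0,0),(0,3),(0,4),(2,0),(2,2),(3,1)] [Ref.mk 1747 1003 [0,1,2,3] [[0,1,2,3,4,5],[0,1,2,3,4,5],[0,1,2,3,4],[0,1,2,3,4,5]]],
Node.mk [0,820,182,1542,2448,27,976,3105,2216,2529,2939,36,3663,1020] [(0,0),(0,2),(1,2),(2,1),(2,3),(3,1)] [],
Node.mk [0,820,182,1542,2448,27,976,3105,2216,2529,2939,36,3663,1101,1795,2610,1110] [(0,0),(0,2),(0,3),(1,2),(2,4),(3,1)] [],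
Node.mk [0,820,182,1542,2448,27,976,3105,2216,2529,2939,36,3663,1101,1795,2610,868] [(0,0),(0,2),(0,3),(0,4),(1,2),(3,1)] [],
Node.mk [0,820,182,1542,2448,27,976,3105,2216,2529,2939,36,3663,1101,1795,2610] [(1,0),(1,1),(1,2),(1,3),(1,4),(1,5)] [Ref.mk 54 982 [0,1,2,3] [[0,1,2,3,4,5],[0,1,2,3,4,6,5],[0,1,2,3,5,4],[0,1,2,3,4,5]],Ref.mk 1110 1007 [0,1,2,3] [[0,1,2,3,4,5],[0,1,2,3,4,5,6],[0,1,2,3,4,5],[0,1,2,3,4,5]],Ref.mk 868 1008 [0,1,2,3] [[0,1,2,3,4,5],[0,1,2,3,4,5,6],[0,1,2,3,4,5],[0,1,2,3,4,5]]],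
Node.mk [0,820,182,1542,2448,27,976,3105,2216,2529,2939,36,3663,1101,1795] [(2,0),(2,1),(2,2),(2,3),(2,4),(3,1)] [Ref.mk 2610 1009 [0,1,2,3] [[0,1,2,3,4,5],[0,1,2,3,4,5],[0,1,2,3,4,5],[0,1,2,3,4,5]]],
Node.mk [0,820,182,1542,2448,27,976,3105,2216,2529,2939,36,3663,1101] [(0,0),(0,2),(0,3),(1,0),(1,2),(2,1)] [Ref.mk 1747 1003 [0,1,2,3] [[0,1,2,3,4,5],[0,1,2,3,4,5],[0,1,2,3,4],[0,1,2,3,4,5]],Ref.mk 1795 1010 [0,1,2,3] [[0,1,2,3,4,5],[0,1,2,3,4,5],[0,1,2,3,4],[0,1,2,3,4,5]]],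
Node.mk [0,820,182,1542,2448,27,976,3105,2216,2529,2939,36,3663,1182,1876,1191] [(0,0),(0,2),(0,3),(1,2),(2,5),(3,1)] [],
Node.mk [0,820,182,1542,2448,27,976,3105,2216,2529,2939,36,3663,1182,1876,868] [(0,0),(0,2),(0,3),(0,4),(1,2),(3,1)] [],
Node.mk [0,820,182,1542,2448,27,976,3105,2216,2529,2939,36,3663,1182,1876] [(1,0),(1,1),(1,2),(1,3),(1,4),(1,5)] [Ref.mk 54 982 [0,1,2,3] [[0,1,2,3,4,5],[0,1,2,3,4,6,5],[0,1,2,3,4,5],[0,1,2,3,4,5]],Ref.mk 1191 1012 [0,1,2,3] [[0,1,2,3,4,5],[0,1,2,3,4,5,6],[0,1,2,3,4,5],[0,1,2,3,4,5]],Ref.mk 868 1013 [0,1,2,3] [[0,1,2,3,4,5],[0,1,2,3,4,5,6],[0,1,2,3,4,5],[0,1,2,3,4,5]]],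
Node.mk [0,820,182,1542,2448,27,976,3105,2216,2529,2939,36,3663,1182] [(0,0),(0,2),(0,3),(1,0),(1,2),(2,1)] [Ref.mk 1747 999 [0,1,2,3] [[0,1,2,3,4,5],[0,1,2,3,4,5],[0,1,2,3,4,5],[0,1,2,3,4,5]],Ref.mk 1876 1014 [0,1,2,3] [[0,1,2,3,4,5],[0,1,2,3,4,5],[0,1,2,3,4,5],[0,1,2,3,4,5]]],
Node.mk [0,820,182,1542,2448,27,976,3105,2216,2529,2939,36,3663] [(1,0),(1,1),(1,2),(1,3),(1,4),(2,1)] [Ref.mk 45 991 [0,1,2,3] [[0,1,2,3,4,5],[0,1,2,3,4,5],[0,1,2,3,4],[0,1,2,3,4,5]],Ref.mk 1747 1003 [0,1,2,3] [[0,1,2,3,4,5],[0,1,2,3,4,5],[0,1,2,3,4],[0,1,2,3,4,5]],Ref.mk 777 1004 [0,1,2,3] [[0,1,2,3,4,5],[0,1,2,3,4,5],[0,1,2,3,4],[0,1,2,3,4,5]],Ref.mk 939 1005 [0,1,2,3] [[0,1,2,3,4,5],[0,1,2,3,4,5],[0,1,2,3,4],[0,1,2,3,4,5]],Ref.mk 1020 1006 [0,1,2,3] [[0,1,2,3,4,5],[0,1,2,3,4,5],[0,1,2,3,4],[0,1,2,3,4,5]],Ref.mk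 1101 1011 [0,1,2,3] [[0,1,2,3,4,5],[0,1,2,3,4,5],[0,1,2,3,4],[0,1,2,3,4,5]],Ref.mk 1182 1015 [0,1,2,3] [[0,1,2,3,4,5],[0,1,2,3,4,5],[0,1,2,3,4,5],[0,1,2,3,4,5]]],
Node.mk [0,820,182,1542,2448,27,976,3105,2216,2529,2939,36,3808] [(0,0),(0,1),(1,0),(2,0),(2,2),(3,5)] [],
Node.mk [0,820,182,1542,2448,27,976,3105,2216,2529,2939,36,3970,2610,3900,4458] [(0,0),(0,2),(0,3),(1,0),(1,2),(2,1)] [],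
Node.mk [0,820,182,1542,2448,27,976,3105,2216,2529,2939,36,3970,2610,3900] [(3,0),(3,1),(3,2),(3,3),(3,4),(3,5)] [Ref.mk 4392 1016 [0,1,2,3] [[0,1,2,3,4,5],[0,1,2,3,4],[0,1,2,3,4],[0,1,2,3,4,6]],Ref.mk 4618 98 [3,1,2,0] [[0,1,3,2,6],[0,1,2,3],[0,1,3,2],[0,1,3,2]],Ref.mk 4458 1018 [0,1,2,3] [[0,1,2,3,4,5],[0,1,2,3,4],[0,1,2,3,4,5],[0,1,2,3,4,5,6]]],
Node.mk [0,820,182,1542,2448,27,976,3105,2216,2529,2939,36,3970,2610,1795,4699] [(0,0),(0,1),(0,2),(1,0),(1,2),(2,4)] [],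
Node.mk [0,820,182,1542,2448,27,976,3105,2216,2529,2939,36,3970,2610,1795,4459] [(0,0),(0,1),(0,2),(0,4),(1,0),(1,2)] [],
Node.mk [0,820,182,1542,2448,27,976,3105,2216,2529,2939,36,3970,2610,1795] [(3,0),(3,1),(3,2),(3,3),(3,4),(3,5)] [Ref.mk 4392 1016 [0,1,2,3] [[0,1,2,3,4,5],[0,1,2,3,4],[0,1,2,3,4],[0,1,2,3,4,6]],Ref.mk 4699 1020 [0,1,2,3] [[0,1,2,3,4,5],[0,1,2,3,4],[0,1,2,3,4,5],[0,1,2,3,4,5,6]],Ref.mk 4459 1021 [0,1,2,3] [[0,1,2,3,4,5],[0,1,2,3,4],[0,1,2,3,4,5],[0,1,2,3,4,5,6]]],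
Node.mk [0,820,182,1542,2448,27,976,3105,2216,2529,2939,36,3970,2610] [(0,0),(0,1),(0,2),(1,2),(2,1),(3,1)] [Ref.mk 3900 1019 [0,1,2,3] [[0,1,2,3,4,5],[0,1,2,3,4],[0,1,2,3,4,5],[0,1,2,3,4,5]],Ref.mk 1795 1022 [0,1,2,3] [[0,1,2,3,4,5],[0,1,2,3,4],[0,1,2,3,4,5],[0,1,2,3,4,5]]]]

end Vale.Agent.P045.R4N2
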