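import Vale.Agent.P045.Check

/-! Certificate data. -/

namespace Vale.Agent.P045.R4N2

open Vale.Agent.P045

/-- nodes -/
noncomputable def c16 : List Node := [
Node.mk [0,820,182,1542,2448,27,976,3105,2216,2529,2939,36,3970] [(1,0),(2,0),(2,1),(2,2),(2,3),(2,4)] [Ref.mk 2610 1023 [0,1,2,3] [[0,1,2,3,4,5],[0,1,2,3,4],[0,1,2,3,4,5],[0,1,2,3,4,5]]],
Node.mk [0,820,182,1542,2448,27,976,3105,2216,2529,2939,36,4051,3900,4392,1747,4132] [(0,0),(0,1),(0,2),(1,0),(1,2),(3,5)] [],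
Node.mk [0,820,182,1542,2448,27,976,3105,2216,2529,2939,36,4051,3900,4392,1747] [(0,0),(0,2),(1,2),(2,1),(2,3),(2,5)] [Ref.mk 3646 26 [3,1,2,0] [[0,1,3,2,5],[0,1,2,3],[0,1,3,2],[0,1,3,2]],Ref.mk 3808 1017 [0,1,2,3] [[0,1,2,3,4,5],[0,1,2,3,4],[0,1,2,3,4],[0,1,2,3,4,5]],Ref.mk 3970 1024 [0,1,2,3] [[0,1,2,3,4,5],[0,1,2,3,4],[0,1,2,3,4],[0,1,2,3,4,5]],Ref.mk 4132 1025 [0,1,2,3] [[0,1,2,3,4,5],[0,1,2,3,4,5],[0,1,2,3,4,5,6],[0,1,2,3,4,5,6]]],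
Node.mk [0,820,182,1542,2448,27,976,3105,2216,2529,2939,36,4051,3900,4392,3775,1876] [(0,0),(0,1),(0,2),(0,3),(0,4),(1,2)] [],
Node.mk [0,820,182,1542,2448,27,976,3105,2216,2529,2939,36,4051,3900,4392,3775] [(0,0),(0,2),(0,3),(1,0),(1,2),(2,1)] [Ref.mk 1747 1026 [0,1,2,3] [[0,1,2,3,4,5],[0,1,2,3,4,5],[0,1,2,3,4,5],[0,1,2,3,4,5,6]],Ref.mk 1876 1027 [0,1,2,3] [[0,1,2,3,4,5],[0,1,2,3,4,5],[0,1,2,3,4,5],[0,1,2,3,4,5,6]]],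
Node.mk [0,820,182,1542,2448,27,976,3105,2216,2529,2939,36,4051,3900,4392] [(0,0),(1,0),(1,1),(1,2),(1,3),(1,4)] [Ref.mk 1747 1026 [0,1,2,3] [[0,1,2,3,4,5],[0,1,2,3,4,5],[0,1,2,3,4,5],[0,1,2,3,4,5,6]],Ref.mk 1182 999 [0,1,2,3] [[0,3,2,1,4,5],[0,5,2,3,4,1],[0,5,2,3,4,1],[0,1,5,3,4,6]],Ref.mk 3775 1028 [0,1,2,3] [[0,1,2,3,4,5],[0,1,2,3,4,5],[0,1,2,3,4,5],[0,1,2,3,4,5,6]]],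
Node.mk [0,820,182,1542,2448,27,976,3105,2216,2529,2939,36,4051,3900,4458] [(0,0),(0,2),(0,3),(1,0),(1,2),(2,1)] [],
Node.mk [0,820,182,1542,2448,27,976,3105,2216,2529,2939,36,4051,3900] [(3,0),(3,1),(3,2),(3,3),(3,4),(3,5)] [Ref.mk 4392 1029 [0,1,2,3] [[0,1,2,3,4,5],[0,1,2,3,4],[0,1,2,3,4,5],[0,1,2,3,4,5,6]],Ref.mk 4618 98 [3,1,2,0] [[0,1,3,2,6],[0,1,2,3],[0,1,3,2],[0,1,3,2]],Ref.mk 4458 1030 [0,1,2,3] [[0,1,2,3,4,5],[0,1,2,3,4],[0,1,2,3,4,5],[0,1,2,3,4,5,6]]],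
Node.mk [0,820,182,1542,2448,27,976,3105,2216,2529,2939,36,4051,1876,1545] [(0,0),(0,1),(0,2),(0,4),(1,0),(1,2)] [],
Node.mk [0,820,182,1542,2448,27,976,3105,2216,2529,2939,36,4051,1876,1140] [(0,0),(0,1),(0,2),(1,0),(1,2),(2,5)] [],
Node.mk [0,820,182,1542,2448,27,976,3105,2216,2529,2939,36,4051,1876,2940] [(0,0),(0,1),(0,2),(0,3),(0,4),(1,2)] [Ref.mk 1544 657 [0,1,2,3] [[0,1,2,5,4,6,3],[0,1,2,3,4],[0,1,2,3,4,5],[0,1,2,3,4,5]],Ref.mk 1139 1033 [0,1,2,3] [[0,1,2,3,4,6,5],[0,1,2,3,4],[0,1,2,3,4,5],[0,1,2,3,4,5]],Ref.mk 1545 657 [0,1,2,3] [[0,1,2,6,4,5,3],[0,1,2,3,4],[0,1,2,3,4,5],[0,1,2,3,4,5]],Ref.mk 1140 1033 [0,1,2,3] [[0,1,2,3,4,5,6],[0,1,2,3,4],[0,1,2,3,4,5],[0,1,2,3,4,5]],Ref.mk 1546 1032 [0,1,2,3] [[0,1,2,3,4,6,7],[0,1,2,3,4],[0,1,2,3,4,5],[0,1,2,3,4,5]],Ref.mk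 1141 1033 [0,1,2,3] [[0,1,2,3,4,6,7],[0,1,2,3,4],[0,1,2,3,4,5],[0,1,2,3,4,5]]],
Node.mk [0,820,182,1542,2448,27,976,3105,2216,2529,2939,36,4051,1876] [(0,0),(0,1),(0,2),(0,3),(0,4),(0,5)] [Ref.mk 1545 1032 [0,1,2,3] [[0,1,2,3,4,5,6],[0,1,2,3,4],[0,1,2,3,4,5],[0,1,2,3,4,5]],Ref.mk 1140 1033 [0,1,2,3] [[0,1,2,3,4,5,6],[0,1,2,3,4],[0,1,2,3,4,5],[0,1,2,3,4,5]],Ref.mk 2940 1034 [0,1,2,3] [[0,1,2,3,4,5,6],[0,1,2,3,4],[0,1,2,3,4,5],[0,1,2,3,4,5]]],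
Node.mk [0,820,182,1542,2448,27,976,3105,2216,2529,2939,36,4051] [(0,0),(0,1),(0,2),(1,2),(2,1),(3,1)] [Ref.mk 3900 1031 [0,1,2,3] [[0,1,2,3,4,5],[0,1,2,3,4],[0,1,2,3,4,5],[0,1,2,3,4,5]],Ref.mk 1876 1035 [0,1,2,3] [[0,1,2,3,4,5],[0,1,2,3,4],[0,1,2,3,4,5],[0,1,2,3,4,5]]],
Node.mk [0,820,182,1542,2448,27,976,3105,2216,2529,2939,36,3900,1795,2610,4629] [(0,0),(0,2),(0,3),(1,1),(1,2),(2,3)] [],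
Node.mk [0,820,182,1542,2448,27,976,3105,2216,2529,2939,36,3900,1795,2610,4468] [(0,0),(0,2),(0,3),(0,4),(1,1),(1,2)] [],
Node.mk [0,820,182,1542,2448,27,976,3105,2216,2529,2939,36,3900,1795,2610] [(3,0),(3,1),(3,2),(3,3),(3,4),(3,5)] [Ref.mk 4392 1016 [0,1,2,3] [[0,1,2,3,4,5],[0,1,2,3,4],[0,1,2,3,4],[0,1,2,3,4,6]],Ref.mk 4629 1037 [0,1,2,3] [[0,1,2,3,4,5],[0,1,2,3,4],[0,1,2,3,4,5],[0,1,2,3,4,5,6]],Ref.mk 4468 1038 [0,1,2,3] [[0,1,2,3,4,5],[0,1,2,3,4],[0,1,2,3,4,5],[0,1,2,3,4,5,6]]],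
Node.mk [0,820,182,1542,2448,27,976,3105,2216,2529,2939,36,3900,1795] [(1,1),(2,0),(2,1),(2,2),(2,3),(2,4)] [Ref.mk 2610 1039 [0,1,2,3] [[0,1,2,3,4,5],[0,1,2,3,4],[0,1,2,3,4,5],[0,1,2,3,4,5]]],
Node.mk [0,820,182,1542,2448,27,976,3105,2216,2529,2939,36,3900,1876,825] [(0,0),(0,2),(0,3),(0,4),(1,1),(1,2)] [],
Node.mk [0,820,182,1542,2448,27,976,3105,2216,2529,2939,36,3900,1876,1716] [(0,0),(0,1),(0,2),(1,0),(1,1),(1,2)] [],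
Node.mk [0,820,182,1542,2448,27,976,3105,2216,2529,2939,36,3900,1876,2940] [(0,0),(0,1),(0,2),(0,3),(0,4),(1,2)] [Ref.mk 824 1041 [0,1,2,3] [[0,1,2,3,4,6,5],[0,1,2,3,4],[0,1,2,3,4,5],[0,1,2,3,4,5]],Ref.mk 1715 1042 [0,1,2,3] [[0,1,2,3,4,6,5],[0,1,2,3,4],[0,1,2,3,4,5],[0,1,2,3,4,5]],Ref.mk 825 1041 [0,1,2,3] [[0,1,2,3,4,5,6],[0,1,2,3,4],[0,1,2,3,4,5],[0,1,2,3,4,5]],Ref.mk 1716 1042 [0,1,2,3] [[0,1,2,3,4,5,6],[0,1,2,3,4],[0,1,2,3,4,5],[0,1,2,3,4,5]],Ref.mk 826 1041 [0,1,2,3] [[0,1,2,3,4,6,7],[0,1,2,3,4],[0,1,2,3,4,5],[0,1,2,3,4,5]],Ref.mk 1717 1042 [0,1,2,3] [[0,1,2,3,4,6,7],[0,1,2,3,4],[0,1,2,3,4,5],[0,1,2,3,4,5]]],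
Node.mk [0,820,182,1542,2448,27,976,3105,2216,2529,2939,36,3900,1876] [(0,0),(0,1),(0,2),(0,3),(0,4),(0,5)] [Ref.mk 825 1041 [0,1,2,3] [[0,1,2,3,4,5,6],[0,1,2,3,4],[0,1,2,3,4,5],[0,1,2,3,4,5]],Ref.mk 1716 1042 [0,1,2,3] [[0,1,2,3,4,5,6],[0,1,2,3,4],[0,1,2,3,4,5],[0,1,2,3,4,5]],Ref.mk 2940 1043 [0,1,2,3] [[0,1,2,3,4,5,6],[0,1,2,3,4],[0,1,2,3,4,5],[0,1,2,3,4,5]]],
Node.mk [0,820,182,1542,2448,27,976,3105,2216,2529,2939,36,3900] [(0,0),(0,3),(2,0),(2,1),(2,2),(2,3)] [Ref.mk 3970 1024 [0,1,2,3] [[0,1,2,3,4,5],[0,1,2,3,4],[0,1,2,3,4],[0,1,2,3,4,5]],Ref.mk 4051 1031 [0,1,2,3] [[0,1,2,3,4,5],[0,1,2,3,4],[0,1,2,3,4,5],[0,1,2,3,4,5]],Ref.mk 1795 1040 [0,1,2,3] [[0,1,2,3,4,5],[0,1,2,3,4],[0,1,2,3,4],[0,1,2,3,4,5]],Ref.mk 1876 1044 [0,1,2,3]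 [[0,1,2,3,4,5],[0,1,2,3,4],[0,1,2,3,4,5],[0,1,2,3,4,5]]],
Node.mk [0,820,182,1542,2448,27,976,3105,2216,2529,2939,36] [(2,1),(3,0),(3,1),(3,2),(3,3),(3,4)] [Ref.mk 3663 1016 [0,1,2,3] [[0,1,2,3,4,5],[0,1,2,3,4],[0,1,2,3,4],[0,1,2,3,4,5]],Ref.mk 3646 26 [3,1,2,0] [[0,1,3,2,5],[0,1,2,3],[0,1,3,2],[0,1,3,2]],Ref.mk 3808 1017 [0,1,2,3] [[0,1,2,3,4,5],[0,1,2,3,4],[0,1,2,3,4],[0,1,2,3,4,5]],Ref.mk 3889 98 [3,1,2,0] [[0,1,3,2,5],[0,1,2,3],[0,1,3,2],[0,1,3,2]],Ref.mk 3970 1024 [0,1,2,3] [[0,1,2,3,4,5],[0,1,2,3,4],[0,1,2,3,4],[0,1,2,3,4,5]],Ref.mk 4051 1036 [0,1,2,3] [[0,1,2,3,4,5],[0,1,2,3,4],[0,1,2,3,4,5],[0,1,2,3,4,5]],Ref.mk 3900 1045 [0,1,2,3] [[0,1,2,3,4,5],[0,1,2,3,4],[0,1,2,3,4],[0,1,2,3,4,5]]],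
Node.mk [0,820,182,1542,2448,27,976,3105,2216,2529,2939,1738,9,45,3900,1756] [(0,0),(0,1),(0,2),(1,2),(2,3),(3,2)] [],
Node.mk [0,820,182,1542,2448,27,976,3105,2216,2529,2939,1738,9,45,3900,1029] [(0,0),(0,1),(0,2),(0,3),(1,2),(2,3)] [],
Node.mk [0,820,182,1542,2448,27,976,3105,2216,2529,2939,1738,9,45,3900] [(1,0),(1,1),(1,2),(1,3),(1,4),(1,5)] [Ref.mk 54 1046 [0,1,2,3] [[0,1,2,3,4,5],[0,1,2,3,6],[0,1,2,3,4],[0,1,2,3,4]],Ref.mk 1756 1047 [0,1,2,3] [[0,1,2,3,4,5],[0,1,2,3,4,5,6],[0,1,2,3,4],[0,1,2,3,4,5]],Ref.mk 1029 1048 [0,1,2,3] [[0,1,2,3,4,5],[0,1,2,3,4,5,6],[0,1,2,3,4],[0,1,2,3,4,5]]],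
Node.mk [0,820,182,1542,2448,27,976,3105,2216,2529,2939,1738,9,45,3766,3970,4051] [(0,0),(0,1),(0,2),(0,4),(1,0),(1,2)] [Ref.mk 3900 1049 [0,1,2,3] [[0,1,2,3,4,5],[0,1,2,3,4,5],[0,1,2,3,4],[0,1,2,3,4,5]]],
Node.mk [0,820,182,1542,2448,27,976,3105,2216,2529,2939,1738,9,45,3766,3970] [(0,0),(2,0),(2,1),(2,2),(2,3),(2,4)] [Ref.mk 4051 1050 [0,1,2,3] [[0,1,2,3,4,5],[0,1,2,3,4,5],[0,1,2,3,4,5],[0,1,2,3,4,5]]],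
Node.mk [0,820,182,1542,2448,27,976,3105,2216,2529,2939,1738,9,45,3766,4051,4132] [(0,0),(0,1),(0,2),(0,4),(1,0),(1,2)] [Ref.mk 3900 1049 [0,1,2,3] [[0,1,2,3,4,5],[0,1,2,3,4,5],[0,1,2,3,4],[0,1,2,3,4,5]]],
Node.mk [0,820,182,1542,2448,27,976,3105,2216,2529,2939,1738,9,45,3766,4051] [(0,0),(2,0),(2,1),(2,2),(2,3),(2,5)] [Ref.mk 3970 1050 [0,1,2,3] [[0,1,2,3,4,5],[0,1,2,3,4,5],[0,1,2,3,4,5],[0,1,2,3,4,5]],Ref.mk 4132 1052 [0,1,2,3] [[0,1,2,3,4,5],[0,1,2,3,4,5],[0,1,2,3,4,5,6],[0,1,2,3,4,5]]],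
Node.mk [0,820,182,1542,2448,27,976,3105,2216,2529,2939,1738,9,45,3766] [(0,0),(0,4),(1,4),(2,0),(2,1),(2,2)] [Ref.mk 3889 98 [3,1,2,0] [[0,1,3,2,5],[0,1,2,3],[0,1,3,2],[0,1,3,2]],Ref.mk 3970 1051 [0,1,2,3] [[0,1,2,3,4,5],[0,1,2,3,4,5],[0,1,2,3,4],[0,1,2,3,4,5]],Ref.mk 4051 1053 [0,1,2,3] [[0,1,2,3,4,5],[0,1,2,3,4,5],[0,1,2,3,4,5],[0,1,2,3,4,5]],Ref.mk 3900 1049 [0,1,2,3] [[0,1,2,3,4,5],[0,1,2,3,4,5],[0,1,2,3,4],[0,1,2,3,4,5]]],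
Node.mk [0,820,182,1542,2448,27,976,3105,2216,2529,2939,1738,9,45] [(0,1),(3,0),(3,1),(3,2),(3,3),(3,4)] [Ref.mk 3663 1003 [0,1,2,3] [[0,1,2,3,4,5],[0,1,2,3,5,4],[0,1,2,3,4],[0,1,2,3,4,5]],Ref.mk 3900 1049 [0,1,2,3] [[0,1,2,3,4,5],[0,1,2,3,4,5],[0,1,2,3,4],[0,1,2,3,4,5]],Ref.mk 3766 1054 [0,1,2,3] [[0,1,2,3,4,5],[0,1,2,3,4,5],[0,1,2,3,4],[0,1,2,3,4,5]]],
Node.mk [0,820,182,1542,2448,27,976,3105,2216,2529,2939,1738,9,1020] [(0,0),(0,2),(1,2),(2,1),(2,3),(3,1)] [],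
Node.mk [0,820,182,1542,2448,27,976,3105,2216,2529,2939,1738,9,1588] [(0,0),(0,2),(0,4),(1,2),(2,1),(3,2)] [Ref.mk 1020 1056 [0,1,2,3] [[0,1,2,3,4,5],[0,1,2,3,4,5],[0,1,2,3,4],[0,1,2,3,4]]],
Node.mk [0,820,182,1542,2448,27,976,3105,2216,2529,2939,1738,9] [(0,1),(1,0),(1,1),(1,2),(1,3),(1,4)] [Ref.mk 45 1055 [0,1,2,3] [[0,1,2,3,4,5],[0,1,2,3,4,5],[0,1,2,3,4],[0,1,2,3,4]],Ref.mk 1020 1056 [0,1,2,3] [[0,1,2,3,4,5],[0,1,2,3,4,5],[0,1,2,3,4],[0,1,2,3,4]],Ref.mk 1588 1057 [0,1,2,3] [[0,1,2,3,4,5],[0,1,2,3,4,5],[0,1,2,3,4],[0,1,2,3,4]]],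
Node.mk [0,820,182,1542,2448,27,976,3105,2216,2529,2939,1738] [(0,3),(1,0),(1,2),(1,3),(2,1),(3,2)] [Ref.mk 9 1058 [0,1,2,3] [[0,1,2,3,4,5],[0,1,2,3,4],[0,1,2,3,4],[0,1,2,3,4]],Ref.mk 36 1046 [0,1,2,3] [[0,1,2,3,4,5],[0,1,2,3,4],[0,1,2,3,4],[0,1,2,3,4]],Ref.mk 45 1046 [0,1,2,3] [[0,1,2,3,4,5],[0,1,2,3,5],[0,1,2,3,4],[0,1,2,3,4]]],
Node.mk [0,820,182,1542,2448,27,976,3105,2216,2529,2939] [(0,3),(1,0),(1,1),(1,2),(1,3),(2,1)] [Ref.mk 36 1046 [0,1,2,3] [[0,1,2,3,4,5],[0,1,2,3,4],[0,1,2,3,4],[0,1,2,3,4]],Ref.mk 1738 1059 [0,1,2,3] [[0,1,2,3,4,5],[0,1,2,3,4],[0,1,2,3,4],[0,1,2,3,4]]],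
Node.mk [0,820,182,1542,2448,27,976,3105,2216,2529] [(0,0),(0,1),(0,2),(1,1),(2,1),(3,1)] [Ref.mk 2937 677 [0,1,2,3] [[0,1,2,3,4],[0,1,2,3],[0,1,2,3,4],[0,1,2,3,4]],Ref.mk 2938 906 [0,1,2,3] [[0,1,2,3,4],[0,1,2,3],[0,1,2,3,4],[0,1,2,3,4]],Ref.mk 2939 1060 [0,1,2,3] [[0,1,2,3,4,5],[0,1,2,3],[0,1,2,3,4],[0,1,2,3,4]]],
Node.mk [0,820,182,1542,2448,27,976,3105,2216,351,273,36,2358] [(0,0),(0,2),(0,3),(1,0),(2,1),(3,2)] [],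
Node.mk [0,820,182,1542,2448,27,976,3105,2216,351,273,36,2286] [(0,0),(0,1),(0,2),(0,3),(2,1),(2,3)] [],
Node.mk [0,820,182,1542,2448,27,976,3105,2216,351,273,36] [(0,4),(1,0),(1,3),(2,3),(3,0),(3,1)] [Ref.mk 2358 1062 [0,1,2,3] [[0,1,2,3,4],[0,1,2,3,4],[0,1,2,3,4],[0,1,2,3,4]],Ref.mk 2286 1063 [0,1,2,3] [[0,1,2,3,4],[0,1,2,3,4],[0,1,2,3,4],[0,1,2,3,4]]],
Node.mk [0,820,182,1542,2448,27,976,3105,2216,351,273,1738,1020] [(0,0),(0,1),(0,2),(0,3),(2,1),(2,3)] [],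
Node.mk [0,820,182,1542,2448,27,976,3105,2216,351,273,1738,1588] [(0,0),(0,1),(0,2),(0,4),(2,1),(2,3)] [],
Node.mk [0,820,182,1542,2448,27,976,3105,2216,351,273,1738] [(0,1),(1,0),(1,1),(1,2),(1,3),(1,4)] [Ref.mk 45 1064 [0,1,2,3] [[0,1,2,3,4],[0,1,2,3,5],[0,1,2,3,4],[0,1,2,3,4]],Ref.mk 1020 1065 [0,1,2,3] [[0,1,2,3,4],[0,1,2,3,4,5],[0,1,2,3,4],[0,1,2,3,4]],Ref.mk 1588 1066 [0,1,2,3] [[0,1,2,3,4],[0,1,2,3,4,5],[0,1,2,3,4],[0,1,2,3,4]]],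
Node.mk [0,820,182,1542,2448,27,976,3105,2216,351,273] [(0,3),(1,0),(1,1),(1,2),(1,3),(2,1)] [Ref.mk 36 1064 [0,1,2,3] [[0,1,2,3,4],[0,1,2,3,4],[0,1,2,3,4],[0,1,2,3,4]],Ref.mk 1738 1067 [0,1,2,3] [[0,1,2,3,4],[0,1,2,3,4],[0,1,2,3,4],[0,1,2,3,4]]],
Node.mk [0,820,182,1542,2448,27,976,3105,2216,351,274,2286,36,3171] [(0,0),(0,2),(0,3),(0,4),(2,1),(2,3)] [],
Node.mk [0,820,182,1542,2448,27,976,3105,2216,351,274,2286,36,3900] [(0,0),(0,2),(0,3),(0,4),(2,1),(2,3)] [],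
Node.mk [0,820,182,1542,2448,27,976,3105,2216,351,274,2286,36] [(0,0),(2,1),(3,0),(3,1),(3,2),(3,3)] [Ref.mk 3160 98 [3,1,2,0] [[0,1,3,2,4],[0,1,2,3],[0,1,3,2],[0,1,3,2]],Ref.mk 3889 98 [3,1,2,0] [[0,1,3,2,5],[0,1,2,3],[0,1,3,2],[0,1,3,2]],Ref.mk 3171 1069 [0,1,2,3] [[0,1,2,3,4],[0,1,2,3,4],[0,1,2,3,4],[0,1,2,3,4]],Ref.mk 3900 1070 [0,1,2,3] [[0,1,2,3,4],[0,1,2,3,4],[0,1,2,3,4],[0,1,2,3,4,5]]],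
Node.mk [0,820,182,1542,2448,27,976,3105,2216,351,274,2286] [(1,0),(1,1),(1,2),(1,3),(2,1),(2,3)] [Ref.mk 36 1071 [0,1,2,3] [[0,1,2,3,4],[0,1,2,3,4],[0,1,2,3,4],[0,1,2,3,4]]],
Node.mk [0,820,182,1542,2448,27,976,3105,2216,351,274] [(0,4),(1,0),(1,3),(2,3),(3,0),(3,1)] [Ref.mk 2286 1072 [0,1,2,3] [[0,1,2,3,4],[0,1,2,3],[0,1,2,3,4],[0,1,2,3,4]]],
Node.mk [0,820,182,1542,2448,27,976,3105,2216,351,275,2286] [(0,0),(0,1),(0,2),(2,1),(2,3),(3,1)] [],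
Node.mk [0,820,182,1542,2448,27,976,3105,2216,351,275] [(0,4),(1,0),(1,3),(2,3),(3,0),(3,1)] [Ref.mk 2286 1074 [0,1,2,3] [[0,1,2,3,4,5],[0,1,2,3],[0,1,2,3,4],[0,1,2,3,4]]],
Node.mk [0,820,182,1542,2448,27,976,3105,2216,351] [(0,0),(0,1),(0,2),(1,1),(2,1),(3,1)] [Ref.mk 273 1068 [0,1,2,3] [[0,1,2,3,4],[0,1,2,3],[0,1,2,3,4],[0,1,2,3,4]],Ref.mk 274 1073 [0,1,2,3] [[0,1,2,3,4],[0,1,2,3],[0,1,2,3,4],[0,1,2,3,4]],Ref.mk 275 1075 [0,1,2,3] [[0,1,2,3,4,5],[0,1,2,3],[0,1,2,3,4],[0,1,2,3,4]]],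
Node.mk [0,820,182,1542,2448,27,976,3105,2216,1795,1738,1544] [(0,0),(0,1),(0,4),(1,2),(1,3),(3,2)] [],
Node.mk [0,820,182,1542,2448,27,976,3105,2216,1795,1738,2939] [(2,0),(2,1),(2,2),(2,3),(2,4),(3,2)] [Ref.mk 2610 1059 [0,1,2,3] [[0,1,2,3,4,5],[0,1,2,3,4],[0,1,2,3,5],[0,1,2,3,4]]],
Node.mk [0,820,182,1542,2448,27,976,3105,2216,1795,1738] [(0,0),(0,1),(0,2),(0,3),(0,4),(2,3)] [Ref.mk 1544 1077 [0,1,2,3] [[0,1,2,3,4,5],[0,1,2,3,4],[0,1,2,3,4],[0,1,2,3,4]],Ref.mk 2939 1078 [0,1,2,3] [[0,1,2,3,4,5],[0,1,2,3,4],[0,1,2,3,4],[0,1,2,3,4]]],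
Node.mk [0,820,182,1542,2448,27,976,3105,2216,1795,1092,2939] [(2,0),(2,1),(2,2),(2,3),(2,4),(3,1)] [Ref.mk 2610 1060 [0,1,2,3] [[0,1,2,3,4,5],[0,1,2,3],[0,1,2,3,5],[0,1,2,3,4]]],
Node.mk [0,820,182,1542,2448,27,976,3105,2216,1795,1092,275] [(0,0),(0,2),(0,4),(1,0),(2,3),(3,1)] [Ref.mk 2939 1080 [0,1,2,3] [[0,1,2,3,4,5],[0,1,2,3,4],[0,1,2,3,4],[0,1,2,3,4]]],
Node.mk [0,820,182,1542,2448,27,976,3105,2216,1795,1092] [(0,0),(0,1),(0,2),(0,3),(0,4),(3,1)] [Ref.mk 2939 1080 [0,1,2,3] [[0,1,2,3,4,5],[0,1,2,3,4],[0,1,2,3,4],[0,1,2,3,4]],Ref.mk 275 1081 [0,1,2,3] [[0,1,2,3,4,5],[0,1,2,3,4],[0,1,2,3,4],[0,1,2,3,4]]],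
Node.mk [0,820,182,1542,2448,27,976,3105,2216,1795] [(0,0),(0,4),(1,0),(1,1),(1,2),(1,3)] [Ref.mk 1738 1079 [0,1,2,3] [[0,1,2,3,4],[0,1,2,3,4],[0,1,2,3,4],[0,1,2,3,4]],Ref.mk 1092 1082 [0,1,2,3] [[0,1,2,3,4],[0,1,2,3,4],[0,1,2,3,4],[0,1,2,3,4]]],
Node.mk [0,820,182,1542,2448,27,976,3105,2216] [(0,1),(2,0),(2,1),(2,2),(2,3),(3,1)] [Ref.mk 2529 1061 [0,1,2,3] [[0,1,2,3,4],[0,1,2,3],[0,1,2,3,4],[0,1,2,3,4]],Ref.mk 351 1076 [0,1,2,3] [[0,1,2,3,4],[0,1,2,3],[0,1,2,3,4],[0,1,2,3,4]],Ref.mk 1795 1083 [0,1,2,3] [[0,1,2,3,4],[0,1,2,3],[0,1,2,3,4],[0,1,2,3,4]]],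
Node.mk [0,820,182,1542,2448,27,976,3105,174,2937,273] [(0,4),(1,0),(2,3),(3,0),(3,1),(3,4)] [],
Node.mk [0,820,182,1542,2448,27,976,3105,174,2937] [(0,0),(0,1),(1,1),(1,2),(2,1),(3,1)] [Ref.mk 273 1085 [0,1,2,3] [[0,1,2,3,4],[0,1,2,3],[0,1,2,3],[0,1,2,3,4]]],
Node.mk [0,820,182,1542,2448,27,976,3105,174] [(0,4),(1,0),(2,2),(2,3),(3,0),(3,1)] [Ref.mk 2937 1086 [0,1,2,3] [[0,1,2,3,4],[0,1,2,3],[0,1,2,3],[0,1,2,3,4]]]]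

/-- nodes -/
noncomputable def c17 : List Node := [
Node.mk [0,820,182,1542,2448,27,976,3105,1471,1783] [(0,0),(1,0),(1,1),(1,2),(1,3),(3,2)] [],
Node.mk [0,820,182,1542,2448,27,976,3105,1471,1065] [(0,0),(0,3),(1,1),(1,2),(1,3),(3,1)] [Ref.mk 1783 1088 [0,1,2,3] [[0,3,2,1,4],[0,1,2,3],[0,4,2,3,1],[0,1,2,3,4]]],
Node.mk [0,820,182,1542,2448,27,976,3105,1471] [(0,0),(0,4),(2,0),(2,1),(2,2),(2,3)] [Ref.mk 1783 1088 [0,1,2,3] [[0,1,2,3,4],[0,1,2,3],[0,1,2,3,4],[0,1,2,3,4]],Ref.mk 1065 1089 [0,1,2,3] [[0,1,2,3,4],[0,1,2,3],[0,1,2,3,4],[0,1,2,3,4]]],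
Node.mk [0,820,182,1542,2448,27,976,3105,1633,1783] [(0,0),(1,0),(1,1),(1,2),(1,3),(3,2)] [],
Node.mk [0,820,182,1542,2448,27,976,3105,1633,1065] [(0,0),(0,3),(1,1),(1,2),(1,3),(3,1)] [Ref.mk 1783 1091 [0,1,2,3] [[0,3,2,1,4],[0,1,2,3],[0,4,2,3,1],[0,1,2,3,4]]],
Node.mk [0,820,182,1542,2448,27,976,3105,1633] [(0,0),(0,4),(2,0),(2,1),(2,2),(2,3)] [Ref.mk 1783 1091 [0,1,2,3] [[0,1,2,3,4],[0,1,2,3],[0,1,2,3,4],[0,1,2,3,4]],Ref.mk 1065 1092 [0,1,2,3] [[0,1,2,3,4],[0,1,2,3],[0,1,2,3,4],[0,1,2,3,4]]],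
Node.mk [0,820,182,1542,2448,27,976,3105,1795,1648] [(0,0),(0,1),(0,3),(0,4),(3,0),(3,2)] [Ref.mk 2216 1083 [0,1,2,3] [[0,1,2,3,4],[0,1,2,3],[0,1,2,3,4],[0,1,2,3,4]]],
Node.mk [0,820,182,1542,2448,27,976,3105,1795,1568] [(0,0),(0,2),(0,4),(1,0),(2,3),(3,1)] [Ref.mk 1648 1094 [0,1,2,3] [[0,1,2,3,4],[0,1,2,3],[0,1,2,3,4],[0,1,2,3,4]]],
Node.mk [0,820,182,1542,2448,27,976,3105,1795] [(0,0),(0,4),(1,0),(1,2),(2,3),(3,1)] [Ref.mk 1648 1094 [0,1,2,3] [[0,1,2,3,4],[0,1,2,3],[0,1,2,3,4],[0,1,2,3,4]],Ref.mk 2216 1083 [0,1,2,3] [[0,1,2,3,4],[0,1,2,3],[0,1,2,3,4],[0,1,2,3,4]],Ref.mk 1568 1095 [0,1,2,3] [[0,1,2,3,4],[0,1,2,3],[0,1,2,3,4],[0,1,2,3,4]],Ref.mk 174 1087 [0,1,2,3] [[0,1,2,3,4],[0,1,2,3],[0,1,2,3],[0,1,2,3,4]]],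
Node.mk [0,820,182,1542,2448,27,976,3105] [(0,0),(0,1),(1,2),(2,1),(2,3),(3,1)] [Ref.mk 2216 1084 [0,1,2,3] [[0,1,2,3,4],[0,1,2,3],[0,1,2,3],[0,1,2,3,4]],Ref.mk 174 1087 [0,1,2,3] [[0,1,2,3,4],[0,1,2,3],[0,1,2,3],[0,1,2,3,4]],Ref.mk 1471 1090 [0,1,2,3] [[0,1,2,3,4],[0,1,2,3],[0,1,2,3],[0,1,2,3,4]],Ref.mk 1633 1093 [0,1,2,3] [[0,1,2,3,4],[0,1,2,3],[0,1,2,3],[0,1,2,3,4]],Ref.mk 1795 1096 [0,1,2,3] [[0,1,2,3,4],[0,1,2,3],[0,1,2,3,4],[0,1,2,3,4]]],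
Node.mk [0,820,182,1542,2448,27,976,3114,2225,2529,2937,2935,977] [(0,0),(0,2),(1,0),(1,2),(2,3),(3,1)] [],
Node.mk [0,820,182,1542,2448,27,976,3114,2225,2529,2937,2935,1058] [(0,0),(0,2),(1,0),(1,1),(1,2),(3,1)] [],
Node.mk [0,820,182,1542,2448,27,976,3114,2225,2529,2937,2935,1139] [(0,0),(0,2),(1,0),(1,1),(1,2),(3,1)] [],
Node.mk [0,820,182,1542,2448,27,976,3114,2225,2529,2937,2935,1715,1783] [(0,0),(0,2),(1,0),(1,1),(1,2),(3,2)] [],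
Node.mk [0,820,182,1542,2448,27,976,3114,2225,2529,2937,2935,1715,1864] [(0,0),(0,2),(1,0),(1,1),(1,2),(3,2)] [],
Node.mk [0,820,182,1542,2448,27,976,3114,2225,2529,2937,2935,1715] [(0,0),(1,1),(2,0),(2,1),(2,2),(2,3)] [Ref.mk 1783 1101 [0,1,2,3] [[0,1,2,3,4,5],[0,1,2,3,4],[0,1,2,3,4],[0,1,2,3,4]],Ref.mk 1864 1102 [0,1,2,3] [[0,1,2,3,4,5],[0,1,2,3,4],[0,1,2,3,4,5],[0,1,2,3,4]],Ref.mk 1058 1099 [0,1,2,3] [[0,1,2,3,4,5],[0,1,2,3,4],[0,1,2,3,4],[0,1,2,3,4]],Ref.mk 1139 1100 [0,1,2,3] [[0,1,2,3,4,5],[0,1,2,3,4],[0,1,2,3,4,5],[0,1,2,3,4]]],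
Node.mk [0,820,182,1542,2448,27,976,3114,2225,2529,2937,2935,2939,3663,45,2610,255] [(0,0),(0,3),(1,1),(2,0),(2,3),(3,0)] [],
Node.mk [0,820,182,1542,2448,27,976,3114,2225,2529,2937,2935,2939,3663,45,2610,1713,1545] [(0,0),(0,2),(1,0),(1,2),(2,1),(3,2)] [],
Node.mk [0,820,182,1542,2448,27,976,3114,2225,2529,2937,2935,2939,3663,45,2610,1713,825] [(0,0),(0,2),(1,1),(1,2),(2,1),(3,1)] [],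
Node.mk [0,820,182,1542,2448,27,976,3114,2225,2529,2937,2935,2939,3663,45,2610,1713,2940] [(0,0),(0,1),(0,2),(0,3),(0,4),(1,2)] [Ref.mk 1544 1105 [0,1,2,3] [[0,1,2,3,4,6,5],[0,1,2,3,4,5],[0,1,2,3,4,5],[0,1,2,3,4,5]],Ref.mk 977 1098 [0,1,2,3] [[0,1,2,3,4,5],[0,1,2,3,4],[0,1,2,3,4],[0,1,2,3,4]],Ref.mk 824 1106 [0,1,2,3] [[0,5,2,3,4,6,1],[0,1,2,3,4,5],[0,1,2,3,4,5],[0,1,2,3,4,5]],Ref.mk 1715 1105 [0,2,1,3] [[0,1,2,3,4,6,5],[3,1,0,4,2,5],[2,1,4,0,3,5],[3,1,2,0,4,5]],Ref.mk 1545 1105 [0,1,2,3] [[0,1,2,3,4,5,6],[0,1,2,3,4,5],[0,1,2,3,4,5],[0,1,2,3,4,5]],Ref.mk 978 1098 [0,1,2,3] [[0,1,2,3,4,6],[0,1,2,3,4],[0,1,2,3,4],[0,1,2,3,4]],Ref.mk 825 1106 [0,1,2,3] [[0,6,2,3,4,5,1],[0,1,2,3,4,5],[0,1,2,3,4,5],[0,1,2,3,4,5]],Ref.mk 1716 1105 [0,2,1,3]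 [[0,1,2,3,4,5,6],[3,1,0,4,2,5],[2,1,4,0,3,5],[3,1,2,0,4,5]],Ref.mk 1546 1105 [0,1,2,3] [[0,1,2,3,4,6,7],[0,1,2,3,4,5],[0,1,2,3,4,5],[0,1,2,3,4,5]],Ref.mk 979 1098 [0,1,2,3] [[0,1,2,3,4,7],[0,1,2,3,4],[0,1,2,3,4],[0,1,2,3,4]],Ref.mk 826 1106 [0,1,2,3] [[0,1,2,3,4,6,7],[0,1,2,3,4,5],[0,1,2,3,4,5],[0,1,2,3,4,5]],Ref.mk 1717 1105 [0,2,1,3] [[0,1,2,3,4,6,7],[3,1,0,4,2,5],[2,1,4,0,3,5],[3,1,2,0,4,5]]],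
Node.mk [0,820,182,1542,2448,27,976,3114,2225,2529,2937,2935,2939,3663,45,2610,1713] [(0,0),(0,1),(0,2),(0,3),(0,4),(0,5)] [Ref.mk 1545 1105 [0,1,2,3] [[0,1,2,3,4,5,6],[0,1,2,3,4,5],[0,1,2,3,4,5],[0,1,2,3,4,5]],Ref.mk 978 1098 [0,1,2,3] [[0,1,2,3,4,6],[0,1,2,3,4],[0,1,2,3,4],[0,1,2,3,4]],Ref.mk 825 1106 [0,1,2,3] [[0,1,2,3,4,5,6],[0,1,2,3,4,5],[0,1,2,3,4,5],[0,1,2,3,4,5]],Ref.mk 1716 1105 [0,2,1,3] [[0,1,2,3,4,5,6],[3,1,0,4,2,5],[2,1,4,0,3,5],[3,1,2,0,4,5]],Ref.mk 2940 1107 [0,1,2,3] [[0,1,2,3,4,5,6],[0,1,2,3,4,5],[0,1,2,3,4,5],[0,1,2,3,4,5]]],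
Node.mk [0,820,182,1542,2448,27,976,3114,2225,2529,2937,2935,2939,3663,45,2610,2442] [(0,0),(0,3),(1,1),(1,2),(2,3),(3,3)] [],
Node.mk [0,820,182,1542,2448,27,976,3114,2225,2529,2937,2935,2939,3663,45,2610,3171] [(0,0),(0,2),(0,3),(1,1),(2,3),(3,4)] [],
Node.mk [0,820,182,1542,2448,27,976,3114,2225,2529,2937,2935,2939,3663,45,2610,3900,3732] [(0,0),(0,2),(0,3),(1,0),(1,2),(2,1)] [Ref.mk 1716 1103 [0,1,2,3] [[0,1,2,3,4,6],[0,1,2,3,4],[0,1,2,3,4],[0,1,2,3,4]]],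
Node.mk [0,820,182,1542,2448,27,976,3114,2225,2529,2937,2935,2939,3663,45,2610,3900,825] [(0,0),(0,2),(1,1),(1,2),(2,1),(3,1)] [],
Node.mk [0,820,182,1542,2448,27,976,3114,2225,2529,2937,2935,2939,3663,45,2610,3900,2940] [(0,0),(0,1),(0,2),(0,3),(0,4),(1,2)] [Ref.mk 3731 1111 [0,1,2,3] [[0,1,2,3,4,6,5],[0,1,2,3,4,5],[0,1,2,3,4,5],[0,1,2,3,4,5]],Ref.mk 977 1098 [0,1,2,3] [[0,1,2,3,4,5],[0,1,2,3,4],[0,1,2,3,4],[0,1,2,3,4]],Ref.mk 824 1112 [0,1,2,3] [[0,5,2,3,4,6,1],[0,1,2,3,4,5],[0,1,2,3,4,5],[0,1,2,3,4,5]],Ref.mk 1715 1103 [0,1,2,3] [[0,1,2,3,4,5],[0,1,2,3,4],[0,1,2,3,4],[0,1,2,3,4]],Ref.mk 3732 1111 [0,1,2,3] [[0,1,2,3,4,5,6],[0,1,2,3,4,5],[0,1,2,3,4,5],[0,1,2,3,4,5]],Ref.mk 978 1098 [0,1,2,3] [[0,1,2,3,4,6],[0,1,2,3,4],[0,1,2,3,4],[0,1,2,3,4]],Ref.mk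 825 1112 [0,1,2,3] [[0,6,2,3,4,5,1],[0,1,2,3,4,5],[0,1,2,3,4,5],[0,1,2,3,4,5]],Ref.mk 1716 1103 [0,1,2,3] [[0,1,2,3,4,6],[0,1,2,3,4],[0,1,2,3,4],[0,1,2,3,4]],Ref.mk 3733 1111 [0,1,2,3] [[0,1,2,3,4,6,7],[0,1,2,3,4,5],[0,1,2,3,4,5],[0,1,2,3,4,5]],Ref.mk 979 1098 [0,1,2,3] [[0,1,2,3,4,7],[0,1,2,3,4],[0,1,2,3,4],[0,1,2,3,4]],Ref.mk 826 1112 [0,1,2,3] [[0,1,2,3,4,6,7],[0,1,2,3,4,5],[0,1,2,3,4,5],[0,1,2,3,4,5]],Ref.mk 1717 1103 [0,1,2,3] [[0,1,2,3,4,7],[0,1,2,3,4],[0,1,2,3,4],[0,1,2,3,4]]],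
Node.mk [0,820,182,1542,2448,27,976,3114,2225,2529,2937,2935,2939,3663,45,2610,3900] [(0,0),(0,1),(0,2),(0,3),(0,4),(0,5)] [Ref.mk 3732 1111 [0,1,2,3] [[0,1,2,3,4,5,6],[0,1,2,3,4,5],[0,1,2,3,4,5],[0,1,2,3,4,5]],Ref.mk 978 1098 [0,1,2,3] [[0,1,2,3,4,6],[0,1,2,3,4],[0,1,2,3,4],[0,1,2,3,4]],Ref.mk 825 1112 [0,1,2,3] [[0,1,2,3,4,5,6],[0,1,2,3,4,5],[0,1,2,3,4,5],[0,1,2,3,4,5]],Ref.mk 1716 1103 [0,1,2,3] [[0,1,2,3,4,6],[0,1,2,3,4],[0,1,2,3,4],[0,1,2,3,4]],Ref.mk 2940 1113 [0,1,2,3] [[0,1,2,3,4,5,6],[0,1,2,3,4,5],[0,1,2,3,4,5],[0,1,2,3,4,5]]],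
Node.mk [0,820,182,1542,2448,27,976,3114,2225,2529,2937,2935,2939,3663,45,2610,4629,4461] [(0,0),(0,2),(0,3),(1,0),(1,2),(2,1)] [Ref.mk 1716 1103 [0,1,2,3] [[0,1,2,3,4,6],[0,1,2,3,4],[0,1,2,3,4],[0,1,2,3,4]]],
Node.mk [0,820,182,1542,2448,27,976,3114,2225,2529,2937,2935,2939,3663,45,2610,4629,825] [(0,0),(0,2),(1,1),(1,2),(2,1),(3,1)] [],
Node.mk [0,820,182,1542,2448,27,976,3114,2225,2529,2937,2935,2939,3663,45,2610,4629,2940] [(0,0),(0,1),(0,2),(0,3),(0,4),(1,2)] [Ref.mk 4460 1115 [0,1,2,3] [[0,1,2,3,4,6,5],[0,1,2,3,4,5],[0,1,2,3,4,5],[0,1,2,3,4,5,6]],Ref.mk 977 1098 [0,1,2,3] [[0,1,2,3,4,5],[0,1,2,3,4],[0,1,2,3,4],[0,1,2,3,4]],Ref.mk 824 1116 [0,1,2,3] [[0,5,2,3,4,6,1],[0,1,2,3,4,5],[0,1,2,3,4,5],[0,1,2,3,4,5,6]],Ref.mk 1715 1115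 [0,2,1,3] [[0,1,2,3,4,6,5],[3,1,0,4,2,5],[2,1,4,0,3,5],[3,1,6,0,4,5,2]],Ref.mk 4461 1115 [0,1,2,3] [[0,1,2,3,4,5,6],[0,1,2,3,4,5],[0,1,2,3,4,5],[0,1,2,3,4,5,6]],Ref.mk 978 1098 [0,1,2,3] [[0,1,2,3,4,6],[0,1,2,3,4],[0,1,2,3,4],[0,1,2,3,4]],Ref.mk 825 1116 [0,1,2,3] [[0,6,2,3,4,5,1],[0,1,2,3,4,5],[0,1,2,3,4,5],[0,1,2,3,4,5,6]],Ref.mk 1716 1115 [0,2,1,3] [[0,1,2,3,4,5,6],[3,1,0,4,2,5],[2,1,4,0,3,5],[3,1,6,0,4,5,2]],Ref.mk 4462 1115 [0,1,2,3] [[0,1,2,3,4,6,7],[0,1,2,3,4,5],[0,1,2,3,4,5],[0,1,2,3,4,5,6]],Ref.mk 979 1098 [0,1,2,3] [[0,1,2,3,4,7],[0,1,2,3,4],[0,1,2,3,4],[0,1,2,3,4]],Ref.mk 826 1116 [0,1,2,3] [[0,1,2,3,4,6,7],[0,1,2,3,4,5],[0,1,2,3,4,5],[0,1,2,3,4,5,6]],Ref.mk 1717 1115 [0,2,1,3] [[0,1,2,3,4,6,7],[3,1,0,4,2,5],[2,1,4,0,3,5],[3,1,6,0,4,5,2]]],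
Node.mk [0,820,182,1542,2448,27,976,3114,2225,2529,2937,2935,2939,3663,45,2610,4629] [(0,0),(0,1),(0,2),(0,3),(0,4),(0,5)] [Ref.mk 4461 1115 [0,1,2,3] [[0,1,2,3,4,5,6],[0,1,2,3,4,5],[0,1,2,3,4,5],[0,1,2,3,4,5,6]],Ref.mk 978 1098 [0,1,2,3] [[0,1,2,3,4,6],[0,1,2,3,4],[0,1,2,3,4],[0,1,2,3,4]],Ref.mk 825 1116 [0,1,2,3] [[0,1,2,3,4,5,6],[0,1,2,3,4,5],[0,1,2,3,4,5],[0,1,2,3,4,5,6]],Ref.mk 1716 1115 [0,2,1,3] [[0,1,2,3,4,5,6],[3,1,0,4,2,5],[2,1,4,0,3,5],[3,1,6,0,4,5,2]],Ref.mk 2940 1117 [0,1,2,3] [[0,1,2,3,4,5,6],[0,1,2,3,4,5],[0,1,2,3,4,5],[0,1,2,3,4,5,6]]],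
Node.mk [0,820,182,1542,2448,27,976,3114,2225,2529,2937,2935,2939,3663,45,2610,1633] [(0,0),(0,4),(1,1),(2,0),(2,2),(3,2)] [],
Node.mk [0,820,182,1542,2448,27,976,3114,2225,2529,2937,2935,2939,3663,45,2610,1714,244] [(0,0),(0,1),(1,0),(2,0),(2,3),(3,0)] [],
Node.mk [0,820,182,1542,2448,27,976,3114,2225,2529,2937,2935,2939,3663,45,2610,1714] [(0,0),(1,2),(2,1),(3,1),(3,2),(3,3)] [Ref.mk 244 1120 [0,1,2,3] [[0,1,2,3,4,5],[0,1,2,3,4,5],[0,1,2,3,4,5],[0,1,2,3,4,5]],Ref.mk 3160 98 [3,1,2,0] [[0,1,3,2,4],[0,1,2,3],[0,1,3,2],[0,1,3,2]],Ref.mk 3889 98 [3,1,2,0] [[0,1,3,2,5],[0,1,2,3],[0,1,3,2],[0,1,3,2]],Ref.mk 4618 98 [3,1,2,0] [[0,1,3,2,6],[0,1,2,3],[0,1,3,2],[0,1,3,2]],Ref.mk 255 1104 [0,1,2,3] [[0,1,2,3,4,5],[0,1,2,3,4,5],[0,1,2,3,4,5],[0,1,2,3,4,5]],Ref.mk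 3171 1110 [0,1,2,3] [[0,1,2,3,4,5],[0,1,2,3,4,5],[0,1,2,3,4,5],[0,1,2,3,4,5]],Ref.mk 3900 1114 [0,1,2,3] [[0,1,2,3,4,5],[0,1,2,3,4,5],[0,1,2,3,4,5],[0,1,2,3,4,5]],Ref.mk 4629 1118 [0,1,2,3] [[0,1,2,3,4,5],[0,1,2,3,4,5],[0,1,2,3,4,5],[0,1,2,3,4,5,6]]],
Node.mk [0,820,182,1542,2448,27,976,3114,2225,2529,2937,2935,2939,3663,45,2610,1795,1545] [(0,0),(0,2),(1,0),(1,2),(2,1),(3,2)] [],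
Node.mk [0,820,182,1542,2448,27,976,3114,2225,2529,2937,2935,2939,3663,45,2610,1795,825] [(0,0),(0,2),(1,1),(1,2),(2,1),(3,1)] [],
Node.mk [0,820,182,1542,2448,27,976,3114,2225,2529,2937,2935,2939,3663,45,2610,1795,2940] [(0,0),(0,1),(0,2),(0,3),(0,4),(1,2)] [Ref.mk 1544 1122 [0,1,2,3] [[0,1,2,5,4,6,3],[0,1,2,3,4,5],[0,1,2,3,4,5],[0,1,2,3,4,5]],Ref.mk 1058 1099 [0,1,2,3] [[0,1,2,3,4,5],[0,1,2,3,4],[0,1,2,3,4],[0,1,2,3,4]],Ref.mk 824 1123 [0,1,2,3] [[0,5,2,3,4,6,1],[0,1,2,3,4,5],[0,1,2,3,4,5],[0,1,2,3,4,5]],Ref.mk 1715 1103 [0,1,2,3] [[0,1,2,3,4,5],[0,1,2,3,4],[0,1,2,3,4],[0,1,2,3,4]],Ref.mk 1545 1122 [0,1,2,3] [[0,1,2,6,4,5,3],[0,1,2,3,4,5],[0,1,2,3,4,5],[0,1,2,3,4,5]],Ref.mk 1059 1099 [0,1,2,3] [[0,1,2,3,4,6],[0,1,2,3,4],[0,1,2,3,4],[0,1,2,3,4]],Ref.mk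 825 1123 [0,1,2,3] [[0,6,2,3,4,5,1],[0,1,2,3,4,5],[0,1,2,3,4,5],[0,1,2,3,4,5]],Ref.mk 1716 1103 [0,1,2,3] [[0,1,2,3,4,6],[0,1,2,3,4],[0,1,2,3,4],[0,1,2,3,4]],Ref.mk 1546 1122 [0,1,2,3] [[0,1,2,3,4,6,7],[0,1,2,3,4,5],[0,1,2,3,4,5],[0,1,2,3,4,5]],Ref.mk 1060 1099 [0,1,2,3] [[0,1,2,3,4,7],[0,1,2,3,4],[0,1,2,3,4],[0,1,2,3,4]],Ref.mk 826 1123 [0,1,2,3] [[0,1,2,3,4,6,7],[0,1,2,3,4,5],[0,1,2,3,4,5],[0,1,2,3,4,5]],Ref.mk 1717 1103 [0,1,2,3] [[0,1,2,3,4,7],[0,1,2,3,4],[0,1,2,3,4],[0,1,2,3,4]]],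
Node.mk [0,820,182,1542,2448,27,976,3114,2225,2529,2937,2935,2939,3663,45,2610,1795] [(0,0),(0,1),(0,2),(0,3),(0,4),(0,5)] [Ref.mk 1545 1122 [0,1,2,3] [[0,1,2,3,4,5,6],[0,1,2,3,4,5],[0,1,2,3,4,5],[0,1,2,3,4,5]],Ref.mk 1059 1099 [0,1,2,3] [[0,1,2,3,4,6],[0,1,2,3,4],[0,1,2,3,4],[0,1,2,3,4]],Ref.mk 825 1123 [0,1,2,3] [[0,1,2,3,4,5,6],[0,1,2,3,4,5],[0,1,2,3,4,5],[0,1,2,3,4,5]],Ref.mk 1716 1103 [0,1,2,3] [[0,1,2,3,4,6],[0,1,2,3,4],[0,1,2,3,4],[0,1,2,3,4]],Ref.mk 2940 1124 [0,1,2,3] [[0,1,2,3,4,5,6],[0,1,2,3,4,5],[0,1,2,3,4,5],[0,1,2,3,4,5]]],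
Node.mk [0,820,182,1542,2448,27,976,3114,2225,2529,2937,2935,2939,3663,45,2610,1957,1545] [(0,0),(0,2),(1,0),(1,2),(2,1),(3,2)] [],
Node.mk [0,820,182,1542,2448,27,976,3114,2225,2529,2937,2935,2939,3663,45,2610,1957,825] [(0,0),(0,2),(1,1),(1,2),(2,1),(3,1)] [],
Node.mk [0,820,182,1542,2448,27,976,3114,2225,2529,2937,2935,2939,3663,45,2610,1957,2940] [(0,0),(0,1),(0,2),(0,3),(0,4),(1,2)] [Ref.mk 1544 1126 [0,1,2,3] [[0,1,2,5,4,6,3],[0,1,2,3,4,5],[0,1,2,3,4,5,6],[0,1,2,3,4,5]],Ref.mk 1220 1100 [0,1,2,3] [[0,1,2,3,4,5],[0,1,2,3,4],[0,1,2,3,4,6],[0,1,2,3,4]],Ref.mk 824 1127 [0,1,2,3] [[0,5,2,3,4,6,1],[0,1,2,3,4,5],[0,1,2,3,4,5,6],[0,1,2,3,4,5]],Ref.mk 1715 1103 [0,1,2,3] [[0,1,2,3,4,5],[0,1,2,3,4],[0,1,2,3,4],[0,1,2,3,4]],Ref.mk 1545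 1126 [0,1,2,3] [[0,1,2,6,4,5,3],[0,1,2,3,4,5],[0,1,2,3,4,5,6],[0,1,2,3,4,5]],Ref.mk 1221 1100 [0,1,2,3] [[0,1,2,3,4,6],[0,1,2,3,4],[0,1,2,3,4,6],[0,1,2,3,4]],Ref.mk 825 1127 [0,1,2,3] [[0,6,2,3,4,5,1],[0,1,2,3,4,5],[0,1,2,3,4,5,6],[0,1,2,3,4,5]],Ref.mk 1716 1103 [0,1,2,3] [[0,1,2,3,4,6],[0,1,2,3,4],[0,1,2,3,4],[0,1,2,3,4]],Ref.mk 1546 1126 [0,1,2,3] [[0,1,2,3,4,6,7],[0,1,2,3,4,5],[0,1,2,3,4,5,6],[0,1,2,3,4,5]],Ref.mk 1222 1100 [0,1,2,3] [[0,1,2,3,4,7],[0,1,2,3,4],[0,1,2,3,4,6],[0,1,2,3,4]],Ref.mk 826 1127 [0,1,2,3] [[0,1,2,3,4,6,7],[0,1,2,3,4,5],[0,1,2,3,4,5,6],[0,1,2,3,4,5]],Ref.mk 1717 1103 [0,1,2,3] [[0,1,2,3,4,7],[0,1,2,3,4],[0,1,2,3,4],[0,1,2,3,4]]],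
Node.mk [0,820,182,1542,2448,27,976,3114,2225,2529,2937,2935,2939,3663,45,2610,1957] [(0,0),(0,1),(0,2),(0,3),(0,4),(0,5)] [Ref.mk 1545 1126 [0,1,2,3] [[0,1,2,3,4,5,6],[0,1,2,3,4,5],[0,1,2,3,4,5,6],[0,1,2,3,4,5]],Ref.mk 1221 1100 [0,1,2,3] [[0,1,2,3,4,6],[0,1,2,3,4],[0,1,2,3,4,6],[0,1,2,3,4]],Ref.mk 825 1127 [0,1,2,3] [[0,1,2,3,4,5,6],[0,1,2,3,4,5],[0,1,2,3,4,5,6],[0,1,2,3,4,5]],Ref.mk 1716 1103 [0,1,2,3] [[0,1,2,3,4,6],[0,1,2,3,4],[0,1,2,3,4],[0,1,2,3,4]],Ref.mk 2940 1128 [0,1,2,3] [[0,1,2,3,4,5,6],[0,1,2,3,4,5],[0,1,2,3,4,5,6],[0,1,2,3,4,5]]],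
Node.mk [0,820,182,1542,2448,27,976,3114,2225,2529,2937,2935,2939,3663,45,2610] [(0,0),(0,1),(0,2),(2,0),(2,1),(3,1)] [Ref.mk 255 1104 [0,1,2,3] [[0,1,2,3,4,5],[0,1,2,3,4,5],[0,1,2,3,4,5],[0,1,2,3,4,5]],Ref.mk 1713 1108 [0,1,2,3] [[0,1,2,3,4,5],[0,1,2,3,4,5],[0,1,2,3,4,5],[0,1,2,3,4,5]],Ref.mk 2442 1109 [0,1,2,3] [[0,1,2,3,4,5],[0,1,2,3,4,5],[0,1,2,3,4,5],[0,1,2,3,4,5]],Ref.mk 3171 1110 [0,1,2,3] [[0,1,2,3,4,5],[0,1,2,3,4,5],[0,1,2,3,4,5],[0,1,2,3,4,5]],Ref.mk 3900 1114 [0,1,2,3] [[0,1,2,3,4,5],[0,1,2,3,4,5],[0,1,2,3,4,5],[0,1,2,3,4,5]],Ref.mk 4629 1118 [0,1,2,3] [[0,1,2,3,4,5],[0,1,2,3,4,5],[0,1,2,3,4,5],[0,1,2,3,4,5,6]],Ref.mk 1633 1119 [0,1,2,3] [[0,1,2,3,4,5],[0,1,2,3,4,5],[0,1,2,3,4,5],[0,1,2,3,4,5]],Ref.mk 1714 1121 [0,1,2,3]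 [[0,1,2,3,4,5],[0,1,2,3,4,5],[0,1,2,3,4,5],[0,1,2,3,4,5]],Ref.mk 1795 1125 [0,1,2,3] [[0,1,2,3,4,5],[0,1,2,3,4,5],[0,1,2,3,4,5],[0,1,2,3,4,5]],Ref.mk 1876 1125 [0,1,2,3] [[0,1,2,3,4,5],[0,1,2,3,4,5],[0,1,2,3,5,4],[0,1,2,3,4,5]],Ref.mk 1957 1129 [0,1,2,3] [[0,1,2,3,4,5],[0,1,2,3,4,5],[0,1,2,3,4,5,6],[0,1,2,3,4,5]],Ref.mk 1715 1103 [0,1,2,3] [[0,1,2,3,4,5],[0,1,2,3,4],[0,1,2,3,4],[0,1,2,3,4]],Ref.mk 1716 1103 [0,1,2,3] [[0,1,2,3,4,6],[0,1,2,3,4],[0,1,2,3,4],[0,1,2,3,4]]],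
Node.mk [0,820,182,1542,2448,27,976,3114,2225,2529,2937,2935,2939,3663,45,1146] [(0,0),(0,2),(1,0),(1,1),(1,2),(3,1)] [],
Node.mk [0,820,182,1542,2448,27,976,3114,2225,2529,2937,2935,2939,3663,45,1155] [(0,0),(0,3),(1,2),(1,4),(2,5),(3,1)] [Ref.mk 2917 26 [3,1,2,0] [[0,1,3,2,4],[0,1,2,3],[0,1,3,2],[0,1,3,2]]],
Node.mk [0,820,182,1542,2448,27,976,3114,2225,2529,2937,2935,2939,3663,45,1164,1729,2940,1216] [(0,0),(0,1),(0,2),(0,3),(1,2),(3,1)] [],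
Node.mk [0,820,182,1542,2448,27,976,3114,2225,2529,2937,2935,2939,3663,45,1164,1729,2940,1245] [(0,0),(0,2),(0,3),(1,2),(1,3),(3,1)] [],
Node.mk [0,820,182,1542,2448,27,976,3114,2225,2529,2937,2935,2939,3663,45,1164,1729,2940] [(2,0),(2,1),(2,2),(2,3),(2,4),(2,5)] [Ref.mk 2691 1130 [0,1,2,3] [[0,1,2,3,4,5],[0,1,2,3,4,5],[0,1,2,3,4,6],[0,1,2,3,4,5]],Ref.mk 1216 1133 [0,1,2,3] [[0,1,2,3,4,5,6],[0,1,2,3,4,5],[0,1,2,3,4,5,6],[0,1,2,3,4,5]],Ref.mk 1245 1134 [0,1,2,3] [[0,1,2,3,4,5,6],[0,1,2,3,4,5],[0,1,2,3,4,5,6],[0,1,2,3,4,5]]],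
Node.mk [0,820,182,1542,2448,27,976,3114,2225,2529,2937,2935,2939,3663,45,1164,1729,843] [(0,0),(0,1),(0,2),(1,2),(2,1),(3,1)] [],
Node.mk [0,820,182,1542,2448,27,976,3114,2225,2529,2937,2935,2939,3663,45,1164,1729] [(0,0),(0,1),(0,2),(0,3),(0,4),(0,5)] [Ref.mk 978 1098 [0,1,2,3] [[0,1,2,3,4,6],[0,1,2,3,4],[0,1,2,3,4],[0,1,2,3,4]],Ref.mk 2940 1135 [0,1,2,3] [[0,1,2,3,4,5,6],[0,1,2,3,4,5],[0,1,2,3,4,5],[0,1,2,3,4,5]],Ref.mk 843 1136 [0,1,2,3] [[0,1,2,3,4,5,6],[0,1,2,3,4,5],[0,1,2,3,4,5],[0,1,2,3,4,5]]],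
Node.mk [0,820,182,1542,2448,27,976,3114,2225,2529,2937,2935,2939,3663,45,1164,1876,825] [(0,0),(0,2),(0,3),(0,4),(1,2),(3,1)] [],
Node.mk [0,820,182,1542,2448,27,976,3114,2225,2529,2937,2935,2939,3663,45,1164,1876,2940] [(0,0),(0,1),(0,2),(0,3),(0,4),(1,2)] [Ref.mk 1139 1100 [0,1,2,3] [[0,1,2,3,4,5],[0,1,2,3,4],[0,1,2,3,4,5],[0,1,2,3,4]],Ref.mk 824 1138 [0,1,2,3] [[0,5,2,3,4,6,1],[0,1,2,3,4,5],[0,1,2,3,4,5],[0,1,2,3,4,5]],Ref.mk 1140 1100 [0,1,2,3] [[0,1,2,3,4,6],[0,1,2,3,4],[0,1,2,3,4,5],[0,1,2,3,4]],Ref.mk 825 1138 [0,1,2,3] [[0,6,2,3,4,5,1],[0,1,2,3,4,5],[0,1,2,3,4,5],[0,1,2,3,4,5]],Ref.mk 1141 1100 [0,1,2,3] [[0,1,2,3,4,7],[0,1,2,3,4],[0,1,2,3,4,5],[0,1,2,3,4]],Ref.mk 826 1138 [0,1,2,3] [[0,1,2,3,4,6,7],[0,1,2,3,4,5],[0,1,2,3,4,5],[0,1,2,3,4,5]]],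
Node.mk [0,820,182,1542,2448,27,976,3114,2225,2529,2937,2935,2939,3663,45,1164,1876] [(0,0),(0,1),(0,2),(0,3),(0,4),(0,5)] [Ref.mk 1140 1100 [0,1,2,3] [[0,1,2,3,4,6],[0,1,2,3,4],[0,1,2,3,4,5],[0,1,2,3,4]],Ref.mk 825 1138 [0,1,2,3] [[0,1,2,3,4,5,6],[0,1,2,3,4,5],[0,1,2,3,4,5],[0,1,2,3,4,5]],Ref.mk 2940 1139 [0,1,2,3] [[0,1,2,3,4,5,6],[0,1,2,3,4,5],[0,1,2,3,4,5],[0,1,2,3,4,5]]],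
Node.mk [0,820,182,1542,2448,27,976,3114,2225,2529,2937,2935,2939,3663,45,1164] [(0,0),(0,2),(0,3),(1,0),(1,2),(2,1)] [Ref.mk 1729 1137 [0,1,2,3] [[0,1,2,3,4,5],[0,1,2,3,4,5],[0,1,2,3,4,5],[0,1,2,3,4,5]],Ref.mk 1876 1140 [0,1,2,3] [[0,1,2,3,4,5],[0,1,2,3,4,5],[0,1,2,3,4,5],[0,1,2,3,4,5]]],
Node.mk [0,820,182,1542,2448,27,976,3114,2225,2529,2937,2935,2939,3663,45,1173] [(0,0),(0,3),(1,2),(1,4),(2,5),(3,1)] [],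
Node.mk [0,820,182,1542,2448,27,976,3114,2225,2529,2937,2935,2939,3663,45,1191,1756,2940,1216] [(0,0),(0,1),(0,2),(0,3),(1,2),(3,1)] [],
Node.mk [0,820,182,1542,2448,27,976,3114,2225,2529,2937,2935,2939,3663,45,1191,1756,2940,1272] [(0,0),(0,2),(0,3),(1,2),(1,6),(3,1)] [],
Node.mk [0,820,182,1542,2448,27,976,3114,2225,2529,2937,2935,2939,3663,45,1191,1756,2940] [(2,0),(2,1),(2,2),(2,3),(2,4),(2,5)] [Ref.mk 2691 1130 [0,1,2,3] [[0,1,2,3,4,5],[0,1,2,3,4,5],[0,1,2,3,4,6],[0,1,2,3,4,5]],Ref.mk 1216 1143 [0,1,2,3] [[0,1,2,3,4,5,6],[0,1,2,3,4,5,6],[0,1,2,3,4,5,6],[0,1,2,3,4,5]],Ref.mk 1272 1144 [0,1,2,3] [[0,1,2,3,4,5,6],[0,1,2,3,4,5,6],[0,1,2,3,4,5,6],[0,1,2,3,4,5]]],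
Node.mk [0,820,182,1542,2448,27,976,3114,2225,2529,2937,2935,2939,3663,45,1191,1756,870] [(0,0),(0,1),(0,2),(1,2),(2,1),(3,1)] [],
Node.mk [0,820,182,1542,2448,27,976,3114,2225,2529,2937,2935,2939,3663,45,1191,1756] [(0,0),(0,1),(0,2),(0,3),(0,4),(0,5)] [Ref.mk 978 1098 [0,1,2,3] [[0,1,2,3,4,6],[0,1,2,3,4],[0,1,2,3,4],[0,1,2,3,4]],Ref.mk 2940 1145 [0,1,2,3] [[0,1,2,3,4,5,6],[0,1,2,3,4,5,6],[0,1,2,3,4,5],[0,1,2,3,4,5]],Ref.mk 870 1146 [0,1,2,3] [[0,1,2,3,4,5,6],[0,1,2,3,4,5,6],[0,1,2,3,4,5],[0,1,2,3,4,5]]],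
Node.mk [0,820,182,1542,2448,27,976,3114,2225,2529,2937,2935,2939,3663,45,1191,1876,825] [(0,0),(0,2),(0,3),(0,4),(1,2),(3,1)] [],
Node.mk [0,820,182,1542,2448,27,976,3114,2225,2529,2937,2935,2939,3663,45,1191,1876,2940] [(0,0),(0,1),(0,2),(0,3),(0,4),(1,2)] [Ref.mk 1139 1100 [0,1,2,3] [[0,1,2,3,4,5],[0,1,2,3,4],[0,1,2,3,4,5],[0,1,2,3,4]],Ref.mk 824 1148 [0,1,2,3] [[0,5,2,3,4,6,1],[0,1,2,3,4,5,6],[0,1,2,3,4,5],[0,1,2,3,4,5]],Ref.mk 1140 1100 [0,1,2,3] [[0,1,2,3,4,6],[0,1,2,3,4],[0,1,2,3,4,5],[0,1,2,3,4]],Ref.mk 825 1148 [0,1,2,3] [[0,6,2,3,4,5,1],[0,1,2,3,4,5,6],[0,1,2,3,4,5],[0,1,2,3,4,5]],Ref.mk 1141 1100 [0,1,2,3] [[0,1,2,3,4,7],[0,1,2,3,4],[0,1,2,3,4,5],[0,1,2,3,4]],Ref.mk 826 1148 [0,1,2,3] [[0,1,2,3,4,6,7],[0,1,2,3,4,5,6],[0,1,2,3,4,5],[0,1,2,3,4,5]]],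
Node.mk [0,820,182,1542,2448,27,976,3114,2225,2529,2937,2935,2939,3663,45,1191,1876] [(0,0),(0,1),(0,2),(0,3),(0,4),(0,5)] [Ref.mk 1140 1100 [0,1,2,3] [[0,1,2,3,4,6],[0,1,2,3,4],[0,1,2,3,4,5],[0,1,2,3,4]],Ref.mk 825 1148 [0,1,2,3] [[0,1,2,3,4,5,6],[0,1,2,3,4,5,6],[0,1,2,3,4,5],[0,1,2,3,4,5]],Ref.mk 2940 1149 [0,1,2,3] [[0,1,2,3,4,5,6],[0,1,2,3,4,5,6],[0,1,2,3,4,5],[0,1,2,3,4,5]]],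
Node.mk [0,820,182,1542,2448,27,976,3114,2225,2529,2937,2935,2939,3663,45,1191] [(0,0),(0,2),(0,3),(1,0),(1,2),(2,1)] [Ref.mk 1756 1147 [0,1,2,3] [[0,1,2,3,4,5],[0,1,2,3,4,5,6],[0,1,2,3,4,5],[0,1,2,3,4,5]],Ref.mk 1876 1150 [0,1,2,3] [[0,1,2,3,4,5],[0,1,2,3,4,5,6],[0,1,2,3,4,5],[0,1,2,3,4,5]]]]

/-- nodes -/
noncomputable def c18 : List Node := [
Node.mk [0,820,182,1542,2448,27,976,3114,2225,2529,2937,2935,2939,3663,45,1876,1545] [(0,0),(0,2),(1,0),(1,2),(2,1),(3,2)] [],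
Node.mk [0,820,182,1542,2448,27,976,3114,2225,2529,2937,2935,2939,3663,45,1876,825] [(0,0),(0,2),(1,1),(1,2),(2,1),(3,1)] [],
Node.mk [0,820,182,1542,2448,27,976,3114,2225,2529,2937,2935,2939,3663,45,1876,2940] [(0,0),(0,1),(0,2),(0,3),(0,4),(1,2)] [Ref.mk 1544 1152 [0,1,2,3] [[0,1,2,5,4,6,3],[0,1,2,3,4,5],[0,1,2,3,4,5],[0,1,2,3,4,5]],Ref.mk 1139 1100 [0,1,2,3] [[0,1,2,3,4,5],[0,1,2,3,4],[0,1,2,3,4,5],[0,1,2,3,4]],Ref.mk 824 1153 [0,1,2,3] [[0,5,2,3,4,6,1],[0,1,2,3,4,5],[0,1,2,3,4,5],[0,1,2,3,4,5]],Ref.mk 1715 1103 [0,1,2,3] [[0,1,2,3,4,5],[0,1,2,3,4],[0,1,2,3,4],[0,1,2,3,4]],Ref.mk 1545 1152 [0,1,2,3] [[0,1,2,6,4,5,3],[0,1,2,3,4,5],[0,1,2,3,4,5],[0,1,2,3,4,5]],Ref.mk 1140 1100 [0,1,2,3] [[0,1,2,3,4,6],[0,1,2,3,4],[0,1,2,3,4,5],[0,1,2,3,4]],Ref.mk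 825 1153 [0,1,2,3] [[0,6,2,3,4,5,1],[0,1,2,3,4,5],[0,1,2,3,4,5],[0,1,2,3,4,5]],Ref.mk 1716 1103 [0,1,2,3] [[0,1,2,3,4,6],[0,1,2,3,4],[0,1,2,3,4],[0,1,2,3,4]],Ref.mk 1546 1152 [0,1,2,3] [[0,1,2,3,4,6,7],[0,1,2,3,4,5],[0,1,2,3,4,5],[0,1,2,3,4,5]],Ref.mk 1141 1100 [0,1,2,3] [[0,1,2,3,4,7],[0,1,2,3,4],[0,1,2,3,4,5],[0,1,2,3,4]],Ref.mk 826 1153 [0,1,2,3] [[0,1,2,3,4,6,7],[0,1,2,3,4,5],[0,1,2,3,4,5],[0,1,2,3,4,5]],Ref.mk 1717 1103 [0,1,2,3] [[0,1,2,3,4,7],[0,1,2,3,4],[0,1,2,3,4],[0,1,2,3,4]]],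
Node.mk [0,820,182,1542,2448,27,976,3114,2225,2529,2937,2935,2939,3663,45,1876] [(0,0),(0,1),(0,2),(0,3),(0,4),(0,5)] [Ref.mk 1545 1152 [0,1,2,3] [[0,1,2,3,4,5,6],[0,1,2,3,4,5],[0,1,2,3,4,5],[0,1,2,3,4,5]],Ref.mk 1140 1100 [0,1,2,3] [[0,1,2,3,4,6],[0,1,2,3,4],[0,1,2,3,4,5],[0,1,2,3,4]],Ref.mk 825 1153 [0,1,2,3] [[0,1,2,3,4,5,6],[0,1,2,3,4,5],[0,1,2,3,4,5],[0,1,2,3,4,5]],Ref.mk 1716 1103 [0,1,2,3] [[0,1,2,3,4,6],[0,1,2,3,4],[0,1,2,3,4],[0,1,2,3,4]],Ref.mk 2940 1154 [0,1,2,3] [[0,1,2,3,4,5,6],[0,1,2,3,4,5],[0,1,2,3,4,5],[0,1,2,3,4,5]]],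
Node.mk [0,820,182,1542,2448,27,976,3114,2225,2529,2937,2935,2939,3663,45] [(1,0),(2,0),(2,1),(2,2),(2,3),(2,4)] [Ref.mk 2610 1130 [0,1,2,3] [[0,1,2,3,4,5],[0,1,2,3,4,5],[0,1,2,3,4,5],[0,1,2,3,4,5]],Ref.mk 1146 1131 [0,1,2,3] [[0,1,2,3,4,5],[0,1,2,3,4,5],[0,1,2,3,4,5],[0,1,2,3,4,5]],Ref.mk 1155 1132 [0,1,2,3] [[0,1,2,3,4,5],[0,1,2,3,4,5],[0,1,2,3,4,5],[0,1,2,3,4,5]],Ref.mk 1164 1141 [0,1,2,3] [[0,1,2,3,4,5],[0,1,2,3,4,5],[0,1,2,3,4,5],[0,1,2,3,4,5]],Ref.mk 1173 1142 [0,1,2,3] [[0,1,2,3,4,5],[0,1,2,3,4,5],[0,1,2,3,4,5],[0,1,2,3,4,5]],Ref.mk 1182 1141 [0,1,2,3] [[0,1,2,3,4,5],[0,1,2,5,4,3],[0,1,2,3,4,5],[0,1,2,3,4,5]],Ref.mk 1191 1151 [0,1,2,3] [[0,1,2,3,4,5],[0,1,2,3,4,5,6],[0,1,2,3,4,5],[0,1,2,3,4,5]],Ref.mk 1876 1155 [0,1,2,3]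 [[0,1,2,3,4,5],[0,1,2,3,4,5],[0,1,2,3,4,5],[0,1,2,3,4,5]]],
Node.mk [0,820,182,1542,2448,27,976,3114,2225,2529,2937,2935,2939,3663,1747,1545] [(0,0),(0,2),(1,0),(1,2),(2,1),(3,2)] [],
Node.mk [0,820,182,1542,2448,27,976,3114,2225,2529,2937,2935,2939,3663,1747,2940,860] [(0,0),(0,1),(0,2),(1,2),(2,1),(3,1)] [Ref.mk 1715 1103 [0,1,2,3] [[0,1,2,3,4,5],[0,1,2,3,4],[0,1,2,3,4],[0,1,2,3,4]]],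
Node.mk [0,820,182,1542,2448,27,976,3114,2225,2529,2937,2935,2939,3663,1747,2940,862] [(0,0),(0,1),(0,2),(1,2),(2,1),(3,1)] [Ref.mk 1717 1103 [0,1,2,3] [[0,1,2,3,4,7],[0,1,2,3,4],[0,1,2,3,4],[0,1,2,3,4]]],
Node.mk [0,820,182,1542,2448,27,976,3114,2225,2529,2937,2935,2939,3663,1747,2940] [(0,0),(0,1),(0,2),(0,3),(0,4),(1,2)] [Ref.mk 1544 1157 [0,1,2,3] [[0,1,2,5,4,6,3],[0,1,2,3,4,5],[0,1,2,3,4],[0,1,2,3,4,5]],Ref.mk 977 1098 [0,1,2,3] [[0,1,2,3,4,5],[0,1,2,3,4],[0,1,2,3,4],[0,1,2,3,4]],Ref.mk 1715 1103 [0,1,2,3] [[0,1,2,3,4,5],[0,1,2,3,4],[0,1,2,3,4],[0,1,2,3,4]],Ref.mk 860 1158 [0,1,2,3] [[0,1,2,3,4,5,6],[0,1,2,3,4,5],[0,1,2,3,4],[0,1,2,3,4,5]],Ref.mk 1545 1157 [0,1,2,3] [[0,1,2,6,4,5,3],[0,1,2,3,4,5],[0,1,2,3,4],[0,1,2,3,4,5]],Ref.mk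 978 1098 [0,1,2,3] [[0,1,2,3,4,6],[0,1,2,3,4],[0,1,2,3,4],[0,1,2,3,4]],Ref.mk 1716 1103 [0,1,2,3] [[0,1,2,3,4,6],[0,1,2,3,4],[0,1,2,3,4],[0,1,2,3,4]],Ref.mk 861 1158 [0,1,2,3] [[0,1,2,3,4,6,5],[0,1,2,3,4,5],[0,1,2,3,4],[0,1,2,3,4,5]],Ref.mk 1546 1157 [0,1,2,3] [[0,1,2,3,4,6,7],[0,1,2,3,4,5],[0,1,2,3,4],[0,1,2,3,4,5]],Ref.mk 979 1098 [0,1,2,3] [[0,1,2,3,4,7],[0,1,2,3,4],[0,1,2,3,4],[0,1,2,3,4]],Ref.mk 1717 1103 [0,1,2,3] [[0,1,2,3,4,7],[0,1,2,3,4],[0,1,2,3,4],[0,1,2,3,4]],Ref.mk 862 1159 [0,1,2,3] [[0,1,2,3,4,5,6,7],[0,1,2,3,4,5],[0,1,2,3,4],[0,1,2,3,4,5]]],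
Node.mk [0,820,182,1542,2448,27,976,3114,2225,2529,2937,2935,2939,3663,1747,861] [(0,0),(0,1),(0,2),(1,2),(2,1),(3,1)] [Ref.mk 1716 1103 [0,1,2,3] [[0,1,2,3,4,6],[0,1,2,3,4],[0,1,2,3,4],[0,1,2,3,4]]],
Node.mk [0,820,182,1542,2448,27,976,3114,2225,2529,2937,2935,2939,3663,1747] [(0,0),(0,1),(0,2),(0,3),(0,4),(0,5)] [Ref.mk 1545 1157 [0,1,2,3] [[0,1,2,3,4,5,6],[0,1,2,3,4,5],[0,1,2,3,4],[0,1,2,3,4,5]],Ref.mk 978 1098 [0,1,2,3] [[0,1,2,3,4,6],[0,1,2,3,4],[0,1,2,3,4],[0,1,2,3,4]],Ref.mk 1716 1103 [0,1,2,3] [[0,1,2,3,4,6],[0,1,2,3,4],[0,1,2,3,4],[0,1,2,3,4]],Ref.mk 2940 1160 [0,1,2,3] [[0,1,2,3,4,5,6],[0,1,2,3,4,5],[0,1,2,3,4],[0,1,2,3,4,5]],Ref.mk 861 1161 [0,1,2,3] [[0,1,2,3,4,5,6],[0,1,2,3,4,5],[0,1,2,3,4],[0,1,2,3,4,5]]],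
Node.mk [0,820,182,1542,2448,27,976,3114,2225,2529,2937,2935,2939,3663,777] [(0,0),(0,2),(0,3),(1,0),(2,0),(2,1)] [Ref.mk 1747 1162 [0,1,2,3] [[0,1,2,3,4,5],[0,1,2,3,4,5],[0,1,2,3,4],[0,1,2,3,4,5]]],
Node.mk [0,820,182,1542,2448,27,976,3114,2225,2529,2937,2935,2939,3663,939] [(0,0),(0,3),(0,4),(2,0),(2,2),(3,1)] [Ref.mk 1747 1162 [0,1,2,3] [[0,1,2,3,4,5],[0,1,2,3,4,5],[0,1,2,3,4],[0,1,2,3,4,5]]],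
Node.mk [0,820,182,1542,2448,27,976,3114,2225,2529,2937,2935,2939,3663,1020] [(0,0),(0,2),(1,2),(2,1),(2,3),(3,1)] [],
Node.mk [0,820,182,1542,2448,27,976,3114,2225,2529,2937,2935,2939,3663,1101,1795,2610,825] [(0,0),(0,2),(0,3),(0,4),(1,2),(3,1)] [],
Node.mk [0,820,182,1542,2448,27,976,3114,2225,2529,2937,2935,2939,3663,1101,1795,2610,2940] [(0,0),(0,1),(0,2),(0,3),(0,4),(1,2)] [Ref.mk 1058 1099 [0,1,2,3] [[0,1,2,3,4,5],[0,1,2,3,4],[0,1,2,3,4],[0,1,2,3,4]],Ref.mk 824 1166 [0,1,2,3] [[0,5,2,3,4,6,1],[0,1,2,3,4,5],[0,1,2,3,4,5],[0,1,2,3,4,5]],Ref.mk 1059 1099 [0,1,2,3] [[0,1,2,3,4,6],[0,1,2,3,4],[0,1,2,3,4],[0,1,2,3,4]],Ref.mk 825 1166 [0,1,2,3] [[0,6,2,3,4,5,1],[0,1,2,3,4,5],[0,1,2,3,4,5],[0,1,2,3,4,5]],Ref.mk 1060 1099 [0,1,2,3]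 [[0,1,2,3,4,7],[0,1,2,3,4],[0,1,2,3,4],[0,1,2,3,4]],Ref.mk 826 1166 [0,1,2,3] [[0,1,2,3,4,6,7],[0,1,2,3,4,5],[0,1,2,3,4,5],[0,1,2,3,4,5]]],
Node.mk [0,820,182,1542,2448,27,976,3114,2225,2529,2937,2935,2939,3663,1101,1795,2610] [(0,0),(0,1),(0,2),(0,3),(0,4),(0,5)] [Ref.mk 1059 1099 [0,1,2,3] [[0,1,2,3,4,6],[0,1,2,3,4],[0,1,2,3,4],[0,1,2,3,4]],Ref.mk 825 1166 [0,1,2,3] [[0,1,2,3,4,5,6],[0,1,2,3,4,5],[0,1,2,3,4,5],[0,1,2,3,4,5]],Ref.mk 2940 1167 [0,1,2,3] [[0,1,2,3,4,5,6],[0,1,2,3,4,5],[0,1,2,3,4,5],[0,1,2,3,4,5]]],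
Node.mk [0,820,182,1542,2448,27,976,3114,2225,2529,2937,2935,2939,3663,1101,1795] [(2,0),(2,1),(2,2),(2,3),(2,4),(3,1)] [Ref.mk 2610 1168 [0,1,2,3] [[0,1,2,3,4,5],[0,1,2,3,4,5],[0,1,2,3,4,5],[0,1,2,3,4,5]]],
Node.mk [0,820,182,1542,2448,27,976,3114,2225,2529,2937,2935,2939,3663,1101] [(0,0),(0,2),(0,3),(1,0),(1,2),(2,1)] [Ref.mk 1747 1162 [0,1,2,3] [[0,1,2,3,4,5],[0,1,2,3,4,5],[0,1,2,3,4],[0,1,2,3,4,5]],Ref.mk 1795 1169 [0,1,2,3] [[0,1,2,3,4,5],[0,1,2,3,4,5],[0,1,2,3,4],[0,1,2,3,4,5]]],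
Node.mk [0,820,182,1542,2448,27,976,3114,2225,2529,2937,2935,2939,3663,1182,1876,825] [(0,0),(0,2),(0,3),(0,4),(1,2),(3,1)] [],
Node.mk [0,820,182,1542,2448,27,976,3114,2225,2529,2937,2935,2939,3663,1182,1876,2940] [(0,0),(0,1),(0,2),(0,3),(0,4),(1,2)] [Ref.mk 1139 1100 [0,1,2,3] [[0,1,2,3,4,5],[0,1,2,3,4],[0,1,2,3,4,5],[0,1,2,3,4]],Ref.mk 824 1171 [0,1,2,3] [[0,5,2,3,4,6,1],[0,1,2,3,4,5],[0,1,2,3,4,5],[0,1,2,3,4,5]],Ref.mk 1140 1100 [0,1,2,3] [[0,1,2,3,4,6],[0,1,2,3,4],[0,1,2,3,4,5],[0,1,2,3,4]],Ref.mk 825 1171 [0,1,2,3] [[0,6,2,3,4,5,1],[0,1,2,3,4,5],[0,1,2,3,4,5],[0,1,2,3,4,5]],Ref.mk 1141 1100 [0,1,2,3] [[0,1,2,3,4,7],[0,1,2,3,4],[0,1,2,3,4,5],[0,1,2,3,4]],Ref.mk 826 1171 [0,1,2,3] [[0,1,2,3,4,6,7],[0,1,2,3,4,5],[0,1,2,3,4,5],[0,1,2,3,4,5]]],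
Node.mk [0,820,182,1542,2448,27,976,3114,2225,2529,2937,2935,2939,3663,1182,1876] [(0,0),(0,1),(0,2),(0,3),(0,4),(0,5)] [Ref.mk 1140 1100 [0,1,2,3] [[0,1,2,3,4,6],[0,1,2,3,4],[0,1,2,3,4,5],[0,1,2,3,4]],Ref.mk 825 1171 [0,1,2,3] [[0,1,2,3,4,5,6],[0,1,2,3,4,5],[0,1,2,3,4,5],[0,1,2,3,4,5]],Ref.mk 2940 1172 [0,1,2,3] [[0,1,2,3,4,5,6],[0,1,2,3,4,5],[0,1,2,3,4,5],[0,1,2,3,4,5]]],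
Node.mk [0,820,182,1542,2448,27,976,3114,2225,2529,2937,2935,2939,3663,1182] [(0,0),(0,2),(0,3),(1,0),(1,2),(2,1)] [Ref.mk 1747 1162 [0,2,1,3] [[0,3,2,1,4,5],[3,5,0,4,2,1],[2,5,4,0,3],[3,1,2,0,4,5]],Ref.mk 1876 1173 [0,1,2,3] [[0,1,2,3,4,5],[0,1,2,3,4,5],[0,1,2,3,4,5],[0,1,2,3,4,5]]],
Node.mk [0,820,182,1542,2448,27,976,3114,2225,2529,2937,2935,2939,3663] [(1,0),(1,1),(1,2),(1,3),(1,4),(2,1)] [Ref.mk 45 1156 [0,1,2,3] [[0,1,2,3,4,5],[0,1,2,3,4,5],[0,1,2,3,4],[0,1,2,3,4,5]],Ref.mk 1747 1162 [0,1,2,3] [[0,1,2,3,4,5],[0,1,2,3,4,5],[0,1,2,3,4],[0,1,2,3,4,5]],Ref.mk 777 1163 [0,1,2,3] [[0,1,2,3,4,5],[0,1,2,3,4,5],[0,1,2,3,4],[0,1,2,3,4,5]],Ref.mk 939 1164 [0,1,2,3] [[0,1,2,3,4,5],[0,1,2,3,4,5],[0,1,2,3,4],[0,1,2,3,4,5]],Ref.mk 1020 1165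 [0,1,2,3] [[0,1,2,3,4,5],[0,1,2,3,4,5],[0,1,2,3,4],[0,1,2,3,4,5]],Ref.mk 1101 1170 [0,1,2,3] [[0,1,2,3,4,5],[0,1,2,3,4,5],[0,1,2,3,4],[0,1,2,3,4,5]],Ref.mk 1182 1174 [0,1,2,3] [[0,1,2,3,4,5],[0,1,2,3,4,5],[0,1,2,3,4,5],[0,1,2,3,4,5]]],
Node.mk [0,820,182,1542,2448,27,976,3114,2225,2529,2937,2935,2939,3808] [(0,0),(0,1),(1,0),(2,0),(2,2),(3,5)] [],
Node.mk [0,820,182,1542,2448,27,976,3114,2225,2529,2937,2935,2939,3970,2610,3900,4458] [(0,0),(0,2),(0,3),(1,0),(1,2),(2,1)] [],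
Node.mk [0,820,182,1542,2448,27,976,3114,2225,2529,2937,2935,2939,3970,2610,3900] [(3,0),(3,1),(3,2),(3,3),(3,4),(3,5)] [Ref.mk 4392 1162 [0,2,1,3] [[0,1,2,3,4,5],[3,1,0,5,2,4],[2,1,4,0,3],[3,1,5,0,4,6]],Ref.mk 4618 98 [3,1,2,0] [[0,1,3,2,6],[0,1,2,3],[0,1,3,2],[0,1,3,2]],Ref.mk 4458 1177 [0,1,2,3] [[0,1,2,3,4,5],[0,1,2,3,4],[0,1,2,3,4,5],[0,1,2,3,4,5,6]]],
Node.mk [0,820,182,1542,2448,27,976,3114,2225,2529,2937,2935,2939,3970,2610,1795,1545] [(0,0),(0,1),(0,2),(0,4),(1,0),(1,2)] [],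
Node.mk [0,820,182,1542,2448,27,976,3114,2225,2529,2937,2935,2939,3970,2610,1795,2940] [(0,0),(0,1),(0,2),(0,3),(0,4),(1,2)] [Ref.mk 1544 1179 [0,1,2,3] [[0,1,2,5,4,6,3],[0,1,2,3,4],[0,1,2,3,4,5],[0,1,2,3,4,5]],Ref.mk 1058 1099 [0,1,2,3] [[0,1,2,3,4,5],[0,1,2,3,4],[0,1,2,3,4],[0,1,2,3,4]],Ref.mk 1545 1179 [0,1,2,3] [[0,1,2,6,4,5,3],[0,1,2,3,4],[0,1,2,3,4,5],[0,1,2,3,4,5]],Ref.mk 1059 1099 [0,1,2,3] [[0,1,2,3,4,6],[0,1,2,3,4],[0,1,2,3,4],[0,1,2,3,4]],Ref.mk 1546 1179 [0,1,2,3] [[0,1,2,3,4,6,7],[0,1,2,3,4],[0,1,2,3,4,5],[0,1,2,3,4,5]],Ref.mk 1060 1099 [0,1,2,3] [[0,1,2,3,4,7],[0,1,2,3,4],[0,1,2,3,4],[0,1,2,3,4]]],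
Node.mk [0,820,182,1542,2448,27,976,3114,2225,2529,2937,2935,2939,3970,2610,1795] [(0,0),(0,1),(0,2),(0,3),(0,4),(0,5)] [Ref.mk 1545 1179 [0,1,2,3] [[0,1,2,3,4,5,6],[0,1,2,3,4],[0,1,2,3,4,5],[0,1,2,3,4,5]],Ref.mk 1059 1099 [0,1,2,3] [[0,1,2,3,4,6],[0,1,2,3,4],[0,1,2,3,4],[0,1,2,3,4]],Ref.mk 2940 1180 [0,1,2,3] [[0,1,2,3,4,5,6],[0,1,2,3,4],[0,1,2,3,4,5],[0,1,2,3,4,5]]],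
Node.mk [0,820,182,1542,2448,27,976,3114,2225,2529,2937,2935,2939,3970,2610] [(0,0),(0,1),(0,2),(1,2),(2,1),(3,1)] [Ref.mk 3900 1178 [0,1,2,3] [[0,1,2,3,4,5],[0,1,2,3,4],[0,1,2,3,4,5],[0,1,2,3,4,5]],Ref.mk 1795 1181 [0,1,2,3] [[0,1,2,3,4,5],[0,1,2,3,4],[0,1,2,3,4,5],[0,1,2,3,4,5]]],
Node.mk [0,820,182,1542,2448,27,976,3114,2225,2529,2937,2935,2939,3970] [(1,0),(2,0),(2,1),(2,2),(2,3),(2,4)] [Ref.mk 2610 1182 [0,1,2,3] [[0,1,2,3,4,5],[0,1,2,3,4],[0,1,2,3,4,5],[0,1,2,3,4,5]]],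
Node.mk [0,820,182,1542,2448,27,976,3114,2225,2529,2937,2935,2939,4051,3900,4458] [(0,0),(0,2),(0,3),(1,0),(1,2),(2,1)] [],
Node.mk [0,820,182,1542,2448,27,976,3114,2225,2529,2937,2935,2939,4051,3900] [(3,0),(3,1),(3,2),(3,3),(3,4),(3,5)] [Ref.mk 4392 1162 [0,2,1,3] [[0,1,2,3,4,5],[3,1,0,4,2,5],[2,1,4,0,3],[3,1,5,0,4,6]],Ref.mk 4618 98 [3,1,2,0] [[0,1,3,2,6],[0,1,2,3],[0,1,3,2],[0,1,3,2]],Ref.mk 4458 1184 [0,1,2,3] [[0,1,2,3,4,5],[0,1,2,3,4],[0,1,2,3,4,5],[0,1,2,3,4,5,6]]],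
Node.mk [0,820,182,1542,2448,27,976,3114,2225,2529,2937,2935,2939,4051,1876,1545] [(0,0),(0,1),(0,2),(0,4),(1,0),(1,2)] [],
Node.mk [0,820,182,1542,2448,27,976,3114,2225,2529,2937,2935,2939,4051,1876,2940] [(0,0),(0,1),(0,2),(0,3),(0,4),(1,2)] [Ref.mk 1544 1186 [0,1,2,3] [[0,1,2,5,4,6,3],[0,1,2,3,4],[0,1,2,3,4,5],[0,1,2,3,4,5]],Ref.mk 1139 1100 [0,1,2,3] [[0,1,2,3,4,5],[0,1,2,3,4],[0,1,2,3,4,5],[0,1,2,3,4]],Ref.mk 1545 1186 [0,1,2,3] [[0,1,2,6,4,5,3],[0,1,2,3,4],[0,1,2,3,4,5],[0,1,2,3,4,5]],Ref.mk 1140 1100 [0,1,2,3] [[0,1,2,3,4,6],[0,1,2,3,4],[0,1,2,3,4,5],[0,1,2,3,4]],Ref.mk 1546 1186 [0,1,2,3] [[0,1,2,3,4,6,7],[0,1,2,3,4],[0,1,2,3,4,5],[0,1,2,3,4,5]],Ref.mk 1141 1100 [0,1,2,3] [[0,1,2,3,4,7],[0,1,2,3,4],[0,1,2,3,4,5],[0,1,2,3,4]]],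
Node.mk [0,820,182,1542,2448,27,976,3114,2225,2529,2937,2935,2939,4051,1876] [(0,0),(0,1),(0,2),(0,3),(0,4),(0,5)] [Ref.mk 1545 1186 [0,1,2,3] [[0,1,2,3,4,5,6],[0,1,2,3,4],[0,1,2,3,4,5],[0,1,2,3,4,5]],Ref.mk 1140 1100 [0,1,2,3] [[0,1,2,3,4,6],[0,1,2,3,4],[0,1,2,3,4,5],[0,1,2,3,4]],Ref.mk 2940 1187 [0,1,2,3] [[0,1,2,3,4,5,6],[0,1,2,3,4],[0,1,2,3,4,5],[0,1,2,3,4,5]]],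
Node.mk [0,820,182,1542,2448,27,976,3114,2225,2529,2937,2935,2939,4051] [(0,0),(0,1),(0,2),(1,2),(2,1),(3,1)] [Ref.mk 3900 1185 [0,1,2,3] [[0,1,2,3,4,5],[0,1,2,3,4],[0,1,2,3,4,5],[0,1,2,3,4,5]],Ref.mk 1876 1188 [0,1,2,3] [[0,1,2,3,4,5],[0,1,2,3,4],[0,1,2,3,4,5],[0,1,2,3,4,5]]],
Node.mk [0,820,182,1542,2448,27,976,3114,2225,2529,2937,2935,2939,3900,3757,45] [(0,0),(0,2),(0,3),(0,4),(1,2),(2,1)] [Ref.mk 3646 26 [3,1,2,0] [[0,1,3,2,5],[0,1,2,3],[0,1,3,2],[0,1,3,2]],Ref.mk 3808 1176 [0,1,2,3] [[0,1,2,3,4,5],[0,1,2,3,4],[0,1,2,3,4],[0,1,2,3,4,5]],Ref.mk 3889 98 [3,1,2,0] [[0,1,3,2,5],[0,1,2,3],[0,1,3,2],[0,1,3,2]],Ref.mk 3970 1183 [0,1,2,3] [[0,1,2,3,4,5],[0,1,2,3,4],[0,1,2,3,4],[0,1,2,3,4,5]],Ref.mk 4051 1185 [0,1,2,3] [[0,1,2,3,4,5],[0,1,2,5,4],[0,1,2,3,4,5],[0,1,2,3,4,5]],Ref.mk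 1729 1178 [1,2,0,3] [[2,3,4,0,1,5],[3,1,0,4,2],[0,4,2,3,1,5],[3,5,1,4,0,2]]],
Node.mk [0,820,182,1542,2448,27,976,3114,2225,2529,2937,2935,2939,3900,3757] [(1,0),(1,1),(1,2),(1,3),(1,4),(2,1)] [Ref.mk 45 1190 [0,1,2,3] [[0,1,2,3,4,5],[0,1,2,3,4,5],[0,1,2,3,4],[0,1,2,3,4,5]]],
Node.mk [0,820,182,1542,2448,27,976,3114,2225,2529,2937,2935,2939,3900,3775,3970] [(0,0),(0,2),(1,2),(2,1),(2,3),(2,4)] [Ref.mk 3646 26 [3,1,2,0] [[0,1,3,2,5],[0,1,2,3],[0,1,3,2],[0,1,3,2]],Ref.mk 3808 1176 [0,1,2,3] [[0,1,2,3,4,5],[0,1,2,3,4],[0,1,2,3,4],[0,1,2,3,4,5]],Ref.mk 4051 1185 [0,1,2,3] [[0,1,2,3,4,5],[0,1,2,3,4],[0,1,2,3,4,5],[0,1,2,3,4,5]]],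
Node.mk [0,820,182,1542,2448,27,976,3114,2225,2529,2937,2935,2939,3900,3775] [(0,0),(0,3),(0,4),(2,0),(2,1),(2,2)] [Ref.mk 3889 98 [3,1,2,0] [[0,1,3,2,5],[0,1,2,3],[0,1,3,2],[0,1,3,2]],Ref.mk 3970 1192 [0,1,2,3] [[0,1,2,3,4,5],[0,1,2,3,4,5],[0,1,2,3,4],[0,1,2,3,4,5]],Ref.mk 4051 1185 [0,1,2,3] [[0,1,2,3,4,5],[0,1,2,3,4],[0,1,2,3,4,5],[0,1,2,3,4,5]],Ref.mk 1747 1188 [0,2,1,3] [[0,1,2,3,4,5],[3,1,0,4,2],[2,1,4,0,3,5],[3,1,5,0,4,2]]],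
Node.mk [0,820,182,1542,2448,27,976,3114,2225,2529,2937,2935,2939,3900] [(0,0),(0,3),(1,0),(1,1),(1,2),(1,4)] [Ref.mk 1729 1183 [0,2,1,3] [[0,1,2,3,4,5],[3,1,0,4,2],[2,1,4,0,3],[3,1,5,0,4,2]],Ref.mk 1747 1185 [0,2,1,3] [[0,1,2,3,4,5],[3,1,0,4,2],[2,1,4,0,3,5],[3,1,5,0,4,2]],Ref.mk 3757 1191 [0,1,2,3] [[0,1,2,3,4,5],[0,1,2,3,4],[0,1,2,3,4],[0,1,2,3,4,5]],Ref.mk 3775 1193 [0,1,2,3] [[0,1,2,3,4,5],[0,1,2,3,4,5],[0,1,2,3,4],[0,1,2,3,4,5]]],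
Node.mk [0,820,182,1542,2448,27,976,3114,2225,2529,2937,2935,2939] [(2,1),(3,0),(3,1),(3,2),(3,3),(3,4)] [Ref.mk 3663 1175 [0,1,2,3] [[0,1,2,3,4,5],[0,1,2,3,4],[0,1,2,3,4],[0,1,2,3,4,5]],Ref.mk 3646 26 [3,1,2,0] [[0,1,3,2,5],[0,1,2,3],[0,1,3,2],[0,1,3,2]],Ref.mk 3808 1176 [0,1,2,3] [[0,1,2,3,4,5],[0,1,2,3,4],[0,1,2,3,4],[0,1,2,3,4,5]],Ref.mk 3889 98 [3,1,2,0] [[0,1,3,2,5],[0,1,2,3],[0,1,3,2],[0,1,3,2]],Ref.mk 3970 1183 [0,1,2,3] [[0,1,2,3,4,5],[0,1,2,3,4],[0,1,2,3,4],[0,1,2,3,4,5]],Ref.mk 4051 1189 [0,1,2,3] [[0,1,2,3,4,5],[0,1,2,3,4],[0,1,2,3,4,5],[0,1,2,3,4,5]],Ref.mk 3900 1194 [0,1,2,3] [[0,1,2,3,4,5],[0,1,2,3,4],[0,1,2,3,4],[0,1,2,3,4,5]]],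
Node.mk [0,820,182,1542,2448,27,976,3114,2225,2529,2937,2935] [(0,0),(0,1),(0,2),(0,3),(0,4),(2,1)] [Ref.mk 734 26 [0,1,2,3] [[0,1,2,3,5],[0,1,2,3],[0,1,2,3],[0,1,2,3]],Ref.mk 896 98 [0,1,2,3] [[0,1,2,3,5],[0,1,2,3],[0,1,2,3],[0,1,2,3]],Ref.mk 977 1098 [0,1,2,3] [[0,1,2,3,4,5],[0,1,2,3,4],[0,1,2,3,4],[0,1,2,3,4]],Ref.mk 1058 1099 [0,1,2,3] [[0,1,2,3,4,5],[0,1,2,3,4],[0,1,2,3,4],[0,1,2,3,4]],Ref.mk 1139 1100 [0,1,2,3] [[0,1,2,3,4,5],[0,1,2,3,4],[0,1,2,3,4,5],[0,1,2,3,4]],Ref.mk 1715 1103 [0,1,2,3] [[0,1,2,3,4,5],[0,1,2,3,4],[0,1,2,3,4],[0,1,2,3,4]],Ref.mk 2939 1195 [0,1,2,3] [[0,1,2,3,4,5],[0,1,2,3,4],[0,1,2,3,4],[0,1,2,3,4]]],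
Node.mk [0,820,182,1542,2448,27,976,3114,2225,2529,2937,2938,977] [(0,0),(0,2),(1,0),(1,2),(2,3),(3,1)] [],
Node.mk [0,820,182,1542,2448,27,976,3114,2225,2529,2937,2938,1058] [(0,0),(0,2),(1,0),(1,1),(1,2),(3,1)] [],
Node.mk [0,820,182,1542,2448,27,976,3114,2225,2529,2937,2938,1139] [(0,0),(0,2),(1,0),(1,1),(1,2),(3,1)] [],
Node.mk [0,820,182,1542,2448,27,976,3114,2225,2529,2937,2938,1715,1783] [(0,0),(0,2),(1,0),(1,1),(1,2),(3,2)] [],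
Node.mk [0,820,182,1542,2448,27,976,3114,2225,2529,2937,2938,1715,1864] [(0,0),(0,2),(1,0),(1,1),(1,2),(3,2)] [],
Node.mk [0,820,182,1542,2448,27,976,3114,2225,2529,2937,2938,1715] [(0,0),(1,1),(2,0),(2,1),(2,2),(2,3)] [Ref.mk 1783 1200 [0,1,2,3] [[0,1,2,3,4,5],[0,1,2,3,4],[0,1,2,3,4],[0,1,2,3,4]],Ref.mk 1864 1201 [0,1,2,3] [[0,1,2,3,4,5],[0,1,2,3,4],[0,1,2,3,4,5],[0,1,2,3,4]],Ref.mk 1058 1198 [0,1,2,3] [[0,1,2,3,4,5],[0,1,2,3,4],[0,1,2,3,4],[0,1,2,3,4]],Ref.mk 1139 1199 [0,1,2,3] [[0,1,2,3,4,5],[0,1,2,3,4],[0,1,2,3,4,5],[0,1,2,3,4]]],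
Node.mk [0,820,182,1542,2448,27,976,3114,2225,2529,2937,2938,2939,3663,45,2610,1711,1545] [(0,0),(0,2),(1,0),(1,2),(2,1),(3,2)] [],
Node.mk [0,820,182,1542,2448,27,976,3114,2225,2529,2937,2938,2939,3663,45,2610,1711,825] [(0,0),(0,2),(1,1),(1,2),(2,1),(3,1)] [],
Node.mk [0,820,182,1542,2448,27,976,3114,2225,2529,2937,2938,2939,3663,45,2610,1711,2940] [(0,0),(0,1),(0,2),(0,3),(0,4),(1,2)] [Ref.mk 1544 1203 [0,1,2,3] [[0,1,2,5,4,6,3],[0,1,2,3,4,5],[0,1,2,3,4,5],[0,1,2,3,4,5]],Ref.mk 977 1197 [0,1,2,3] [[0,1,2,3,4,5],[0,1,2,3,4],[0,1,2,3,4],[0,1,2,3,4]],Ref.mk 824 1204 [0,1,2,3] [[0,1,2,3,4,6,5],[0,1,2,3,4,5],[0,1,2,3,4,5],[0,1,2,3,4,5]],Ref.mk 1715 1202 [0,1,2,3] [[0,1,2,3,4,5],[0,1,2,3,4],[0,1,2,3,4],[0,1,2,3,4]],Ref.mk 1545 1203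 [0,1,2,3] [[0,1,2,6,4,5,3],[0,1,2,3,4,5],[0,1,2,3,4,5],[0,1,2,3,4,5]],Ref.mk 978 1197 [0,1,2,3] [[0,1,2,3,4,6],[0,1,2,3,4],[0,1,2,3,4],[0,1,2,3,4]],Ref.mk 825 1204 [0,1,2,3] [[0,1,2,3,4,5,6],[0,1,2,3,4,5],[0,1,2,3,4,5],[0,1,2,3,4,5]],Ref.mk 1716 1202 [0,1,2,3] [[0,1,2,3,4,6],[0,1,2,3,4],[0,1,2,3,4],[0,1,2,3,4]],Ref.mk 1546 1203 [0,1,2,3] [[0,1,2,3,4,6,7],[0,1,2,3,4,5],[0,1,2,3,4,5],[0,1,2,3,4,5]],Ref.mk 979 1197 [0,1,2,3] [[0,1,2,3,4,7],[0,1,2,3,4],[0,1,2,3,4],[0,1,2,3,4]],Ref.mk 826 1204 [0,1,2,3] [[0,1,2,3,4,6,7],[0,1,2,3,4,5],[0,1,2,3,4,5],[0,1,2,3,4,5]],Ref.mk 1717 1202 [0,1,2,3] [[0,1,2,3,4,7],[0,1,2,3,4],[0,1,2,3,4],[0,1,2,3,4]]],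
Node.mk [0,820,182,1542,2448,27,976,3114,2225,2529,2937,2938,2939,3663,45,2610,1711] [(0,0),(0,1),(0,2),(0,3),(0,4),(0,5)] [Ref.mk 1545 1203 [0,1,2,3] [[0,1,2,3,4,5,6],[0,1,2,3,4,5],[0,1,2,3,4,5],[0,1,2,3,4,5]],Ref.mk 978 1197 [0,1,2,3] [[0,1,2,3,4,6],[0,1,2,3,4],[0,1,2,3,4],[0,1,2,3,4]],Ref.mk 825 1204 [0,1,2,3] [[0,1,2,3,4,5,6],[0,1,2,3,4,5],[0,1,2,3,4,5],[0,1,2,3,4,5]],Ref.mk 1716 1202 [0,1,2,3] [[0,1,2,3,4,6],[0,1,2,3,4],[0,1,2,3,4],[0,1,2,3,4]],Ref.mk 2940 1205 [0,1,2,3] [[0,1,2,3,4,5,6],[0,1,2,3,4,5],[0,1,2,3,4,5],[0,1,2,3,4,5]]],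
Node.mk [0,820,182,1542,2448,27,976,3114,2225,2529,2937,2938,2939,3663,45,2610,1738] [(0,0),(0,1),(1,2),(1,4),(2,3),(3,2)] [],
Node.mk [0,820,182,1542,2448,27,976,3114,2225,2529,2937,2938,2939,3663,45,2610,1756,1272,2940,869] [(0,0),(0,1),(0,2),(1,2),(2,1),(3,1)] [],
Node.mk [0,820,182,1542,2448,27,976,3114,2225,2529,2937,2938,2939,3663,45,2610,1756,1272,2940,871] [(0,0),(0,1),(0,2),(1,2),(2,1),(3,1)] [],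
Node.mk [0,820,182,1542,2448,27,976,3114,2225,2529,2937,2938,2939,3663,45,2610,1756,1272,2940] [(0,0),(0,1),(0,2),(0,3),(0,4),(1,2)] [Ref.mk 977 1197 [0,1,2,3] [[0,1,2,3,4,5],[0,1,2,3,4],[0,1,2,3,4],[0,1,2,3,4]],Ref.mk 869 1208 [0,1,2,3] [[0,1,2,3,4,5,6],[0,1,2,3,4,5,6],[0,1,2,3,4,5,6],[0,1,2,3,4,5]],Ref.mk 978 1197 [0,1,2,3] [[0,1,2,3,4,6],[0,1,2,3,4],[0,1,2,3,4],[0,1,2,3,4]],Ref.mk 870 1208 [0,1,2,3] [[0,1,2,3,4,6,5],[0,1,2,3,4,5,6],[0,1,2,3,4,5,6],[0,1,2,3,4,5]],Ref.mk 979 1197 [0,1,2,3] [[0,1,2,3,4,7],[0,1,2,3,4],[0,1,2,3,4],[0,1,2,3,4]],Ref.mk 871 1209 [0,1,2,3] [[0,1,2,3,4,5,6,7],[0,1,2,3,4,5,6],[0,1,2,3,4,5,6],[0,1,2,3,4,5]]],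
Node.mk [0,820,182,1542,2448,27,976,3114,2225,2529,2937,2938,2939,3663,45,2610,1756,1272,870] [(0,0),(0,1),(0,2),(1,2),(2,1),(3,1)] [],
Node.mk [0,820,182,1542,2448,27,976,3114,2225,2529,2937,2938,2939,3663,45,2610,1756,1272] [(0,0),(0,1),(0,2),(0,3),(0,4),(0,5)] [Ref.mk 978 1197 [0,1,2,3] [[0,1,2,3,4,6],[0,1,2,3,4],[0,1,2,3,4],[0,1,2,3,4]],Ref.mk 2940 1210 [0,1,2,3] [[0,1,2,3,4,5,6],[0,1,2,3,4,5,6],[0,1,2,3,4,5,6],[0,1,2,3,4,5]],Ref.mk 870 1211 [0,1,2,3] [[0,1,2,3,4,5,6],[0,1,2,3,4,5,6],[0,1,2,3,4,5,6],[0,1,2,3,4,5]]],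
Node.mk [0,820,182,1542,2448,27,976,3114,2225,2529,2937,2938,2939,3663,45,2610,1756,1957,1545] [(0,0),(0,1),(0,2),(0,4),(1,2),(3,2)] [],
Node.mk [0,820,182,1542,2448,27,976,3114,2225,2529,2937,2938,2939,3663,45,2610,1756,1957,2940] [(0,0),(0,1),(0,2),(0,3),(0,4),(1,2)] [Ref.mk 1544 1213 [0,1,2,3] [[0,1,2,5,4,6,3],[0,1,2,3,4,5,6],[0,1,2,3,4,5,6],[0,1,2,3,4,5]],Ref.mk 1715 1202 [0,1,2,3] [[0,1,2,3,4,5],[0,1,2,3,4],[0,1,2,3,4],[0,1,2,3,4]],Ref.mk 1545 1213 [0,1,2,3] [[0,1,2,6,4,5,3],[0,1,2,3,4,5,6],[0,1,2,3,4,5,6],[0,1,2,3,4,5]],Ref.mk 1716 1202 [0,1,2,3] [[0,1,2,3,4,6],[0,1,2,3,4],[0,1,2,3,4],[0,1,2,3,4]],Ref.mk 1546 1213 [0,1,2,3] [[0,1,2,3,4,6,7],[0,1,2,3,4,5,6],[0,1,2,3,4,5,6],[0,1,2,3,4,5]],Ref.mk 1717 1202 [0,1,2,3] [[0,1,2,3,4,7],[0,1,2,3,4],[0,1,2,3,4],[0,1,2,3,4]]],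
Node.mk [0,820,182,1542,2448,27,976,3114,2225,2529,2937,2938,2939,3663,45,2610,1756,1957] [(0,0),(0,1),(0,2),(0,3),(0,4),(0,5)] [Ref.mk 1545 1213 [0,1,2,3] [[0,1,2,3,4,5,6],[0,1,2,3,4,5,6],[0,1,2,3,4,5,6],[0,1,2,3,4,5]],Ref.mk 1716 1202 [0,1,2,3] [[0,1,2,3,4,6],[0,1,2,3,4],[0,1,2,3,4],[0,1,2,3,4]],Ref.mk 2940 1214 [0,1,2,3] [[0,1,2,3,4,5,6],[0,1,2,3,4,5,6],[0,1,2,3,4,5,6],[0,1,2,3,4,5]]]]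

/-- nodes -/
noncomputable def c19 : List Node := [
Node.mk [0,820,182,1542,2448,27,976,3114,2225,2529,2937,2938,2939,3663,45,2610,1756] [(0,0),(0,1),(2,0),(2,1),(2,2),(2,3)] [Ref.mk 1110 1129 [2,0,1,3] [[0,3,2,4,1,5],[3,1,0,4,2,5],[2,6,4,0,3,5,1],[4,2,1,0,3,5]],Ref.mk 1191 1129 [2,0,1,3] [[0,3,2,5,1,4],[3,1,0,4,2,5],[2,6,4,0,3,5,1],[4,2,1,0,3,5]],Ref.mk 1272 1212 [0,1,2,3] [[0,1,2,3,4,5],[0,1,2,3,4,5,6],[0,1,2,3,4,5,6],[0,1,2,3,4,5]],Ref.mk 1795 1150 [2,1,0,3] [[0,4,2,3,1,5],[0,1,2,3,4,5,6],[0,4,2,3,5,1],[0,2,1,4,3,5]],Ref.mk 1876 1150 [2,1,0,3] [[0,5,2,3,1,4],[0,1,2,3,4,5,6],[0,4,2,3,5,1],[0,2,1,4,3,5]],Ref.mk 1957 1215 [0,1,2,3] [[0,1,2,3,4,5],[0,1,2,3,4,5,6],[0,1,2,3,4,5,6],[0,1,2,3,4,5]]],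
Node.mk [0,820,182,1542,2448,27,976,3114,2225,2529,2937,2938,2939,3663,45,2610,1471] [(0,0),(0,4),(1,1),(2,0),(2,2),(3,2)] [],
Node.mk [0,820,182,1542,2448,27,976,3114,2225,2529,2937,2938,2939,3663,45,2610,1633] [(0,0),(0,4),(1,1),(2,0),(2,2),(3,2)] [],
Node.mk [0,820,182,1542,2448,27,976,3114,2225,2529,2937,2938,2939,3663,45,2610,1714,1545] [(0,0),(0,2),(1,0),(1,2),(2,1),(3,2)] [],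
Node.mk [0,820,182,1542,2448,27,976,3114,2225,2529,2937,2938,2939,3663,45,2610,1714,825] [(0,0),(0,2),(1,1),(1,2),(2,1),(3,1)] [],
Node.mk [0,820,182,1542,2448,27,976,3114,2225,2529,2937,2938,2939,3663,45,2610,1714,2940] [(0,0),(0,1),(0,2),(0,3),(0,4),(1,2)] [Ref.mk 1544 1219 [0,1,2,3] [[0,1,2,5,4,6,3],[0,1,2,3,4,5],[0,1,2,3,4,5],[0,1,2,3,4,5]],Ref.mk 977 1197 [0,1,2,3] [[0,1,2,3,4,5],[0,1,2,3,4],[0,1,2,3,4],[0,1,2,3,4]],Ref.mk 824 1220 [0,1,2,3] [[0,1,2,3,4,6,5],[0,1,2,3,4,5],[0,1,2,3,4,5],[0,1,2,3,4,5]],Ref.mk 1715 1202 [0,1,2,3] [[0,1,2,3,4,5],[0,1,2,3,4],[0,1,2,3,4],[0,1,2,3,4]],Ref.mk 1545 1219 [0,1,2,3] [[0,1,2,6,4,5,3],[0,1,2,3,4,5],[0,1,2,3,4,5],[0,1,2,3,4,5]],Ref.mk 978 1197 [0,1,2,3] [[0,1,2,3,4,6],[0,1,2,3,4],[0,1,2,3,4],[0,1,2,3,4]],Ref.mk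 825 1220 [0,1,2,3] [[0,1,2,3,4,5,6],[0,1,2,3,4,5],[0,1,2,3,4,5],[0,1,2,3,4,5]],Ref.mk 1716 1202 [0,1,2,3] [[0,1,2,3,4,6],[0,1,2,3,4],[0,1,2,3,4],[0,1,2,3,4]],Ref.mk 1546 1219 [0,1,2,3] [[0,1,2,3,4,6,7],[0,1,2,3,4,5],[0,1,2,3,4,5],[0,1,2,3,4,5]],Ref.mk 979 1197 [0,1,2,3] [[0,1,2,3,4,7],[0,1,2,3,4],[0,1,2,3,4],[0,1,2,3,4]],Ref.mk 826 1220 [0,1,2,3] [[0,1,2,3,4,6,7],[0,1,2,3,4,5],[0,1,2,3,4,5],[0,1,2,3,4,5]],Ref.mk 1717 1202 [0,1,2,3] [[0,1,2,3,4,7],[0,1,2,3,4],[0,1,2,3,4],[0,1,2,3,4]]],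
Node.mk [0,820,182,1542,2448,27,976,3114,2225,2529,2937,2938,2939,3663,45,2610,1714] [(0,0),(0,1),(0,2),(0,3),(0,4),(0,5)] [Ref.mk 1545 1219 [0,1,2,3] [[0,1,2,3,4,5,6],[0,1,2,3,4,5],[0,1,2,3,4,5],[0,1,2,3,4,5]],Ref.mk 978 1197 [0,1,2,3] [[0,1,2,3,4,6],[0,1,2,3,4],[0,1,2,3,4],[0,1,2,3,4]],Ref.mk 825 1220 [0,1,2,3] [[0,1,2,3,4,5,6],[0,1,2,3,4,5],[0,1,2,3,4,5],[0,1,2,3,4,5]],Ref.mk 1716 1202 [0,1,2,3] [[0,1,2,3,4,6],[0,1,2,3,4],[0,1,2,3,4],[0,1,2,3,4]],Ref.mk 2940 1221 [0,1,2,3] [[0,1,2,3,4,5,6],[0,1,2,3,4,5],[0,1,2,3,4,5],[0,1,2,3,4,5]]],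
Node.mk [0,820,182,1542,2448,27,976,3114,2225,2529,2937,2938,2939,3663,45,2610,1957,1545] [(0,0),(0,2),(1,0),(1,2),(2,1),(3,2)] [],
Node.mk [0,820,182,1542,2448,27,976,3114,2225,2529,2937,2938,2939,3663,45,2610,1957,825] [(0,0),(0,2),(1,1),(1,2),(2,1),(3,1)] [],
Node.mk [0,820,182,1542,2448,27,976,3114,2225,2529,2937,2938,2939,3663,45,2610,1957,2940] [(0,0),(0,1),(0,2),(0,3),(0,4),(1,2)] [Ref.mk 1544 1223 [0,1,2,3] [[0,1,2,5,4,6,3],[0,1,2,3,4,5],[0,1,2,3,4,5,6],[0,1,2,3,4,5]],Ref.mk 1220 1199 [0,1,2,3] [[0,1,2,3,4,5],[0,1,2,3,4],[0,1,2,3,4,6],[0,1,2,3,4]],Ref.mk 824 1127 [0,1,2,3] [[0,5,2,3,4,6,1],[0,1,2,3,4,5],[0,1,2,3,4,5,6],[0,1,2,3,4,5]],Ref.mk 1715 1202 [0,1,2,3] [[0,1,2,3,4,5],[0,1,2,3,4],[0,1,2,3,4],[0,1,2,3,4]],Ref.mk 1545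 1223 [0,1,2,3] [[0,1,2,6,4,5,3],[0,1,2,3,4,5],[0,1,2,3,4,5,6],[0,1,2,3,4,5]],Ref.mk 1221 1199 [0,1,2,3] [[0,1,2,3,4,6],[0,1,2,3,4],[0,1,2,3,4,6],[0,1,2,3,4]],Ref.mk 825 1127 [0,1,2,3] [[0,6,2,3,4,5,1],[0,1,2,3,4,5],[0,1,2,3,4,5,6],[0,1,2,3,4,5]],Ref.mk 1716 1202 [0,1,2,3] [[0,1,2,3,4,6],[0,1,2,3,4],[0,1,2,3,4],[0,1,2,3,4]],Ref.mk 1546 1223 [0,1,2,3] [[0,1,2,3,4,6,7],[0,1,2,3,4,5],[0,1,2,3,4,5,6],[0,1,2,3,4,5]],Ref.mk 1222 1199 [0,1,2,3] [[0,1,2,3,4,7],[0,1,2,3,4],[0,1,2,3,4,6],[0,1,2,3,4]],Ref.mk 826 1224 [0,1,2,3] [[0,1,2,3,4,6,7],[0,1,2,3,4,5],[0,1,2,3,4,5,6],[0,1,2,3,4,5]],Ref.mk 1717 1202 [0,1,2,3] [[0,1,2,3,4,7],[0,1,2,3,4],[0,1,2,3,4],[0,1,2,3,4]]],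
Node.mk [0,820,182,1542,2448,27,976,3114,2225,2529,2937,2938,2939,3663,45,2610,1957] [(0,0),(0,1),(0,2),(0,3),(0,4),(0,5)] [Ref.mk 1545 1223 [0,1,2,3] [[0,1,2,3,4,5,6],[0,1,2,3,4,5],[0,1,2,3,4,5,6],[0,1,2,3,4,5]],Ref.mk 1221 1199 [0,1,2,3] [[0,1,2,3,4,6],[0,1,2,3,4],[0,1,2,3,4,6],[0,1,2,3,4]],Ref.mk 825 1224 [0,1,2,3] [[0,1,2,3,4,5,6],[0,1,2,3,4,5],[0,1,2,3,4,5,6],[0,1,2,3,4,5]],Ref.mk 1716 1202 [0,1,2,3] [[0,1,2,3,4,6],[0,1,2,3,4],[0,1,2,3,4],[0,1,2,3,4]],Ref.mk 2940 1225 [0,1,2,3] [[0,1,2,3,4,5,6],[0,1,2,3,4,5],[0,1,2,3,4,5,6],[0,1,2,3,4,5]]],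
Node.mk [0,820,182,1542,2448,27,976,3114,2225,2529,2937,2938,2939,3663,45,2610] [(0,0),(0,2),(0,3),(1,0),(1,2),(2,1)] [Ref.mk 1711 1206 [0,1,2,3] [[0,1,2,3,4,5],[0,1,2,3,4,5],[0,1,2,3,4,5],[0,1,2,3,4,5]],Ref.mk 1729 1155 [0,2,1,3] [[0,3,2,4,1,5],[3,1,0,4,2,5],[2,0,4,3,5,1],[3,2,1,0,4,5]],Ref.mk 1738 1207 [0,1,2,3] [[0,1,2,3,4,5],[0,1,2,3,4,5],[0,1,2,3,4,5],[0,1,2,3,4,5]],Ref.mk 1747 1155 [0,2,1,3] [[0,3,2,4,1,5],[3,1,0,4,2,5],[2,0,4,5,3,1],[3,2,1,0,4,5]],Ref.mk 1756 1216 [0,1,2,3] [[0,1,2,3,4,5],[0,1,2,3,4,5,6],[0,1,2,3,4,5],[0,1,2,3,4,5]],Ref.mk 1471 1217 [0,1,2,3] [[0,1,2,3,4,5],[0,1,2,3,4,5],[0,1,2,3,4,5],[0,1,2,3,4,5]],Ref.mk 1633 1218 [0,1,2,3] [[0,1,2,3,4,5],[0,1,2,3,4,5],[0,1,2,3,4,5],[0,1,2,3,4,5]],Ref.mk 1714 1222 [0,1,2,3]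 [[0,1,2,3,4,5],[0,1,2,3,4,5],[0,1,2,3,4,5],[0,1,2,3,4,5]],Ref.mk 1795 1155 [2,1,0,3] [[0,4,2,3,1,5],[0,1,2,3,4,5],[0,4,2,3,5,1],[0,2,1,4,3,5]],Ref.mk 1876 1155 [2,1,0,3] [[0,5,2,3,1,4],[0,1,2,3,4,5],[0,4,2,3,5,1],[0,2,1,4,3,5]],Ref.mk 1957 1226 [0,1,2,3] [[0,1,2,3,4,5],[0,1,2,3,4,5],[0,1,2,3,4,5,6],[0,1,2,3,4,5]],Ref.mk 1715 1202 [0,1,2,3] [[0,1,2,3,4,5],[0,1,2,3,4],[0,1,2,3,4],[0,1,2,3,4]],Ref.mk 1716 1202 [0,1,2,3] [[0,1,2,3,4,6],[0,1,2,3,4],[0,1,2,3,4],[0,1,2,3,4]]],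
Node.mk [0,820,182,1542,2448,27,976,3114,2225,2529,2937,2938,2939,3663,45,1146] [(0,0),(0,2),(1,0),(1,1),(1,2),(3,1)] [],
Node.mk [0,820,182,1542,2448,27,976,3114,2225,2529,2937,2938,2939,3663,45,1155] [(0,0),(0,3),(1,2),(1,4),(2,5),(3,1)] [Ref.mk 2917 26 [3,1,2,0] [[0,1,3,2,4],[0,1,2,3],[0,1,3,2],[0,1,3,2]]],
Node.mk [0,820,182,1542,2448,27,976,3114,2225,2529,2937,2938,2939,3663,45,1164,1729,2940,1216] [(0,0),(0,1),(0,2),(0,3),(1,2),(3,1)] [],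
Node.mk [0,820,182,1542,2448,27,976,3114,2225,2529,2937,2938,2939,3663,45,1164,1729,2940,1245] [(0,0),(0,2),(0,3),(1,2),(1,3),(3,1)] [],
Node.mk [0,820,182,1542,2448,27,976,3114,2225,2529,2937,2938,2939,3663,45,1164,1729,2940] [(2,0),(2,1),(2,2),(2,3),(2,4),(2,5)] [Ref.mk 2691 1154 [0,2,1,3] [[0,3,2,4,1,5,6],[3,1,0,4,2,6],[2,0,4,3,5,1],[3,2,1,0,4,5]],Ref.mk 1216 1230 [0,1,2,3] [[0,1,2,3,4,5,6],[0,1,2,3,4,5],[0,1,2,3,4,5,6],[0,1,2,3,4,5]],Ref.mk 1245 1231 [0,1,2,3] [[0,1,2,3,4,5,6],[0,1,2,3,4,5],[0,1,2,3,4,5,6],[0,1,2,3,4,5]]],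
Node.mk [0,820,182,1542,2448,27,976,3114,2225,2529,2937,2938,2939,3663,45,1164,1729,843] [(0,0),(0,1),(0,2),(1,2),(2,1),(3,1)] [],
Node.mk [0,820,182,1542,2448,27,976,3114,2225,2529,2937,2938,2939,3663,45,1164,1729] [(0,0),(0,1),(0,2),(0,3),(0,4),(0,5)] [Ref.mk 978 1157 [0,2,1,3] [[0,3,2,4,1,5,6],[3,1,0,4,2,5],[2,0,4,3,5],[3,2,1,0,4,5]],Ref.mk 2940 1232 [0,1,2,3] [[0,1,2,3,4,5,6],[0,1,2,3,4,5],[0,1,2,3,4,5],[0,1,2,3,4,5]],Ref.mk 843 1233 [0,1,2,3] [[0,1,2,3,4,5,6],[0,1,2,3,4,5],[0,1,2,3,4,5],[0,1,2,3,4,5]]],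
Node.mk [0,820,182,1542,2448,27,976,3114,2225,2529,2937,2938,2939,3663,45,1164,1876,825] [(0,0),(0,2),(0,3),(0,4),(1,2),(3,1)] [],
Node.mk [0,820,182,1542,2448,27,976,3114,2225,2529,2937,2938,2939,3663,45,1164,1876,2940] [(0,0),(0,1),(0,2),(0,3),(0,4),(1,2)] [Ref.mk 1139 1199 [0,1,2,3] [[0,1,2,3,4,5],[0,1,2,3,4],[0,1,2,3,4,5],[0,1,2,3,4]],Ref.mk 824 1138 [0,1,2,3] [[0,5,2,3,4,6,1],[0,1,2,3,4,5],[0,1,2,3,4,5],[0,1,2,3,4,5]],Ref.mk 1140 1199 [0,1,2,3] [[0,1,2,3,4,6],[0,1,2,3,4],[0,1,2,3,4,5],[0,1,2,3,4]],Ref.mk 825 1138 [0,1,2,3] [[0,6,2,3,4,5,1],[0,1,2,3,4,5],[0,1,2,3,4,5],[0,1,2,3,4,5]],Ref.mk 1141 1199 [0,1,2,3] [[0,1,2,3,4,7],[0,1,2,3,4],[0,1,2,3,4,5],[0,1,2,3,4]],Ref.mk 826 1235 [0,1,2,3] [[0,1,2,3,4,6,7],[0,1,2,3,4,5],[0,1,2,3,4,5],[0,1,2,3,4,5]]],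
Node.mk [0,820,182,1542,2448,27,976,3114,2225,2529,2937,2938,2939,3663,45,1164,1876] [(0,0),(0,1),(0,2),(0,3),(0,4),(0,5)] [Ref.mk 1140 1199 [0,1,2,3] [[0,1,2,3,4,6],[0,1,2,3,4],[0,1,2,3,4,5],[0,1,2,3,4]],Ref.mk 825 1235 [0,1,2,3] [[0,1,2,3,4,5,6],[0,1,2,3,4,5],[0,1,2,3,4,5],[0,1,2,3,4,5]],Ref.mk 2940 1236 [0,1,2,3] [[0,1,2,3,4,5,6],[0,1,2,3,4,5],[0,1,2,3,4,5],[0,1,2,3,4,5]]],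
Node.mk [0,820,182,1542,2448,27,976,3114,2225,2529,2937,2938,2939,3663,45,1164] [(0,0),(0,2),(0,3),(1,0),(1,2),(2,1)] [Ref.mk 1729 1234 [0,1,2,3] [[0,1,2,3,4,5],[0,1,2,3,4,5],[0,1,2,3,4,5],[0,1,2,3,4,5]],Ref.mk 1876 1237 [0,1,2,3] [[0,1,2,3,4,5],[0,1,2,3,4,5],[0,1,2,3,4,5],[0,1,2,3,4,5]]],
Node.mk [0,820,182,1542,2448,27,976,3114,2225,2529,2937,2938,2939,3663,45,1173] [(0,0),(0,3),(1,2),(1,4),(2,5),(3,1)] [],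
Node.mk [0,820,182,1542,2448,27,976,3114,2225,2529,2937,2938,2939,3663,45,1191,1756,2940,1216] [(0,0),(0,1),(0,2),(0,3),(1,2),(3,1)] [],
Node.mk [0,820,182,1542,2448,27,976,3114,2225,2529,2937,2938,2939,3663,45,1191,1756,2940,1272] [(0,0),(0,2),(0,3),(1,2),(1,6),(3,1)] [],
Node.mk [0,820,182,1542,2448,27,976,3114,2225,2529,2937,2938,2939,3663,45,1191,1756,2940] [(2,0),(2,1),(2,2),(2,3),(2,4),(2,5)] [Ref.mk 2691 1210 [0,1,2,3] [[0,1,2,3,4,5,6],[0,1,2,3,4,5,6],[0,1,2,3,4,6,5],[0,1,2,3,4,5]],Ref.mk 1216 1240 [0,1,2,3] [[0,1,2,3,4,5,6],[0,1,2,3,4,5,6],[0,1,2,3,4,5,6],[0,1,2,3,4,5]],Ref.mk 1272 1241 [0,1,2,3] [[0,1,2,3,4,5,6],[0,1,2,3,4,5,6],[0,1,2,3,4,5,6],[0,1,2,3,4,5]]],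
Node.mk [0,820,182,1542,2448,27,976,3114,2225,2529,2937,2938,2939,3663,45,1191,1756,870] [(0,0),(0,1),(0,2),(1,2),(2,1),(3,1)] [],
Node.mk [0,820,182,1542,2448,27,976,3114,2225,2529,2937,2938,2939,3663,45,1191,1756] [(0,0),(0,1),(0,2),(0,3),(0,4),(0,5)] [Ref.mk 978 1197 [0,1,2,3] [[0,1,2,3,4,6],[0,1,2,3,4],[0,1,2,3,4],[0,1,2,3,4]],Ref.mk 2940 1242 [0,1,2,3] [[0,1,2,3,4,5,6],[0,1,2,3,4,5,6],[0,1,2,3,4,5],[0,1,2,3,4,5]],Ref.mk 870 1243 [0,1,2,3] [[0,1,2,3,4,5,6],[0,1,2,3,4,5,6],[0,1,2,3,4,5],[0,1,2,3,4,5]]],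
Node.mk [0,820,182,1542,2448,27,976,3114,2225,2529,2937,2938,2939,3663,45,1191,1876,825] [(0,0),(0,2),(0,3),(0,4),(1,2),(3,1)] [],
Node.mk [0,820,182,1542,2448,27,976,3114,2225,2529,2937,2938,2939,3663,45,1191,1876,2940] [(0,0),(0,1),(0,2),(0,3),(0,4),(1,2)] [Ref.mk 1139 1199 [0,1,2,3] [[0,1,2,3,4,5],[0,1,2,3,4],[0,1,2,3,4,5],[0,1,2,3,4]],Ref.mk 824 1148 [0,1,2,3] [[0,5,2,3,4,6,1],[0,1,2,3,4,5,6],[0,1,2,3,4,5],[0,1,2,3,4,5]],Ref.mk 1140 1199 [0,1,2,3] [[0,1,2,3,4,6],[0,1,2,3,4],[0,1,2,3,4,5],[0,1,2,3,4]],Ref.mk 825 1148 [0,1,2,3] [[0,6,2,3,4,5,1],[0,1,2,3,4,5,6],[0,1,2,3,4,5],[0,1,2,3,4,5]],Ref.mk 1141 1199 [0,1,2,3] [[0,1,2,3,4,7],[0,1,2,3,4],[0,1,2,3,4,5],[0,1,2,3,4]],Ref.mk 826 1245 [0,1,2,3] [[0,1,2,3,4,6,7],[0,1,2,3,4,5,6],[0,1,2,3,4,5],[0,1,2,3,4,5]]],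
Node.mk [0,820,182,1542,2448,27,976,3114,2225,2529,2937,2938,2939,3663,45,1191,1876] [(0,0),(0,1),(0,2),(0,3),(0,4),(0,5)] [Ref.mk 1140 1199 [0,1,2,3] [[0,1,2,3,4,6],[0,1,2,3,4],[0,1,2,3,4,5],[0,1,2,3,4]],Ref.mk 825 1245 [0,1,2,3] [[0,1,2,3,4,5,6],[0,1,2,3,4,5,6],[0,1,2,3,4,5],[0,1,2,3,4,5]],Ref.mk 2940 1246 [0,1,2,3] [[0,1,2,3,4,5,6],[0,1,2,3,4,5,6],[0,1,2,3,4,5],[0,1,2,3,4,5]]],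
Node.mk [0,820,182,1542,2448,27,976,3114,2225,2529,2937,2938,2939,3663,45,1191] [(0,0),(0,2),(0,3),(1,0),(1,2),(2,1)] [Ref.mk 1756 1244 [0,1,2,3] [[0,1,2,3,4,5],[0,1,2,3,4,5,6],[0,1,2,3,4,5],[0,1,2,3,4,5]],Ref.mk 1876 1247 [0,1,2,3] [[0,1,2,3,4,5],[0,1,2,3,4,5,6],[0,1,2,3,4,5],[0,1,2,3,4,5]]],
Node.mk [0,820,182,1542,2448,27,976,3114,2225,2529,2937,2938,2939,3663,45,1876,1756,1545] [(0,0),(0,1),(0,2),(0,4),(1,2),(3,2)] [],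
Node.mk [0,820,182,1542,2448,27,976,3114,2225,2529,2937,2938,2939,3663,45,1876,1756,2940] [(0,0),(0,1),(0,2),(0,3),(0,4),(1,2)] [Ref.mk 1544 1249 [0,1,2,3] [[0,1,2,5,4,6,3],[0,1,2,3,4,5,6],[0,1,2,3,4,5],[0,1,2,3,4,5]],Ref.mk 1715 1202 [0,1,2,3] [[0,1,2,3,4,5],[0,1,2,3,4],[0,1,2,3,4],[0,1,2,3,4]],Ref.mk 1545 1249 [0,1,2,3] [[0,1,2,6,4,5,3],[0,1,2,3,4,5,6],[0,1,2,3,4,5],[0,1,2,3,4,5]],Ref.mk 1716 1202 [0,1,2,3] [[0,1,2,3,4,6],[0,1,2,3,4],[0,1,2,3,4],[0,1,2,3,4]],Ref.mk 1546 1249 [0,1,2,3] [[0,1,2,3,4,6,7],[0,1,2,3,4,5,6],[0,1,2,3,4,5],[0,1,2,3,4,5]],Ref.mk 1717 1202 [0,1,2,3] [[0,1,2,3,4,7],[0,1,2,3,4],[0,1,2,3,4],[0,1,2,3,4]]],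
Node.mk [0,820,182,1542,2448,27,976,3114,2225,2529,2937,2938,2939,3663,45,1876,1756] [(0,0),(0,1),(0,2),(0,3),(0,4),(0,5)] [Ref.mk 1545 1249 [0,1,2,3] [[0,1,2,3,4,5,6],[0,1,2,3,4,5,6],[0,1,2,3,4,5],[0,1,2,3,4,5]],Ref.mk 1716 1202 [0,1,2,3] [[0,1,2,3,4,6],[0,1,2,3,4],[0,1,2,3,4],[0,1,2,3,4]],Ref.mk 2940 1250 [0,1,2,3] [[0,1,2,3,4,5,6],[0,1,2,3,4,5,6],[0,1,2,3,4,5],[0,1,2,3,4,5]]],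
Node.mk [0,820,182,1542,2448,27,976,3114,2225,2529,2937,2938,2939,3663,45,1876] [(0,0),(0,4),(1,0),(1,1),(1,2),(1,4)] [Ref.mk 1729 1173 [0,2,1,3] [[0,3,2,4,1,5],[3,1,0,4,2,5],[2,0,4,3,5,1],[3,2,1,0,4,5]],Ref.mk 1747 1173 [0,2,1,3] [[0,3,2,4,1,5],[3,1,0,4,2,5],[2,0,4,5,3,1],[3,2,1,0,4,5]],Ref.mk 1756 1251 [0,1,2,3] [[0,1,2,3,4,5],[0,1,2,3,4,5,6],[0,1,2,3,4,5],[0,1,2,3,4,5]],Ref.mk 1164 1237 [0,1,2,3] [[0,1,2,3,4,5],[0,1,2,3,4,5],[0,1,2,3,4,5],[0,1,2,3,4,5]],Ref.mk 1182 1237 [0,1,2,3] [[0,1,2,3,4,5],[0,1,2,5,4,3],[0,1,2,3,4,5],[0,1,2,3,4,5]],Ref.mk 1191 1247 [0,1,2,3] [[0,1,2,3,4,5],[0,1,2,3,4,5,6],[0,1,2,3,4,5],[0,1,2,3,4,5]]],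
Node.mk [0,820,182,1542,2448,27,976,3114,2225,2529,2937,2938,2939,3663,45] [(1,0),(2,0),(2,1),(2,2),(2,3),(2,4)] [Ref.mk 2610 1227 [0,1,2,3] [[0,1,2,3,4,5],[0,1,2,3,4,5],[0,1,2,3,4,5],[0,1,2,3,4,5]],Ref.mk 1146 1228 [0,1,2,3] [[0,1,2,3,4,5],[0,1,2,3,4,5],[0,1,2,3,4,5],[0,1,2,3,4,5]],Ref.mk 1155 1229 [0,1,2,3] [[0,1,2,3,4,5],[0,1,2,3,4,5],[0,1,2,3,4,5],[0,1,2,3,4,5]],Ref.mk 1164 1238 [0,1,2,3] [[0,1,2,3,4,5],[0,1,2,3,4,5],[0,1,2,3,4,5],[0,1,2,3,4,5]],Ref.mk 1173 1239 [0,1,2,3] [[0,1,2,3,4,5],[0,1,2,3,4,5],[0,1,2,3,4,5],[0,1,2,3,4,5]],Ref.mk 1182 1238 [0,1,2,3] [[0,1,2,3,4,5],[0,1,2,5,4,3],[0,1,2,3,4,5],[0,1,2,3,4,5]],Ref.mk 1191 1248 [0,1,2,3] [[0,1,2,3,4,5],[0,1,2,3,4,5,6],[0,1,2,3,4,5],[0,1,2,3,4,5]],Ref.mk 1876 1252 [0,1,2,3]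 [[0,1,2,3,4,5],[0,1,2,3,4,5],[0,1,2,3,4,5],[0,1,2,3,4,5]]],
Node.mk [0,820,182,1542,2448,27,976,3114,2225,2529,2937,2938,2939,3663,1747,1545] [(0,0),(0,2),(1,0),(1,2),(2,1),(3,2)] [],
Node.mk [0,820,182,1542,2448,27,976,3114,2225,2529,2937,2938,2939,3663,1747,2940,860] [(0,0),(0,1),(0,2),(1,2),(2,1),(3,1)] [Ref.mk 1715 1161 [0,1,2,3] [[0,5,2,3,4,6,1],[0,5,2,3,4,1],[0,1,2,3,4],[0,1,2,3,4,5]]],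
Node.mk [0,820,182,1542,2448,27,976,3114,2225,2529,2937,2938,2939,3663,1747,2940,862] [(0,0),(0,1),(0,2),(1,2),(2,1),(3,1)] [Ref.mk 1717 1202 [0,1,2,3] [[0,1,2,3,4,7],[0,1,2,3,4],[0,1,2,3,4],[0,1,2,3,4]]],
Node.mk [0,820,182,1542,2448,27,976,3114,2225,2529,2937,2938,2939,3663,1747,2940] [(0,0),(0,1),(0,2),(0,3),(0,4),(1,2)] [Ref.mk 1544 1254 [0,1,2,3] [[0,1,2,5,4,6,3],[0,1,2,3,4,5],[0,1,2,3,4],[0,1,2,3,4,5]],Ref.mk 977 1197 [0,1,2,3] [[0,1,2,3,4,5],[0,1,2,3,4],[0,1,2,3,4],[0,1,2,3,4]],Ref.mk 1715 1202 [0,1,2,3] [[0,1,2,3,4,5],[0,1,2,3,4],[0,1,2,3,4],[0,1,2,3,4]],Ref.mk 860 1255 [0,1,2,3] [[0,1,2,3,4,5,6],[0,1,2,3,4,5],[0,1,2,3,4],[0,1,2,3,4,5]],Ref.mk 1545 1254 [0,1,2,3] [[0,1,2,6,4,5,3],[0,1,2,3,4,5],[0,1,2,3,4],[0,1,2,3,4,5]],Ref.mk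 978 1197 [0,1,2,3] [[0,1,2,3,4,6],[0,1,2,3,4],[0,1,2,3,4],[0,1,2,3,4]],Ref.mk 1716 1202 [0,1,2,3] [[0,1,2,3,4,6],[0,1,2,3,4],[0,1,2,3,4],[0,1,2,3,4]],Ref.mk 861 1255 [0,1,2,3] [[0,1,2,3,4,6,5],[0,1,2,3,4,5],[0,1,2,3,4],[0,1,2,3,4,5]],Ref.mk 1546 1254 [0,1,2,3] [[0,1,2,3,4,6,7],[0,1,2,3,4,5],[0,1,2,3,4],[0,1,2,3,4,5]],Ref.mk 979 1197 [0,1,2,3] [[0,1,2,3,4,7],[0,1,2,3,4],[0,1,2,3,4],[0,1,2,3,4]],Ref.mk 1717 1202 [0,1,2,3] [[0,1,2,3,4,7],[0,1,2,3,4],[0,1,2,3,4],[0,1,2,3,4]],Ref.mk 862 1256 [0,1,2,3] [[0,1,2,3,4,5,6,7],[0,1,2,3,4,5],[0,1,2,3,4],[0,1,2,3,4,5]]],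
Node.mk [0,820,182,1542,2448,27,976,3114,2225,2529,2937,2938,2939,3663,1747,861] [(0,0),(0,1),(0,2),(1,2),(2,1),(3,1)] [Ref.mk 1716 1202 [0,1,2,3] [[0,1,2,3,4,6],[0,1,2,3,4],[0,1,2,3,4],[0,1,2,3,4]]],
Node.mk [0,820,182,1542,2448,27,976,3114,2225,2529,2937,2938,2939,3663,1747] [(0,0),(0,1),(0,2),(0,3),(0,4),(0,5)] [Ref.mk 1545 1254 [0,1,2,3] [[0,1,2,3,4,5,6],[0,1,2,3,4,5],[0,1,2,3,4],[0,1,2,3,4,5]],Ref.mk 978 1197 [0,1,2,3] [[0,1,2,3,4,6],[0,1,2,3,4],[0,1,2,3,4],[0,1,2,3,4]],Ref.mk 1716 1202 [0,1,2,3] [[0,1,2,3,4,6],[0,1,2,3,4],[0,1,2,3,4],[0,1,2,3,4]],Ref.mk 2940 1257 [0,1,2,3] [[0,1,2,3,4,5,6],[0,1,2,3,4,5],[0,1,2,3,4],[0,1,2,3,4,5]],Ref.mk 861 1258 [0,1,2,3] [[0,1,2,3,4,5,6],[0,1,2,3,4,5],[0,1,2,3,4],[0,1,2,3,4,5]]],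
Node.mk [0,820,182,1542,2448,27,976,3114,2225,2529,2937,2938,2939,3663,777] [(0,0),(0,2),(0,3),(1,0),(2,0),(2,1)] [Ref.mk 1747 1259 [0,1,2,3] [[0,1,2,3,4,5],[0,1,2,3,4,5],[0,1,2,3,4],[0,1,2,3,4,5]]],
Node.mk [0,820,182,1542,2448,27,976,3114,2225,2529,2937,2938,2939,3663,939] [(0,0),(0,3),(0,4),(2,0),(2,2),(3,1)] [Ref.mk 1747 1259 [0,1,2,3] [[0,1,2,3,4,5],[0,1,2,3,4,5],[0,1,2,3,4],[0,1,2,3,4,5]]],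
Node.mk [0,820,182,1542,2448,27,976,3114,2225,2529,2937,2938,2939,3663,1020] [(0,0),(0,2),(1,2),(2,1),(2,3),(3,1)] [],
Node.mk [0,820,182,1542,2448,27,976,3114,2225,2529,2937,2938,2939,3663,1101,1795] [(2,0),(2,1),(2,2),(2,3),(2,4),(3,1)] [Ref.mk 2610 1234 [2,0,1,3] [[0,1,2,4,3,5],[4,1,0,3,2,5],[2,1,4,0,3,5],[4,1,2,0,3,5]]],
Node.mk [0,820,182,1542,2448,27,976,3114,2225,2529,2937,2938,2939,3663,1101] [(0,0),(0,2),(0,3),(1,0),(1,2),(2,1)] [Ref.mk 1747 1259 [0,1,2,3] [[0,1,2,3,4,5],[0,1,2,3,4,5],[0,1,2,3,4],[0,1,2,3,4,5]],Ref.mk 1795 1263 [0,1,2,3] [[0,1,2,3,4,5],[0,1,2,3,4,5],[0,1,2,3,4],[0,1,2,3,4,5]]],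
Node.mk [0,820,182,1542,2448,27,976,3114,2225,2529,2937,2938,2939,3663,1182,1876,825] [(0,0),(0,2),(0,3),(0,4),(1,2),(3,1)] [],
Node.mk [0,820,182,1542,2448,27,976,3114,2225,2529,2937,2938,2939,3663,1182,1876,2940] [(0,0),(0,1),(0,2),(0,3),(0,4),(1,2)] [Ref.mk 1139 1199 [0,1,2,3] [[0,1,2,3,4,5],[0,1,2,3,4],[0,1,2,3,4,5],[0,1,2,3,4]],Ref.mk 824 1171 [0,1,2,3] [[0,5,2,3,4,6,1],[0,1,2,3,4,5],[0,1,2,3,4,5],[0,1,2,3,4,5]],Ref.mk 1140 1199 [0,1,2,3] [[0,1,2,3,4,6],[0,1,2,3,4],[0,1,2,3,4,5],[0,1,2,3,4]],Ref.mk 825 1171 [0,1,2,3] [[0,6,2,3,4,5,1],[0,1,2,3,4,5],[0,1,2,3,4,5],[0,1,2,3,4,5]],Ref.mk 1141 1199 [0,1,2,3] [[0,1,2,3,4,7],[0,1,2,3,4],[0,1,2,3,4,5],[0,1,2,3,4]],Ref.mk 826 1265 [0,1,2,3] [[0,1,2,3,4,6,7],[0,1,2,3,4,5],[0,1,2,3,4,5],[0,1,2,3,4,5]]],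
Node.mk [0,820,182,1542,2448,27,976,3114,2225,2529,2937,2938,2939,3663,1182,1876] [(0,0),(0,1),(0,2),(0,3),(0,4),(0,5)] [Ref.mk 1140 1199 [0,1,2,3] [[0,1,2,3,4,6],[0,1,2,3,4],[0,1,2,3,4,5],[0,1,2,3,4]],Ref.mk 825 1265 [0,1,2,3] [[0,1,2,3,4,5,6],[0,1,2,3,4,5],[0,1,2,3,4,5],[0,1,2,3,4,5]],Ref.mk 2940 1266 [0,1,2,3] [[0,1,2,3,4,5,6],[0,1,2,3,4,5],[0,1,2,3,4,5],[0,1,2,3,4,5]]],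
Node.mk [0,820,182,1542,2448,27,976,3114,2225,2529,2937,2938,2939,3663,1182] [(0,0),(0,2),(0,3),(1,0),(1,2),(2,1)] [Ref.mk 1747 1259 [0,1,2,3] [[0,1,2,3,4,5],[0,1,2,3,4,5],[0,1,2,3,4],[0,1,2,3,4,5]],Ref.mk 1876 1267 [0,1,2,3] [[0,1,2,3,4,5],[0,1,2,3,4,5],[0,1,2,3,4,5],[0,1,2,3,4,5]]],
Node.mk [0,820,182,1542,2448,27,976,3114,2225,2529,2937,2938,2939,3663] [(1,0),(1,1),(1,2),(1,3),(1,4),(2,1)] [Ref.mk 45 1253 [0,1,2,3] [[0,1,2,3,4,5],[0,1,2,3,4,5],[0,1,2,3,4],[0,1,2,3,4,5]],Ref.mk 1747 1259 [0,1,2,3] [[0,1,2,3,4,5],[0,1,2,3,4,5],[0,1,2,3,4],[0,1,2,3,4,5]],Ref.mk 777 1260 [0,1,2,3] [[0,1,2,3,4,5],[0,1,2,3,4,5],[0,1,2,3,4],[0,1,2,3,4,5]],Ref.mk 939 1261 [0,1,2,3] [[0,1,2,3,4,5],[0,1,2,3,4,5],[0,1,2,3,4],[0,1,2,3,4,5]],Ref.mk 1020 1262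 [0,1,2,3] [[0,1,2,3,4,5],[0,1,2,3,4,5],[0,1,2,3,4],[0,1,2,3,4,5]],Ref.mk 1101 1264 [0,1,2,3] [[0,1,2,3,4,5],[0,1,2,3,4,5],[0,1,2,3,4],[0,1,2,3,4,5]],Ref.mk 1182 1268 [0,1,2,3] [[0,1,2,3,4,5],[0,1,2,3,4,5],[0,1,2,3,4,5],[0,1,2,3,4,5]]],
Node.mk [0,820,182,1542,2448,27,976,3114,2225,2529,2937,2938,2939,3808] [(0,0),(0,1),(1,0),(2,0),(2,2),(3,5)] [],
Node.mk [0,820,182,1542,2448,27,976,3114,2225,2529,2937,2938,2939,3970,2610] [(0,0),(0,1),(0,2),(1,2),(2,1),(3,1)] [Ref.mk 3900 1188 [0,1,2,3] [[0,3,2,4,1,5],[0,1,2,3,4],[0,3,2,4,5,1],[0,5,1,3,4,2]],Ref.mk 1795 1188 [2,1,0,3] [[0,4,2,3,1,5],[0,1,2,3,4],[0,4,2,3,5,1],[0,2,1,4,3,5]]],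
Node.mk [0,820,182,1542,2448,27,976,3114,2225,2529,2937,2938,2939,3970] [(1,0),(2,0),(2,1),(2,2),(2,3),(2,4)] [Ref.mk 2610 1271 [0,1,2,3] [[0,1,2,3,4,5],[0,1,2,3,4],[0,1,2,3,4,5],[0,1,2,3,4,5]]],
Node.mk [0,820,182,1542,2448,27,976,3114,2225,2529,2937,2938,2939,4051,3900,4458] [(0,0),(0,2),(0,3),(1,0),(1,2),(2,1)] [],
Node.mk [0,820,182,1542,2448,27,976,3114,2225,2529,2937,2938,2939,4051,3900] [(3,0),(3,1),(3,2),(3,3),(3,4),(3,5)] [Ref.mk 4392 1259 [0,2,1,3] [[0,1,2,3,4,5],[3,1,0,4,2,5],[2,1,4,0,3],[3,1,5,0,4,6]],Ref.mk 4618 98 [3,1,2,0] [[0,1,3,2,6],[0,1,2,3],[0,1,3,2],[0,1,3,2]],Ref.mk 4458 1273 [0,1,2,3] [[0,1,2,3,4,5],[0,1,2,3,4],[0,1,2,3,4,5],[0,1,2,3,4,5,6]]],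
Node.mk [0,820,182,1542,2448,27,976,3114,2225,2529,2937,2938,2939,4051,1876,1545] [(0,0),(0,1),(0,2),(0,4),(1,0),(1,2)] [],
Node.mk [0,820,182,1542,2448,27,976,3114,2225,2529,2937,2938,2939,4051,1876,2940] [(0,0),(0,1),(0,2),(0,3),(0,4),(1,2)] [Ref.mk 1544 1275 [0,1,2,3] [[0,1,2,5,4,6,3],[0,1,2,3,4],[0,1,2,3,4,5],[0,1,2,3,4,5]],Ref.mk 1139 1199 [0,1,2,3] [[0,1,2,3,4,5],[0,1,2,3,4],[0,1,2,3,4,5],[0,1,2,3,4]],Ref.mk 1545 1275 [0,1,2,3] [[0,1,2,6,4,5,3],[0,1,2,3,4],[0,1,2,3,4,5],[0,1,2,3,4,5]],Ref.mk 1140 1199 [0,1,2,3] [[0,1,2,3,4,6],[0,1,2,3,4],[0,1,2,3,4,5],[0,1,2,3,4]],Ref.mk 1546 1275 [0,1,2,3] [[0,1,2,3,4,6,7],[0,1,2,3,4],[0,1,2,3,4,5],[0,1,2,3,4,5]],Ref.mk 1141 1199 [0,1,2,3] [[0,1,2,3,4,7],[0,1,2,3,4],[0,1,2,3,4,5],[0,1,2,3,4]]],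
Node.mk [0,820,182,1542,2448,27,976,3114,2225,2529,2937,2938,2939,4051,1876] [(0,0),(0,1),(0,2),(0,3),(0,4),(0,5)] [Ref.mk 1545 1275 [0,1,2,3] [[0,1,2,3,4,5,6],[0,1,2,3,4],[0,1,2,3,4,5],[0,1,2,3,4,5]],Ref.mk 1140 1199 [0,1,2,3] [[0,1,2,3,4,6],[0,1,2,3,4],[0,1,2,3,4,5],[0,1,2,3,4]],Ref.mk 2940 1276 [0,1,2,3] [[0,1,2,3,4,5,6],[0,1,2,3,4],[0,1,2,3,4,5],[0,1,2,3,4,5]]],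
Node.mk [0,820,182,1542,2448,27,976,3114,2225,2529,2937,2938,2939,4051] [(0,0),(0,1),(0,2),(1,2),(2,1),(3,1)] [Ref.mk 3900 1274 [0,1,2,3] [[0,1,2,3,4,5],[0,1,2,3,4],[0,1,2,3,4,5],[0,1,2,3,4,5]],Ref.mk 1876 1277 [0,1,2,3] [[0,1,2,3,4,5],[0,1,2,3,4],[0,1,2,3,4,5],[0,1,2,3,4,5]]],
Node.mk [0,820,182,1542,2448,27,976,3114,2225,2529,2937,2938,2939,3900,3757] [(1,0),(1,1),(1,2),(1,3),(1,4),(2,1)] [Ref.mk 45 1193 [1,0,2,3] [[2,3,4,0,1,5],[3,4,0,5,2,1],[0,1,2,3,4],[4,5,2,3,0,1]]]]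

/-- nodes -/
noncomputable def c20 : List Node := [
Node.mk [0,820,182,1542,2448,27,976,3114,2225,2529,2937,2938,2939,3900,3775,3970] [(0,0),(0,2),(1,2),(2,1),(2,3),(2,4)] [Ref.mk 3646 26 [3,1,2,0] [[0,1,3,2,5],[0,1,2,3],[0,1,3,2],[0,1,3,2]],Ref.mk 3808 1270 [0,1,2,3] [[0,1,2,3,4,5],[0,1,2,3,4],[0,1,2,3,4],[0,1,2,3,4,5]],Ref.mk 4051 1274 [0,1,2,3] [[0,1,2,3,4,5],[0,1,2,3,4],[0,1,2,3,4,5],[0,1,2,3,4,5]]],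
Node.mk [0,820,182,1542,2448,27,976,3114,2225,2529,2937,2938,2939,3900,3775] [(0,0),(0,3),(0,4),(2,0),(2,1),(2,2)] [Ref.mk 3889 98 [3,1,2,0] [[0,1,3,2,5],[0,1,2,3],[0,1,3,2],[0,1,3,2]],Ref.mk 3970 1280 [0,1,2,3] [[0,1,2,3,4,5],[0,1,2,3,4,5],[0,1,2,3,4],[0,1,2,3,4,5]],Ref.mk 4051 1274 [0,1,2,3] [[0,1,2,3,4,5],[0,1,2,3,4],[0,1,2,3,4,5],[0,1,2,3,4,5]],Ref.mk 1747 1277 [0,2,1,3] [[0,1,2,3,4,5],[3,1,0,4,2],[2,1,4,0,3,5],[3,1,5,0,4,2]]],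
Node.mk [0,820,182,1542,2448,27,976,3114,2225,2529,2937,2938,2939,3900] [(0,0),(0,3),(1,0),(1,1),(1,2),(1,4)] [Ref.mk 1729 1272 [0,2,1,3] [[0,1,2,3,4,5],[3,1,0,4,2],[2,1,4,0,3],[3,1,5,0,4,2]],Ref.mk 1747 1274 [0,2,1,3] [[0,1,2,3,4,5],[3,1,0,4,2],[2,1,4,0,3,5],[3,1,5,0,4,2]],Ref.mk 3757 1279 [0,1,2,3] [[0,1,2,3,4,5],[0,1,2,3,4],[0,1,2,3,4],[0,1,2,3,4,5]],Ref.mk 3775 1281 [0,1,2,3] [[0,1,2,3,4,5],[0,1,2,3,4,5],[0,1,2,3,4],[0,1,2,3,4,5]]],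
Node.mk [0,820,182,1542,2448,27,976,3114,2225,2529,2937,2938,2939] [(2,1),(3,0),(3,1),(3,2),(3,3),(3,4)] [Ref.mk 3663 1269 [0,1,2,3] [[0,1,2,3,4,5],[0,1,2,3,4],[0,1,2,3,4],[0,1,2,3,4,5]],Ref.mk 3646 26 [3,1,2,0] [[0,1,3,2,5],[0,1,2,3],[0,1,3,2],[0,1,3,2]],Ref.mk 3808 1270 [0,1,2,3] [[0,1,2,3,4,5],[0,1,2,3,4],[0,1,2,3,4],[0,1,2,3,4,5]],Ref.mk 3889 98 [3,1,2,0] [[0,1,3,2,5],[0,1,2,3],[0,1,3,2],[0,1,3,2]],Ref.mk 3970 1272 [0,1,2,3] [[0,1,2,3,4,5],[0,1,2,3,4],[0,1,2,3,4],[0,1,2,3,4,5]],Ref.mk 4051 1278 [0,1,2,3] [[0,1,2,3,4,5],[0,1,2,3,4],[0,1,2,3,4,5],[0,1,2,3,4,5]],Ref.mk 3900 1282 [0,1,2,3] [[0,1,2,3,4,5],[0,1,2,3,4],[0,1,2,3,4],[0,1,2,3,4,5]]],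
Node.mk [0,820,182,1542,2448,27,976,3114,2225,2529,2937,2938] [(0,0),(0,1),(0,2),(0,3),(0,4),(2,1)] [Ref.mk 734 26 [0,1,2,3] [[0,1,2,3,5],[0,1,2,3],[0,1,2,3],[0,1,2,3]],Ref.mk 896 98 [0,1,2,3] [[0,1,2,3,5],[0,1,2,3],[0,1,2,3],[0,1,2,3]],Ref.mk 977 1197 [0,1,2,3] [[0,1,2,3,4,5],[0,1,2,3,4],[0,1,2,3,4],[0,1,2,3,4]],Ref.mk 1058 1198 [0,1,2,3] [[0,1,2,3,4,5],[0,1,2,3,4],[0,1,2,3,4],[0,1,2,3,4]],Ref.mk 1139 1199 [0,1,2,3] [[0,1,2,3,4,5],[0,1,2,3,4],[0,1,2,3,4,5],[0,1,2,3,4]],Ref.mk 1715 1202 [0,1,2,3] [[0,1,2,3,4,5],[0,1,2,3,4],[0,1,2,3,4],[0,1,2,3,4]],Ref.mk 2939 1283 [0,1,2,3] [[0,1,2,3,4,5],[0,1,2,3,4],[0,1,2,3,4],[0,1,2,3,4]]],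
Node.mk [0,820,182,1542,2448,27,976,3114,2225,2529,2937,2939,3663,45,2610,255] [(0,0),(0,3),(1,1),(2,0),(2,3),(3,0)] [],
Node.mk [0,820,182,1542,2448,27,976,3114,2225,2529,2937,2939,3663,45,2610,1713,1729] [(0,0),(0,2),(1,2),(2,3),(3,1),(3,2)] [],
Node.mk [0,820,182,1542,2448,27,976,3114,2225,2529,2937,2939,3663,45,2610,1713,1756] [(0,0),(0,2),(1,2),(2,3),(3,1),(3,2)] [],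
Node.mk [0,820,182,1542,2448,27,976,3114,2225,2529,2937,2939,3663,45,2610,1713,1597] [(0,0),(0,2),(1,2),(2,1),(3,1),(3,2)] [],
Node.mk [0,820,182,1542,2448,27,976,3114,2225,2529,2937,2939,3663,45,2610,1713] [(0,0),(0,3),(1,0),(1,1),(1,2),(1,4)] [Ref.mk 1729 1286 [0,1,2,3] [[0,1,2,3,4,5],[0,1,2,3,4,5],[0,1,2,3,4,5],[0,1,2,3,4,5]],Ref.mk 1747 1286 [0,1,2,3] [[0,1,2,3,4,5],[0,1,2,5,4,3],[0,1,2,3,4,5],[0,1,2,3,4,5]],Ref.mk 1756 1287 [0,1,2,3] [[0,1,2,3,4,5],[0,1,2,3,4,5,6],[0,1,2,3,4,5],[0,1,2,3,4,5]],Ref.mk 1570 1155 [1,2,0,3] [[2,3,4,0,1,5],[3,1,0,4,2,5],[0,4,2,3,5,1],[3,2,1,4,0,5]],Ref.mk 1588 1155 [1,2,0,3] [[2,5,4,0,1,3],[3,1,0,4,2,5],[0,4,2,3,5,1],[3,2,1,4,0,5]],Ref.mk 1597 1288 [0,1,2,3] [[0,1,2,3,4,5],[0,1,2,3,4,5,6],[0,1,2,3,4,5],[0,1,2,3,4,5]]],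
Node.mk [0,820,182,1542,2448,27,976,3114,2225,2529,2937,2939,3663,45,2610,2442] [(0,0),(0,3),(1,1),(1,2),(2,3),(3,3)] [],
Node.mk [0,820,182,1542,2448,27,976,3114,2225,2529,2937,2939,3663,45,2610,3171] [(0,0),(0,2),(0,3),(1,1),(2,3),(3,4)] [],
Node.mk [0,820,182,1542,2448,27,976,3114,2225,2529,2937,2939,3663,45,2610,3900,3970,4392,1065] [(0,0),(0,2),(0,3),(1,0),(1,1),(1,2)] [],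
Node.mk [0,820,182,1542,2448,27,976,3114,2225,2529,2937,2939,3663,45,2610,3900,3970,4392,1110,978] [(0,0),(0,1),(0,2),(0,3),(1,0),(1,2)] [],
Node.mk [0,820,182,1542,2448,27,976,3114,2225,2529,2937,2939,3663,45,2610,3900,3970,4392,1110] [(0,0),(0,1),(0,2),(0,3),(0,4),(1,2)] [Ref.mk 977 1197 [0,1,2,3] [[0,1,2,3,5,4],[0,1,2,3,4],[0,1,2,3,4],[0,1,2,3,4]],Ref.mk 978 1293 [0,1,2,3] [[0,1,2,3,4,5,6],[0,1,2,3,4,5,6],[0,1,2,3,4,5],[0,1,2,3,4,5,6]]],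
Node.mk [0,820,182,1542,2448,27,976,3114,2225,2529,2937,2939,3663,45,2610,3900,3970,4392] [(0,0),(0,1),(1,0),(1,2),(1,4),(3,5)] [Ref.mk 1065 1292 [0,1,2,3] [[0,1,2,3,4,5],[0,1,2,3,4,5],[0,1,2,3,4,5],[0,1,2,3,4,5,6]],Ref.mk 1083 1234 [1,2,0,3] [[2,1,4,0,3,5],[4,1,0,3,2,5],[0,1,2,3,5,4],[3,1,5,4,0,6]],Ref.mk 1101 1234 [1,2,0,3] [[2,1,4,0,5,3],[4,1,0,3,2,5],[0,1,2,3,5,4],[3,1,5,4,0,6]],Ref.mk 1110 1294 [0,1,2,3] [[0,1,2,3,4,5],[0,1,2,3,4,5,6],[0,1,2,3,4,5],[0,1,2,3,4,5,6]],Ref.mk 1795 1155 [2,1,0,3] [[0,4,2,3,1,5],[0,1,2,3,4,5],[0,4,2,3,5,1],[0,2,1,4,3,5]]],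
Node.mk [0,820,182,1542,2448,27,976,3114,2225,2529,2937,2939,3663,45,2610,3900,3970,4458] [(0,0),(0,2),(0,3),(1,0),(1,2),(2,1)] [],
Node.mk [0,820,182,1542,2448,27,976,3114,2225,2529,2937,2939,3663,45,2610,3900,3970] [(3,0),(3,1),(3,2),(3,3),(3,4),(3,5)] [Ref.mk 4392 1295 [0,1,2,3] [[0,1,2,3,4,5],[0,1,2,3,4,5],[0,1,2,3,4,5],[0,1,2,3,4,5,6]],Ref.mk 4618 98 [3,1,2,0] [[0,1,3,2,6],[0,1,2,3],[0,1,3,2],[0,1,3,2]],Ref.mk 4458 1296 [0,1,2,3] [[0,1,2,3,4,5],[0,1,2,3,4,5],[0,1,2,3,4,5],[0,1,2,3,4,5,6]]],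
Node.mk [0,820,182,1542,2448,27,976,3114,2225,2529,2937,2939,3663,45,2610,3900,4132,4392,3732] [(0,0),(0,1),(0,2),(1,0),(1,2),(3,5)] [],
Node.mk [0,820,182,1542,2448,27,976,3114,2225,2529,2937,2939,3663,45,2610,3900,4132,4392,978] [(0,0),(0,1),(0,2),(0,3),(1,0),(1,2)] [],
Node.mk [0,820,182,1542,2448,27,976,3114,2225,2529,2937,2939,3663,45,2610,3900,4132,4392,2940] [(0,0),(0,1),(0,2),(0,3),(0,4),(1,2)] [Ref.mk 3731 1298 [0,1,2,3] [[0,1,2,3,4,6,5],[0,1,2,3,4,5],[0,1,2,3,4,5,6],[0,1,2,3,4,5,6]],Ref.mk 977 1299 [0,1,2,3] [[0,1,2,3,4,6,5],[0,1,2,3,4,5],[0,1,2,3,4,5,6],[0,1,2,3,4,5,6]],Ref.mk 3732 1298 [0,1,2,3] [[0,1,2,3,4,5,6],[0,1,2,3,4,5],[0,1,2,3,4,5,6],[0,1,2,3,4,5,6]],Ref.mk 978 1299 [0,1,2,3] [[0,1,2,3,4,5,6],[0,1,2,3,4,5],[0,1,2,3,4,5,6],[0,1,2,3,4,5,6]],Ref.mk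 3733 1298 [0,1,2,3] [[0,1,2,3,4,6,7],[0,1,2,3,4,5],[0,1,2,3,4,5,6],[0,1,2,3,4,5,6]],Ref.mk 979 1299 [0,1,2,3] [[0,1,2,3,4,6,7],[0,1,2,3,4,5],[0,1,2,3,4,5,6],[0,1,2,3,4,5,6]]],
Node.mk [0,820,182,1542,2448,27,976,3114,2225,2529,2937,2939,3663,45,2610,3900,4132,4392] [(0,0),(0,1),(0,2),(0,3),(0,4),(0,5)] [Ref.mk 3732 1298 [0,1,2,3] [[0,1,2,3,4,5,6],[0,1,2,3,4,5],[0,1,2,3,4,5,6],[0,1,2,3,4,5,6]],Ref.mk 978 1299 [0,1,2,3] [[0,1,2,3,4,5,6],[0,1,2,3,4,5],[0,1,2,3,4,5,6],[0,1,2,3,4,5,6]],Ref.mk 2940 1300 [0,1,2,3] [[0,1,2,3,4,5,6],[0,1,2,3,4,5],[0,1,2,3,4,5,6],[0,1,2,3,4,5,6]]],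
Node.mk [0,820,182,1542,2448,27,976,3114,2225,2529,2937,2939,3663,45,2610,3900,4132,4458] [(0,0),(0,2),(0,3),(1,0),(1,2),(2,1)] [],
Node.mk [0,820,182,1542,2448,27,976,3114,2225,2529,2937,2939,3663,45,2610,3900,4132] [(3,0),(3,1),(3,2),(3,3),(3,4),(3,5)] [Ref.mk 4392 1301 [0,1,2,3] [[0,1,2,3,4,5],[0,1,2,3,4,5],[0,1,2,3,4,5,6],[0,1,2,3,4,5,6]],Ref.mk 4618 98 [3,1,2,0] [[0,1,3,2,6],[0,1,2,3],[0,1,3,2],[0,1,3,2]],Ref.mk 4458 1302 [0,1,2,3] [[0,1,2,3,4,5],[0,1,2,3,4,5],[0,1,2,3,4,5,6],[0,1,2,3,4,5,6]]],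
Node.mk [0,820,182,1542,2448,27,976,3114,2225,2529,2937,2939,3663,45,2610,3900,1957,825] [(0,0),(0,2),(0,3),(0,4),(1,1),(1,2)] [],
Node.mk [0,820,182,1542,2448,27,976,3114,2225,2529,2937,2939,3663,45,2610,3900,1957,1716] [(0,0),(0,1),(0,2),(1,0),(1,1),(1,2)] [],
Node.mk [0,820,182,1542,2448,27,976,3114,2225,2529,2937,2939,3663,45,2610,3900,1957,2940] [(0,0),(0,1),(0,2),(0,3),(0,4),(1,2)] [Ref.mk 824 1304 [0,1,2,3] [[0,1,2,3,4,6,5],[0,1,2,3,4,5],[0,1,2,3,4,5,6],[0,1,2,3,4,5]],Ref.mk 1715 1305 [0,1,2,3] [[0,1,2,3,4,6,5],[0,1,2,3,4,5],[0,1,2,3,4,5,6],[0,1,2,3,4,5]],Ref.mk 825 1127 [0,1,2,3] [[0,6,2,3,4,5,1],[0,1,2,3,4,5],[0,1,2,3,4,5,6],[0,1,2,3,4,5]],Ref.mk 1716 1305 [0,1,2,3] [[0,1,2,3,4,5,6],[0,1,2,3,4,5],[0,1,2,3,4,5,6],[0,1,2,3,4,5]],Ref.mk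 826 1304 [0,1,2,3] [[0,1,2,3,4,6,7],[0,1,2,3,4,5],[0,1,2,3,4,5,6],[0,1,2,3,4,5]],Ref.mk 1717 1305 [0,1,2,3] [[0,1,2,3,4,6,7],[0,1,2,3,4,5],[0,1,2,3,4,5,6],[0,1,2,3,4,5]]],
Node.mk [0,820,182,1542,2448,27,976,3114,2225,2529,2937,2939,3663,45,2610,3900,1957] [(0,0),(0,1),(0,2),(0,3),(0,4),(0,5)] [Ref.mk 825 1304 [0,1,2,3] [[0,1,2,3,4,5,6],[0,1,2,3,4,5],[0,1,2,3,4,5,6],[0,1,2,3,4,5]],Ref.mk 1716 1305 [0,1,2,3] [[0,1,2,3,4,5,6],[0,1,2,3,4,5],[0,1,2,3,4,5,6],[0,1,2,3,4,5]],Ref.mk 2940 1306 [0,1,2,3] [[0,1,2,3,4,5,6],[0,1,2,3,4,5],[0,1,2,3,4,5,6],[0,1,2,3,4,5]]],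
Node.mk [0,820,182,1542,2448,27,976,3114,2225,2529,2937,2939,3663,45,2610,3900] [(0,0),(0,3),(2,0),(2,1),(2,2),(2,3)] [Ref.mk 3970 1297 [0,1,2,3] [[0,1,2,3,4,5],[0,1,2,3,4,5],[0,1,2,3,4,5],[0,1,2,3,4,5]],Ref.mk 4051 1297 [0,1,2,3] [[0,1,2,3,4,5],[0,1,2,3,4,5],[0,1,2,3,5,4],[0,1,2,3,4,5]],Ref.mk 4132 1303 [0,1,2,3] [[0,1,2,3,4,5],[0,1,2,3,4,5],[0,1,2,3,4,5,6],[0,1,2,3,4,5]],Ref.mk 1795 1155 [2,1,0,3] [[0,4,2,3,1,5],[0,1,2,3,4,5],[0,4,2,3,5,1],[0,2,1,4,3,5]],Ref.mk 1876 1155 [2,1,0,3] [[0,5,2,3,1,4],[0,1,2,3,4,5],[0,4,2,3,5,1],[0,2,1,4,3,5]],Ref.mk 1957 1307 [0,1,2,3] [[0,1,2,3,4,5],[0,1,2,3,4,5],[0,1,2,3,4,5,6],[0,1,2,3,4,5]]],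
Node.mk [0,820,182,1542,2448,27,976,3114,2225,2529,2937,2939,3663,45,2610,4629,1729,1245,978] [(0,0),(0,1),(0,2),(0,3),(1,0),(1,2)] [],
Node.mk [0,820,182,1542,2448,27,976,3114,2225,2529,2937,2939,3663,45,2610,4629,1729,1245] [(0,0),(0,1),(0,2),(0,3),(0,4),(1,2)] [Ref.mk 977 1197 [0,1,2,3] [[0,1,2,3,5,4],[0,1,2,3,4],[0,1,2,3,4],[0,1,2,3,4]],Ref.mk 978 1309 [0,1,2,3] [[0,1,2,3,4,5,6],[0,1,2,3,4,5],[0,1,2,3,4,5,6],[0,1,2,3,4,5,6]]],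
Node.mk [0,820,182,1542,2448,27,976,3114,2225,2529,2937,2939,3663,45,2610,4629,1729,1957,4486] [(0,0),(0,1),(0,2),(0,3),(0,4),(1,2)] [],
Node.mk [0,820,182,1542,2448,27,976,3114,2225,2529,2937,2939,3663,45,2610,4629,1729,1957] [(0,0),(0,1),(0,2),(1,0),(1,1),(1,2)] [Ref.mk 1245 1310 [0,1,2,3] [[0,4,2,3,1,5],[3,1,2,0,4,5],[0,6,2,3,4,5,1],[0,2,1,3,4,5,6]],Ref.mk 4486 1311 [0,1,2,3] [[0,1,2,3,4,5],[0,1,2,3,4,5],[0,1,2,3,4,5,6],[0,1,2,3,4,5,6]]],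
Node.mk [0,820,182,1542,2448,27,976,3114,2225,2529,2937,2939,3663,45,2610,4629,1729] [(0,0),(0,1),(2,0),(2,1),(2,2),(2,3)] [Ref.mk 1083 1234 [2,1,0,3] [[0,1,2,3,4,5],[3,1,2,0,4,5],[0,1,2,3,5,4],[0,1,2,4,3,5]],Ref.mk 1164 1234 [2,1,0,3] [[0,1,2,3,5,4],[3,1,2,0,4,5],[0,1,2,3,5,4],[0,1,2,4,3,5]],Ref.mk 1245 1310 [0,1,2,3] [[0,1,2,3,4,5],[0,1,2,3,4,5],[0,1,2,3,4,5,6],[0,1,2,3,4,5,6]],Ref.mk 1795 1140 [2,1,0,3] [[0,4,2,3,1,5],[0,1,2,3,4,5],[0,4,2,3,5,1],[0,2,1,4,3,5]],Ref.mk 1876 1140 [2,1,0,3] [[0,5,2,3,1,4],[0,1,2,3,4,5],[0,4,2,3,5,1],[0,2,1,4,3,5]],Ref.mk 1957 1312 [0,1,2,3] [[0,1,2,3,4,5],[0,1,2,3,4,5],[0,1,2,3,4,5,6],[0,1,2,3,4,5,6]]],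
Node.mk [0,820,182,1542,2448,27,976,3114,2225,2529,2937,2939,3663,45,2610,4629,1756,1765] [(0,0),(0,1),(0,2),(1,2),(2,3),(3,2)] [],
Node.mk [0,820,182,1542,2448,27,976,3114,2225,2529,2937,2939,3663,45,2610,4629,1756,1038] [(0,0),(0,1),(0,2),(0,3),(1,2),(2,3)] [],
Node.mk [0,820,182,1542,2448,27,976,3114,2225,2529,2937,2939,3663,45,2610,4629,1756] [(0,0),(1,0),(1,1),(1,2),(1,4),(1,6)] [Ref.mk 1729 1313 [0,1,2,3] [[0,1,2,3,4,5],[0,1,2,3,4,5],[0,1,2,3,4,5],[0,1,2,3,4,5,6]],Ref.mk 1747 1313 [0,1,2,3] [[0,1,2,3,4,5],[0,1,2,5,4,3],[0,1,2,3,4,5],[0,1,2,3,4,5,6]],Ref.mk 1765 1314 [0,1,2,3] [[0,1,2,3,4,5],[0,1,2,3,4,5,6,7],[0,1,2,3,4,5],[0,1,2,3,4,5,6]],Ref.mk 1002 1262 [1,0,2,3] [[2,1,4,0,3,5],[3,1,0,5,2,4],[0,1,2,3,4],[4,1,2,3,0,5]],Ref.mk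 1020 1262 [1,0,2,3] [[2,1,4,0,5,3],[3,1,0,5,2,4],[0,1,2,3,4],[4,1,2,3,0,5]],Ref.mk 1038 1315 [0,1,2,3] [[0,1,2,3,4,5],[0,1,2,3,4,5,6,7],[0,1,2,3,4,5],[0,1,2,3,4,5,6]]],
Node.mk [0,820,182,1542,2448,27,976,3114,2225,2529,2937,2939,3663,45,2610,4629,4513] [(0,0),(0,3),(0,4),(2,0),(2,1),(2,2)] [Ref.mk 4618 98 [3,1,2,0] [[0,1,3,2,6],[0,1,2,3],[0,1,3,2],[0,1,3,2]],Ref.mk 4699 1312 [0,2,1,3] [[0,1,2,3,4,5],[3,1,0,4,2,5],[2,1,4,0,3,5,6],[3,1,6,0,4,5,2]],Ref.mk 4780 1312 [0,2,1,3] [[0,1,2,3,4,5],[3,1,0,5,2,4],[2,1,4,0,3,5,6],[3,1,6,0,4,5,2]],Ref.mk 4861 1316 [0,2,1,3] [[0,1,2,3,4,5],[3,1,0,4,2,5,6],[2,1,4,0,3,5],[3,1,6,0,4,5,2]],Ref.mk 1756 1316 [0,1,2,3] [[0,1,2,3,4,5],[0,1,2,3,4,5,6],[0,1,2,3,4,5],[0,1,2,3,4,5,6]]],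
Node.mk [0,820,182,1542,2448,27,976,3114,2225,2529,2937,2939,3663,45,2610,4629] [(0,0),(0,3),(1,0),(1,1),(1,2),(1,4)] [Ref.mk 1729 1313 [0,1,2,3] [[0,1,2,3,4,5],[0,1,2,3,4,5],[0,1,2,3,4,5],[0,1,2,3,4,5,6]],Ref.mk 1747 1313 [0,1,2,3] [[0,1,2,3,4,5],[0,1,2,5,4,3],[0,1,2,3,4,5],[0,1,2,3,4,5,6]],Ref.mk 1756 1316 [0,1,2,3] [[0,1,2,3,4,5],[0,1,2,3,4,5,6],[0,1,2,3,4,5],[0,1,2,3,4,5,6]],Ref.mk 4486 1155 [1,2,0,3] [[2,3,4,0,1,5],[3,1,0,4,2,5],[0,4,2,3,5,1],[3,6,1,4,0,5]],Ref.mk 4504 1155 [1,2,0,3] [[2,5,4,0,1,3],[3,1,0,4,2,5],[0,4,2,3,5,1],[3,6,1,4,0,5]],Ref.mk 4513 1317 [0,1,2,3] [[0,1,2,3,4,5],[0,1,2,3,4,5,6],[0,1,2,3,4,5],[0,1,2,3,4,5,6]]],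
Node.mk [0,820,182,1542,2448,27,976,3114,2225,2529,2937,2939,3663,45,2610,1633] [(0,0),(0,4),(1,1),(2,0),(2,2),(3,2)] [],
Node.mk [0,820,182,1542,2448,27,976,3114,2225,2529,2937,2939,3663,45,2610,1714,244] [(0,0),(0,1),(1,0),(2,0),(2,3),(3,0)] [],
Node.mk [0,820,182,1542,2448,27,976,3114,2225,2529,2937,2939,3663,45,2610,1714] [(0,0),(1,2),(2,1),(3,1),(3,2),(3,3)] [Ref.mk 244 1320 [0,1,2,3] [[0,1,2,3,4,5],[0,1,2,3,4,5],[0,1,2,3,4,5],[0,1,2,3,4,5]],Ref.mk 3160 98 [3,1,2,0] [[0,1,3,2,4],[0,1,2,3],[0,1,3,2],[0,1,3,2]],Ref.mk 3889 98 [3,1,2,0] [[0,1,3,2,5],[0,1,2,3],[0,1,3,2],[0,1,3,2]],Ref.mk 4618 98 [3,1,2,0] [[0,1,3,2,6],[0,1,2,3],[0,1,3,2],[0,1,3,2]],Ref.mk 255 1285 [0,1,2,3] [[0,1,2,3,4,5],[0,1,2,3,4,5],[0,1,2,3,4,5],[0,1,2,3,4,5]],Ref.mk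 3171 1291 [0,1,2,3] [[0,1,2,3,4,5],[0,1,2,3,4,5],[0,1,2,3,4,5],[0,1,2,3,4,5]],Ref.mk 3900 1308 [0,1,2,3] [[0,1,2,3,4,5],[0,1,2,3,4,5],[0,1,2,3,4,5],[0,1,2,3,4,5]],Ref.mk 4629 1318 [0,1,2,3] [[0,1,2,3,4,5],[0,1,2,3,4,5],[0,1,2,3,4,5],[0,1,2,3,4,5,6]]],
Node.mk [0,820,182,1542,2448,27,976,3114,2225,2529,2937,2939,3663,45,2610,1957,487] [(0,0),(0,1),(1,0),(2,0),(2,6),(3,0)] [],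
Node.mk [0,820,182,1542,2448,27,976,3114,2225,2529,2937,2939,3663,45,2610,1957,2674] [(0,0),(0,1),(1,0),(1,2),(2,6),(3,3)] [],
Node.mk [0,820,182,1542,2448,27,976,3114,2225,2529,2937,2939,3663,45,2610,1957,4132,1545] [(0,0),(0,1),(0,2),(0,4),(1,0),(1,2)] [],
Node.mk [0,820,182,1542,2448,27,976,3114,2225,2529,2937,2939,3663,45,2610,1957,4132,1221] [(0,0),(0,1),(0,2),(1,0),(1,2),(2,6)] [],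
Node.mk [0,820,182,1542,2448,27,976,3114,2225,2529,2937,2939,3663,45,2610,1957,4132,2940] [(0,0),(0,1),(0,2),(0,3),(0,4),(1,2)] [Ref.mk 1544 1324 [0,1,2,3] [[0,1,2,5,4,6,3],[0,1,2,3,4,5],[0,1,2,3,4,5,6],[0,1,2,3,4,5]],Ref.mk 1220 1325 [0,1,2,3] [[0,1,2,3,4,6,5],[0,1,2,3,4,5],[0,1,2,3,4,5,6],[0,1,2,3,4,5]],Ref.mk 1545 1324 [0,1,2,3] [[0,1,2,6,4,5,3],[0,1,2,3,4,5],[0,1,2,3,4,5,6],[0,1,2,3,4,5]],Ref.mk 1221 1325 [0,1,2,3] [[0,1,2,3,4,5,6],[0,1,2,3,4,5],[0,1,2,3,4,5,6],[0,1,2,3,4,5]],Ref.mk 1546 1324 [0,1,2,3] [[0,1,2,3,4,6,7],[0,1,2,3,4,5],[0,1,2,3,4,5,6],[0,1,2,3,4,5]],Ref.mk 1222 1325 [0,1,2,3] [[0,1,2,3,4,6,7],[0,1,2,3,4,5],[0,1,2,3,4,5,6],[0,1,2,3,4,5]]],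
Node.mk [0,820,182,1542,2448,27,976,3114,2225,2529,2937,2939,3663,45,2610,1957,4132] [(0,0),(0,1),(0,2),(0,3),(0,4),(0,5)] [Ref.mk 1545 1324 [0,1,2,3] [[0,1,2,3,4,5,6],[0,1,2,3,4,5],[0,1,2,3,4,5,6],[0,1,2,3,4,5]],Ref.mk 1221 1325 [0,1,2,3] [[0,1,2,3,4,5,6],[0,1,2,3,4,5],[0,1,2,3,4,5,6],[0,1,2,3,4,5]],Ref.mk 2940 1326 [0,1,2,3] [[0,1,2,3,4,5,6],[0,1,2,3,4,5],[0,1,2,3,4,5,6],[0,1,2,3,4,5]]],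
Node.mk [0,820,182,1542,2448,27,976,3114,2225,2529,2937,2939,3663,45,2610,1957,4861,1545] [(0,0),(0,1),(0,2),(0,4),(1,0),(1,2)] [],
Node.mk [0,820,182,1542,2448,27,976,3114,2225,2529,2937,2939,3663,45,2610,1957,4861,1221] [(0,0),(0,1),(0,2),(1,0),(1,2),(2,6)] [],
Node.mk [0,820,182,1542,2448,27,976,3114,2225,2529,2937,2939,3663,45,2610,1957,4861,2940] [(0,0),(0,1),(0,2),(0,3),(0,4),(1,2)] [Ref.mk 1544 1328 [0,1,2,3] [[0,1,2,5,4,6,3],[0,1,2,3,4,5],[0,1,2,3,4,5,6],[0,1,2,3,4,5,6]],Ref.mk 1220 1329 [0,1,2,3] [[0,1,2,3,4,6,5],[0,1,2,3,4,5],[0,1,2,3,4,5,6],[0,1,2,3,4,5,6]],Ref.mk 1545 1328 [0,1,2,3] [[0,1,2,6,4,5,3],[0,1,2,3,4,5],[0,1,2,3,4,5,6],[0,1,2,3,4,5,6]],Ref.mk 1221 1329 [0,1,2,3] [[0,1,2,3,4,5,6],[0,1,2,3,4,5],[0,1,2,3,4,5,6],[0,1,2,3,4,5,6]],Ref.mk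 1546 1328 [0,1,2,3] [[0,1,2,3,4,6,7],[0,1,2,3,4,5],[0,1,2,3,4,5,6],[0,1,2,3,4,5,6]],Ref.mk 1222 1329 [0,1,2,3] [[0,1,2,3,4,6,7],[0,1,2,3,4,5],[0,1,2,3,4,5,6],[0,1,2,3,4,5,6]]],
Node.mk [0,820,182,1542,2448,27,976,3114,2225,2529,2937,2939,3663,45,2610,1957,4861] [(0,0),(0,1),(0,2),(0,3),(0,4),(0,5)] [Ref.mk 1545 1328 [0,1,2,3] [[0,1,2,3,4,5,6],[0,1,2,3,4,5],[0,1,2,3,4,5,6],[0,1,2,3,4,5,6]],Ref.mk 1221 1329 [0,1,2,3] [[0,1,2,3,4,5,6],[0,1,2,3,4,5],[0,1,2,3,4,5,6],[0,1,2,3,4,5,6]],Ref.mk 2940 1330 [0,1,2,3] [[0,1,2,3,4,5,6],[0,1,2,3,4,5],[0,1,2,3,4,5,6],[0,1,2,3,4,5,6]]],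
Node.mk [0,820,182,1542,2448,27,976,3114,2225,2529,2937,2939,3663,45,2610,1957] [(0,0),(0,2),(2,1),(3,1),(3,2),(3,4)] [Ref.mk 487 1322 [0,1,2,3] [[0,1,2,3,4,5],[0,1,2,3,4,5],[0,1,2,3,4,5,6],[0,1,2,3,4,5]],Ref.mk 2674 1323 [0,1,2,3] [[0,1,2,3,4,5],[0,1,2,3,4,5],[0,1,2,3,4,5,6],[0,1,2,3,4,5]],Ref.mk 4132 1327 [0,1,2,3] [[0,1,2,3,4,5],[0,1,2,3,4,5],[0,1,2,3,4,5,6],[0,1,2,3,4,5]],Ref.mk 4861 1331 [0,1,2,3] [[0,1,2,3,4,5],[0,1,2,3,4,5],[0,1,2,3,4,5,6],[0,1,2,3,4,5,6]],Ref.mk 255 1285 [0,1,2,3] [[0,1,2,3,4,5],[0,1,2,3,4,5],[0,1,2,3,4,5],[0,1,2,3,4,5]],Ref.mk 2442 1290 [0,1,2,3] [[0,1,2,3,4,5],[0,1,2,3,4,5],[0,1,2,3,4,5],[0,1,2,3,4,5]],Ref.mk 3900 1307 [0,1,2,3] [[0,1,2,3,4,5],[0,1,2,3,4,5],[0,1,2,3,4,5,6],[0,1,2,3,4,5]],Ref.mk 4629 1317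 [0,2,1,3] [[0,1,2,3,4,5],[3,1,0,4,2,5,6],[2,1,4,0,3,5],[3,1,6,0,4,5,2]]],
Node.mk [0,820,182,1542,2448,27,976,3114,2225,2529,2937,2939,3663,45,2610,1715,244] [(0,0),(0,1),(1,0),(2,0),(2,3),(3,0)] [],
Node.mk [0,820,182,1542,2448,27,976,3114,2225,2529,2937,2939,3663,45,2610,1715] [(0,0),(1,1),(1,2),(3,1),(3,2),(3,3)] [Ref.mk 244 1333 [0,1,2,3] [[0,1,2,3,4,5],[0,1,2,3,4,5],[0,1,2,3,4,5],[0,1,2,3,4,5]],Ref.mk 3160 98 [3,1,2,0] [[0,1,3,2,4],[0,1,2,3],[0,1,3,2],[0,1,3,2]],Ref.mk 3889 98 [3,1,2,0] [[0,1,3,2,5],[0,1,2,3],[0,1,3,2],[0,1,3,2]],Ref.mk 4618 98 [3,1,2,0] [[0,1,3,2,6],[0,1,2,3],[0,1,3,2],[0,1,3,2]],Ref.mk 86 1290 [0,2,1,3] [[0,1,2,5,4,3],[3,1,0,4,2,5],[2,1,4,0,3,5],[3,1,2,0,4,5]],Ref.mk 3002 1291 [0,2,1,3] [[0,1,2,5,4,3],[3,1,0,4,2,5],[2,1,4,0,3,5],[3,1,2,0,4,5]],Ref.mk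 3731 1308 [0,2,1,3] [[0,1,2,5,4,3],[3,1,0,4,2,5],[2,1,4,0,3,5],[3,1,2,0,4,5]],Ref.mk 4460 1318 [0,1,2,3] [[0,1,2,5,4,3],[0,1,2,3,4,5],[0,1,2,3,4,5],[0,1,6,3,4,5,2]]],
Node.mk [0,820,182,1542,2448,27,976,3114,2225,2529,2937,2939,3663,45,2610,1716,244] [(0,0),(0,1),(1,0),(2,0),(2,3),(3,0)] [],
Node.mk [0,820,182,1542,2448,27,976,3114,2225,2529,2937,2939,3663,45,2610,1716] [(0,0),(1,2),(2,1),(3,1),(3,2),(3,3)] [Ref.mk 244 1335 [0,1,2,3] [[0,1,2,3,4,5,6],[0,1,2,3,4,5],[0,1,2,3,4,5],[0,1,2,3,4,5]],Ref.mk 3160 98 [3,1,2,0] [[0,1,3,2,4],[0,1,2,3],[0,1,3,2],[0,1,3,2]],Ref.mk 3889 98 [3,1,2,0] [[0,1,3,2,5],[0,1,2,3],[0,1,3,2],[0,1,3,2]],Ref.mk 4618 98 [3,1,2,0] [[0,1,3,2,6],[0,1,2,3],[0,1,3,2],[0,1,3,2]],Ref.mk 255 1285 [0,1,2,3] [[0,1,2,3,4,5],[0,1,2,3,4,5],[0,1,2,3,4,5],[0,1,2,3,4,5]],Ref.mk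 3171 1291 [0,1,2,3] [[0,1,2,3,4,5],[0,1,2,3,4,5],[0,1,2,3,4,5],[0,1,2,3,4,5]],Ref.mk 3900 1308 [0,1,2,3] [[0,1,2,3,4,5],[0,1,2,3,4,5],[0,1,2,3,4,5],[0,1,2,3,4,5]],Ref.mk 4629 1318 [0,1,2,3] [[0,1,2,3,4,5],[0,1,2,3,4,5],[0,1,2,3,4,5],[0,1,2,3,4,5,6]]],
Node.mk [0,820,182,1542,2448,27,976,3114,2225,2529,2937,2939,3663,45,2610] [(0,0),(0,1),(0,2),(2,0),(2,1),(3,1)] [Ref.mk 255 1285 [0,1,2,3] [[0,1,2,3,4,5],[0,1,2,3,4,5],[0,1,2,3,4,5],[0,1,2,3,4,5]],Ref.mk 1713 1289 [0,1,2,3] [[0,1,2,3,4,5],[0,1,2,3,4,5],[0,1,2,3,4,5],[0,1,2,3,4,5]],Ref.mk 2442 1290 [0,1,2,3] [[0,1,2,3,4,5],[0,1,2,3,4,5],[0,1,2,3,4,5],[0,1,2,3,4,5]],Ref.mk 3171 1291 [0,1,2,3] [[0,1,2,3,4,5],[0,1,2,3,4,5],[0,1,2,3,4,5],[0,1,2,3,4,5]],Ref.mk 3900 1308 [0,1,2,3] [[0,1,2,3,4,5],[0,1,2,3,4,5],[0,1,2,3,4,5],[0,1,2,3,4,5]],Ref.mk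 4629 1318 [0,1,2,3] [[0,1,2,3,4,5],[0,1,2,3,4,5],[0,1,2,3,4,5],[0,1,2,3,4,5,6]],Ref.mk 1633 1319 [0,1,2,3] [[0,1,2,3,4,5],[0,1,2,3,4,5],[0,1,2,3,4,5],[0,1,2,3,4,5]],Ref.mk 1714 1321 [0,1,2,3] [[0,1,2,3,4,5],[0,1,2,3,4,5],[0,1,2,3,4,5],[0,1,2,3,4,5]],Ref.mk 1795 1155 [2,1,0,3] [[0,4,2,3,1,5],[0,1,2,3,4,5],[0,4,2,3,5,1],[0,2,1,4,3,5]],Ref.mk 1876 1155 [2,1,0,3] [[0,5,2,3,1,4],[0,1,2,3,4,5],[0,4,2,3,5,1],[0,2,1,4,3,5]],Ref.mk 1957 1332 [0,1,2,3] [[0,1,2,3,4,5],[0,1,2,3,4,5],[0,1,2,3,4,5,6],[0,1,2,3,4,5]],Ref.mk 1715 1334 [0,1,2,3] [[0,1,2,3,4,5],[0,1,2,3,4,5],[0,1,2,3,4,5],[0,1,2,3,4,5]],Ref.mk 1716 1336 [0,1,2,3] [[0,1,2,3,4,5,6],[0,1,2,3,4,5],[0,1,2,3,4,5],[0,1,2,3,4,5]]],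
Node.mk [0,820,182,1542,2448,27,976,3114,2225,2529,2937,2939,3663,45,1146] [(0,0),(0,2),(1,0),(1,1),(1,2),(3,1)] [],
Node.mk [0,820,182,1542,2448,27,976,3114,2225,2529,2937,2939,3663,45,1155] [(0,0),(0,3),(1,2),(1,4),(2,5),(3,1)] [Ref.mk 2917 26 [3,1,2,0] [[0,1,3,2,4],[0,1,2,3],[0,1,3,2],[0,1,3,2]]],
Node.mk [0,820,182,1542,2448,27,976,3114,2225,2529,2937,2939,3663,45,1164,1729,978] [(0,0),(0,1),(0,2),(0,3),(1,2),(3,1)] [],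
Node.mk [0,820,182,1542,2448,27,976,3114,2225,2529,2937,2939,3663,45,1164,1729,2940,1216] [(0,0),(0,1),(0,2),(0,3),(1,2),(3,1)] [],
Node.mk [0,820,182,1542,2448,27,976,3114,2225,2529,2937,2939,3663,45,1164,1729,2940] [(2,0),(2,1),(2,2),(2,3),(2,4),(2,5)] [Ref.mk 2691 1337 [0,1,2,3] [[0,1,2,3,4,5],[0,1,2,3,4,5],[0,1,2,3,4,6],[0,1,2,3,4,5]],Ref.mk 1216 1341 [0,1,2,3] [[0,1,2,3,4,5,6],[0,1,2,3,4,5],[0,1,2,3,4,5,6],[0,1,2,3,4,5]],Ref.mk 1245 1340 [2,1,0,3] [[0,1,2,3,5,4,6],[3,1,2,0,4,5],[0,1,2,3,6,4],[0,1,2,4,3,5]]],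
Node.mk [0,820,182,1542,2448,27,976,3114,2225,2529,2937,2939,3663,45,1164,1729,843] [(0,0),(0,1),(0,2),(1,2),(2,1),(3,1)] []]

/-- nodes -/
noncomputable def c21 : List Node := [
Node.mk [0,820,182,1542,2448,27,976,3114,2225,2529,2937,2939,3663,45,1164,1729] [(0,0),(0,1),(0,2),(0,3),(0,4),(0,5)] [Ref.mk 978 1340 [0,1,2,3] [[0,1,2,3,4,5,6],[0,1,2,3,4,5],[0,1,2,3,4,5],[0,1,2,3,4,5]],Ref.mk 2940 1342 [0,1,2,3] [[0,1,2,3,4,5,6],[0,1,2,3,4,5],[0,1,2,3,4,5],[0,1,2,3,4,5]],Ref.mk 843 1343 [0,1,2,3] [[0,1,2,3,4,5,6],[0,1,2,3,4,5],[0,1,2,3,4,5],[0,1,2,3,4,5]]],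
Node.mk [0,820,182,1542,2448,27,976,3114,2225,2529,2937,2939,3663,45,1164,1876,1140] [(0,0),(0,1),(0,2),(1,2),(3,1),(3,2)] [],
Node.mk [0,820,182,1542,2448,27,976,3114,2225,2529,2937,2939,3663,45,1164,1876,825] [(0,0),(0,2),(0,3),(0,4),(1,2),(3,1)] [],
Node.mk [0,820,182,1542,2448,27,976,3114,2225,2529,2937,2939,3663,45,1164,1876] [(0,0),(0,1),(0,2),(0,3),(0,4),(0,5)] [Ref.mk 1140 1345 [0,1,2,3] [[0,1,2,3,4,5,6],[0,1,2,3,4,5],[0,1,2,3,4,5],[0,1,2,3,4,5]],Ref.mk 825 1346 [0,1,2,3] [[0,1,2,3,4,5,6],[0,1,2,3,4,5],[0,1,2,3,4,5],[0,1,2,3,4,5]],Ref.mk 2940 1332 [2,1,0,3] [[0,5,2,3,1,4],[0,1,2,3,4,5],[0,4,2,3,5,6,1],[0,2,1,4,3,5]]],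
Node.mk [0,820,182,1542,2448,27,976,3114,2225,2529,2937,2939,3663,45,1164] [(0,0),(0,2),(0,3),(1,0),(1,2),(2,1)] [Ref.mk 1729 1344 [0,1,2,3] [[0,1,2,3,4,5],[0,1,2,3,4,5],[0,1,2,3,4,5],[0,1,2,3,4,5]],Ref.mk 1876 1347 [0,1,2,3] [[0,1,2,3,4,5],[0,1,2,3,4,5],[0,1,2,3,4,5],[0,1,2,3,4,5]]],
Node.mk [0,820,182,1542,2448,27,976,3114,2225,2529,2937,2939,3663,45,1173] [(0,0),(0,3),(1,2),(1,4),(2,5),(3,1)] [],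
Node.mk [0,820,182,1542,2448,27,976,3114,2225,2529,2937,2939,3663,45,1191,1756,978] [(0,0),(0,1),(0,2),(0,3),(1,2),(3,1)] [],
Node.mk [0,820,182,1542,2448,27,976,3114,2225,2529,2937,2939,3663,45,1191,1756,2940,1216] [(0,0),(0,1),(0,2),(0,3),(1,2),(3,1)] [],
Node.mk [0,820,182,1542,2448,27,976,3114,2225,2529,2937,2939,3663,45,1191,1756,2940,1272] [(0,0),(0,2),(0,3),(1,2),(1,6),(3,1)] [],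
Node.mk [0,820,182,1542,2448,27,976,3114,2225,2529,2937,2939,3663,45,1191,1756,2940] [(2,0),(2,1),(2,2),(2,3),(2,4),(2,5)] [Ref.mk 2691 1337 [0,1,2,3] [[0,1,2,3,4,5],[0,1,2,3,4,5],[0,1,2,3,4,6],[0,1,2,3,4,5]],Ref.mk 1216 1351 [0,1,2,3] [[0,1,2,3,4,5,6],[0,1,2,3,4,5,6],[0,1,2,3,4,5,6],[0,1,2,3,4,5]],Ref.mk 1272 1352 [0,1,2,3] [[0,1,2,3,4,5,6],[0,1,2,3,4,5,6],[0,1,2,3,4,5,6],[0,1,2,3,4,5]]],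
Node.mk [0,820,182,1542,2448,27,976,3114,2225,2529,2937,2939,3663,45,1191,1756,870] [(0,0),(0,1),(0,2),(1,2),(2,1),(3,1)] [],
Node.mk [0,820,182,1542,2448,27,976,3114,2225,2529,2937,2939,3663,45,1191,1756] [(0,0),(0,1),(0,2),(0,3),(0,4),(0,5)] [Ref.mk 978 1350 [0,1,2,3] [[0,1,2,3,4,5,6],[0,1,2,3,4,5,6],[0,1,2,3,4,5],[0,1,2,3,4,5]],Ref.mk 2940 1353 [0,1,2,3] [[0,1,2,3,4,5,6],[0,1,2,3,4,5,6],[0,1,2,3,4,5],[0,1,2,3,4,5]],Ref.mk 870 1354 [0,1,2,3] [[0,1,2,3,4,5,6],[0,1,2,3,4,5,6],[0,1,2,3,4,5],[0,1,2,3,4,5]]],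
Node.mk [0,820,182,1542,2448,27,976,3114,2225,2529,2937,2939,3663,45,1191,1876,1140] [(0,0),(0,1),(0,2),(1,2),(3,1),(3,2)] [],
Node.mk [0,820,182,1542,2448,27,976,3114,2225,2529,2937,2939,3663,45,1191,1876,825] [(0,0),(0,2),(0,3),(0,4),(1,2),(3,1)] [],
Node.mk [0,820,182,1542,2448,27,976,3114,2225,2529,2937,2939,3663,45,1191,1876] [(0,0),(0,1),(0,2),(0,3),(0,4),(0,5)] [Ref.mk 1140 1356 [0,1,2,3] [[0,1,2,3,4,5,6],[0,1,2,3,4,5,6],[0,1,2,3,4,5],[0,1,2,3,4,5]],Ref.mk 825 1357 [0,1,2,3] [[0,1,2,3,4,5,6],[0,1,2,3,4,5,6],[0,1,2,3,4,5],[0,1,2,3,4,5]],Ref.mk 2940 1332 [2,1,0,3] [[0,5,2,3,1,4],[0,1,2,3,4,5],[0,4,2,3,5,6,1],[0,2,1,4,3,5]]],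
Node.mk [0,820,182,1542,2448,27,976,3114,2225,2529,2937,2939,3663,45,1191] [(0,0),(0,2),(0,3),(1,0),(1,2),(2,1)] [Ref.mk 1756 1355 [0,1,2,3] [[0,1,2,3,4,5],[0,1,2,3,4,5,6],[0,1,2,3,4,5],[0,1,2,3,4,5]],Ref.mk 1876 1358 [0,1,2,3] [[0,1,2,3,4,5],[0,1,2,3,4,5,6],[0,1,2,3,4,5],[0,1,2,3,4,5]]],
Node.mk [0,820,182,1542,2448,27,976,3114,2225,2529,2937,2939,3663,45,1876] [(0,0),(0,2),(0,4),(1,0),(1,1),(1,2)] [Ref.mk 1729 1347 [2,1,0,3] [[0,5,2,3,1,4],[0,1,2,3,4,5],[0,4,2,3,5,1],[0,2,1,4,3,5]],Ref.mk 1738 1349 [2,1,0,3] [[0,5,2,3,1,4],[0,1,2,3,4,5],[0,4,2,3,5,1],[0,2,1,4,3,5]],Ref.mk 1747 1347 [2,1,0,3] [[0,5,2,3,1,4],[0,1,2,5,4,3],[0,4,2,3,5,1],[0,2,1,4,3,5]],Ref.mk 1756 1358 [2,1,0,3] [[0,5,2,3,1,4],[0,1,2,3,4,5,6],[0,4,2,3,5,1],[0,2,1,4,3,5]],Ref.mk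 1164 1347 [0,1,2,3] [[0,1,2,3,4,5],[0,1,2,3,4,5],[0,1,2,3,4,5],[0,1,2,3,4,5]],Ref.mk 1173 1349 [0,1,2,3] [[0,1,2,3,4,5],[0,1,2,3,4,5],[0,1,2,3,4,5],[0,1,2,3,4,5]],Ref.mk 1182 1347 [0,1,2,3] [[0,1,2,3,4,5],[0,1,2,5,4,3],[0,1,2,3,4,5],[0,1,2,3,4,5]],Ref.mk 1191 1358 [0,1,2,3] [[0,1,2,3,4,5],[0,1,2,3,4,5,6],[0,1,2,3,4,5],[0,1,2,3,4,5]]],
Node.mk [0,820,182,1542,2448,27,976,3114,2225,2529,2937,2939,3663,45] [(1,0),(2,0),(2,1),(2,2),(2,3),(2,4)] [Ref.mk 2610 1337 [0,1,2,3] [[0,1,2,3,4,5],[0,1,2,3,4,5],[0,1,2,3,4,5],[0,1,2,3,4,5]],Ref.mk 1146 1338 [0,1,2,3] [[0,1,2,3,4,5],[0,1,2,3,4,5],[0,1,2,3,4,5],[0,1,2,3,4,5]],Ref.mk 1155 1339 [0,1,2,3] [[0,1,2,3,4,5],[0,1,2,3,4,5],[0,1,2,3,4,5],[0,1,2,3,4,5]],Ref.mk 1164 1348 [0,1,2,3] [[0,1,2,3,4,5],[0,1,2,3,4,5],[0,1,2,3,4,5],[0,1,2,3,4,5]],Ref.mk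 1173 1349 [0,1,2,3] [[0,1,2,3,4,5],[0,1,2,3,4,5],[0,1,2,3,4,5],[0,1,2,3,4,5]],Ref.mk 1182 1348 [0,1,2,3] [[0,1,2,3,4,5],[0,1,2,5,4,3],[0,1,2,3,4,5],[0,1,2,3,4,5]],Ref.mk 1191 1359 [0,1,2,3] [[0,1,2,3,4,5],[0,1,2,3,4,5,6],[0,1,2,3,4,5],[0,1,2,3,4,5]],Ref.mk 1876 1360 [0,1,2,3] [[0,1,2,3,4,5],[0,1,2,3,4,5],[0,1,2,3,4,5],[0,1,2,3,4,5]]],
Node.mk [0,820,182,1542,2448,27,976,3114,2225,2529,2937,2939,3663,1747,2610,1263,865] [(0,0),(0,1),(0,2),(1,2),(2,1),(3,1)] [],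
Node.mk [0,820,182,1542,2448,27,976,3114,2225,2529,2937,2939,3663,1747,2610,1263,1029] [(0,0),(0,1),(0,2),(0,3),(1,2),(3,1)] [],
Node.mk [0,820,182,1542,2448,27,976,3114,2225,2529,2937,2939,3663,1747,2610,1263] [(1,0),(1,1),(1,2),(1,3),(1,4),(1,5)] [Ref.mk 54 1355 [0,1,2,3] [[0,1,2,3,4,5],[0,1,2,3,4,6,5],[0,1,2,3,5,6],[0,1,2,3,4,5]],Ref.mk 865 1362 [0,1,2,3] [[0,1,2,3,4,5],[0,1,2,3,4,5,6],[0,1,2,3,4,5,6],[0,1,2,3,4,5]],Ref.mk 1029 1363 [0,1,2,3] [[0,1,2,3,4,5],[0,1,2,3,4,5,6],[0,1,2,3,4,5,6],[0,1,2,3,4,5]]],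
Node.mk [0,820,182,1542,2448,27,976,3114,2225,2529,2937,2939,3663,1747,2610,1957,1756] [(0,0),(0,1),(0,2),(1,2),(2,3),(3,2)] [],
Node.mk [0,820,182,1542,2448,27,976,3114,2225,2529,2937,2939,3663,1747,2610,1957,1597] [(0,0),(0,1),(0,2),(0,4),(1,2),(3,2)] [],
Node.mk [0,820,182,1542,2448,27,976,3114,2225,2529,2937,2939,3663,1747,2610,1957] [(1,0),(1,1),(1,2),(1,3),(1,4),(1,5)] [Ref.mk 54 1358 [2,1,0,3] [[0,6,2,3,1,5],[0,1,2,3,4,6,5],[0,4,2,3,5,1],[0,2,1,4,3,5]],Ref.mk 1756 1365 [0,1,2,3] [[0,1,2,3,4,5],[0,1,2,3,4,5,6],[0,1,2,3,4,5,6],[0,1,2,3,4,5]],Ref.mk 1597 1366 [0,1,2,3] [[0,1,2,3,4,5],[0,1,2,3,4,5,6],[0,1,2,3,4,5,6],[0,1,2,3,4,5]]],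
Node.mk [0,820,182,1542,2448,27,976,3114,2225,2529,2937,2939,3663,1747,2610] [(0,0),(0,1),(2,0),(2,1),(2,2),(2,3)] [Ref.mk 1101 1162 [2,0,1,3] [[0,3,2,4,1,5],[3,1,0,5,2,4],[2,5,4,0,3],[4,2,1,0,3,5]],Ref.mk 1182 1162 [2,0,1,3] [[0,3,2,5,1,4],[3,1,0,5,2,4],[2,5,4,0,3],[4,2,1,0,3,5]],Ref.mk 1263 1364 [0,1,2,3] [[0,1,2,3,4,5],[0,1,2,3,4,5],[0,1,2,3,4,5,6],[0,1,2,3,4,5]],Ref.mk 1795 1173 [2,1,0,3] [[0,4,2,3,1,5],[0,1,2,3,4,5],[0,4,2,3,5,1],[0,2,1,4,3,5]],Ref.mk 1876 1173 [2,1,0,3] [[0,5,2,3,1,4],[0,1,2,3,4,5],[0,4,2,3,5,1],[0,2,1,4,3,5]],Ref.mk 1957 1367 [0,1,2,3] [[0,1,2,3,4,5],[0,1,2,3,4,5],[0,1,2,3,4,5,6],[0,1,2,3,4,5]]],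
Node.mk [0,820,182,1542,2448,27,976,3114,2225,2529,2937,2939,3663,1747,1182,865] [(0,0),(0,1),(0,2),(1,2),(2,1),(3,1)] [],
Node.mk [0,820,182,1542,2448,27,976,3114,2225,2529,2937,2939,3663,1747,1182,1029] [(0,0),(0,1),(0,2),(0,3),(1,2),(3,1)] [],
Node.mk [0,820,182,1542,2448,27,976,3114,2225,2529,2937,2939,3663,1747,1182] [(1,0),(1,1),(1,2),(1,3),(1,4),(1,5)] [Ref.mk 54 1355 [0,1,2,3] [[0,1,2,3,4,5],[0,1,2,3,4,6,5],[0,1,2,3,4,5],[0,1,2,3,4,5]],Ref.mk 865 1369 [0,1,2,3] [[0,1,2,3,4,5],[0,1,2,3,4,5,6],[0,1,2,3,4,5],[0,1,2,3,4,5]],Ref.mk 1029 1370 [0,1,2,3] [[0,1,2,3,4,5],[0,1,2,3,4,5,6],[0,1,2,3,4,5],[0,1,2,3,4,5]]],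
Node.mk [0,820,182,1542,2448,27,976,3114,2225,2529,2937,2939,3663,1747,1876,1756] [(0,0),(0,1),(0,2),(1,2),(2,3),(3,2)] [],
Node.mk [0,820,182,1542,2448,27,976,3114,2225,2529,2937,2939,3663,1747,1876,1597] [(0,0),(0,1),(0,2),(0,4),(1,2),(3,2)] [],
Node.mk [0,820,182,1542,2448,27,976,3114,2225,2529,2937,2939,3663,1747,1876] [(1,0),(1,1),(1,2),(1,3),(1,4),(1,5)] [Ref.mk 54 1358 [2,1,0,3] [[0,5,2,3,1,4],[0,1,2,3,4,6,5],[0,4,2,3,5,1],[0,2,1,4,3,5]],Ref.mk 1756 1372 [0,1,2,3] [[0,1,2,3,4,5],[0,1,2,3,4,5,6],[0,1,2,3,4,5],[0,1,2,3,4,5]],Ref.mk 1597 1373 [0,1,2,3] [[0,1,2,3,4,5],[0,1,2,3,4,5,6],[0,1,2,3,4,5],[0,1,2,3,4,5]]],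
Node.mk [0,820,182,1542,2448,27,976,3114,2225,2529,2937,2939,3663,1747] [(0,1),(2,0),(2,1),(2,2),(2,3),(2,4)] [Ref.mk 2610 1368 [0,1,2,3] [[0,1,2,3,4,5],[0,1,2,3,4,5],[0,1,2,3,4,5],[0,1,2,3,4,5]],Ref.mk 1182 1371 [0,1,2,3] [[0,1,2,3,4,5],[0,1,2,3,4,5],[0,1,2,3,4,5],[0,1,2,3,4,5]],Ref.mk 1876 1374 [0,1,2,3] [[0,1,2,3,4,5],[0,1,2,3,4,5],[0,1,2,3,4,5],[0,1,2,3,4,5]]],
Node.mk [0,820,182,1542,2448,27,976,3114,2225,2529,2937,2939,3663,777] [(0,0),(0,2),(0,3),(1,0),(2,0),(2,1)] [Ref.mk 1747 1375 [0,1,2,3] [[0,1,2,3,4,5],[0,1,2,3,4,5],[0,1,2,3,4],[0,1,2,3,4,5]]],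
Node.mk [0,820,182,1542,2448,27,976,3114,2225,2529,2937,2939,3663,939] [(0,0),(0,3),(0,4),(2,0),(2,2),(3,1)] [Ref.mk 1747 1375 [0,1,2,3] [[0,1,2,3,4,5],[0,1,2,3,4,5],[0,1,2,3,4],[0,1,2,3,4,5]]],
Node.mk [0,820,182,1542,2448,27,976,3114,2225,2529,2937,2939,3663,1020] [(0,0),(0,2),(1,2),(2,1),(2,3),(3,1)] [],
Node.mk [0,820,182,1542,2448,27,976,3114,2225,2529,2937,2939,3663,1101] [(0,0),(0,2),(0,3),(0,5),(1,0),(2,1)] [Ref.mk 2935 1170 [0,1,2,3] [[0,1,2,3,4,5],[0,1,2,3,4,5],[0,1,2,3,4],[0,1,2,3,4,5]],Ref.mk 1747 1375 [0,1,2,3] [[0,1,2,3,4,5],[0,1,2,3,4,5],[0,1,2,3,4],[0,1,2,3,4,5]],Ref.mk 1795 1375 [1,0,2,3] [[2,1,4,0,5,3],[3,1,0,5,2,4],[0,1,2,4,3],[4,1,2,3,0,5]],Ref.mk 2938 1264 [0,1,2,3] [[0,1,2,3,4,5],[0,1,2,3,4,5],[0,1,2,3,4],[0,1,2,3,4,5]],Ref.mk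 2940 1361 [1,0,2,3] [[2,1,4,0,5,3],[3,1,0,5,2,6],[0,1,2,4,3],[4,1,2,3,0,5]]],
Node.mk [0,820,182,1542,2448,27,976,3114,2225,2529,2937,2939,3663,1182] [(0,0),(0,2),(0,3),(1,0),(1,2),(2,1)] [Ref.mk 1747 1371 [0,1,2,3] [[0,1,2,3,4,5],[0,1,2,3,4,5],[0,1,2,3,4,5],[0,1,2,3,4,5]],Ref.mk 1876 1374 [2,1,0,3] [[0,5,2,3,1,4],[0,1,2,3,4,5],[0,4,2,3,5,1],[0,2,1,4,3,5]]],
Node.mk [0,820,182,1542,2448,27,976,3114,2225,2529,2937,2939,3663] [(1,0),(1,1),(1,2),(1,3),(1,4),(2,1)] [Ref.mk 45 1361 [0,1,2,3] [[0,1,2,3,4,5],[0,1,2,3,4,5],[0,1,2,3,4],[0,1,2,3,4,5]],Ref.mk 1747 1375 [0,1,2,3] [[0,1,2,3,4,5],[0,1,2,3,4,5],[0,1,2,3,4],[0,1,2,3,4,5]],Ref.mk 777 1376 [0,1,2,3] [[0,1,2,3,4,5],[0,1,2,3,4,5],[0,1,2,3,4],[0,1,2,3,4,5]],Ref.mk 939 1377 [0,1,2,3]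 [[0,1,2,3,4,5],[0,1,2,3,4,5],[0,1,2,3,4],[0,1,2,3,4,5]],Ref.mk 1020 1378 [0,1,2,3] [[0,1,2,3,4,5],[0,1,2,3,4,5],[0,1,2,3,4],[0,1,2,3,4,5]],Ref.mk 1101 1379 [0,1,2,3] [[0,1,2,3,4,5],[0,1,2,3,4,5],[0,1,2,3,4],[0,1,2,3,4,5]],Ref.mk 1182 1380 [0,1,2,3] [[0,1,2,3,4,5],[0,1,2,3,4,5],[0,1,2,3,4,5],[0,1,2,3,4,5]]],
Node.mk [0,820,182,1542,2448,27,976,3114,2225,2529,2937,2939,3808] [(0,0),(0,1),(1,0),(2,0),(2,2),(3,5)] [],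
Node.mk [0,820,182,1542,2448,27,976,3114,2225,2529,2937,2939,3970,2610,3900,4458] [(0,0),(0,2),(0,3),(1,0),(1,2),(2,1)] [],
Node.mk [0,820,182,1542,2448,27,976,3114,2225,2529,2937,2939,3970,2610,3900] [(3,0),(3,1),(3,2),(3,3),(3,4),(3,5)] [Ref.mk 4392 1375 [0,2,1,3] [[0,1,2,3,4,5],[3,1,0,5,2,4],[2,1,4,0,3],[3,1,5,0,4,6]],Ref.mk 4618 98 [3,1,2,0] [[0,1,3,2,6],[0,1,2,3],[0,1,3,2],[0,1,3,2]],Ref.mk 4458 1383 [0,1,2,3] [[0,1,2,3,4,5],[0,1,2,3,4],[0,1,2,3,4,5],[0,1,2,3,4,5,6]]],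
Node.mk [0,820,182,1542,2448,27,976,3114,2225,2529,2937,2939,3970,2610] [(0,0),(0,1),(0,2),(1,2),(2,1),(3,1)] [Ref.mk 3900 1384 [0,1,2,3] [[0,1,2,3,4,5],[0,1,2,3,4],[0,1,2,3,4,5],[0,1,2,3,4,5]],Ref.mk 1795 1188 [2,1,0,3] [[0,4,2,3,1,5],[0,1,2,3,4],[0,4,2,3,5,1],[0,2,1,4,3,5]]],
Node.mk [0,820,182,1542,2448,27,976,3114,2225,2529,2937,2939,3970] [(1,0),(2,0),(2,1),(2,2),(2,3),(2,4)] [Ref.mk 2610 1385 [0,1,2,3] [[0,1,2,3,4,5],[0,1,2,3,4],[0,1,2,3,4,5],[0,1,2,3,4,5]]],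
Node.mk [0,820,182,1542,2448,27,976,3114,2225,2529,2937,2939,4051,3900,4458] [(0,0),(0,2),(0,3),(1,0),(1,2),(2,1)] [],
Node.mk [0,820,182,1542,2448,27,976,3114,2225,2529,2937,2939,4051,3900] [(3,0),(3,1),(3,2),(3,3),(3,4),(3,5)] [Ref.mk 4392 1375 [0,2,1,3] [[0,1,2,3,4,5],[3,1,0,4,2,5],[2,1,4,0,3],[3,1,5,0,4,6]],Ref.mk 4618 98 [3,1,2,0] [[0,1,3,2,6],[0,1,2,3],[0,1,3,2],[0,1,3,2]],Ref.mk 4458 1387 [0,1,2,3] [[0,1,2,3,4,5],[0,1,2,3,4],[0,1,2,3,4,5],[0,1,2,3,4,5,6]]],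
Node.mk [0,820,182,1542,2448,27,976,3114,2225,2529,2937,2939,4051,1876,1545] [(0,0),(0,1),(0,2),(0,4),(1,0),(1,2)] [],
Node.mk [0,820,182,1542,2448,27,976,3114,2225,2529,2937,2939,4051,1876,1140] [(0,0),(0,1),(0,2),(1,0),(1,2),(2,5)] [],
Node.mk [0,820,182,1542,2448,27,976,3114,2225,2529,2937,2939,4051,1876,2940] [(0,0),(0,1),(0,2),(0,3),(0,4),(1,2)] [Ref.mk 1544 1389 [0,1,2,3] [[0,1,2,5,4,6,3],[0,1,2,3,4],[0,1,2,3,4,5],[0,1,2,3,4,5]],Ref.mk 1139 1390 [0,1,2,3] [[0,1,2,3,4,6,5],[0,1,2,3,4],[0,1,2,3,4,5],[0,1,2,3,4,5]],Ref.mk 1545 1389 [0,1,2,3] [[0,1,2,6,4,5,3],[0,1,2,3,4],[0,1,2,3,4,5],[0,1,2,3,4,5]],Ref.mk 1140 1390 [0,1,2,3] [[0,1,2,3,4,5,6],[0,1,2,3,4],[0,1,2,3,4,5],[0,1,2,3,4,5]],Ref.mk 1546 1389 [0,1,2,3] [[0,1,2,3,4,6,7],[0,1,2,3,4],[0,1,2,3,4,5],[0,1,2,3,4,5]],Ref.mk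 1141 1390 [0,1,2,3] [[0,1,2,3,4,6,7],[0,1,2,3,4],[0,1,2,3,4,5],[0,1,2,3,4,5]]],
Node.mk [0,820,182,1542,2448,27,976,3114,2225,2529,2937,2939,4051,1876] [(0,0),(0,1),(0,2),(0,3),(0,4),(0,5)] [Ref.mk 1545 1389 [0,1,2,3] [[0,1,2,3,4,5,6],[0,1,2,3,4],[0,1,2,3,4,5],[0,1,2,3,4,5]],Ref.mk 1140 1390 [0,1,2,3] [[0,1,2,3,4,5,6],[0,1,2,3,4],[0,1,2,3,4,5],[0,1,2,3,4,5]],Ref.mk 2940 1391 [0,1,2,3] [[0,1,2,3,4,5,6],[0,1,2,3,4],[0,1,2,3,4,5],[0,1,2,3,4,5]]],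
Node.mk [0,820,182,1542,2448,27,976,3114,2225,2529,2937,2939,4051] [(0,0),(0,1),(0,2),(1,2),(2,1),(3,1)] [Ref.mk 3900 1388 [0,1,2,3] [[0,1,2,3,4,5],[0,1,2,3,4],[0,1,2,3,4,5],[0,1,2,3,4,5]],Ref.mk 1876 1392 [0,1,2,3] [[0,1,2,3,4,5],[0,1,2,3,4],[0,1,2,3,4,5],[0,1,2,3,4,5]]],
Node.mk [0,820,182,1542,2448,27,976,3114,2225,2529,2937,2939,3900,3757] [(1,0),(1,1),(1,2),(1,3),(1,4),(2,1)] [Ref.mk 45 1193 [1,0,2,3] [[2,3,4,0,1,5],[3,4,0,5,2,1],[0,1,2,3,4],[4,5,2,3,0,1]]],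
Node.mk [0,820,182,1542,2448,27,976,3114,2225,2529,2937,2939,3900,3775,3970] [(0,0),(0,2),(1,2),(2,1),(2,3),(2,4)] [Ref.mk 3646 26 [3,1,2,0] [[0,1,3,2,5],[0,1,2,3],[0,1,3,2],[0,1,3,2]],Ref.mk 3808 1382 [0,1,2,3] [[0,1,2,3,4,5],[0,1,2,3,4],[0,1,2,3,4],[0,1,2,3,4,5]],Ref.mk 4051 1388 [0,1,2,3] [[0,1,2,3,4,5],[0,1,2,3,4],[0,1,2,3,4,5],[0,1,2,3,4,5]]],
Node.mk [0,820,182,1542,2448,27,976,3114,2225,2529,2937,2939,3900,3775] [(0,0),(0,3),(0,4),(2,0),(2,1),(2,2)] [Ref.mk 3889 98 [3,1,2,0] [[0,1,3,2,5],[0,1,2,3],[0,1,3,2],[0,1,3,2]],Ref.mk 3970 1395 [0,1,2,3] [[0,1,2,3,4,5],[0,1,2,3,4,5],[0,1,2,3,4],[0,1,2,3,4,5]],Ref.mk 4051 1388 [0,1,2,3] [[0,1,2,3,4,5],[0,1,2,3,4],[0,1,2,3,4,5],[0,1,2,3,4,5]],Ref.mk 1747 1388 [1,2,0,3] [[2,5,4,0,1,3],[3,1,0,4,2],[0,4,2,3,5,1],[3,5,1,4,0,2]]],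
Node.mk [0,820,182,1542,2448,27,976,3114,2225,2529,2937,2939,3900] [(0,0),(0,3),(1,0),(1,1),(1,2),(1,4)] [Ref.mk 1729 1386 [0,2,1,3] [[0,1,2,3,4,5],[3,1,0,4,2],[2,1,4,0,3],[3,1,5,0,4,2]],Ref.mk 1747 1388 [0,2,1,3] [[0,1,2,3,4,5],[3,1,0,4,2],[2,1,4,0,3,5],[3,1,5,0,4,2]],Ref.mk 3757 1394 [0,1,2,3] [[0,1,2,3,4,5],[0,1,2,3,4],[0,1,2,3,4],[0,1,2,3,4,5]],Ref.mk 3775 1396 [0,1,2,3] [[0,1,2,3,4,5],[0,1,2,3,4,5],[0,1,2,3,4],[0,1,2,3,4,5]]],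
Node.mk [0,820,182,1542,2448,27,976,3114,2225,2529,2937,2939] [(2,1),(3,0),(3,1),(3,2),(3,3),(3,4)] [Ref.mk 3663 1381 [0,1,2,3] [[0,1,2,3,4,5],[0,1,2,3,4],[0,1,2,3,4],[0,1,2,3,4,5]],Ref.mk 3646 26 [3,1,2,0] [[0,1,3,2,5],[0,1,2,3],[0,1,3,2],[0,1,3,2]],Ref.mk 3808 1382 [0,1,2,3] [[0,1,2,3,4,5],[0,1,2,3,4],[0,1,2,3,4],[0,1,2,3,4,5]],Ref.mk 3889 98 [3,1,2,0] [[0,1,3,2,5],[0,1,2,3],[0,1,3,2],[0,1,3,2]],Ref.mk 3970 1386 [0,1,2,3] [[0,1,2,3,4,5],[0,1,2,3,4],[0,1,2,3,4],[0,1,2,3,4,5]],Ref.mk 4051 1393 [0,1,2,3] [[0,1,2,3,4,5],[0,1,2,3,4],[0,1,2,3,4,5],[0,1,2,3,4,5]],Ref.mk 3900 1397 [0,1,2,3] [[0,1,2,3,4,5],[0,1,2,3,4],[0,1,2,3,4],[0,1,2,3,4,5]]],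
Node.mk [0,820,182,1542,2448,27,976,3114,2225,2529,2937] [(0,0),(0,2),(0,3),(1,0),(2,1),(3,2)] [Ref.mk 2935 1196 [0,1,2,3] [[0,1,2,3,4],[0,1,2,3,4],[0,1,2,3,4],[0,1,2,3,4]],Ref.mk 2938 1284 [0,1,2,3] [[0,1,2,3,4],[0,1,2,3,4],[0,1,2,3,4],[0,1,2,3,4]],Ref.mk 2939 1398 [0,1,2,3] [[0,1,2,3,4,5],[0,1,2,3,4],[0,1,2,3,4],[0,1,2,3,4]]],
Node.mk [0,820,182,1542,2448,27,976,3114,2225,2529,2938,2935,977] [(0,0),(0,2),(1,0),(1,2),(2,3),(3,1)] [],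
Node.mk [0,820,182,1542,2448,27,976,3114,2225,2529,2938,2935,1058] [(0,0),(0,2),(1,0),(1,1),(1,2),(3,1)] [],
Node.mk [0,820,182,1542,2448,27,976,3114,2225,2529,2938,2935,1139] [(0,0),(0,2),(1,0),(1,1),(1,2),(3,1)] [],
Node.mk [0,820,182,1542,2448,27,976,3114,2225,2529,2938,2935,1715,1729] [(0,0),(0,2),(1,2),(2,1),(2,3),(3,2)] [],
Node.mk [0,820,182,1542,2448,27,976,3114,2225,2529,2938,2935,1715,1747] [(0,0),(0,1),(0,2),(1,2),(2,3),(3,2)] [Ref.mk 860 1201 [0,2,1,3] [[0,5,2,1,4,3],[3,1,0,4,2],[2,5,4,0,3,1],[3,1,2,0,4]]],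
Node.mk [0,820,182,1542,2448,27,976,3114,2225,2529,2938,2935,1715] [(0,0),(1,0),(1,1),(1,2),(1,4),(2,1)] [Ref.mk 1729 1403 [0,1,2,3] [[0,1,2,3,4,5],[0,1,2,3,4],[0,1,2,3,4],[0,1,2,3,4]],Ref.mk 1747 1404 [0,1,2,3] [[0,1,2,3,4,5],[0,1,2,3,4,5],[0,1,2,3,4],[0,1,2,3,4]],Ref.mk 1002 1401 [0,2,1,3] [[0,1,2,5,4,3],[3,1,0,4,2],[2,1,4,0,3],[3,1,2,0,4]],Ref.mk 1020 1402 [0,2,1,3] [[0,1,2,5,4,3],[3,1,0,4,2],[2,1,4,0,3,5],[3,1,2,0,4]]],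
Node.mk [0,820,182,1542,2448,27,976,3114,2225,2529,2938,2935,2939,3663,45,2610,1711,1545] [(0,0),(0,2),(1,0),(1,2),(2,1),(3,2)] [],
Node.mk [0,820,182,1542,2448,27,976,3114,2225,2529,2938,2935,2939,3663,45,2610,1711,825] [(0,0),(0,2),(1,1),(1,2),(2,1),(3,1)] []]

/-- nodes -/
noncomputable def c22 : List Node := [
Node.mk [0,820,182,1542,2448,27,976,3114,2225,2529,2938,2935,2939,3663,45,2610,1711,2940] [(0,0),(0,1),(0,2),(0,3),(0,4),(1,2)] [Ref.mk 1544 1203 [0,1,2,3] [[0,1,2,5,4,6,3],[0,1,2,3,4,5],[0,1,2,3,4,5],[0,1,2,3,4,5]],Ref.mk 977 1400 [0,1,2,3] [[0,1,2,3,4,5],[0,1,2,3,4],[0,1,2,3,4],[0,1,2,3,4]],Ref.mk 824 1407 [0,1,2,3] [[0,1,2,3,4,6,5],[0,1,2,3,4,5],[0,1,2,3,4,5],[0,1,2,3,4,5]],Ref.mk 1715 1405 [0,1,2,3] [[0,1,2,3,4,5],[0,1,2,3,4],[0,1,2,3,4],[0,1,2,3,4]],Ref.mk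 1545 1203 [0,1,2,3] [[0,1,2,6,4,5,3],[0,1,2,3,4,5],[0,1,2,3,4,5],[0,1,2,3,4,5]],Ref.mk 978 1400 [0,1,2,3] [[0,1,2,3,4,6],[0,1,2,3,4],[0,1,2,3,4],[0,1,2,3,4]],Ref.mk 825 1407 [0,1,2,3] [[0,1,2,3,4,5,6],[0,1,2,3,4,5],[0,1,2,3,4,5],[0,1,2,3,4,5]],Ref.mk 1716 1405 [0,1,2,3] [[0,1,2,3,4,6],[0,1,2,3,4],[0,1,2,3,4],[0,1,2,3,4]],Ref.mk 1546 1406 [0,1,2,3] [[0,1,2,3,4,6,7],[0,1,2,3,4,5],[0,1,2,3,4,5],[0,1,2,3,4,5]],Ref.mk 979 1400 [0,1,2,3] [[0,1,2,3,4,7],[0,1,2,3,4],[0,1,2,3,4],[0,1,2,3,4]],Ref.mk 826 1407 [0,1,2,3] [[0,1,2,3,4,6,7],[0,1,2,3,4,5],[0,1,2,3,4,5],[0,1,2,3,4,5]],Ref.mk 1717 1405 [0,1,2,3] [[0,1,2,3,4,7],[0,1,2,3,4],[0,1,2,3,4],[0,1,2,3,4]]],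
Node.mk [0,820,182,1542,2448,27,976,3114,2225,2529,2938,2935,2939,3663,45,2610,1711] [(0,0),(0,1),(0,2),(0,3),(0,4),(0,5)] [Ref.mk 1545 1406 [0,1,2,3] [[0,1,2,3,4,5,6],[0,1,2,3,4,5],[0,1,2,3,4,5],[0,1,2,3,4,5]],Ref.mk 978 1400 [0,1,2,3] [[0,1,2,3,4,6],[0,1,2,3,4],[0,1,2,3,4],[0,1,2,3,4]],Ref.mk 825 1407 [0,1,2,3] [[0,1,2,3,4,5,6],[0,1,2,3,4,5],[0,1,2,3,4,5],[0,1,2,3,4,5]],Ref.mk 1716 1405 [0,1,2,3] [[0,1,2,3,4,6],[0,1,2,3,4],[0,1,2,3,4],[0,1,2,3,4]],Ref.mk 2940 1408 [0,1,2,3] [[0,1,2,3,4,5,6],[0,1,2,3,4,5],[0,1,2,3,4,5],[0,1,2,3,4,5]]],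
Node.mk [0,820,182,1542,2448,27,976,3114,2225,2529,2938,2935,2939,3663,45,2610,1738] [(0,0),(0,1),(1,2),(1,4),(2,3),(3,2)] [],
Node.mk [0,820,182,1542,2448,27,976,3114,2225,2529,2938,2935,2939,3663,45,2610,1756,1545] [(0,0),(0,2),(1,0),(1,2),(2,1),(3,2)] [],
Node.mk [0,820,182,1542,2448,27,976,3114,2225,2529,2938,2935,2939,3663,45,2610,1756,2940,869] [(0,0),(0,1),(0,2),(1,2),(2,1),(3,1)] [Ref.mk 1715 1405 [0,1,2,3] [[0,1,2,3,4,5],[0,1,2,3,4],[0,1,2,3,4],[0,1,2,3,4]]],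
Node.mk [0,820,182,1542,2448,27,976,3114,2225,2529,2938,2935,2939,3663,45,2610,1756,2940,871] [(0,0),(0,1),(0,2),(1,2),(2,1),(3,1)] [Ref.mk 1717 1405 [0,1,2,3] [[0,1,2,3,4,7],[0,1,2,3,4],[0,1,2,3,4],[0,1,2,3,4]]],
Node.mk [0,820,182,1542,2448,27,976,3114,2225,2529,2938,2935,2939,3663,45,2610,1756,2940] [(0,0),(0,1),(0,2),(0,3),(0,4),(1,2)] [Ref.mk 1544 1411 [0,1,2,3] [[0,1,2,3,4,6,5],[0,1,2,3,4,5,6],[0,1,2,3,4,5],[0,1,2,3,4,5]],Ref.mk 977 1400 [0,1,2,3] [[0,1,2,3,4,5],[0,1,2,3,4],[0,1,2,3,4],[0,1,2,3,4]],Ref.mk 1715 1405 [0,1,2,3] [[0,1,2,3,4,5],[0,1,2,3,4],[0,1,2,3,4],[0,1,2,3,4]],Ref.mk 869 1412 [0,1,2,3] [[0,1,2,3,4,5,6],[0,1,2,3,4,5,6],[0,1,2,3,4,5],[0,1,2,3,4,5]],Ref.mk 1545 1411 [0,1,2,3] [[0,1,2,3,4,5,6],[0,1,2,3,4,5,6],[0,1,2,3,4,5],[0,1,2,3,4,5]],Ref.mk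 978 1400 [0,1,2,3] [[0,1,2,3,4,6],[0,1,2,3,4],[0,1,2,3,4],[0,1,2,3,4]],Ref.mk 1716 1405 [0,1,2,3] [[0,1,2,3,4,6],[0,1,2,3,4],[0,1,2,3,4],[0,1,2,3,4]],Ref.mk 870 1412 [0,1,2,3] [[0,1,2,3,4,6,5],[0,1,2,3,4,5,6],[0,1,2,3,4,5],[0,1,2,3,4,5]],Ref.mk 1546 1411 [0,1,2,3] [[0,1,2,3,4,6,7],[0,1,2,3,4,5,6],[0,1,2,3,4,5],[0,1,2,3,4,5]],Ref.mk 979 1400 [0,1,2,3] [[0,1,2,3,4,7],[0,1,2,3,4],[0,1,2,3,4],[0,1,2,3,4]],Ref.mk 1717 1405 [0,1,2,3] [[0,1,2,3,4,7],[0,1,2,3,4],[0,1,2,3,4],[0,1,2,3,4]],Ref.mk 871 1413 [0,1,2,3] [[0,1,2,3,4,5,6,7],[0,1,2,3,4,5,6],[0,1,2,3,4,5],[0,1,2,3,4,5]]],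
Node.mk [0,820,182,1542,2448,27,976,3114,2225,2529,2938,2935,2939,3663,45,2610,1756,870] [(0,0),(0,1),(0,2),(1,2),(2,1),(3,1)] [Ref.mk 1716 1405 [0,1,2,3] [[0,1,2,3,4,6],[0,1,2,3,4],[0,1,2,3,4],[0,1,2,3,4]]],
Node.mk [0,820,182,1542,2448,27,976,3114,2225,2529,2938,2935,2939,3663,45,2610,1756] [(0,0),(0,1),(0,2),(0,3),(0,4),(0,5)] [Ref.mk 1545 1411 [0,1,2,3] [[0,1,2,3,4,5,6],[0,1,2,3,4,5,6],[0,1,2,3,4,5],[0,1,2,3,4,5]],Ref.mk 978 1400 [0,1,2,3] [[0,1,2,3,4,6],[0,1,2,3,4],[0,1,2,3,4],[0,1,2,3,4]],Ref.mk 1716 1405 [0,1,2,3] [[0,1,2,3,4,6],[0,1,2,3,4],[0,1,2,3,4],[0,1,2,3,4]],Ref.mk 2940 1414 [0,1,2,3] [[0,1,2,3,4,5,6],[0,1,2,3,4,5,6],[0,1,2,3,4,5],[0,1,2,3,4,5]],Ref.mk 870 1415 [0,1,2,3] [[0,1,2,3,4,5,6],[0,1,2,3,4,5,6],[0,1,2,3,4,5],[0,1,2,3,4,5]]],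
Node.mk [0,820,182,1542,2448,27,976,3114,2225,2529,2938,2935,2939,3663,45,2610,255] [(0,0),(0,3),(1,1),(2,0),(2,3),(3,0)] [],
Node.mk [0,820,182,1542,2448,27,976,3114,2225,2529,2938,2935,2939,3663,45,2610,1713,1545] [(0,0),(0,2),(1,0),(1,2),(2,1),(3,2)] [],
Node.mk [0,820,182,1542,2448,27,976,3114,2225,2529,2938,2935,2939,3663,45,2610,1713,825] [(0,0),(0,2),(1,1),(1,2),(2,1),(3,1)] [],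
Node.mk [0,820,182,1542,2448,27,976,3114,2225,2529,2938,2935,2939,3663,45,2610,1713,2940] [(0,0),(0,1),(0,2),(0,3),(0,4),(1,2)] [Ref.mk 1544 1418 [0,1,2,3] [[0,1,2,3,4,6,5],[0,1,2,3,4,5],[0,1,2,3,4,5],[0,1,2,3,4,5]],Ref.mk 977 1400 [0,1,2,3] [[0,1,2,3,4,5],[0,1,2,3,4],[0,1,2,3,4],[0,1,2,3,4]],Ref.mk 824 1419 [0,1,2,3] [[0,5,2,3,4,6,1],[0,1,2,3,4,5],[0,1,2,3,4,5],[0,1,2,3,4,5]],Ref.mk 1715 1418 [0,2,1,3] [[0,1,2,3,4,6,5],[3,1,0,4,2,5],[2,1,4,0,3,5],[3,1,2,0,4,5]],Ref.mk 1545 1418 [0,1,2,3] [[0,1,2,3,4,5,6],[0,1,2,3,4,5],[0,1,2,3,4,5],[0,1,2,3,4,5]],Ref.mk 978 1400 [0,1,2,3] [[0,1,2,3,4,6],[0,1,2,3,4],[0,1,2,3,4],[0,1,2,3,4]],Ref.mk 825 1419 [0,1,2,3] [[0,6,2,3,4,5,1],[0,1,2,3,4,5],[0,1,2,3,4,5],[0,1,2,3,4,5]],Ref.mk 1716 1418 [0,2,1,3]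 [[0,1,2,3,4,5,6],[3,1,0,4,2,5],[2,1,4,0,3,5],[3,1,2,0,4,5]],Ref.mk 1546 1418 [0,1,2,3] [[0,1,2,3,4,6,7],[0,1,2,3,4,5],[0,1,2,3,4,5],[0,1,2,3,4,5]],Ref.mk 979 1400 [0,1,2,3] [[0,1,2,3,4,7],[0,1,2,3,4],[0,1,2,3,4],[0,1,2,3,4]],Ref.mk 826 1419 [0,1,2,3] [[0,1,2,3,4,6,7],[0,1,2,3,4,5],[0,1,2,3,4,5],[0,1,2,3,4,5]],Ref.mk 1717 1418 [0,2,1,3] [[0,1,2,3,4,6,7],[3,1,0,4,2,5],[2,1,4,0,3,5],[3,1,2,0,4,5]]],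
Node.mk [0,820,182,1542,2448,27,976,3114,2225,2529,2938,2935,2939,3663,45,2610,1713] [(0,0),(0,1),(0,2),(0,3),(0,4),(0,5)] [Ref.mk 1545 1418 [0,1,2,3] [[0,1,2,3,4,5,6],[0,1,2,3,4,5],[0,1,2,3,4,5],[0,1,2,3,4,5]],Ref.mk 978 1400 [0,1,2,3] [[0,1,2,3,4,6],[0,1,2,3,4],[0,1,2,3,4],[0,1,2,3,4]],Ref.mk 825 1419 [0,1,2,3] [[0,1,2,3,4,5,6],[0,1,2,3,4,5],[0,1,2,3,4,5],[0,1,2,3,4,5]],Ref.mk 1716 1418 [0,2,1,3] [[0,1,2,3,4,5,6],[3,1,0,4,2,5],[2,1,4,0,3,5],[3,1,2,0,4,5]],Ref.mk 2940 1420 [0,1,2,3] [[0,1,2,3,4,5,6],[0,1,2,3,4,5],[0,1,2,3,4,5],[0,1,2,3,4,5]]],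
Node.mk [0,820,182,1542,2448,27,976,3114,2225,2529,2938,2935,2939,3663,45,2610,2442] [(0,0),(0,3),(1,1),(1,2),(2,3),(3,3)] [],
Node.mk [0,820,182,1542,2448,27,976,3114,2225,2529,2938,2935,2939,3663,45,2610,3171] [(0,0),(0,2),(0,3),(1,1),(2,3),(3,4)] [],
Node.mk [0,820,182,1542,2448,27,976,3114,2225,2529,2938,2935,2939,3663,45,2610,3900,3732] [(0,0),(0,2),(0,3),(1,0),(1,2),(2,1)] [Ref.mk 1716 1405 [0,1,2,3] [[0,1,2,3,4,6],[0,1,2,3,4],[0,1,2,3,4],[0,1,2,3,4]]],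
Node.mk [0,820,182,1542,2448,27,976,3114,2225,2529,2938,2935,2939,3663,45,2610,3900,825] [(0,0),(0,2),(1,1),(1,2),(2,1),(3,1)] [],
Node.mk [0,820,182,1542,2448,27,976,3114,2225,2529,2938,2935,2939,3663,45,2610,3900,2940] [(0,0),(0,1),(0,2),(0,3),(0,4),(1,2)] [Ref.mk 3731 1424 [0,1,2,3] [[0,1,2,3,4,6,5],[0,1,2,3,4,5],[0,1,2,3,4,5],[0,1,2,3,4,5]],Ref.mk 977 1400 [0,1,2,3] [[0,1,2,3,4,5],[0,1,2,3,4],[0,1,2,3,4],[0,1,2,3,4]],Ref.mk 824 1425 [0,1,2,3] [[0,5,2,3,4,6,1],[0,1,2,3,4,5],[0,1,2,3,4,5],[0,1,2,3,4,5]],Ref.mk 1715 1405 [0,1,2,3] [[0,1,2,3,4,5],[0,1,2,3,4],[0,1,2,3,4],[0,1,2,3,4]],Ref.mk 3732 1424 [0,1,2,3] [[0,1,2,3,4,5,6],[0,1,2,3,4,5],[0,1,2,3,4,5],[0,1,2,3,4,5]],Ref.mk 978 1400 [0,1,2,3] [[0,1,2,3,4,6],[0,1,2,3,4],[0,1,2,3,4],[0,1,2,3,4]],Ref.mk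 825 1425 [0,1,2,3] [[0,6,2,3,4,5,1],[0,1,2,3,4,5],[0,1,2,3,4,5],[0,1,2,3,4,5]],Ref.mk 1716 1405 [0,1,2,3] [[0,1,2,3,4,6],[0,1,2,3,4],[0,1,2,3,4],[0,1,2,3,4]],Ref.mk 3733 1424 [0,1,2,3] [[0,1,2,3,4,6,7],[0,1,2,3,4,5],[0,1,2,3,4,5],[0,1,2,3,4,5]],Ref.mk 979 1400 [0,1,2,3] [[0,1,2,3,4,7],[0,1,2,3,4],[0,1,2,3,4],[0,1,2,3,4]],Ref.mk 826 1425 [0,1,2,3] [[0,1,2,3,4,6,7],[0,1,2,3,4,5],[0,1,2,3,4,5],[0,1,2,3,4,5]],Ref.mk 1717 1405 [0,1,2,3] [[0,1,2,3,4,7],[0,1,2,3,4],[0,1,2,3,4],[0,1,2,3,4]]],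
Node.mk [0,820,182,1542,2448,27,976,3114,2225,2529,2938,2935,2939,3663,45,2610,3900] [(0,0),(0,1),(0,2),(0,3),(0,4),(0,5)] [Ref.mk 3732 1424 [0,1,2,3] [[0,1,2,3,4,5,6],[0,1,2,3,4,5],[0,1,2,3,4,5],[0,1,2,3,4,5]],Ref.mk 978 1400 [0,1,2,3] [[0,1,2,3,4,6],[0,1,2,3,4],[0,1,2,3,4],[0,1,2,3,4]],Ref.mk 825 1425 [0,1,2,3] [[0,1,2,3,4,5,6],[0,1,2,3,4,5],[0,1,2,3,4,5],[0,1,2,3,4,5]],Ref.mk 1716 1405 [0,1,2,3] [[0,1,2,3,4,6],[0,1,2,3,4],[0,1,2,3,4],[0,1,2,3,4]],Ref.mk 2940 1426 [0,1,2,3] [[0,1,2,3,4,5,6],[0,1,2,3,4,5],[0,1,2,3,4,5],[0,1,2,3,4,5]]],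
Node.mk [0,820,182,1542,2448,27,976,3114,2225,2529,2938,2935,2939,3663,45,2610,4629,4461] [(0,0),(0,2),(0,3),(1,0),(1,2),(2,1)] [Ref.mk 1716 1405 [0,1,2,3] [[0,1,2,3,4,6],[0,1,2,3,4],[0,1,2,3,4],[0,1,2,3,4]]],
Node.mk [0,820,182,1542,2448,27,976,3114,2225,2529,2938,2935,2939,3663,45,2610,4629,825] [(0,0),(0,2),(1,1),(1,2),(2,1),(3,1)] [],
Node.mk [0,820,182,1542,2448,27,976,3114,2225,2529,2938,2935,2939,3663,45,2610,4629,2940] [(0,0),(0,1),(0,2),(0,3),(0,4),(1,2)] [Ref.mk 4460 1428 [0,1,2,3] [[0,1,2,3,4,6,5],[0,1,2,3,4,5],[0,1,2,3,4,5],[0,1,2,3,4,5,6]],Ref.mk 977 1400 [0,1,2,3] [[0,1,2,3,4,5],[0,1,2,3,4],[0,1,2,3,4],[0,1,2,3,4]],Ref.mk 824 1429 [0,1,2,3] [[0,5,2,3,4,6,1],[0,1,2,3,4,5],[0,1,2,3,4,5],[0,1,2,3,4,5,6]],Ref.mk 1715 1428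 [0,2,1,3] [[0,1,2,3,4,6,5],[3,1,0,4,2,5],[2,1,4,0,3,5],[3,1,6,0,4,5,2]],Ref.mk 4461 1428 [0,1,2,3] [[0,1,2,3,4,5,6],[0,1,2,3,4,5],[0,1,2,3,4,5],[0,1,2,3,4,5,6]],Ref.mk 978 1400 [0,1,2,3] [[0,1,2,3,4,6],[0,1,2,3,4],[0,1,2,3,4],[0,1,2,3,4]],Ref.mk 825 1429 [0,1,2,3] [[0,6,2,3,4,5,1],[0,1,2,3,4,5],[0,1,2,3,4,5],[0,1,2,3,4,5,6]],Ref.mk 1716 1428 [0,2,1,3] [[0,1,2,3,4,5,6],[3,1,0,4,2,5],[2,1,4,0,3,5],[3,1,6,0,4,5,2]],Ref.mk 4462 1428 [0,1,2,3] [[0,1,2,3,4,6,7],[0,1,2,3,4,5],[0,1,2,3,4,5],[0,1,2,3,4,5,6]],Ref.mk 979 1400 [0,1,2,3] [[0,1,2,3,4,7],[0,1,2,3,4],[0,1,2,3,4],[0,1,2,3,4]],Ref.mk 826 1429 [0,1,2,3] [[0,1,2,3,4,6,7],[0,1,2,3,4,5],[0,1,2,3,4,5],[0,1,2,3,4,5,6]],Ref.mk 1717 1428 [0,2,1,3] [[0,1,2,3,4,6,7],[3,1,0,4,2,5],[2,1,4,0,3,5],[3,1,6,0,4,5,2]]],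
Node.mk [0,820,182,1542,2448,27,976,3114,2225,2529,2938,2935,2939,3663,45,2610,4629] [(0,0),(0,1),(0,2),(0,3),(0,4),(0,5)] [Ref.mk 4461 1428 [0,1,2,3] [[0,1,2,3,4,5,6],[0,1,2,3,4,5],[0,1,2,3,4,5],[0,1,2,3,4,5,6]],Ref.mk 978 1400 [0,1,2,3] [[0,1,2,3,4,6],[0,1,2,3,4],[0,1,2,3,4],[0,1,2,3,4]],Ref.mk 825 1429 [0,1,2,3] [[0,1,2,3,4,5,6],[0,1,2,3,4,5],[0,1,2,3,4,5],[0,1,2,3,4,5,6]],Ref.mk 1716 1428 [0,2,1,3] [[0,1,2,3,4,5,6],[3,1,0,4,2,5],[2,1,4,0,3,5],[3,1,6,0,4,5,2]],Ref.mk 2940 1430 [0,1,2,3] [[0,1,2,3,4,5,6],[0,1,2,3,4,5],[0,1,2,3,4,5],[0,1,2,3,4,5,6]]],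
Node.mk [0,820,182,1542,2448,27,976,3114,2225,2529,2938,2935,2939,3663,45,2610] [(0,0),(0,2),(0,4),(1,0),(1,2),(3,1)] [Ref.mk 1711 1409 [0,1,2,3] [[0,1,2,3,4,5],[0,1,2,3,4,5],[0,1,2,3,4,5],[0,1,2,3,4,5]],Ref.mk 1729 1252 [0,2,1,3] [[0,3,2,4,1,5],[3,1,0,4,2,5],[2,0,4,3,5,1],[3,2,1,0,4,5]],Ref.mk 1738 1410 [0,1,2,3] [[0,1,2,3,4,5],[0,1,2,3,4,5],[0,1,2,3,4,5],[0,1,2,3,4,5]],Ref.mk 1747 1252 [0,2,1,3] [[0,3,2,4,1,5],[3,1,0,4,2,5],[2,0,4,5,3,1],[3,2,1,0,4,5]],Ref.mk 1756 1416 [0,1,2,3] [[0,1,2,3,4,5],[0,1,2,3,4,5,6],[0,1,2,3,4,5],[0,1,2,3,4,5]],Ref.mk 255 1417 [0,1,2,3] [[0,1,2,3,4,5],[0,1,2,3,4,5],[0,1,2,3,4,5],[0,1,2,3,4,5]],Ref.mk 1713 1421 [0,1,2,3] [[0,1,2,3,4,5],[0,1,2,3,4,5],[0,1,2,3,4,5],[0,1,2,3,4,5]],Ref.mk 2442 1422 [0,1,2,3]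 [[0,1,2,3,4,5],[0,1,2,3,4,5],[0,1,2,3,4,5],[0,1,2,3,4,5]],Ref.mk 3171 1423 [0,1,2,3] [[0,1,2,3,4,5],[0,1,2,3,4,5],[0,1,2,3,4,5],[0,1,2,3,4,5]],Ref.mk 3900 1427 [0,1,2,3] [[0,1,2,3,4,5],[0,1,2,3,4,5],[0,1,2,3,4,5],[0,1,2,3,4,5]],Ref.mk 4629 1431 [0,1,2,3] [[0,1,2,3,4,5],[0,1,2,3,4,5],[0,1,2,3,4,5],[0,1,2,3,4,5,6]],Ref.mk 1715 1405 [0,1,2,3] [[0,1,2,3,4,5],[0,1,2,3,4],[0,1,2,3,4],[0,1,2,3,4]],Ref.mk 1716 1405 [0,1,2,3] [[0,1,2,3,4,6],[0,1,2,3,4],[0,1,2,3,4],[0,1,2,3,4]]],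
Node.mk [0,820,182,1542,2448,27,976,3114,2225,2529,2938,2935,2939,3663,45,1146] [(0,0),(0,2),(1,0),(1,1),(1,2),(3,1)] [],
Node.mk [0,820,182,1542,2448,27,976,3114,2225,2529,2938,2935,2939,3663,45,1155] [(0,0),(0,3),(1,2),(1,4),(2,5),(3,1)] [Ref.mk 2917 26 [3,1,2,0] [[0,1,3,2,4],[0,1,2,3],[0,1,3,2],[0,1,3,2]]],
Node.mk [0,820,182,1542,2448,27,976,3114,2225,2529,2938,2935,2939,3663,45,1164,1876,825] [(0,0),(0,2),(0,3),(0,4),(1,2),(3,1)] [],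
Node.mk [0,820,182,1542,2448,27,976,3114,2225,2529,2938,2935,2939,3663,45,1164,1876,2940] [(0,0),(0,1),(0,2),(0,3),(0,4),(1,2)] [Ref.mk 1139 1402 [0,1,2,3] [[0,1,2,3,4,5],[0,1,2,3,4],[0,1,2,3,4,5],[0,1,2,3,4]],Ref.mk 824 1435 [0,1,2,3] [[0,5,2,3,4,6,1],[0,1,2,3,4,5],[0,1,2,3,4,5],[0,1,2,3,4,5]],Ref.mk 1140 1402 [0,1,2,3] [[0,1,2,3,4,6],[0,1,2,3,4],[0,1,2,3,4,5],[0,1,2,3,4]],Ref.mk 825 1435 [0,1,2,3] [[0,6,2,3,4,5,1],[0,1,2,3,4,5],[0,1,2,3,4,5],[0,1,2,3,4,5]],Ref.mk 1141 1402 [0,1,2,3] [[0,1,2,3,4,7],[0,1,2,3,4],[0,1,2,3,4,5],[0,1,2,3,4]],Ref.mk 826 1435 [0,1,2,3] [[0,1,2,3,4,6,7],[0,1,2,3,4,5],[0,1,2,3,4,5],[0,1,2,3,4,5]]],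
Node.mk [0,820,182,1542,2448,27,976,3114,2225,2529,2938,2935,2939,3663,45,1164,1876] [(0,0),(0,1),(0,2),(0,3),(0,4),(0,5)] [Ref.mk 1140 1402 [0,1,2,3] [[0,1,2,3,4,6],[0,1,2,3,4],[0,1,2,3,4,5],[0,1,2,3,4]],Ref.mk 825 1435 [0,1,2,3] [[0,1,2,3,4,5,6],[0,1,2,3,4,5],[0,1,2,3,4,5],[0,1,2,3,4,5]],Ref.mk 2940 1436 [0,1,2,3] [[0,1,2,3,4,5,6],[0,1,2,3,4,5],[0,1,2,3,4,5],[0,1,2,3,4,5]]],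
Node.mk [0,820,182,1542,2448,27,976,3114,2225,2529,2938,2935,2939,3663,45,1164] [(0,0),(0,2),(0,3),(1,0),(1,2),(2,1)] [Ref.mk 1729 1267 [1,2,0,3] [[2,1,4,3,0,5],[3,1,0,4,2,5],[0,1,2,4,5,3],[3,1,2,4,0,5]],Ref.mk 1876 1437 [0,1,2,3] [[0,1,2,3,4,5],[0,1,2,3,4,5],[0,1,2,3,4,5],[0,1,2,3,4,5]]],
Node.mk [0,820,182,1542,2448,27,976,3114,2225,2529,2938,2935,2939,3663,45,1173] [(0,0),(0,3),(1,2),(1,4),(2,5),(3,1)] [],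
Node.mk [0,820,182,1542,2448,27,976,3114,2225,2529,2938,2935,2939,3663,45,1191,1876,825] [(0,0),(0,2),(0,3),(0,4),(1,2),(3,1)] [],
Node.mk [0,820,182,1542,2448,27,976,3114,2225,2529,2938,2935,2939,3663,45,1191,1876,2940] [(0,0),(0,1),(0,2),(0,3),(0,4),(1,2)] [Ref.mk 1139 1402 [0,1,2,3] [[0,1,2,3,4,5],[0,1,2,3,4],[0,1,2,3,4,5],[0,1,2,3,4]],Ref.mk 824 1440 [0,1,2,3] [[0,5,2,3,4,6,1],[0,1,2,3,4,5,6],[0,1,2,3,4,5],[0,1,2,3,4,5]],Ref.mk 1140 1402 [0,1,2,3] [[0,1,2,3,4,6],[0,1,2,3,4],[0,1,2,3,4,5],[0,1,2,3,4]],Ref.mk 825 1440 [0,1,2,3] [[0,6,2,3,4,5,1],[0,1,2,3,4,5,6],[0,1,2,3,4,5],[0,1,2,3,4,5]],Ref.mk 1141 1402 [0,1,2,3] [[0,1,2,3,4,7],[0,1,2,3,4],[0,1,2,3,4,5],[0,1,2,3,4]],Ref.mk 826 1440 [0,1,2,3] [[0,1,2,3,4,6,7],[0,1,2,3,4,5,6],[0,1,2,3,4,5],[0,1,2,3,4,5]]],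
Node.mk [0,820,182,1542,2448,27,976,3114,2225,2529,2938,2935,2939,3663,45,1191,1876] [(0,0),(0,1),(0,2),(0,3),(0,4),(0,5)] [Ref.mk 1140 1402 [0,1,2,3] [[0,1,2,3,4,6],[0,1,2,3,4],[0,1,2,3,4,5],[0,1,2,3,4]],Ref.mk 825 1440 [0,1,2,3] [[0,1,2,3,4,5,6],[0,1,2,3,4,5,6],[0,1,2,3,4,5],[0,1,2,3,4,5]],Ref.mk 2940 1441 [0,1,2,3] [[0,1,2,3,4,5,6],[0,1,2,3,4,5,6],[0,1,2,3,4,5],[0,1,2,3,4,5]]],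
Node.mk [0,820,182,1542,2448,27,976,3114,2225,2529,2938,2935,2939,3663,45,1191] [(0,0),(0,2),(0,3),(1,0),(1,2),(2,1)] [Ref.mk 1756 1364 [0,2,1,3] [[0,3,2,1,4,5],[3,5,0,4,2,1],[2,6,4,0,3,5,1],[3,1,2,0,4,5]],Ref.mk 1876 1442 [0,1,2,3] [[0,1,2,3,4,5],[0,1,2,3,4,5,6],[0,1,2,3,4,5],[0,1,2,3,4,5]]],
Node.mk [0,820,182,1542,2448,27,976,3114,2225,2529,2938,2935,2939,3663,45,1876,1756,1545] [(0,0),(0,1),(0,2),(0,4),(1,2),(3,2)] [],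
Node.mk [0,820,182,1542,2448,27,976,3114,2225,2529,2938,2935,2939,3663,45,1876,1756,2940] [(0,0),(0,1),(0,2),(0,3),(0,4),(1,2)] [Ref.mk 1544 1249 [0,1,2,3] [[0,1,2,5,4,6,3],[0,1,2,3,4,5,6],[0,1,2,3,4,5],[0,1,2,3,4,5]],Ref.mk 1715 1405 [0,1,2,3] [[0,1,2,3,4,5],[0,1,2,3,4],[0,1,2,3,4],[0,1,2,3,4]],Ref.mk 1545 1249 [0,1,2,3] [[0,1,2,6,4,5,3],[0,1,2,3,4,5,6],[0,1,2,3,4,5],[0,1,2,3,4,5]],Ref.mk 1716 1405 [0,1,2,3] [[0,1,2,3,4,6],[0,1,2,3,4],[0,1,2,3,4],[0,1,2,3,4]],Ref.mk 1546 1444 [0,1,2,3] [[0,1,2,3,4,6,7],[0,1,2,3,4,5,6],[0,1,2,3,4,5],[0,1,2,3,4,5]],Ref.mk 1717 1405 [0,1,2,3] [[0,1,2,3,4,7],[0,1,2,3,4],[0,1,2,3,4],[0,1,2,3,4]]],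
Node.mk [0,820,182,1542,2448,27,976,3114,2225,2529,2938,2935,2939,3663,45,1876,1756] [(0,0),(0,1),(0,2),(0,3),(0,4),(0,5)] [Ref.mk 1545 1444 [0,1,2,3] [[0,1,2,3,4,5,6],[0,1,2,3,4,5,6],[0,1,2,3,4,5],[0,1,2,3,4,5]],Ref.mk 1716 1405 [0,1,2,3] [[0,1,2,3,4,6],[0,1,2,3,4],[0,1,2,3,4],[0,1,2,3,4]],Ref.mk 2940 1445 [0,1,2,3] [[0,1,2,3,4,5,6],[0,1,2,3,4,5,6],[0,1,2,3,4,5],[0,1,2,3,4,5]]],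
Node.mk [0,820,182,1542,2448,27,976,3114,2225,2529,2938,2935,2939,3663,45,1876] [(0,0),(0,4),(1,0),(1,1),(1,2),(1,4)] [Ref.mk 1729 1267 [0,2,1,3] [[0,3,2,4,1,5],[3,1,0,4,2,5],[2,0,4,3,5,1],[3,2,1,0,4,5]],Ref.mk 1747 1267 [0,2,1,3] [[0,3,2,4,1,5],[3,1,0,4,2,5],[2,0,4,5,3,1],[3,2,1,0,4,5]],Ref.mk 1756 1446 [0,1,2,3] [[0,1,2,3,4,5],[0,1,2,3,4,5,6],[0,1,2,3,4,5],[0,1,2,3,4,5]],Ref.mk 1164 1437 [0,1,2,3] [[0,1,2,3,4,5],[0,1,2,3,4,5],[0,1,2,3,4,5],[0,1,2,3,4,5]],Ref.mk 1182 1437 [0,1,2,3] [[0,1,2,3,4,5],[0,1,2,5,4,3],[0,1,2,3,4,5],[0,1,2,3,4,5]],Ref.mk 1191 1442 [0,1,2,3] [[0,1,2,3,4,5],[0,1,2,3,4,5,6],[0,1,2,3,4,5],[0,1,2,3,4,5]]],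
Node.mk [0,820,182,1542,2448,27,976,3114,2225,2529,2938,2935,2939,3663,45] [(1,0),(2,0),(2,1),(2,2),(2,3),(2,4)] [Ref.mk 2610 1432 [0,1,2,3] [[0,1,2,3,4,5],[0,1,2,3,4,5],[0,1,2,3,4,5],[0,1,2,3,4,5]],Ref.mk 1146 1433 [0,1,2,3] [[0,1,2,3,4,5],[0,1,2,3,4,5],[0,1,2,3,4,5],[0,1,2,3,4,5]],Ref.mk 1155 1434 [0,1,2,3] [[0,1,2,3,4,5],[0,1,2,3,4,5],[0,1,2,3,4,5],[0,1,2,3,4,5]],Ref.mk 1164 1438 [0,1,2,3] [[0,1,2,3,4,5],[0,1,2,3,4,5],[0,1,2,3,4,5],[0,1,2,3,4,5]],Ref.mk 1173 1439 [0,1,2,3] [[0,1,2,3,4,5],[0,1,2,3,4,5],[0,1,2,3,4,5],[0,1,2,3,4,5]],Ref.mk 1182 1438 [0,1,2,3] [[0,1,2,3,4,5],[0,1,2,5,4,3],[0,1,2,3,4,5],[0,1,2,3,4,5]],Ref.mk 1191 1443 [0,1,2,3] [[0,1,2,3,4,5],[0,1,2,3,4,5,6],[0,1,2,3,4,5],[0,1,2,3,4,5]],Ref.mk 1876 1447 [0,1,2,3]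 [[0,1,2,3,4,5],[0,1,2,3,4,5],[0,1,2,3,4,5],[0,1,2,3,4,5]]],
Node.mk [0,820,182,1542,2448,27,976,3114,2225,2529,2938,2935,2939,3663,1747,2610,1545] [(0,0),(0,2),(1,0),(1,2),(2,1),(3,2)] [],
Node.mk [0,820,182,1542,2448,27,976,3114,2225,2529,2938,2935,2939,3663,1747,2610,2940,860] [(0,0),(0,1),(0,2),(1,2),(2,1),(3,1)] [Ref.mk 1715 1405 [0,1,2,3] [[0,1,2,3,4,5],[0,1,2,3,4],[0,1,2,3,4],[0,1,2,3,4]]],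
Node.mk [0,820,182,1542,2448,27,976,3114,2225,2529,2938,2935,2939,3663,1747,2610,2940,862] [(0,0),(0,1),(0,2),(1,2),(2,1),(3,1)] [Ref.mk 1717 1405 [0,1,2,3] [[0,1,2,3,4,7],[0,1,2,3,4],[0,1,2,3,4],[0,1,2,3,4]]],
Node.mk [0,820,182,1542,2448,27,976,3114,2225,2529,2938,2935,2939,3663,1747,2610,2940] [(0,0),(0,1),(0,2),(0,3),(0,4),(1,2)] [Ref.mk 1544 1449 [0,1,2,3] [[0,1,2,3,4,6,5],[0,1,2,3,4,5],[0,1,2,3,4,5],[0,1,2,3,4,5]],Ref.mk 977 1400 [0,1,2,3] [[0,1,2,3,4,5],[0,1,2,3,4],[0,1,2,3,4],[0,1,2,3,4]],Ref.mk 1715 1405 [0,1,2,3] [[0,1,2,3,4,5],[0,1,2,3,4],[0,1,2,3,4],[0,1,2,3,4]],Ref.mk 860 1450 [0,1,2,3] [[0,1,2,3,4,5,6],[0,1,2,3,4,5],[0,1,2,3,4,5],[0,1,2,3,4,5]],Ref.mk 1545 1449 [0,1,2,3] [[0,1,2,3,4,5,6],[0,1,2,3,4,5],[0,1,2,3,4,5],[0,1,2,3,4,5]],Ref.mk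 978 1400 [0,1,2,3] [[0,1,2,3,4,6],[0,1,2,3,4],[0,1,2,3,4],[0,1,2,3,4]],Ref.mk 1716 1405 [0,1,2,3] [[0,1,2,3,4,6],[0,1,2,3,4],[0,1,2,3,4],[0,1,2,3,4]],Ref.mk 861 1450 [0,1,2,3] [[0,1,2,3,4,6,5],[0,1,2,3,4,5],[0,1,2,3,4,5],[0,1,2,3,4,5]],Ref.mk 1546 1449 [0,1,2,3] [[0,1,2,3,4,6,7],[0,1,2,3,4,5],[0,1,2,3,4,5],[0,1,2,3,4,5]],Ref.mk 979 1400 [0,1,2,3] [[0,1,2,3,4,7],[0,1,2,3,4],[0,1,2,3,4],[0,1,2,3,4]],Ref.mk 1717 1405 [0,1,2,3] [[0,1,2,3,4,7],[0,1,2,3,4],[0,1,2,3,4],[0,1,2,3,4]],Ref.mk 862 1451 [0,1,2,3] [[0,1,2,3,4,5,6,7],[0,1,2,3,4,5],[0,1,2,3,4,5],[0,1,2,3,4,5]]],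
Node.mk [0,820,182,1542,2448,27,976,3114,2225,2529,2938,2935,2939,3663,1747,2610] [(0,0),(0,1),(0,2),(0,3),(0,4),(0,5)] [Ref.mk 1545 1449 [0,1,2,3] [[0,1,2,3,4,5,6],[0,1,2,3,4,5],[0,1,2,3,4,5],[0,1,2,3,4,5]],Ref.mk 978 1400 [0,1,2,3] [[0,1,2,3,4,6],[0,1,2,3,4],[0,1,2,3,4],[0,1,2,3,4]],Ref.mk 1716 1448 [0,2,1,3] [[0,1,2,6,4,5],[3,1,0,4,2,5],[2,1,4,0,3],[3,1,2,0,4,5]],Ref.mk 2940 1452 [0,1,2,3] [[0,1,2,3,4,5,6],[0,1,2,3,4,5],[0,1,2,3,4,5],[0,1,2,3,4,5]],Ref.mk 861 1228 [0,2,1,3] [[0,6,2,1,4,5],[3,1,0,4,2,5],[2,5,4,0,3,1],[3,1,2,0,4,5]]],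
Node.mk [0,820,182,1542,2448,27,976,3114,2225,2529,2938,2935,2939,3663,1747] [(0,1),(2,0),(2,1),(2,2),(2,3),(2,4)] [Ref.mk 2610 1453 [0,1,2,3] [[0,1,2,3,4,5],[0,1,2,3,4,5],[0,1,2,3,4,5],[0,1,2,3,4,5]],Ref.mk 1182 1259 [0,2,1,3] [[0,3,2,1,4,5],[3,5,0,4,2,1],[2,5,4,0,3],[3,1,2,0,4,5]],Ref.mk 1876 1371 [1,2,0,3] [[2,1,4,0,5,3],[3,5,0,4,2,1],[0,4,2,1,5,3],[3,2,1,4,0,5]]],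
Node.mk [0,820,182,1542,2448,27,976,3114,2225,2529,2938,2935,2939,3663,777] [(0,0),(0,2),(0,3),(1,0),(2,0),(2,1)] [Ref.mk 1747 1454 [0,1,2,3] [[0,1,2,3,4,5],[0,1,2,3,4,5],[0,1,2,3,4],[0,1,2,3,4,5]]],
Node.mk [0,820,182,1542,2448,27,976,3114,2225,2529,2938,2935,2939,3663,939] [(0,0),(0,3),(0,4),(2,0),(2,2),(3,1)] [Ref.mk 1747 1454 [0,1,2,3] [[0,1,2,3,4,5],[0,1,2,3,4,5],[0,1,2,3,4],[0,1,2,3,4,5]]],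
Node.mk [0,820,182,1542,2448,27,976,3114,2225,2529,2938,2935,2939,3663,1020] [(0,0),(0,2),(1,2),(2,1),(2,3),(3,1)] [],
Node.mk [0,820,182,1542,2448,27,976,3114,2225,2529,2938,2935,2939,3663,1101,1795] [(2,0),(2,1),(2,2),(2,3),(2,4),(3,1)] [Ref.mk 2610 1453 [2,1,0,3] [[0,4,2,1,3,5],[0,5,2,3,4,1],[0,3,2,4,1,5],[0,1,2,4,3,5]]],
Node.mk [0,820,182,1542,2448,27,976,3114,2225,2529,2938,2935,2939,3663,1101] [(0,0),(0,2),(0,3),(1,0),(1,2),(2,1)] [Ref.mk 1747 1454 [0,1,2,3] [[0,1,2,3,4,5],[0,1,2,3,4,5],[0,1,2,3,4],[0,1,2,3,4,5]],Ref.mk 1795 1458 [0,1,2,3] [[0,1,2,3,4,5],[0,1,2,3,4,5],[0,1,2,3,4],[0,1,2,3,4,5]]],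
Node.mk [0,820,182,1542,2448,27,976,3114,2225,2529,2938,2935,2939,3663,1182,1876,825] [(0,0),(0,2),(0,3),(0,4),(1,2),(3,1)] [],
Node.mk [0,820,182,1542,2448,27,976,3114,2225,2529,2938,2935,2939,3663,1182,1876,2940] [(0,0),(0,1),(0,2),(0,3),(0,4),(1,2)] [Ref.mk 1139 1402 [0,1,2,3] [[0,1,2,3,4,5],[0,1,2,3,4],[0,1,2,3,4,5],[0,1,2,3,4]],Ref.mk 824 1460 [0,1,2,3] [[0,5,2,3,4,6,1],[0,1,2,3,4,5],[0,1,2,3,4,5],[0,1,2,3,4,5]],Ref.mk 1140 1402 [0,1,2,3] [[0,1,2,3,4,6],[0,1,2,3,4],[0,1,2,3,4,5],[0,1,2,3,4]],Ref.mk 825 1460 [0,1,2,3] [[0,6,2,3,4,5,1],[0,1,2,3,4,5],[0,1,2,3,4,5],[0,1,2,3,4,5]],Ref.mk 1141 1402 [0,1,2,3] [[0,1,2,3,4,7],[0,1,2,3,4],[0,1,2,3,4,5],[0,1,2,3,4]],Ref.mk 826 1460 [0,1,2,3] [[0,1,2,3,4,6,7],[0,1,2,3,4,5],[0,1,2,3,4,5],[0,1,2,3,4,5]]],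
Node.mk [0,820,182,1542,2448,27,976,3114,2225,2529,2938,2935,2939,3663,1182,1876] [(0,0),(0,1),(0,2),(0,3),(0,4),(0,5)] [Ref.mk 1140 1402 [0,1,2,3] [[0,1,2,3,4,6],[0,1,2,3,4],[0,1,2,3,4,5],[0,1,2,3,4]],Ref.mk 825 1460 [0,1,2,3] [[0,1,2,3,4,5,6],[0,1,2,3,4,5],[0,1,2,3,4,5],[0,1,2,3,4,5]],Ref.mk 2940 1461 [0,1,2,3] [[0,1,2,3,4,5,6],[0,1,2,3,4,5],[0,1,2,3,4,5],[0,1,2,3,4,5]]],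
Node.mk [0,820,182,1542,2448,27,976,3114,2225,2529,2938,2935,2939,3663,1182] [(0,0),(0,2),(0,3),(1,0),(1,2),(2,1)] [Ref.mk 1747 1259 [0,2,1,3] [[0,3,2,1,4,5],[3,5,0,4,2,1],[2,5,4,0,3],[3,1,2,0,4,5]],Ref.mk 1876 1462 [0,1,2,3] [[0,1,2,3,4,5],[0,1,2,3,4,5],[0,1,2,3,4,5],[0,1,2,3,4,5]]],
Node.mk [0,820,182,1542,2448,27,976,3114,2225,2529,2938,2935,2939,3663] [(1,0),(1,1),(1,2),(1,3),(1,4),(2,1)] [Ref.mk 45 1448 [0,1,2,3] [[0,1,2,3,4,5],[0,1,2,3,4,5],[0,1,2,3,4],[0,1,2,3,4,5]],Ref.mk 1747 1454 [0,1,2,3] [[0,1,2,3,4,5],[0,1,2,3,4,5],[0,1,2,3,4],[0,1,2,3,4,5]],Ref.mk 777 1455 [0,1,2,3] [[0,1,2,3,4,5],[0,1,2,3,4,5],[0,1,2,3,4],[0,1,2,3,4,5]],Ref.mk 939 1456 [0,1,2,3] [[0,1,2,3,4,5],[0,1,2,3,4,5],[0,1,2,3,4],[0,1,2,3,4,5]],Ref.mk 1020 1457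 [0,1,2,3] [[0,1,2,3,4,5],[0,1,2,3,4,5],[0,1,2,3,4],[0,1,2,3,4,5]],Ref.mk 1101 1459 [0,1,2,3] [[0,1,2,3,4,5],[0,1,2,3,4,5],[0,1,2,3,4],[0,1,2,3,4,5]],Ref.mk 1182 1463 [0,1,2,3] [[0,1,2,3,4,5],[0,1,2,3,4,5],[0,1,2,3,4,5],[0,1,2,3,4,5]]],
Node.mk [0,820,182,1542,2448,27,976,3114,2225,2529,2938,2935,2939,3808] [(0,0),(0,1),(1,0),(2,0),(2,2),(3,5)] [],
Node.mk [0,820,182,1542,2448,27,976,3114,2225,2529,2938,2935,2939,3970] [(1,0),(2,0),(2,1),(2,2),(2,3),(2,4)] [Ref.mk 2610 1278 [2,1,0,3] [[0,1,2,4,3,5],[0,1,2,3,4],[0,1,2,4,5,3],[0,1,5,4,3,2]]],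
Node.mk [0,820,182,1542,2448,27,976,3114,2225,2529,2938,2935,2939,4051,3900,4458] [(0,0),(0,2),(0,3),(1,0),(1,2),(2,1)] [],
Node.mk [0,820,182,1542,2448,27,976,3114,2225,2529,2938,2935,2939,4051,3900] [(3,0),(3,1),(3,2),(3,3),(3,4),(3,5)] [Ref.mk 4392 1454 [0,2,1,3] [[0,1,2,3,4,5],[3,1,0,4,2,5],[2,1,4,0,3],[3,1,5,0,4,6]],Ref.mk 4618 98 [3,1,2,0] [[0,1,3,2,6],[0,1,2,3],[0,1,3,2],[0,1,3,2]],Ref.mk 4458 1467 [0,1,2,3] [[0,1,2,3,4,5],[0,1,2,3,4],[0,1,2,3,4,5],[0,1,2,3,4,5,6]]],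
Node.mk [0,820,182,1542,2448,27,976,3114,2225,2529,2938,2935,2939,4051,1876,1545] [(0,0),(0,1),(0,2),(0,4),(1,0),(1,2)] [],
Node.mk [0,820,182,1542,2448,27,976,3114,2225,2529,2938,2935,2939,4051,1876,2940] [(0,0),(0,1),(0,2),(0,3),(0,4),(1,2)] [Ref.mk 1544 1186 [0,1,2,3] [[0,1,2,5,4,6,3],[0,1,2,3,4],[0,1,2,3,4,5],[0,1,2,3,4,5]],Ref.mk 1139 1402 [0,1,2,3] [[0,1,2,3,4,5],[0,1,2,3,4],[0,1,2,3,4,5],[0,1,2,3,4]],Ref.mk 1545 1186 [0,1,2,3] [[0,1,2,6,4,5,3],[0,1,2,3,4],[0,1,2,3,4,5],[0,1,2,3,4,5]],Ref.mk 1140 1402 [0,1,2,3] [[0,1,2,3,4,6],[0,1,2,3,4],[0,1,2,3,4,5],[0,1,2,3,4]],Ref.mk 1546 1469 [0,1,2,3] [[0,1,2,3,4,6,7],[0,1,2,3,4],[0,1,2,3,4,5],[0,1,2,3,4,5]],Ref.mk 1141 1402 [0,1,2,3] [[0,1,2,3,4,7],[0,1,2,3,4],[0,1,2,3,4,5],[0,1,2,3,4]]],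
Node.mk [0,820,182,1542,2448,27,976,3114,2225,2529,2938,2935,2939,4051,1876] [(0,0),(0,1),(0,2),(0,3),(0,4),(0,5)] [Ref.mk 1545 1469 [0,1,2,3] [[0,1,2,3,4,5,6],[0,1,2,3,4],[0,1,2,3,4,5],[0,1,2,3,4,5]],Ref.mk 1140 1402 [0,1,2,3] [[0,1,2,3,4,6],[0,1,2,3,4],[0,1,2,3,4,5],[0,1,2,3,4]],Ref.mk 2940 1470 [0,1,2,3] [[0,1,2,3,4,5,6],[0,1,2,3,4],[0,1,2,3,4,5],[0,1,2,3,4,5]]]]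

/-- nodes -/
noncomputable def c23 : List Node := [
Node.mk [0,820,182,1542,2448,27,976,3114,2225,2529,2938,2935,2939,4051] [(0,0),(0,1),(0,2),(1,2),(2,1),(3,1)] [Ref.mk 3900 1468 [0,1,2,3] [[0,1,2,3,4,5],[0,1,2,3,4],[0,1,2,3,4,5],[0,1,2,3,4,5]],Ref.mk 1876 1471 [0,1,2,3] [[0,1,2,3,4,5],[0,1,2,3,4],[0,1,2,3,4,5],[0,1,2,3,4,5]]],
Node.mk [0,820,182,1542,2448,27,976,3114,2225,2529,2938,2935,2939,3900,3757,45,1729] [(0,0),(0,1),(0,2),(0,3),(0,4),(1,2)] [],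
Node.mk [0,820,182,1542,2448,27,976,3114,2225,2529,2938,2935,2939,3900,3757,45] [(0,0),(0,2),(0,3),(0,4),(1,2),(2,1)] [Ref.mk 3646 26 [3,1,2,0] [[0,1,3,2,5],[0,1,2,3],[0,1,3,2],[0,1,3,2]],Ref.mk 3808 1465 [0,1,2,3] [[0,1,2,3,4,5],[0,1,2,3,4],[0,1,2,3,4],[0,1,2,3,4,5]],Ref.mk 3889 98 [3,1,2,0] [[0,1,3,2,5],[0,1,2,3],[0,1,3,2],[0,1,3,2]],Ref.mk 3970 1466 [0,1,2,3] [[0,1,2,3,4,5],[0,1,2,3,4],[0,1,2,3,4],[0,1,2,3,4,5]],Ref.mk 4051 1468 [0,1,2,3] [[0,1,2,3,4,5],[0,1,2,5,4],[0,1,2,3,4,5],[0,1,2,3,4,5]],Ref.mk 1729 1473 [0,1,2,3] [[0,1,2,3,4,5],[0,1,2,3,4,5],[0,1,2,3,4],[0,1,2,3,4,5]]],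
Node.mk [0,820,182,1542,2448,27,976,3114,2225,2529,2938,2935,2939,3900,3757] [(1,0),(1,1),(1,2),(1,3),(1,4),(2,1)] [Ref.mk 45 1474 [0,1,2,3] [[0,1,2,3,4,5],[0,1,2,3,4,5],[0,1,2,3,4],[0,1,2,3,4,5]]],
Node.mk [0,820,182,1542,2448,27,976,3114,2225,2529,2938,2935,2939,3900,3775,3970] [(0,0),(0,2),(1,2),(2,1),(2,3),(2,4)] [Ref.mk 3646 26 [3,1,2,0] [[0,1,3,2,5],[0,1,2,3],[0,1,3,2],[0,1,3,2]],Ref.mk 3808 1465 [0,1,2,3] [[0,1,2,3,4,5],[0,1,2,3,4],[0,1,2,3,4],[0,1,2,3,4,5]],Ref.mk 4051 1468 [0,1,2,3] [[0,1,2,3,4,5],[0,1,2,3,4],[0,1,2,3,4,5],[0,1,2,3,4,5]]],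
Node.mk [0,820,182,1542,2448,27,976,3114,2225,2529,2938,2935,2939,3900,3775] [(0,0),(0,3),(0,4),(2,0),(2,1),(2,2)] [Ref.mk 3889 98 [3,1,2,0] [[0,1,3,2,5],[0,1,2,3],[0,1,3,2],[0,1,3,2]],Ref.mk 3970 1476 [0,1,2,3] [[0,1,2,3,4,5],[0,1,2,3,4,5],[0,1,2,3,4],[0,1,2,3,4,5]],Ref.mk 4051 1468 [0,1,2,3] [[0,1,2,3,4,5],[0,1,2,3,4],[0,1,2,3,4,5],[0,1,2,3,4,5]],Ref.mk 1747 1471 [0,2,1,3] [[0,1,2,3,4,5],[3,1,0,4,2],[2,1,4,0,3,5],[3,1,5,0,4,2]]],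
Node.mk [0,820,182,1542,2448,27,976,3114,2225,2529,2938,2935,2939,3900] [(0,0),(0,3),(1,0),(1,1),(1,2),(1,4)] [Ref.mk 1729 1466 [0,2,1,3] [[0,1,2,3,4,5],[3,1,0,4,2],[2,1,4,0,3],[3,1,5,0,4,2]],Ref.mk 1747 1468 [0,2,1,3] [[0,1,2,3,4,5],[3,1,0,4,2],[2,1,4,0,3,5],[3,1,5,0,4,2]],Ref.mk 3757 1475 [0,1,2,3] [[0,1,2,3,4,5],[0,1,2,3,4],[0,1,2,3,4],[0,1,2,3,4,5]],Ref.mk 3775 1477 [0,1,2,3] [[0,1,2,3,4,5],[0,1,2,3,4,5],[0,1,2,3,4],[0,1,2,3,4,5]]],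
Node.mk [0,820,182,1542,2448,27,976,3114,2225,2529,2938,2935,2939] [(2,1),(3,0),(3,1),(3,2),(3,3),(3,4)] [Ref.mk 3663 1464 [0,1,2,3] [[0,1,2,3,4,5],[0,1,2,3,4],[0,1,2,3,4],[0,1,2,3,4,5]],Ref.mk 3646 26 [3,1,2,0] [[0,1,3,2,5],[0,1,2,3],[0,1,3,2],[0,1,3,2]],Ref.mk 3808 1465 [0,1,2,3] [[0,1,2,3,4,5],[0,1,2,3,4],[0,1,2,3,4],[0,1,2,3,4,5]],Ref.mk 3889 98 [3,1,2,0] [[0,1,3,2,5],[0,1,2,3],[0,1,3,2],[0,1,3,2]],Ref.mk 3970 1466 [0,1,2,3] [[0,1,2,3,4,5],[0,1,2,3,4],[0,1,2,3,4],[0,1,2,3,4,5]],Ref.mk 4051 1472 [0,1,2,3] [[0,1,2,3,4,5],[0,1,2,3,4],[0,1,2,3,4,5],[0,1,2,3,4,5]],Ref.mk 3900 1478 [0,1,2,3] [[0,1,2,3,4,5],[0,1,2,3,4],[0,1,2,3,4],[0,1,2,3,4,5]]],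
Node.mk [0,820,182,1542,2448,27,976,3114,2225,2529,2938,2935] [(0,0),(0,1),(0,2),(0,3),(0,4),(2,1)] [Ref.mk 734 26 [0,1,2,3] [[0,1,2,3,5],[0,1,2,3],[0,1,2,3],[0,1,2,3]],Ref.mk 896 98 [0,1,2,3] [[0,1,2,3,5],[0,1,2,3],[0,1,2,3],[0,1,2,3]],Ref.mk 977 1400 [0,1,2,3] [[0,1,2,3,4,5],[0,1,2,3,4],[0,1,2,3,4],[0,1,2,3,4]],Ref.mk 1058 1401 [0,1,2,3] [[0,1,2,3,4,5],[0,1,2,3,4],[0,1,2,3,4],[0,1,2,3,4]],Ref.mk 1139 1402 [0,1,2,3] [[0,1,2,3,4,5],[0,1,2,3,4],[0,1,2,3,4,5],[0,1,2,3,4]],Ref.mk 1715 1405 [0,1,2,3] [[0,1,2,3,4,5],[0,1,2,3,4],[0,1,2,3,4],[0,1,2,3,4]],Ref.mk 2939 1479 [0,1,2,3] [[0,1,2,3,4,5],[0,1,2,3,4],[0,1,2,3,4],[0,1,2,3,4]]],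
Node.mk [0,820,182,1542,2448,27,976,3114,2225,2529,2938,2939,3663,45,2610,1711,1227] [(0,0),(0,2),(1,0),(1,1),(1,2),(3,1)] [],
Node.mk [0,820,182,1542,2448,27,976,3114,2225,2529,2938,2939,3663,45,2610,1711,1795] [(0,0),(0,2),(1,0),(1,1),(1,2),(3,2)] [],
Node.mk [0,820,182,1542,2448,27,976,3114,2225,2529,2938,2939,3663,45,2610,1711,1957] [(0,0),(0,2),(1,0),(1,1),(1,2),(3,2)] [],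
Node.mk [0,820,182,1542,2448,27,976,3114,2225,2529,2938,2939,3663,45,2610,1711] [(0,0),(0,1),(2,0),(2,1),(2,2),(2,3)] [Ref.mk 1065 1447 [2,1,0,3] [[0,4,2,1,3,5],[0,1,2,3,4,5],[0,3,2,4,5,1],[0,1,2,4,3,5]],Ref.mk 1146 1447 [2,1,0,3] [[0,5,2,1,3,4],[0,1,2,3,4,5],[0,3,2,4,5,1],[0,1,2,4,3,5]],Ref.mk 1227 1481 [0,1,2,3] [[0,1,2,3,4,5],[0,1,2,3,4,5],[0,1,2,3,4,5,6],[0,1,2,3,4,5]],Ref.mk 1795 1482 [0,1,2,3] [[0,1,2,3,4,5],[0,1,2,3,4,5],[0,1,2,3,4,5],[0,1,2,3,4,5]],Ref.mk 1876 1482 [0,1,2,3] [[0,1,2,3,4,5],[0,1,2,3,4,5],[0,1,2,3,5,4],[0,1,2,3,4,5]],Ref.mk 1957 1483 [0,1,2,3] [[0,1,2,3,4,5],[0,1,2,3,4,5],[0,1,2,3,4,5,6],[0,1,2,3,4,5]]],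
Node.mk [0,820,182,1542,2448,27,976,3114,2225,2529,2938,2939,3663,45,2610,1738] [(0,0),(0,1),(1,2),(1,4),(2,3),(3,2)] [],
Node.mk [0,820,182,1542,2448,27,976,3114,2225,2529,2938,2939,3663,45,2610,1756,1272,978] [(0,0),(0,1),(0,2),(0,3),(1,2),(3,1)] [],
Node.mk [0,820,182,1542,2448,27,976,3114,2225,2529,2938,2939,3663,45,2610,1756,1272,2940,869] [(0,0),(0,1),(0,2),(1,2),(2,1),(3,1)] [],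
Node.mk [0,820,182,1542,2448,27,976,3114,2225,2529,2938,2939,3663,45,2610,1756,1272,2940,871] [(0,0),(0,1),(0,2),(1,2),(2,1),(3,1)] [],
Node.mk [0,820,182,1542,2448,27,976,3114,2225,2529,2938,2939,3663,45,2610,1756,1272,2940] [(0,0),(0,1),(0,2),(0,3),(0,4),(1,2)] [Ref.mk 977 1486 [0,1,2,3] [[0,1,2,3,5,6,4],[0,1,2,3,4,5,6],[0,1,2,3,4,5,6],[0,1,2,3,4,5]],Ref.mk 869 1487 [0,1,2,3] [[0,1,2,3,4,5,6],[0,1,2,3,4,5,6],[0,1,2,3,4,5,6],[0,1,2,3,4,5]],Ref.mk 978 1486 [0,1,2,3] [[0,1,2,3,6,5,4],[0,1,2,3,4,5,6],[0,1,2,3,4,5,6],[0,1,2,3,4,5]],Ref.mk 870 1487 [0,1,2,3] [[0,1,2,3,4,6,5],[0,1,2,3,4,5,6],[0,1,2,3,4,5,6],[0,1,2,3,4,5]],Ref.mk 979 1486 [0,1,2,3] [[0,1,2,3,4,6,7],[0,1,2,3,4,5,6],[0,1,2,3,4,5,6],[0,1,2,3,4,5]],Ref.mk 871 1488 [0,1,2,3]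 [[0,1,2,3,4,5,6,7],[0,1,2,3,4,5,6],[0,1,2,3,4,5,6],[0,1,2,3,4,5]]],
Node.mk [0,820,182,1542,2448,27,976,3114,2225,2529,2938,2939,3663,45,2610,1756,1272,870] [(0,0),(0,1),(0,2),(1,2),(2,1),(3,1)] [],
Node.mk [0,820,182,1542,2448,27,976,3114,2225,2529,2938,2939,3663,45,2610,1756,1272] [(0,0),(0,1),(0,2),(0,3),(0,4),(0,5)] [Ref.mk 978 1486 [0,1,2,3] [[0,1,2,3,4,5,6],[0,1,2,3,4,5,6],[0,1,2,3,4,5,6],[0,1,2,3,4,5]],Ref.mk 2940 1489 [0,1,2,3] [[0,1,2,3,4,5,6],[0,1,2,3,4,5,6],[0,1,2,3,4,5,6],[0,1,2,3,4,5]],Ref.mk 870 1490 [0,1,2,3] [[0,1,2,3,4,5,6],[0,1,2,3,4,5,6],[0,1,2,3,4,5,6],[0,1,2,3,4,5]]],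
Node.mk [0,820,182,1542,2448,27,976,3114,2225,2529,2938,2939,3663,45,2610,1756,1957,1545] [(0,0),(0,1),(0,2),(0,4),(1,2),(3,2)] [],
Node.mk [0,820,182,1542,2448,27,976,3114,2225,2529,2938,2939,3663,45,2610,1756,1957,1716] [(0,0),(0,1),(0,2),(1,2),(2,3),(3,2)] [],
Node.mk [0,820,182,1542,2448,27,976,3114,2225,2529,2938,2939,3663,45,2610,1756,1957,2940] [(0,0),(0,1),(0,2),(0,3),(0,4),(1,2)] [Ref.mk 1544 1213 [0,1,2,3] [[0,1,2,5,4,6,3],[0,1,2,3,4,5,6],[0,1,2,3,4,5,6],[0,1,2,3,4,5]],Ref.mk 1715 1493 [0,1,2,3] [[0,1,2,3,4,6,5],[0,1,2,3,4,5,6],[0,1,2,3,4,5,6],[0,1,2,3,4,5]],Ref.mk 1545 1213 [0,1,2,3] [[0,1,2,6,4,5,3],[0,1,2,3,4,5,6],[0,1,2,3,4,5,6],[0,1,2,3,4,5]],Ref.mk 1716 1493 [0,1,2,3] [[0,1,2,3,4,5,6],[0,1,2,3,4,5,6],[0,1,2,3,4,5,6],[0,1,2,3,4,5]],Ref.mk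 1546 1492 [0,1,2,3] [[0,1,2,3,4,6,7],[0,1,2,3,4,5,6],[0,1,2,3,4,5,6],[0,1,2,3,4,5]],Ref.mk 1717 1493 [0,1,2,3] [[0,1,2,3,4,6,7],[0,1,2,3,4,5,6],[0,1,2,3,4,5,6],[0,1,2,3,4,5]]],
Node.mk [0,820,182,1542,2448,27,976,3114,2225,2529,2938,2939,3663,45,2610,1756,1957] [(0,0),(0,1),(0,2),(0,3),(0,4),(0,5)] [Ref.mk 1545 1492 [0,1,2,3] [[0,1,2,3,4,5,6],[0,1,2,3,4,5,6],[0,1,2,3,4,5,6],[0,1,2,3,4,5]],Ref.mk 1716 1493 [0,1,2,3] [[0,1,2,3,4,5,6],[0,1,2,3,4,5,6],[0,1,2,3,4,5,6],[0,1,2,3,4,5]],Ref.mk 2940 1494 [0,1,2,3] [[0,1,2,3,4,5,6],[0,1,2,3,4,5,6],[0,1,2,3,4,5,6],[0,1,2,3,4,5]]],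
Node.mk [0,820,182,1542,2448,27,976,3114,2225,2529,2938,2939,3663,45,2610,1756] [(0,0),(0,1),(2,0),(2,1),(2,2),(2,3)] [Ref.mk 1110 1442 [2,1,0,3] [[0,4,2,1,3,5],[0,6,2,3,4,5,1],[0,3,2,4,5,1],[0,1,2,4,3,5]],Ref.mk 1191 1442 [2,1,0,3] [[0,5,2,1,3,4],[0,6,2,3,4,5,1],[0,3,2,4,5,1],[0,1,2,4,3,5]],Ref.mk 1272 1491 [0,1,2,3] [[0,1,2,3,4,5],[0,1,2,3,4,5,6],[0,1,2,3,4,5,6],[0,1,2,3,4,5]],Ref.mk 1795 1367 [2,0,1,3] [[0,1,2,4,3,5],[4,1,0,5,2,3],[2,1,4,0,3,5,6],[4,1,2,0,3,5]],Ref.mk 1876 1367 [2,0,1,3] [[0,1,2,5,3,4],[4,1,0,5,2,3],[2,1,4,0,3,5,6],[4,1,2,0,3,5]],Ref.mk 1957 1495 [0,1,2,3] [[0,1,2,3,4,5],[0,1,2,3,4,5,6],[0,1,2,3,4,5,6],[0,1,2,3,4,5]]],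
Node.mk [0,820,182,1542,2448,27,976,3114,2225,2529,2938,2939,3663,45,2610,1471] [(0,0),(0,4),(1,1),(2,0),(2,2),(3,2)] [],
Node.mk [0,820,182,1542,2448,27,976,3114,2225,2529,2938,2939,3663,45,2610,1633] [(0,0),(0,4),(1,1),(2,0),(2,2),(3,2)] [],
Node.mk [0,820,182,1542,2448,27,976,3114,2225,2529,2938,2939,3663,45,2610,1714,1029] [(0,0),(0,2),(1,2),(2,1),(2,3),(3,1)] [],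
Node.mk [0,820,182,1542,2448,27,976,3114,2225,2529,2938,2939,3663,45,2610,1714] [(0,0),(0,4),(1,0),(1,1),(1,2),(1,4)] [Ref.mk 1729 1252 [1,2,0,3] [[2,1,4,3,0,5],[3,1,0,4,2,5],[0,1,2,4,5,3],[3,1,2,4,0,5]],Ref.mk 1747 1252 [1,2,0,3] [[2,1,4,5,0,3],[3,1,0,4,2,5],[0,1,2,4,5,3],[3,1,2,4,0,5]],Ref.mk 1756 1496 [0,1,2,3] [[0,1,2,3,4,5],[0,1,2,3,4,5,6],[0,1,2,3,4,5],[0,1,2,3,4,5]],Ref.mk 1002 1155 [1,2,0,3] [[2,0,4,3,1,5],[3,1,0,4,2,5],[0,3,2,4,5,1],[3,2,1,4,0,5]],Ref.mk 1020 1155 [1,2,0,3] [[2,0,4,5,1,3],[3,1,0,4,2,5],[0,3,2,4,5,1],[3,2,1,4,0,5]],Ref.mk 1029 1499 [0,1,2,3] [[0,1,2,3,4,5],[0,1,2,3,4,5,6],[0,1,2,3,4,5],[0,1,2,3,4,5]]],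
Node.mk [0,820,182,1542,2448,27,976,3114,2225,2529,2938,2939,3663,45,2610,1957,1272,1221] [(0,0),(0,1),(0,2),(1,2),(3,1),(3,2)] [],
Node.mk [0,820,182,1542,2448,27,976,3114,2225,2529,2938,2939,3663,45,2610,1957,1272,825] [(0,0),(0,2),(0,3),(0,4),(0,5),(1,1)] [Ref.mk 1216 1501 [0,1,2,3] [[0,6,2,3,4,5,1],[0,1,2,3,4,5,6],[0,1,2,3,4,5,6],[0,1,2,3,4,5]],Ref.mk 2935 1489 [2,0,1,3] [[0,1,2,6,3,4,5],[4,6,0,5,2,1,3],[2,1,4,0,3,5,6],[4,1,2,0,3,5]],Ref.mk 1221 1501 [0,1,2,3] [[0,1,2,3,4,5,6],[0,1,2,3,4,5,6],[0,1,2,3,4,5,6],[0,1,2,3,4,5]],Ref.mk 2940 1440 [0,1,2,3] [[0,6,2,3,4,5,1],[0,1,2,3,4,5,6],[0,1,2,3,5,6],[0,1,2,3,4,5]],Ref.mk 1222 1501 [0,1,2,3] [[0,6,2,3,4,5,7],[0,1,2,3,4,5,6],[0,1,2,3,4,5,6],[0,1,2,3,4,5]],Ref.mk 2941 1489 [2,0,1,3]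 [[0,1,2,6,3,4,5],[4,6,0,5,2,7,3],[2,1,4,0,3,5,6],[4,1,2,0,3,5]]],
Node.mk [0,820,182,1542,2448,27,976,3114,2225,2529,2938,2939,3663,45,2610,1957,1272] [(0,0),(0,1),(0,2),(0,3),(0,4),(0,5)] [Ref.mk 1221 1501 [0,1,2,3] [[0,1,2,3,4,5,6],[0,1,2,3,4,5,6],[0,1,2,3,4,5,6],[0,1,2,3,4,5]],Ref.mk 825 1502 [0,1,2,3] [[0,1,2,3,4,5,6],[0,1,2,3,4,5,6],[0,1,2,3,4,5,6],[0,1,2,3,4,5]],Ref.mk 2940 1489 [2,0,1,3] [[0,1,2,6,3,4,5],[4,1,0,5,2,6,3],[2,1,4,0,3,5,6],[4,1,2,0,3,5]]],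
Node.mk [0,820,182,1542,2448,27,976,3114,2225,2529,2938,2939,3663,45,2610,1957] [(0,0),(0,4),(1,0),(1,1),(1,2),(1,4)] [Ref.mk 1729 1251 [1,2,0,3] [[2,1,4,3,0,5],[3,1,0,4,2,5,6],[0,1,2,4,5,3],[3,1,2,4,0,5]],Ref.mk 1747 1251 [1,2,0,3] [[2,1,4,5,0,3],[3,1,0,4,2,5,6],[0,1,2,4,5,3],[3,1,2,4,0,5]],Ref.mk 1756 1495 [0,1,2,3] [[0,1,2,3,4,5],[0,1,2,3,4,5,6],[0,1,2,3,4,5,6],[0,1,2,3,4,5]],Ref.mk 1245 1462 [1,0,2,3] [[2,3,4,1,0,5],[4,3,0,5,2,1],[0,6,2,3,5,1],[4,1,2,3,0,5]],Ref.mk 1263 1462 [1,0,2,3] [[2,5,4,1,0,3],[4,3,0,5,2,1],[0,6,2,3,5,1],[4,1,2,3,0,5]],Ref.mk 1272 1503 [0,1,2,3] [[0,1,2,3,4,5],[0,1,2,3,4,5,6],[0,1,2,3,4,5,6],[0,1,2,3,4,5]]],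
Node.mk [0,820,182,1542,2448,27,976,3114,2225,2529,2938,2939,3663,45,2610,1716,1570] [(0,0),(0,2),(1,2),(2,1),(2,3),(3,2)] [],
Node.mk [0,820,182,1542,2448,27,976,3114,2225,2529,2938,2939,3663,45,2610,1716] [(0,0),(0,2),(1,0),(1,1),(1,2),(3,1)] [Ref.mk 1729 1252 [1,2,0,3] [[2,1,4,3,0,5],[3,1,0,4,2,5],[0,1,2,4,5,3],[3,1,2,4,0,5]],Ref.mk 1738 1485 [0,1,2,3] [[0,1,2,3,4,5],[0,1,2,3,4,5],[0,1,2,3,4,5],[0,1,2,3,4,5]],Ref.mk 1747 1252 [1,2,0,3] [[2,1,4,5,0,3],[3,1,0,4,2,5],[0,1,2,4,5,3],[3,1,2,4,0,5]],Ref.mk 1756 1496 [0,1,2,3] [[0,1,2,3,4,5],[0,1,2,3,4,5,6],[0,1,2,3,4,5],[0,1,2,3,4,5]],Ref.mk 1570 1505 [0,1,2,3] [[0,1,2,3,4,5,6],[0,1,2,3,4,5],[0,1,2,3,4,5],[0,1,2,3,4,5]],Ref.mk 1579 1498 [0,2,1,3] [[0,1,2,6,4,5],[3,1,0,4,2,5],[2,1,4,0,3,5],[3,1,2,0,4,5]],Ref.mk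 1588 1505 [0,1,2,3] [[0,1,2,3,4,5,6],[0,1,2,5,4,3],[0,1,2,3,4,5],[0,1,2,3,4,5]],Ref.mk 1597 1504 [0,2,1,3] [[0,1,2,6,4,5],[3,1,0,4,2,5],[2,1,4,0,3,5,6],[3,1,2,0,4,5]]],
Node.mk [0,820,182,1542,2448,27,976,3114,2225,2529,2938,2939,3663,45,2610] [(0,0),(0,2),(0,3),(1,0),(1,2),(2,1)] [Ref.mk 1711 1484 [0,1,2,3] [[0,1,2,3,4,5],[0,1,2,3,4,5],[0,1,2,3,4,5],[0,1,2,3,4,5]],Ref.mk 1729 1252 [1,2,0,3] [[2,1,4,3,0,5],[3,1,0,4,2,5],[0,1,2,4,5,3],[3,1,2,4,0,5]],Ref.mk 1738 1485 [0,1,2,3] [[0,1,2,3,4,5],[0,1,2,3,4,5],[0,1,2,3,4,5],[0,1,2,3,4,5]],Ref.mk 1747 1252 [1,2,0,3] [[2,1,4,5,0,3],[3,1,0,4,2,5],[0,1,2,4,5,3],[3,1,2,4,0,5]],Ref.mk 1756 1496 [0,1,2,3] [[0,1,2,3,4,5],[0,1,2,3,4,5,6],[0,1,2,3,4,5],[0,1,2,3,4,5]],Ref.mk 1471 1497 [0,1,2,3] [[0,1,2,3,4,5],[0,1,2,3,4,5],[0,1,2,3,4,5],[0,1,2,3,4,5]],Ref.mk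 1633 1498 [0,1,2,3] [[0,1,2,3,4,5],[0,1,2,3,4,5],[0,1,2,3,4,5],[0,1,2,3,4,5]],Ref.mk 1714 1500 [0,1,2,3] [[0,1,2,3,4,5],[0,1,2,3,4,5],[0,1,2,3,4,5],[0,1,2,3,4,5]],Ref.mk 1795 1368 [2,0,1,3] [[0,1,2,4,3,5],[4,1,0,5,2,3],[2,1,4,0,3,5],[4,1,2,0,3,5]],Ref.mk 1876 1368 [2,0,1,3] [[0,1,2,5,3,4],[4,1,0,5,2,3],[2,1,4,0,3,5],[4,1,2,0,3,5]],Ref.mk 1957 1504 [0,1,2,3] [[0,1,2,3,4,5],[0,1,2,3,4,5],[0,1,2,3,4,5,6],[0,1,2,3,4,5]],Ref.mk 1715 1202 [0,2,1,3] [[0,1,2,5,4,3],[3,1,0,4,2],[2,1,4,0,3],[3,1,2,0,4]],Ref.mk 1716 1506 [0,1,2,3] [[0,1,2,3,4,5,6],[0,1,2,3,4,5],[0,1,2,3,4,5],[0,1,2,3,4,5]]],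
Node.mk [0,820,182,1542,2448,27,976,3114,2225,2529,2938,2939,3663,45,1146] [(0,0),(0,2),(1,0),(1,1),(1,2),(3,1)] [],
Node.mk [0,820,182,1542,2448,27,976,3114,2225,2529,2938,2939,3663,45,1155] [(0,0),(0,3),(1,2),(1,4),(2,5),(3,1)] [Ref.mk 2917 26 [3,1,2,0] [[0,1,3,2,4],[0,1,2,3],[0,1,3,2],[0,1,3,2]]],
Node.mk [0,820,182,1542,2448,27,976,3114,2225,2529,2938,2939,3663,45,1164] [(0,0),(0,2),(0,3),(1,0),(1,2),(2,1)] [Ref.mk 1729 1267 [1,2,0,3] [[2,1,4,3,0,5],[3,1,0,4,2,5],[0,1,2,4,5,3],[3,1,2,4,0,5]],Ref.mk 1876 1462 [1,0,2,3] [[2,3,4,1,0,5],[4,3,0,5,2,1],[0,5,2,3,4,1],[4,1,2,3,0,5]]],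
Node.mk [0,820,182,1542,2448,27,976,3114,2225,2529,2938,2939,3663,45,1173] [(0,0),(0,3),(1,2),(1,4),(2,5),(3,1)] [],
Node.mk [0,820,182,1542,2448,27,976,3114,2225,2529,2938,2939,3663,45,1191,1756,978] [(0,0),(0,1),(0,2),(0,3),(1,2),(3,1)] [],
Node.mk [0,820,182,1542,2448,27,976,3114,2225,2529,2938,2939,3663,45,1191,1756,870] [(0,0),(0,1),(0,2),(1,2),(2,1),(3,1)] [],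
Node.mk [0,820,182,1542,2448,27,976,3114,2225,2529,2938,2939,3663,45,1191,1756] [(0,0),(0,1),(0,2),(0,3),(0,4),(0,5)] [Ref.mk 978 1512 [0,1,2,3] [[0,1,2,3,4,5,6],[0,1,2,3,4,5,6],[0,1,2,3,4,5],[0,1,2,3,4,5]],Ref.mk 2940 1503 [2,1,0,3] [[0,5,2,1,3,4],[0,6,2,3,4,5,1],[0,3,2,4,5,6,1],[0,1,2,4,3,5]],Ref.mk 870 1513 [0,1,2,3] [[0,1,2,3,4,5,6],[0,1,2,3,4,5,6],[0,1,2,3,4,5],[0,1,2,3,4,5]]],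
Node.mk [0,820,182,1542,2448,27,976,3114,2225,2529,2938,2939,3663,45,1191] [(0,0),(0,2),(0,3),(1,0),(1,2),(2,1)] [Ref.mk 1756 1514 [0,1,2,3] [[0,1,2,3,4,5],[0,1,2,3,4,5,6],[0,1,2,3,4,5],[0,1,2,3,4,5]],Ref.mk 1876 1514 [2,1,0,3] [[0,5,2,1,3,4],[0,6,2,3,4,5,1],[0,3,2,4,5,1],[0,1,2,4,3,5]]],
Node.mk [0,820,182,1542,2448,27,976,3114,2225,2529,2938,2939,3663,45,1876,1756,1545] [(0,0),(0,1),(0,2),(0,4),(0,5),(3,2)] [Ref.mk 2937 1249 [0,1,2,3] [[0,1,2,3,4,5,6],[0,1,2,3,4,5,6],[0,1,2,3,4,5],[0,1,2,3,4,5]],Ref.mk 2940 1249 [0,1,2,3] [[0,1,2,6,4,5,3],[0,1,2,3,4,5,6],[0,1,2,3,4,5],[0,1,2,3,4,5]],Ref.mk 2941 1495 [2,0,1,3] [[0,1,2,5,3,4],[4,1,0,5,2,7,6],[2,1,4,0,3,5,6],[4,1,2,0,3,5]]],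
Node.mk [0,820,182,1542,2448,27,976,3114,2225,2529,2938,2939,3663,45,1876,1756,1716] [(0,0),(0,1),(0,2),(1,2),(2,3),(3,2)] [],
Node.mk [0,820,182,1542,2448,27,976,3114,2225,2529,2938,2939,3663,45,1876,1756] [(0,0),(0,1),(0,2),(0,3),(0,4),(0,5)] [Ref.mk 1545 1516 [0,1,2,3] [[0,1,2,3,4,5,6],[0,1,2,3,4,5,6],[0,1,2,3,4,5],[0,1,2,3,4,5]],Ref.mk 1716 1517 [0,1,2,3] [[0,1,2,3,4,5,6],[0,1,2,3,4,5,6],[0,1,2,3,4,5],[0,1,2,3,4,5]],Ref.mk 2940 1495 [2,0,1,3] [[0,1,2,5,3,4],[4,1,0,5,2,6,3],[2,1,4,0,3,5,6],[4,1,2,0,3,5]]],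
Node.mk [0,820,182,1542,2448,27,976,3114,2225,2529,2938,2939,3663,45,1876] [(0,0),(0,4),(1,0),(1,1),(1,2),(1,4)] [Ref.mk 1729 1374 [1,2,0,3] [[2,1,4,3,0,5],[3,1,0,4,2,5],[0,1,2,4,5,3],[3,1,2,4,0,5]],Ref.mk 1747 1374 [1,2,0,3] [[2,1,4,5,0,3],[3,1,0,4,2,5],[0,1,2,4,5,3],[3,1,2,4,0,5]],Ref.mk 1756 1518 [0,1,2,3] [[0,1,2,3,4,5],[0,1,2,3,4,5,6],[0,1,2,3,4,5],[0,1,2,3,4,5]],Ref.mk 1164 1462 [1,0,2,3] [[2,3,4,1,0,5],[4,3,0,5,2,1],[0,5,2,3,4,1],[4,1,2,3,0,5]],Ref.mk 1182 1462 [1,0,2,3] [[2,5,4,1,0,3],[4,3,0,5,2,1],[0,5,2,3,4,1],[4,1,2,3,0,5]],Ref.mk 1191 1514 [2,1,0,3] [[0,5,2,1,3,4],[0,6,2,3,4,5,1],[0,3,2,4,5,1],[0,1,2,4,3,5]]],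
Node.mk [0,820,182,1542,2448,27,976,3114,2225,2529,2938,2939,3663,45] [(1,0),(2,0),(2,1),(2,2),(2,3),(2,4)] [Ref.mk 2610 1507 [0,1,2,3] [[0,1,2,3,4,5],[0,1,2,3,4,5],[0,1,2,3,4,5],[0,1,2,3,4,5]],Ref.mk 1146 1508 [0,1,2,3] [[0,1,2,3,4,5],[0,1,2,3,4,5],[0,1,2,3,4,5],[0,1,2,3,4,5]],Ref.mk 1155 1509 [0,1,2,3] [[0,1,2,3,4,5],[0,1,2,3,4,5],[0,1,2,3,4,5],[0,1,2,3,4,5]],Ref.mk 1164 1510 [0,1,2,3] [[0,1,2,3,4,5],[0,1,2,3,4,5],[0,1,2,3,4,5],[0,1,2,3,4,5]],Ref.mk 1173 1511 [0,1,2,3] [[0,1,2,3,4,5],[0,1,2,3,4,5],[0,1,2,3,4,5],[0,1,2,3,4,5]],Ref.mk 1182 1510 [0,1,2,3] [[0,1,2,3,4,5],[0,1,2,5,4,3],[0,1,2,3,4,5],[0,1,2,3,4,5]],Ref.mk 1191 1515 [0,1,2,3] [[0,1,2,3,4,5],[0,1,2,3,4,5,6],[0,1,2,3,4,5],[0,1,2,3,4,5]],Ref.mk 1876 1519 [0,1,2,3] [[0,1,2,3,4,5],[0,1,2,3,4,5],[0,1,2,3,4,5],[0,1,2,3,4,5]]],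
Node.mk [0,820,182,1542,2448,27,976,3114,2225,2529,2938,2939,3663,1747,1182,865] [(0,0),(0,1),(0,2),(1,2),(2,1),(3,1)] [],
Node.mk [0,820,182,1542,2448,27,976,3114,2225,2529,2938,2939,3663,1747,1182,1029] [(0,0),(0,1),(0,2),(0,3),(1,2),(3,1)] [],
Node.mk [0,820,182,1542,2448,27,976,3114,2225,2529,2938,2939,3663,1747,1182] [(1,0),(1,1),(1,2),(1,3),(1,4),(1,5)] [Ref.mk 54 1514 [0,1,2,3] [[0,1,2,3,4,5],[0,1,2,3,4,6,5],[0,1,2,3,4,5],[0,1,2,3,4,5]],Ref.mk 865 1521 [0,1,2,3] [[0,1,2,3,4,5],[0,1,2,3,4,5,6],[0,1,2,3,4,5],[0,1,2,3,4,5]],Ref.mk 1029 1522 [0,1,2,3] [[0,1,2,3,4,5],[0,1,2,3,4,5,6],[0,1,2,3,4,5],[0,1,2,3,4,5]]],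
Node.mk [0,820,182,1542,2448,27,976,3114,2225,2529,2938,2939,3663,1747,1876,1545] [(0,0),(0,1),(0,2),(0,4),(0,5),(3,2)] [Ref.mk 2937 1518 [2,0,1,3] [[0,1,2,5,3,4],[4,1,0,5,2,3,6],[2,1,4,0,3,5],[4,1,2,0,3,5]],Ref.mk 2940 1254 [0,1,2,3] [[0,1,2,6,4,5,3],[0,1,2,3,4,5],[0,1,2,3,4],[0,1,2,3,4,5]],Ref.mk 2941 1518 [2,0,1,3] [[0,1,2,5,3,4],[4,1,0,5,2,7,6],[2,1,4,0,3,5],[4,1,2,0,3,5]]],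
Node.mk [0,820,182,1542,2448,27,976,3114,2225,2529,2938,2939,3663,1747,1876,1716] [(0,0),(0,1),(0,2),(1,2),(2,3),(3,2)] [],
Node.mk [0,820,182,1542,2448,27,976,3114,2225,2529,2938,2939,3663,1747,1876] [(0,0),(0,1),(0,2),(0,3),(0,4),(0,5)] [Ref.mk 1545 1524 [0,1,2,3] [[0,1,2,3,4,5,6],[0,1,2,3,4,5],[0,1,2,3,4,5],[0,1,2,3,4,5]],Ref.mk 1716 1525 [0,1,2,3] [[0,1,2,3,4,5,6],[0,1,2,3,4,5],[0,1,2,3,4,5],[0,1,2,3,4,5]],Ref.mk 2940 1518 [2,0,1,3] [[0,1,2,5,3,4],[4,1,0,5,2,6,3],[2,1,4,0,3,5],[4,1,2,0,3,5]]],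
Node.mk [0,820,182,1542,2448,27,976,3114,2225,2529,2938,2939,3663,1747] [(0,1),(2,0),(2,1),(2,2),(2,3),(2,4)] [Ref.mk 2610 1519 [1,2,0,3] [[2,1,4,5,0,3],[3,1,0,4,2,5],[0,1,2,4,5,3],[3,1,2,4,0,5]],Ref.mk 1182 1523 [0,1,2,3] [[0,1,2,3,4,5],[0,1,2,3,4,5],[0,1,2,3,4,5],[0,1,2,3,4,5]],Ref.mk 1876 1526 [0,1,2,3] [[0,1,2,3,4,5],[0,1,2,3,4,5],[0,1,2,3,4,5],[0,1,2,3,4,5]]],
Node.mk [0,820,182,1542,2448,27,976,3114,2225,2529,2938,2939,3663,777] [(0,0),(0,2),(0,3),(1,0),(2,0),(2,1)] [Ref.mk 1747 1527 [0,1,2,3] [[0,1,2,3,4,5],[0,1,2,3,4,5],[0,1,2,3,4],[0,1,2,3,4,5]]],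
Node.mk [0,820,182,1542,2448,27,976,3114,2225,2529,2938,2939,3663,939] [(0,0),(0,3),(0,4),(2,0),(2,2),(3,1)] [Ref.mk 1747 1527 [0,1,2,3] [[0,1,2,3,4,5],[0,1,2,3,4,5],[0,1,2,3,4],[0,1,2,3,4,5]]],
Node.mk [0,820,182,1542,2448,27,976,3114,2225,2529,2938,2939,3663,1020] [(0,0),(0,2),(1,2),(2,1),(2,3),(3,1)] [],
Node.mk [0,820,182,1542,2448,27,976,3114,2225,2529,2938,2939,3663,1101] [(2,0),(2,1),(2,2),(2,3),(2,4),(3,1)] [Ref.mk 2610 1463 [2,1,0,3] [[0,4,2,1,3,5],[0,5,2,3,4,1],[0,3,2,4,5,1],[0,1,2,4,3,5]]],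
Node.mk [0,820,182,1542,2448,27,976,3114,2225,2529,2938,2939,3663,1182] [(0,0),(0,2),(0,3),(1,0),(1,2),(2,1)] [Ref.mk 1747 1523 [0,1,2,3] [[0,1,2,3,4,5],[0,1,2,3,4,5],[0,1,2,3,4,5],[0,1,2,3,4,5]],Ref.mk 1876 1523 [2,0,1,3] [[0,1,2,5,3,4],[4,1,0,5,2,3],[2,1,4,0,3,5],[4,1,2,0,3,5]]],
Node.mk [0,820,182,1542,2448,27,976,3114,2225,2529,2938,2939,3663] [(1,0),(1,1),(1,2),(1,3),(1,4),(2,1)] [Ref.mk 45 1520 [0,1,2,3] [[0,1,2,3,4,5],[0,1,2,3,4,5],[0,1,2,3,4],[0,1,2,3,4,5]],Ref.mk 1747 1527 [0,1,2,3] [[0,1,2,3,4,5],[0,1,2,3,4,5],[0,1,2,3,4],[0,1,2,3,4,5]],Ref.mk 777 1528 [0,1,2,3] [[0,1,2,3,4,5],[0,1,2,3,4,5],[0,1,2,3,4],[0,1,2,3,4,5]],Ref.mk 939 1529 [0,1,2,3] [[0,1,2,3,4,5],[0,1,2,3,4,5],[0,1,2,3,4],[0,1,2,3,4,5]],Ref.mk 1020 1530 [0,1,2,3]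 [[0,1,2,3,4,5],[0,1,2,3,4,5],[0,1,2,3,4],[0,1,2,3,4,5]],Ref.mk 1101 1531 [0,1,2,3] [[0,1,2,3,4,5],[0,1,2,3,4,5],[0,1,2,3,4],[0,1,2,3,4,5]],Ref.mk 1182 1532 [0,1,2,3] [[0,1,2,3,4,5],[0,1,2,3,4,5],[0,1,2,3,4,5],[0,1,2,3,4,5]]],
Node.mk [0,820,182,1542,2448,27,976,3114,2225,2529,2938,2939,3808] [(0,0),(0,1),(1,0),(2,0),(2,2),(3,5)] [],
Node.mk [0,820,182,1542,2448,27,976,3114,2225,2529,2938,2939,4051,3900,4458] [(0,0),(0,2),(0,3),(1,0),(1,2),(2,1)] []]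

end Vale.Agent.P045.R4N2
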