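import Vale.Agent.P045.Check

/-! Certificate data. -/

namespace Vale.Agent.P045.R4N2

open Vale.Agent.P045

/-- nodes -/
noncomputable def c24 : List Node := [
Node.mk [0,820,182,1542,2448,27,976,3114,2225,2529,2938,2939,4051,3900] [(3,0),(3,1),(3,2),(3,3),(3,4),(3,5)] [Ref.mk 4392 1527 [0,2,1,3] [[0,1,2,3,4,5],[3,1,0,4,2,5],[2,1,4,0,3],[3,1,5,0,4,6]],Ref.mk 4618 98 [3,1,2,0] [[0,1,3,2,6],[0,1,2,3],[0,1,3,2],[0,1,3,2]],Ref.mk 4458 1535 [0,1,2,3] [[0,1,2,3,4,5],[0,1,2,3,4],[0,1,2,3,4,5],[0,1,2,3,4,5,6]]],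
Node.mk [0,820,182,1542,2448,27,976,3114,2225,2529,2938,2939,4051] [(0,0),(0,1),(0,2),(1,2),(2,1),(3,1)] [Ref.mk 3900 1536 [0,1,2,3] [[0,1,2,3,4,5],[0,1,2,3,4],[0,1,2,3,4,5],[0,1,2,3,4,5]],Ref.mk 1876 1536 [2,1,0,3] [[0,1,2,5,3,4],[0,1,2,3,4],[0,1,2,4,5,3],[0,1,5,4,3,2]]],
Node.mk [0,820,182,1542,2448,27,976,3114,2225,2529,2938,2939,3900,45,2610,1795,1729] [(0,0),(1,0),(1,1),(1,2),(1,3),(1,4)] [Ref.mk 1747 1277 [1,2,0,3] [[2,1,4,5,0,3],[3,1,0,4,2],[0,1,2,4,5,3],[3,1,2,4,0,5]],Ref.mk 1756 1275 [1,2,0,3] [[2,1,4,3,0,5,6],[3,1,0,5,2],[0,1,2,4,5,3],[3,1,2,4,0,5]]],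
Node.mk [0,820,182,1542,2448,27,976,3114,2225,2529,2938,2939,3900,45,2610,1795,3784,3970] [(0,0),(0,1),(0,2),(0,3),(0,4),(1,2)] [],
Node.mk [0,820,182,1542,2448,27,976,3114,2225,2529,2938,2939,3900,45,2610,1795,3784] [(0,0),(0,2),(0,3),(0,4),(1,1),(1,2)] [Ref.mk 3970 1539 [0,1,2,3] [[0,1,2,3,4,5],[0,1,2,3,4,5,6],[0,1,2,3,4,5],[0,1,2,3,4,5]],Ref.mk 1756 1536 [0,2,1,3] [[0,1,2,3,4,5],[3,1,0,4,2],[2,1,4,0,3,6],[3,1,5,0,4,2]]],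
Node.mk [0,820,182,1542,2448,27,976,3114,2225,2529,2938,2939,3900,45,2610,1795] [(0,0),(0,3),(1,0),(1,1),(1,2),(1,4)] [Ref.mk 1729 1538 [0,1,2,3] [[0,1,2,3,4,5],[0,1,2,3,4,5],[0,1,2,3,4,5],[0,1,2,3,4,5]],Ref.mk 1747 1538 [0,1,2,3] [[0,1,2,3,4,5],[0,1,2,5,4,3],[0,1,2,3,4,5],[0,1,2,3,4,5]],Ref.mk 1756 1536 [0,2,1,3] [[0,1,2,3,4,5],[3,1,0,4,2],[2,1,4,0,3,6],[3,1,5,0,4,2]],Ref.mk 3757 1181 [1,0,2,3] [[2,0,4,3,1,5],[4,3,0,5,2],[0,1,2,4,3,5],[4,2,5,3,0,1]],Ref.mk 3775 1181 [1,0,2,3] [[2,0,4,5,1,3],[4,3,0,5,2],[0,1,2,4,3,5],[4,2,5,3,0,1]],Ref.mk 3784 1540 [0,1,2,3] [[0,1,2,3,4,5],[0,1,2,3,4,5,6],[0,1,2,3,4,5],[0,1,2,3,4,5]]],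
Node.mk [0,820,182,1542,2448,27,976,3114,2225,2529,2938,2939,3900,45,2610,1957,1702] [(0,0),(0,1),(0,2),(1,0),(1,1),(1,2)] [],
Node.mk [0,820,182,1542,2448,27,976,3114,2225,2529,2938,2939,3900,45,2610,1957,1729] [(0,0),(0,2),(0,3),(1,1),(1,2),(2,3)] [Ref.mk 4132 1536 [0,1,2,3] [[0,1,2,3,4,5],[0,1,2,3,4],[0,1,2,3,4,6],[0,1,2,3,4,5]],Ref.mk 3757 1539 [0,2,1,3] [[0,1,2,3,4,5],[3,1,0,4,2,5,6],[2,1,4,0,3,5],[3,1,5,0,4,2]]],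
Node.mk [0,820,182,1542,2448,27,976,3114,2225,2529,2938,2939,3900,45,2610,1957] [(0,0),(0,3),(0,4),(1,1),(1,2),(1,4)] [Ref.mk 1702 1542 [0,1,2,3] [[0,1,2,3,4,5],[0,1,2,3,4,5],[0,1,2,3,4,5,6],[0,1,2,3,4,5]],Ref.mk 4132 1536 [0,1,2,3] [[0,1,2,3,4,5],[0,1,2,3,4],[0,1,2,3,4,6],[0,1,2,3,4,5]],Ref.mk 1729 1543 [0,1,2,3] [[0,1,2,3,4,5],[0,1,2,3,4,5],[0,1,2,3,4,5,6],[0,1,2,3,4,5]],Ref.mk 1747 1543 [0,1,2,3] [[0,1,2,3,4,5],[0,1,2,5,4,3],[0,1,2,3,4,5,6],[0,1,2,3,4,5]],Ref.mk 1756 1536 [0,2,1,3] [[0,1,2,3,4,5],[3,1,0,4,2],[2,1,4,0,3,6],[3,1,5,0,4,2]]],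
Node.mk [0,820,182,1542,2448,27,976,3114,2225,2529,2938,2939,3900,45,2610] [(0,0),(0,3),(2,0),(2,1),(2,2),(2,3)] [Ref.mk 3970 1277 [2,1,0,3] [[0,1,2,4,3,5],[0,1,2,5,4],[0,1,2,4,5,3],[0,1,5,4,3,2]],Ref.mk 4051 1277 [2,1,0,3] [[0,1,2,5,3,4],[0,1,2,5,4],[0,1,2,4,5,3],[0,1,5,4,3,2]],Ref.mk 4132 1536 [0,1,2,3] [[0,1,2,3,4,5],[0,1,2,5,4],[0,1,2,3,5,6],[0,1,2,3,4,5]],Ref.mk 1795 1541 [0,1,2,3] [[0,1,2,3,4,5],[0,1,2,3,4,5],[0,1,2,3,4,5],[0,1,2,3,4,5]],Ref.mk 1876 1541 [0,1,2,3] [[0,1,2,3,4,5],[0,1,2,3,4,5],[0,1,2,3,5,4],[0,1,2,3,4,5]],Ref.mk 1957 1544 [0,1,2,3] [[0,1,2,3,4,5],[0,1,2,3,4,5],[0,1,2,3,4,5,6],[0,1,2,3,4,5]]],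
Node.mk [0,820,182,1542,2448,27,976,3114,2225,2529,2938,2939,3900,45,1876,1702] [(0,0),(0,1),(0,2),(1,0),(1,1),(1,2)] [],
Node.mk [0,820,182,1542,2448,27,976,3114,2225,2529,2938,2939,3900,45,1876,1756] [(0,0),(1,0),(1,1),(1,2),(1,4),(1,6)] [Ref.mk 1729 1275 [1,2,0,3] [[2,1,4,3,0,5,6],[3,1,0,4,2],[0,1,2,4,5,3],[3,1,2,4,0,5]],Ref.mk 1747 1275 [1,2,0,3] [[2,1,4,5,0,3,6],[3,1,0,4,2],[0,1,2,4,5,3],[3,1,2,4,0,5]],Ref.mk 1765 1536 [0,2,1,3] [[0,1,2,3,4,5],[3,1,0,4,2],[2,1,4,0,3,7],[3,1,5,0,4,2]]],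
Node.mk [0,820,182,1542,2448,27,976,3114,2225,2529,2938,2939,3900,45,1876] [(0,0),(0,3),(0,4),(1,1),(1,2),(1,4)] [Ref.mk 1702 1546 [0,1,2,3] [[0,1,2,3,4,5],[0,1,2,3,4,5],[0,1,2,3,4,5],[0,1,2,3,4,5]],Ref.mk 4051 1536 [2,1,0,3] [[0,1,2,5,3,4],[0,1,2,5,4],[0,1,2,4,5,3],[0,1,5,4,3,2]],Ref.mk 1729 1277 [1,2,0,3] [[2,1,4,3,0,5],[3,1,0,4,2],[0,1,2,4,5,3],[3,1,2,4,0,5]],Ref.mk 1747 1277 [1,2,0,3] [[2,1,4,5,0,3],[3,1,0,4,2],[0,1,2,4,5,3],[3,1,2,4,0,5]],Ref.mk 1756 1547 [0,1,2,3] [[0,1,2,3,4,5],[0,1,2,3,4,5,6],[0,1,2,3,4,5],[0,1,2,3,4,5]]],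
Node.mk [0,820,182,1542,2448,27,976,3114,2225,2529,2938,2939,3900,45] [(0,3),(2,0),(2,1),(2,2),(2,3),(2,4)] [Ref.mk 2610 1545 [0,1,2,3] [[0,1,2,3,4,5],[0,1,2,3,4,5],[0,1,2,3,4,5],[0,1,2,3,4,5]],Ref.mk 4051 1536 [0,1,2,3] [[0,1,2,3,4,5],[0,1,2,5,4],[0,1,2,3,4,5],[0,1,2,3,4,5]],Ref.mk 1876 1548 [0,1,2,3] [[0,1,2,3,4,5],[0,1,2,3,4,5],[0,1,2,3,4,5],[0,1,2,3,4,5]]],
Node.mk [0,820,182,1542,2448,27,976,3114,2225,2529,2938,2939,3900,3775,3970] [(0,0),(0,2),(1,2),(2,1),(2,3),(2,4)] [Ref.mk 3646 26 [3,1,2,0] [[0,1,3,2,5],[0,1,2,3],[0,1,3,2],[0,1,3,2]],Ref.mk 3808 1534 [0,1,2,3] [[0,1,2,3,4,5],[0,1,2,3,4],[0,1,2,3,4],[0,1,2,3,4,5]],Ref.mk 4051 1536 [0,1,2,3] [[0,1,2,3,4,5],[0,1,2,3,4],[0,1,2,3,4,5],[0,1,2,3,4,5]]],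
Node.mk [0,820,182,1542,2448,27,976,3114,2225,2529,2938,2939,3900,3775] [(0,0),(0,3),(0,4),(2,0),(2,1),(2,2)] [Ref.mk 3889 98 [3,1,2,0] [[0,1,3,2,5],[0,1,2,3],[0,1,3,2],[0,1,3,2]],Ref.mk 3970 1550 [0,1,2,3] [[0,1,2,3,4,5],[0,1,2,3,4,5],[0,1,2,3,4],[0,1,2,3,4,5]],Ref.mk 4051 1536 [0,1,2,3] [[0,1,2,3,4,5],[0,1,2,3,4],[0,1,2,3,4,5],[0,1,2,3,4,5]],Ref.mk 1747 1536 [1,2,0,3] [[2,1,4,5,0,3],[3,1,0,4,2],[0,1,2,4,5,3],[3,1,2,4,0,5]]],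
Node.mk [0,820,182,1542,2448,27,976,3114,2225,2529,2938,2939,3900] [(0,3),(1,0),(1,1),(1,2),(1,3),(1,4)] [Ref.mk 45 1549 [0,1,2,3] [[0,1,2,3,4,5],[0,1,2,3,4,5],[0,1,2,3,4],[0,1,2,3,4,5]],Ref.mk 1747 1536 [0,2,1,3] [[0,1,2,3,4,5],[3,1,0,4,2],[2,1,4,0,3,5],[3,1,5,0,4,2]],Ref.mk 3775 1551 [0,1,2,3] [[0,1,2,3,4,5],[0,1,2,3,4,5],[0,1,2,3,4],[0,1,2,3,4,5]]],
Node.mk [0,820,182,1542,2448,27,976,3114,2225,2529,2938,2939] [(2,1),(3,0),(3,1),(3,2),(3,3),(3,4)] [Ref.mk 3663 1533 [0,1,2,3] [[0,1,2,3,4,5],[0,1,2,3,4],[0,1,2,3,4],[0,1,2,3,4,5]],Ref.mk 3646 26 [3,1,2,0] [[0,1,3,2,5],[0,1,2,3],[0,1,3,2],[0,1,3,2]],Ref.mk 3808 1534 [0,1,2,3] [[0,1,2,3,4,5],[0,1,2,3,4],[0,1,2,3,4],[0,1,2,3,4,5]],Ref.mk 3889 98 [3,1,2,0] [[0,1,3,2,5],[0,1,2,3],[0,1,3,2],[0,1,3,2]],Ref.mk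 3970 1284 [2,1,0,3] [[0,1,2,4,3],[0,1,2,3,4],[0,1,2,4,5],[0,1,5,4,3]],Ref.mk 4051 1537 [0,1,2,3] [[0,1,2,3,4,5],[0,1,2,3,4],[0,1,2,3,4,5],[0,1,2,3,4,5]],Ref.mk 3900 1552 [0,1,2,3] [[0,1,2,3,4,5],[0,1,2,3,4],[0,1,2,3,4],[0,1,2,3,4,5]]],
Node.mk [0,820,182,1542,2448,27,976,3114,2225,2529,2938] [(0,0),(0,2),(0,4),(1,0),(2,3),(3,1)] [Ref.mk 2935 1480 [0,1,2,3] [[0,1,2,3,4],[0,1,2,3,4],[0,1,2,3,4],[0,1,2,3,4]],Ref.mk 2937 1284 [0,1,2,3] [[0,1,2,3,4],[0,1,2,3,4],[0,1,2,3,4],[0,1,2,3,4]],Ref.mk 2939 1553 [0,1,2,3] [[0,1,2,3,4,5],[0,1,2,3,4],[0,1,2,3,4],[0,1,2,3,4]]],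
Node.mk [0,820,182,1542,2448,27,976,3114,2225,2529,2939,3663,45,2610,255] [(0,0),(0,3),(1,1),(2,0),(2,3),(3,0)] [],
Node.mk [0,820,182,1542,2448,27,976,3114,2225,2529,2939,3663,45,2610,1713,2431] [(0,0),(0,1),(1,0),(1,2),(2,3),(3,3)] [],
Node.mk [0,820,182,1542,2448,27,976,3114,2225,2529,2939,3663,45,2610,1713,3000] [(0,0),(0,2),(0,3),(1,0),(1,2),(2,1)] [],
Node.mk [0,820,182,1542,2448,27,976,3114,2225,2529,2939,3663,45,2610,1713,3729] [(0,0),(0,2),(0,3),(1,0),(1,2),(2,1)] [],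
Node.mk [0,820,182,1542,2448,27,976,3114,2225,2529,2939,3663,45,2610,1713,4458] [(0,0),(0,2),(0,3),(1,0),(1,2),(2,1)] [],
Node.mk [0,820,182,1542,2448,27,976,3114,2225,2529,2939,3663,45,2610,1713] [(0,0),(1,1),(2,0),(3,0),(3,1),(3,2)] [Ref.mk 2431 1556 [0,1,2,3] [[0,1,2,3,4,5],[0,1,2,3,4,5],[0,1,2,3,4,5],[0,1,2,3,4,5]],Ref.mk 3160 98 [3,1,2,0] [[0,1,3,2,4],[0,1,2,3],[0,1,3,2],[0,1,3,2]],Ref.mk 3889 98 [3,1,2,0] [[0,1,3,2,5],[0,1,2,3],[0,1,3,2],[0,1,3,2]],Ref.mk 4618 98 [3,1,2,0] [[0,1,3,2,6],[0,1,2,3],[0,1,3,2],[0,1,3,2]],Ref.mk 2271 1555 [0,2,1,3] [[0,1,2,3,4,5],[3,1,0,4,2,5],[2,1,4,0,3,5],[3,1,2,0,4,5]],Ref.mk 3000 1557 [0,1,2,3] [[0,1,2,3,4,5],[0,1,2,3,4,5],[0,1,2,3,4,5],[0,1,2,3,4,5]],Ref.mk 3729 1558 [0,1,2,3] [[0,1,2,3,4,5],[0,1,2,3,4,5],[0,1,2,3,4,5],[0,1,2,3,4,5]],Ref.mk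 4458 1559 [0,1,2,3] [[0,1,2,3,4,5],[0,1,2,3,4,5],[0,1,2,3,4,5],[0,1,2,3,4,5,6]]],
Node.mk [0,820,182,1542,2448,27,976,3114,2225,2529,2939,3663,45,2610,2442] [(0,0),(0,3),(1,1),(1,2),(2,3),(3,3)] [],
Node.mk [0,820,182,1542,2448,27,976,3114,2225,2529,2939,3663,45,2610,3171] [(0,0),(0,2),(0,3),(1,1),(2,3),(3,4)] [],
Node.mk [0,820,182,1542,2448,27,976,3114,2225,2529,2939,3663,45,2610,3900,4392,3732] [(0,0),(0,2),(1,0),(1,1),(1,2),(2,1)] [],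
Node.mk [0,820,182,1542,2448,27,976,3114,2225,2529,2939,3663,45,2610,3900,4392,978] [(0,0),(0,2),(1,0),(1,2),(2,3),(3,1)] [],
Node.mk [0,820,182,1542,2448,27,976,3114,2225,2529,2939,3663,45,2610,3900,4392,825] [(0,0),(0,2),(1,1),(1,2),(2,1),(3,1)] [],
Node.mk [0,820,182,1542,2448,27,976,3114,2225,2529,2939,3663,45,2610,3900,4392,1716] [(0,0),(0,2),(0,3),(1,1),(1,2),(2,3)] [Ref.mk 3732 1563 [0,2,1,3] [[0,1,2,6,4,5,3],[3,1,0,4,2,5],[2,1,4,0,3,5],[3,1,2,0,4,5,6]]],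
Node.mk [0,820,182,1542,2448,27,976,3114,2225,2529,2939,3663,45,2610,3900,4392,2940] [(0,0),(0,1),(0,2),(0,3),(0,4),(1,2)] [Ref.mk 3731 1563 [0,1,2,3] [[0,1,2,3,4,6,5],[0,1,2,3,4,5],[0,1,2,3,4,5],[0,1,2,3,4,5,6]],Ref.mk 977 1564 [0,1,2,3] [[0,1,2,3,4,6,5],[0,1,2,3,4,5],[0,1,2,3,4,5],[0,1,2,3,4,5,6]],Ref.mk 824 1565 [0,1,2,3] [[0,1,2,3,4,6,5],[0,1,2,3,4,5],[0,1,2,3,4,5],[0,1,2,3,4,5,6]],Ref.mk 1715 1566 [0,1,2,3] [[0,1,2,3,4,6,5],[0,1,2,3,4,5],[0,1,2,3,4,5],[0,1,2,3,4,5,6]],Ref.mk 3732 1563 [0,1,2,3] [[0,1,2,3,4,5,6],[0,1,2,3,4,5],[0,1,2,3,4,5],[0,1,2,3,4,5,6]],Ref.mk 978 1564 [0,1,2,3] [[0,1,2,3,4,5,6],[0,1,2,3,4,5],[0,1,2,3,4,5],[0,1,2,3,4,5,6]],Ref.mk 825 1565 [0,1,2,3] [[0,1,2,3,4,5,6],[0,1,2,3,4,5],[0,1,2,3,4,5],[0,1,2,3,4,5,6]],Ref.mk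 1716 1566 [0,1,2,3] [[0,1,2,3,4,5,6],[0,1,2,3,4,5],[0,1,2,3,4,5],[0,1,2,3,4,5,6]],Ref.mk 3733 1563 [0,1,2,3] [[0,1,2,3,4,6,7],[0,1,2,3,4,5],[0,1,2,3,4,5],[0,1,2,3,4,5,6]],Ref.mk 979 1564 [0,1,2,3] [[0,1,2,3,4,6,7],[0,1,2,3,4,5],[0,1,2,3,4,5],[0,1,2,3,4,5,6]],Ref.mk 826 1565 [0,1,2,3] [[0,1,2,3,4,6,7],[0,1,2,3,4,5],[0,1,2,3,4,5],[0,1,2,3,4,5,6]],Ref.mk 1717 1566 [0,1,2,3] [[0,1,2,3,4,6,7],[0,1,2,3,4,5],[0,1,2,3,4,5],[0,1,2,3,4,5,6]]],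
Node.mk [0,820,182,1542,2448,27,976,3114,2225,2529,2939,3663,45,2610,3900,4392] [(0,0),(0,1),(0,2),(0,3),(0,4),(0,5)] [Ref.mk 3732 1563 [0,1,2,3] [[0,1,2,3,4,5,6],[0,1,2,3,4,5],[0,1,2,3,4,5],[0,1,2,3,4,5,6]],Ref.mk 978 1564 [0,1,2,3] [[0,1,2,3,4,5,6],[0,1,2,3,4,5],[0,1,2,3,4,5],[0,1,2,3,4,5,6]],Ref.mk 825 1565 [0,1,2,3] [[0,1,2,3,4,5,6],[0,1,2,3,4,5],[0,1,2,3,4,5],[0,1,2,3,4,5,6]],Ref.mk 1716 1566 [0,1,2,3] [[0,1,2,3,4,5,6],[0,1,2,3,4,5],[0,1,2,3,4,5],[0,1,2,3,4,5,6]],Ref.mk 2940 1567 [0,1,2,3] [[0,1,2,3,4,5,6],[0,1,2,3,4,5],[0,1,2,3,4,5],[0,1,2,3,4,5,6]]],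
Node.mk [0,820,182,1542,2448,27,976,3114,2225,2529,2939,3663,45,2610,3900,4458] [(0,0),(0,2),(0,3),(1,0),(1,2),(2,1)] [],
Node.mk [0,820,182,1542,2448,27,976,3114,2225,2529,2939,3663,45,2610,3900,4629] [(0,0),(0,2),(0,3),(1,1),(1,2),(2,3)] [],
Node.mk [0,820,182,1542,2448,27,976,3114,2225,2529,2939,3663,45,2610,3900,4468] [(0,0),(0,2),(0,4),(1,1),(1,2),(2,1)] [Ref.mk 4618 98 [3,1,2,0] [[0,1,3,2,6],[0,1,2,3],[0,1,3,2],[0,1,3,2]]],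
Node.mk [0,820,182,1542,2448,27,976,3114,2225,2529,2939,3663,45,2610,3900] [(3,0),(3,1),(3,2),(3,3),(3,4),(3,5)] [Ref.mk 4392 1568 [0,1,2,3] [[0,1,2,3,4,5],[0,1,2,3,4,5],[0,1,2,3,4,5],[0,1,2,3,4,5,6]],Ref.mk 4618 98 [3,1,2,0] [[0,1,3,2,6],[0,1,2,3],[0,1,3,2],[0,1,3,2]],Ref.mk 4458 1569 [0,1,2,3] [[0,1,2,3,4,5],[0,1,2,3,4,5],[0,1,2,3,4,5],[0,1,2,3,4,5,6]],Ref.mk 4629 1570 [0,1,2,3] [[0,1,2,3,4,5],[0,1,2,3,4,5],[0,1,2,3,4,5],[0,1,2,3,4,5,6]],Ref.mk 4468 1571 [0,1,2,3] [[0,1,2,3,4,5],[0,1,2,3,4,5],[0,1,2,3,4,5],[0,1,2,3,4,5,6]]],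
Node.mk [0,820,182,1542,2448,27,976,3114,2225,2529,2939,3663,45,2610,4629,4461] [(0,0),(0,2),(1,0),(1,1),(1,2),(2,1)] [],
Node.mk [0,820,182,1542,2448,27,976,3114,2225,2529,2939,3663,45,2610,4629,978] [(0,0),(0,2),(1,0),(1,2),(2,3),(3,1)] [],
Node.mk [0,820,182,1542,2448,27,976,3114,2225,2529,2939,3663,45,2610,4629,825] [(0,0),(0,2),(1,1),(1,2),(2,1),(3,1)] [],
Node.mk [0,820,182,1542,2448,27,976,3114,2225,2529,2939,3663,45,2610,4629,2940] [(0,0),(0,1),(0,2),(0,3),(0,4),(1,2)] [Ref.mk 4460 1336 [0,1,2,3] [[0,1,2,5,4,6,3],[0,1,2,3,4,5],[0,1,2,3,4,5],[0,1,6,3,4,5]],Ref.mk 977 1574 [0,1,2,3] [[0,1,2,3,4,6,5],[0,1,2,3,4,5],[0,1,2,3,4,5],[0,1,2,3,4,5,6]],Ref.mk 824 1575 [0,1,2,3] [[0,1,2,3,4,6,5],[0,1,2,3,4,5],[0,1,2,3,4,5],[0,1,2,3,4,5,6]],Ref.mk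 1715 1573 [0,2,1,3] [[0,1,2,3,4,6,5],[3,1,0,4,2,5],[2,1,4,0,3,5],[3,1,6,0,4,5,2]],Ref.mk 4461 1336 [0,1,2,3] [[0,1,2,6,4,5,3],[0,1,2,3,4,5],[0,1,2,3,4,5],[0,1,6,3,4,5]],Ref.mk 978 1574 [0,1,2,3] [[0,1,2,3,4,5,6],[0,1,2,3,4,5],[0,1,2,3,4,5],[0,1,2,3,4,5,6]],Ref.mk 825 1575 [0,1,2,3] [[0,1,2,3,4,5,6],[0,1,2,3,4,5],[0,1,2,3,4,5],[0,1,2,3,4,5,6]],Ref.mk 1716 1336 [0,2,1,3] [[0,1,2,6,4,5,3],[3,1,0,4,2,5],[2,1,4,0,3,5],[3,1,2,0,4,5]],Ref.mk 4462 1573 [0,1,2,3] [[0,1,2,3,4,6,7],[0,1,2,3,4,5],[0,1,2,3,4,5],[0,1,2,3,4,5,6]],Ref.mk 979 1574 [0,1,2,3] [[0,1,2,3,4,6,7],[0,1,2,3,4,5],[0,1,2,3,4,5],[0,1,2,3,4,5,6]],Ref.mk 826 1575 [0,1,2,3] [[0,1,2,3,4,6,7],[0,1,2,3,4,5],[0,1,2,3,4,5],[0,1,2,3,4,5,6]],Ref.mk 1717 1573 [0,2,1,3] [[0,1,2,3,4,6,7],[3,1,0,4,2,5],[2,1,4,0,3,5],[3,1,6,0,4,5,2]]],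
Node.mk [0,820,182,1542,2448,27,976,3114,2225,2529,2939,3663,45,2610,4629] [(0,0),(0,1),(0,2),(0,3),(0,4),(0,5)] [Ref.mk 4461 1573 [0,1,2,3] [[0,1,2,3,4,5,6],[0,1,2,3,4,5],[0,1,2,3,4,5],[0,1,2,3,4,5,6]],Ref.mk 978 1574 [0,1,2,3] [[0,1,2,3,4,5,6],[0,1,2,3,4,5],[0,1,2,3,4,5],[0,1,2,3,4,5,6]],Ref.mk 825 1575 [0,1,2,3] [[0,1,2,3,4,5,6],[0,1,2,3,4,5],[0,1,2,3,4,5],[0,1,2,3,4,5,6]],Ref.mk 1716 1573 [0,2,1,3] [[0,1,2,3,4,5,6],[3,1,0,4,2,5],[2,1,4,0,3,5],[3,1,6,0,4,5,2]],Ref.mk 2940 1576 [0,1,2,3] [[0,1,2,3,4,5,6],[0,1,2,3,4,5],[0,1,2,3,4,5],[0,1,2,3,4,5,6]]],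
Node.mk [0,820,182,1542,2448,27,976,3114,2225,2529,2939,3663,45,2610,1633] [(0,0),(0,4),(1,1),(2,0),(2,2),(3,2)] [],
Node.mk [0,820,182,1542,2448,27,976,3114,2225,2529,2939,3663,45,2610,1714,244] [(0,0),(0,1),(1,0),(2,0),(2,3),(3,0)] [],
Node.mk [0,820,182,1542,2448,27,976,3114,2225,2529,2939,3663,45,2610,1714] [(0,0),(1,2),(2,1),(3,1),(3,2),(3,3)] [Ref.mk 244 1579 [0,1,2,3] [[0,1,2,3,4,5],[0,1,2,3,4,5],[0,1,2,3,4,5],[0,1,2,3,4,5]],Ref.mk 3160 98 [3,1,2,0] [[0,1,3,2,4],[0,1,2,3],[0,1,3,2],[0,1,3,2]],Ref.mk 3889 98 [3,1,2,0] [[0,1,3,2,5],[0,1,2,3],[0,1,3,2],[0,1,3,2]],Ref.mk 4618 98 [3,1,2,0] [[0,1,3,2,6],[0,1,2,3],[0,1,3,2],[0,1,3,2]],Ref.mk 255 1555 [0,1,2,3] [[0,1,2,3,4,5],[0,1,2,3,4,5],[0,1,2,3,4,5],[0,1,2,3,4,5]],Ref.mk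 3171 1562 [0,1,2,3] [[0,1,2,3,4,5],[0,1,2,3,4,5],[0,1,2,3,4,5],[0,1,2,3,4,5]],Ref.mk 3900 1572 [0,1,2,3] [[0,1,2,3,4,5],[0,1,2,3,4,5],[0,1,2,3,4,5],[0,1,2,3,4,5]],Ref.mk 4629 1577 [0,1,2,3] [[0,1,2,3,4,5],[0,1,2,3,4,5],[0,1,2,3,4,5],[0,1,2,3,4,5,6]]],
Node.mk [0,820,182,1542,2448,27,976,3114,2225,2529,2939,3663,45,2610,1795,325] [(0,0),(0,1),(1,0),(2,0),(2,4),(3,0)] [],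
Node.mk [0,820,182,1542,2448,27,976,3114,2225,2529,2939,3663,45,2610,1795,2512] [(0,0),(0,1),(1,0),(1,2),(2,4),(3,3)] [],
Node.mk [0,820,182,1542,2448,27,976,3114,2225,2529,2939,3663,45,2610,1795,3970,1545] [(0,0),(0,1),(0,2),(0,4),(1,0),(1,2)] [],
Node.mk [0,820,182,1542,2448,27,976,3114,2225,2529,2939,3663,45,2610,1795,3970,1059] [(0,0),(0,1),(0,2),(1,0),(1,2),(2,4)] [],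
Node.mk [0,820,182,1542,2448,27,976,3114,2225,2529,2939,3663,45,2610,1795,3970,2940] [(0,0),(0,1),(0,2),(0,3),(0,4),(1,2)] [Ref.mk 1544 1583 [0,1,2,3] [[0,1,2,3,4,6,5],[0,1,2,3,4,5],[0,1,2,3,4,5],[0,1,2,3,4,5]],Ref.mk 1058 1584 [0,1,2,3] [[0,1,2,3,4,6,5],[0,1,2,3,4,5],[0,1,2,3,4,5],[0,1,2,3,4,5]],Ref.mk 1545 1583 [0,1,2,3] [[0,1,2,3,4,5,6],[0,1,2,3,4,5],[0,1,2,3,4,5],[0,1,2,3,4,5]],Ref.mk 1059 1584 [0,1,2,3] [[0,1,2,3,4,5,6],[0,1,2,3,4,5],[0,1,2,3,4,5],[0,1,2,3,4,5]],Ref.mk 1546 1583 [0,1,2,3] [[0,1,2,3,4,6,7],[0,1,2,3,4,5],[0,1,2,3,4,5],[0,1,2,3,4,5]],Ref.mk 1060 1584 [0,1,2,3] [[0,1,2,3,4,6,7],[0,1,2,3,4,5],[0,1,2,3,4,5],[0,1,2,3,4,5]]],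
Node.mk [0,820,182,1542,2448,27,976,3114,2225,2529,2939,3663,45,2610,1795,3970] [(0,0),(0,1),(0,2),(0,3),(0,4),(0,5)] [Ref.mk 1545 1583 [0,1,2,3] [[0,1,2,3,4,5,6],[0,1,2,3,4,5],[0,1,2,3,4,5],[0,1,2,3,4,5]],Ref.mk 1059 1584 [0,1,2,3] [[0,1,2,3,4,5,6],[0,1,2,3,4,5],[0,1,2,3,4,5],[0,1,2,3,4,5]],Ref.mk 2940 1585 [0,1,2,3] [[0,1,2,3,4,5,6],[0,1,2,3,4,5],[0,1,2,3,4,5],[0,1,2,3,4,5]]],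
Node.mk [0,820,182,1542,2448,27,976,3114,2225,2529,2939,3663,45,2610,1795,4699,1545] [(0,0),(0,1),(0,2),(0,4),(1,0),(1,2)] [],
Node.mk [0,820,182,1542,2448,27,976,3114,2225,2529,2939,3663,45,2610,1795,4699,1059] [(0,0),(0,1),(0,2),(1,0),(1,2),(2,4)] [],
Node.mk [0,820,182,1542,2448,27,976,3114,2225,2529,2939,3663,45,2610,1795,4699,2940] [(0,0),(0,1),(0,2),(0,3),(0,4),(1,2)] [Ref.mk 1544 1587 [0,1,2,3] [[0,1,2,3,4,6,5],[0,1,2,3,4,5],[0,1,2,3,4,5],[0,1,2,3,4,5,6]],Ref.mk 1058 1588 [0,1,2,3] [[0,1,2,3,4,6,5],[0,1,2,3,4,5],[0,1,2,3,4,5],[0,1,2,3,4,5,6]],Ref.mk 1545 1587 [0,1,2,3] [[0,1,2,3,4,5,6],[0,1,2,3,4,5],[0,1,2,3,4,5],[0,1,2,3,4,5,6]],Ref.mk 1059 1588 [0,1,2,3] [[0,1,2,3,4,5,6],[0,1,2,3,4,5],[0,1,2,3,4,5],[0,1,2,3,4,5,6]],Ref.mk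 1546 1587 [0,1,2,3] [[0,1,2,3,4,6,7],[0,1,2,3,4,5],[0,1,2,3,4,5],[0,1,2,3,4,5,6]],Ref.mk 1060 1588 [0,1,2,3] [[0,1,2,3,4,6,7],[0,1,2,3,4,5],[0,1,2,3,4,5],[0,1,2,3,4,5,6]]],
Node.mk [0,820,182,1542,2448,27,976,3114,2225,2529,2939,3663,45,2610,1795,4699] [(0,0),(0,1),(0,2),(0,3),(0,4),(0,5)] [Ref.mk 1545 1587 [0,1,2,3] [[0,1,2,3,4,5,6],[0,1,2,3,4,5],[0,1,2,3,4,5],[0,1,2,3,4,5,6]],Ref.mk 1059 1588 [0,1,2,3] [[0,1,2,3,4,5,6],[0,1,2,3,4,5],[0,1,2,3,4,5],[0,1,2,3,4,5,6]],Ref.mk 2940 1589 [0,1,2,3] [[0,1,2,3,4,5,6],[0,1,2,3,4,5],[0,1,2,3,4,5],[0,1,2,3,4,5,6]]],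
Node.mk [0,820,182,1542,2448,27,976,3114,2225,2529,2939,3663,45,2610,1795] [(0,0),(0,2),(2,1),(3,1),(3,2),(3,4)] [Ref.mk 325 1581 [0,1,2,3] [[0,1,2,3,4,5],[0,1,2,3,4,5],[0,1,2,3,4,5],[0,1,2,3,4,5]],Ref.mk 2512 1582 [0,1,2,3] [[0,1,2,3,4,5],[0,1,2,3,4,5],[0,1,2,3,4,5],[0,1,2,3,4,5]],Ref.mk 3970 1586 [0,1,2,3] [[0,1,2,3,4,5],[0,1,2,3,4,5],[0,1,2,3,4,5],[0,1,2,3,4,5]],Ref.mk 4699 1590 [0,1,2,3] [[0,1,2,3,4,5],[0,1,2,3,4,5],[0,1,2,3,4,5],[0,1,2,3,4,5,6]],Ref.mk 255 1555 [0,1,2,3] [[0,1,2,3,4,5],[0,1,2,3,4,5],[0,1,2,3,4,5],[0,1,2,3,4,5]],Ref.mk 2442 1561 [0,1,2,3] [[0,1,2,3,4,5],[0,1,2,3,4,5],[0,1,2,3,4,5],[0,1,2,3,4,5]],Ref.mk 3900 1572 [0,1,2,3] [[0,1,2,3,4,5],[0,1,2,3,4,5],[0,1,2,3,4,5],[0,1,2,3,4,5]],Ref.mk 4629 1577 [0,1,2,3]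 [[0,1,2,3,4,5],[0,1,2,3,4,5],[0,1,2,3,4,5],[0,1,2,3,4,5,6]]],
Node.mk [0,820,182,1542,2448,27,976,3114,2225,2529,2939,3663,45,2610,1957,487] [(0,0),(0,1),(1,0),(2,0),(2,6),(3,0)] [],
Node.mk [0,820,182,1542,2448,27,976,3114,2225,2529,2939,3663,45,2610,1957,2674] [(0,0),(0,1),(1,0),(1,2),(2,6),(3,3)] [],
Node.mk [0,820,182,1542,2448,27,976,3114,2225,2529,2939,3663,45,2610,1957,4132,1545] [(0,0),(0,1),(0,2),(0,4),(1,0),(1,2)] [],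
Node.mk [0,820,182,1542,2448,27,976,3114,2225,2529,2939,3663,45,2610,1957,4132,1221] [(0,0),(0,1),(0,2),(1,0),(1,2),(2,6)] [],
Node.mk [0,820,182,1542,2448,27,976,3114,2225,2529,2939,3663,45,2610,1957,4132,2940] [(0,0),(0,1),(0,2),(0,3),(0,4),(1,2)] [Ref.mk 1544 1324 [0,1,2,3] [[0,1,2,5,4,6,3],[0,1,2,3,4,5],[0,1,2,3,4,5,6],[0,1,2,3,4,5]],Ref.mk 1220 1595 [0,1,2,3] [[0,1,2,3,4,6,5],[0,1,2,3,4,5],[0,1,2,3,4,5,6],[0,1,2,3,4,5]],Ref.mk 1545 1324 [0,1,2,3] [[0,1,2,6,4,5,3],[0,1,2,3,4,5],[0,1,2,3,4,5,6],[0,1,2,3,4,5]],Ref.mk 1221 1595 [0,1,2,3] [[0,1,2,3,4,5,6],[0,1,2,3,4,5],[0,1,2,3,4,5,6],[0,1,2,3,4,5]],Ref.mk 1546 1594 [0,1,2,3] [[0,1,2,3,4,6,7],[0,1,2,3,4,5],[0,1,2,3,4,5,6],[0,1,2,3,4,5]],Ref.mk 1222 1595 [0,1,2,3] [[0,1,2,3,4,6,7],[0,1,2,3,4,5],[0,1,2,3,4,5,6],[0,1,2,3,4,5]]],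
Node.mk [0,820,182,1542,2448,27,976,3114,2225,2529,2939,3663,45,2610,1957,4132] [(0,0),(0,1),(0,2),(0,3),(0,4),(0,5)] [Ref.mk 1545 1594 [0,1,2,3] [[0,1,2,3,4,5,6],[0,1,2,3,4,5],[0,1,2,3,4,5,6],[0,1,2,3,4,5]],Ref.mk 1221 1595 [0,1,2,3] [[0,1,2,3,4,5,6],[0,1,2,3,4,5],[0,1,2,3,4,5,6],[0,1,2,3,4,5]],Ref.mk 2940 1596 [0,1,2,3] [[0,1,2,3,4,5,6],[0,1,2,3,4,5],[0,1,2,3,4,5,6],[0,1,2,3,4,5]]],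
Node.mk [0,820,182,1542,2448,27,976,3114,2225,2529,2939,3663,45,2610,1957,4861,1545] [(0,0),(0,1),(0,2),(0,4),(1,0),(1,2)] [],
Node.mk [0,820,182,1542,2448,27,976,3114,2225,2529,2939,3663,45,2610,1957,4861,1221] [(0,0),(0,1),(0,2),(1,0),(1,2),(2,6)] []]

/-- nodes -/
noncomputable def c25 : List Node := [
Node.mk [0,820,182,1542,2448,27,976,3114,2225,2529,2939,3663,45,2610,1957,4861,2940] [(0,0),(0,1),(0,2),(0,3),(0,4),(1,2)] [Ref.mk 1544 1328 [0,1,2,3] [[0,1,2,5,4,6,3],[0,1,2,3,4,5],[0,1,2,3,4,5,6],[0,1,2,3,4,5,6]],Ref.mk 1220 1599 [0,1,2,3] [[0,1,2,3,4,6,5],[0,1,2,3,4,5],[0,1,2,3,4,5,6],[0,1,2,3,4,5,6]],Ref.mk 1545 1328 [0,1,2,3] [[0,1,2,6,4,5,3],[0,1,2,3,4,5],[0,1,2,3,4,5,6],[0,1,2,3,4,5,6]],Ref.mk 1221 1599 [0,1,2,3]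 [[0,1,2,3,4,5,6],[0,1,2,3,4,5],[0,1,2,3,4,5,6],[0,1,2,3,4,5,6]],Ref.mk 1546 1598 [0,1,2,3] [[0,1,2,3,4,6,7],[0,1,2,3,4,5],[0,1,2,3,4,5,6],[0,1,2,3,4,5,6]],Ref.mk 1222 1599 [0,1,2,3] [[0,1,2,3,4,6,7],[0,1,2,3,4,5],[0,1,2,3,4,5,6],[0,1,2,3,4,5,6]]],
Node.mk [0,820,182,1542,2448,27,976,3114,2225,2529,2939,3663,45,2610,1957,4861] [(0,0),(0,1),(0,2),(0,3),(0,4),(0,5)] [Ref.mk 1545 1598 [0,1,2,3] [[0,1,2,3,4,5,6],[0,1,2,3,4,5],[0,1,2,3,4,5,6],[0,1,2,3,4,5,6]],Ref.mk 1221 1599 [0,1,2,3] [[0,1,2,3,4,5,6],[0,1,2,3,4,5],[0,1,2,3,4,5,6],[0,1,2,3,4,5,6]],Ref.mk 2940 1600 [0,1,2,3] [[0,1,2,3,4,5,6],[0,1,2,3,4,5],[0,1,2,3,4,5,6],[0,1,2,3,4,5,6]]],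
Node.mk [0,820,182,1542,2448,27,976,3114,2225,2529,2939,3663,45,2610,1957] [(0,0),(0,2),(2,1),(3,1),(3,2),(3,4)] [Ref.mk 487 1592 [0,1,2,3] [[0,1,2,3,4,5],[0,1,2,3,4,5],[0,1,2,3,4,5,6],[0,1,2,3,4,5]],Ref.mk 2674 1593 [0,1,2,3] [[0,1,2,3,4,5],[0,1,2,3,4,5],[0,1,2,3,4,5,6],[0,1,2,3,4,5]],Ref.mk 4132 1597 [0,1,2,3] [[0,1,2,3,4,5],[0,1,2,3,4,5],[0,1,2,3,4,5,6],[0,1,2,3,4,5]],Ref.mk 4861 1601 [0,1,2,3] [[0,1,2,3,4,5],[0,1,2,3,4,5],[0,1,2,3,4,5,6],[0,1,2,3,4,5,6]],Ref.mk 255 1555 [0,1,2,3] [[0,1,2,3,4,5],[0,1,2,3,4,5],[0,1,2,3,4,5],[0,1,2,3,4,5]],Ref.mk 2442 1561 [0,1,2,3] [[0,1,2,3,4,5],[0,1,2,3,4,5],[0,1,2,3,4,5],[0,1,2,3,4,5]],Ref.mk 3900 1572 [0,1,2,3] [[0,1,2,3,4,5],[0,1,2,3,4,5],[0,1,2,3,4,5],[0,1,2,3,4,5]],Ref.mk 4629 1577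 [0,1,2,3] [[0,1,2,3,4,5],[0,1,2,3,4,5],[0,1,2,3,4,5],[0,1,2,3,4,5,6]]],
Node.mk [0,820,182,1542,2448,27,976,3114,2225,2529,2939,3663,45,2610,1715,2935,1756] [(0,0),(0,1),(0,2),(1,2),(3,1),(3,2)] [Ref.mk 255 1555 [0,1,2,3] [[0,1,2,3,4,5],[0,1,2,3,4,5],[0,1,2,3,4,5],[0,1,2,3,4,5]],Ref.mk 2442 1561 [0,1,2,3] [[0,1,2,3,4,5],[0,1,2,3,4,5],[0,1,2,3,4,5],[0,1,2,3,4,5]],Ref.mk 3171 1562 [0,1,2,3] [[0,1,2,3,4,5],[0,1,2,3,4,5],[0,1,2,3,4,5],[0,1,2,3,4,5]],Ref.mk 3900 1572 [0,1,2,3] [[0,1,2,3,4,5],[0,1,2,3,4,5],[0,1,2,3,4,5],[0,1,2,3,4,5]],Ref.mk 4629 1577 [0,1,2,3] [[0,1,2,3,4,5],[0,1,2,3,4,5],[0,1,2,3,4,5],[0,1,2,3,4,5,6]]],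
Node.mk [0,820,182,1542,2448,27,976,3114,2225,2529,2939,3663,45,2610,1715,2935,1597] [(0,0),(0,1),(0,2),(2,0),(2,1),(2,3)] [Ref.mk 1633 1578 [0,1,2,3] [[0,1,2,3,4,5],[0,1,2,3,4,5],[0,1,2,3,4,5],[0,1,2,3,4,5]],Ref.mk 1795 1591 [0,1,2,3] [[0,1,2,3,4,5],[0,1,2,3,4,5],[0,1,2,3,4,5],[0,1,2,3,4,5]],Ref.mk 1876 1591 [0,1,2,3] [[0,1,2,3,4,5],[0,1,2,3,4,5],[0,1,2,3,5,4],[0,1,2,3,4,5]],Ref.mk 1957 1602 [0,1,2,3] [[0,1,2,3,4,5],[0,1,2,3,4,5],[0,1,2,3,4,5,6],[0,1,2,3,4,5]]],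
Node.mk [0,820,182,1542,2448,27,976,3114,2225,2529,2939,3663,45,2610,1715,2935] [(0,0),(1,0),(1,1),(1,2),(1,4),(3,1)] [Ref.mk 1729 1453 [1,0,2,3] [[2,0,4,1,3,5],[1,3,0,5,2,4],[0,1,2,3,4,5],[4,2,1,3,0,5]],Ref.mk 1747 1453 [1,0,2,3] [[2,0,4,1,5,3],[1,3,0,5,2,4],[0,1,2,3,4,5],[4,2,1,3,0,5]],Ref.mk 1756 1603 [0,1,2,3] [[0,1,2,3,4,5],[0,1,2,3,4,5,6],[0,1,2,3,4,5],[0,1,2,3,4,5]],Ref.mk 1570 1131 [1,2,0,3] [[2,3,4,0,1,5],[3,1,0,4,2,5],[0,4,2,5,1,3],[3,2,1,4,0,5]],Ref.mk 1588 1131 [1,2,0,3] [[2,5,4,0,1,3],[3,1,0,4,2,5],[0,4,2,5,1,3],[3,2,1,4,0,5]],Ref.mk 1597 1604 [0,1,2,3] [[0,1,2,3,4,5],[0,1,2,3,4,5,6],[0,1,2,3,4,5],[0,1,2,3,4,5]]],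
Node.mk [0,820,182,1542,2448,27,976,3114,2225,2529,2939,3663,45,2610,1715] [(0,0),(0,2),(0,5),(1,1),(2,3),(3,2)] [Ref.mk 2935 1605 [0,1,2,3] [[0,1,2,3,4,5],[0,1,2,3,4,5],[0,1,2,3,4,5],[0,1,2,3,4,5]],Ref.mk 2937 1334 [0,1,2,3] [[0,1,2,3,4,5],[0,1,2,3,4,5],[0,1,2,3,4,5],[0,1,2,3,4,5]],Ref.mk 2938 1507 [0,1,2,3] [[0,1,2,3,4,5],[0,1,2,3,4,5],[0,1,2,3,4,5],[0,1,2,3,4,5]],Ref.mk 2940 1336 [0,2,1,3] [[0,1,2,5,4,6,3],[3,1,0,4,2,5],[2,1,4,0,3,5],[3,1,2,0,4,5]]],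
Node.mk [0,820,182,1542,2448,27,976,3114,2225,2529,2939,3663,45,2610,1716,244] [(0,0),(0,1),(1,0),(2,0),(2,3),(3,0)] [],
Node.mk [0,820,182,1542,2448,27,976,3114,2225,2529,2939,3663,45,2610,1716] [(0,0),(1,1),(1,2),(3,1),(3,2),(3,3)] [Ref.mk 244 1607 [0,1,2,3] [[0,1,2,3,4,5,6],[0,1,2,3,4,5],[0,1,2,3,4,5],[0,1,2,3,4,5]],Ref.mk 3160 98 [3,1,2,0] [[0,1,3,2,4],[0,1,2,3],[0,1,3,2],[0,1,3,2]],Ref.mk 3889 98 [3,1,2,0] [[0,1,3,2,5],[0,1,2,3],[0,1,3,2],[0,1,3,2]],Ref.mk 4618 98 [3,1,2,0] [[0,1,3,2,6],[0,1,2,3],[0,1,3,2],[0,1,3,2]],Ref.mk 87 1561 [0,2,1,3] [[0,1,2,6,4,5],[3,1,0,4,2,5],[2,1,4,0,3,5],[3,1,2,0,4,5]],Ref.mk 3003 1562 [0,2,1,3] [[0,1,2,6,4,5],[3,1,0,4,2,5],[2,1,4,0,3,5],[3,1,2,0,4,5]],Ref.mk 3732 1572 [0,2,1,3] [[0,1,2,6,4,5],[3,1,0,4,2,5],[2,1,4,0,3,5],[3,1,2,0,4,5]],Ref.mk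 4461 1573 [0,1,2,3] [[0,1,2,6,4,5,3],[0,1,2,3,4,5],[0,1,2,3,4,5],[0,1,6,3,4,5,2]]],
Node.mk [0,820,182,1542,2448,27,976,3114,2225,2529,2939,3663,45,2610] [(0,0),(0,1),(0,2),(2,0),(2,1),(3,1)] [Ref.mk 255 1555 [0,1,2,3] [[0,1,2,3,4,5],[0,1,2,3,4,5],[0,1,2,3,4,5],[0,1,2,3,4,5]],Ref.mk 1713 1560 [0,1,2,3] [[0,1,2,3,4,5],[0,1,2,3,4,5],[0,1,2,3,4,5],[0,1,2,3,4,5]],Ref.mk 2442 1561 [0,1,2,3] [[0,1,2,3,4,5],[0,1,2,3,4,5],[0,1,2,3,4,5],[0,1,2,3,4,5]],Ref.mk 3171 1562 [0,1,2,3] [[0,1,2,3,4,5],[0,1,2,3,4,5],[0,1,2,3,4,5],[0,1,2,3,4,5]],Ref.mk 3900 1572 [0,1,2,3] [[0,1,2,3,4,5],[0,1,2,3,4,5],[0,1,2,3,4,5],[0,1,2,3,4,5]],Ref.mk 4629 1577 [0,1,2,3] [[0,1,2,3,4,5],[0,1,2,3,4,5],[0,1,2,3,4,5],[0,1,2,3,4,5,6]],Ref.mk 1633 1578 [0,1,2,3]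 [[0,1,2,3,4,5],[0,1,2,3,4,5],[0,1,2,3,4,5],[0,1,2,3,4,5]],Ref.mk 1714 1580 [0,1,2,3] [[0,1,2,3,4,5],[0,1,2,3,4,5],[0,1,2,3,4,5],[0,1,2,3,4,5]],Ref.mk 1795 1591 [0,1,2,3] [[0,1,2,3,4,5],[0,1,2,3,4,5],[0,1,2,3,4,5],[0,1,2,3,4,5]],Ref.mk 1876 1591 [0,1,2,3] [[0,1,2,3,4,5],[0,1,2,3,4,5],[0,1,2,3,5,4],[0,1,2,3,4,5]],Ref.mk 1957 1602 [0,1,2,3] [[0,1,2,3,4,5],[0,1,2,3,4,5],[0,1,2,3,4,5,6],[0,1,2,3,4,5]],Ref.mk 1715 1606 [0,1,2,3] [[0,1,2,3,4,5],[0,1,2,3,4,5],[0,1,2,3,4,5],[0,1,2,3,4,5]],Ref.mk 1716 1608 [0,1,2,3] [[0,1,2,3,4,5,6],[0,1,2,3,4,5],[0,1,2,3,4,5],[0,1,2,3,4,5]]],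
Node.mk [0,820,182,1542,2448,27,976,3114,2225,2529,2939,3663,45,1146] [(0,0),(0,2),(1,0),(1,1),(1,2),(3,1)] [],
Node.mk [0,820,182,1542,2448,27,976,3114,2225,2529,2939,3663,45,1155] [(0,0),(0,3),(1,2),(1,4),(2,5),(3,1)] [Ref.mk 2917 26 [3,1,2,0] [[0,1,3,2,4],[0,1,2,3],[0,1,3,2],[0,1,3,2]]],
Node.mk [0,820,182,1542,2448,27,976,3114,2225,2529,2939,3663,45,1164,1729,978] [(0,0),(0,1),(0,2),(0,3),(1,2),(3,1)] [],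
Node.mk [0,820,182,1542,2448,27,976,3114,2225,2529,2939,3663,45,1164,1729,2940,1216] [(0,0),(0,1),(0,2),(0,3),(1,2),(3,1)] [],
Node.mk [0,820,182,1542,2448,27,976,3114,2225,2529,2939,3663,45,1164,1729,2940,1245] [(0,0),(0,2),(0,3),(1,2),(1,3),(3,1)] [],
Node.mk [0,820,182,1542,2448,27,976,3114,2225,2529,2939,3663,45,1164,1729,2940] [(2,0),(2,1),(2,2),(2,3),(2,4),(2,5)] [Ref.mk 2691 1609 [0,1,2,3] [[0,1,2,3,4,5],[0,1,2,3,4,5],[0,1,2,3,4,6],[0,1,2,3,4,5]],Ref.mk 1216 1613 [0,1,2,3] [[0,1,2,3,4,5,6],[0,1,2,3,4,5],[0,1,2,3,4,5,6],[0,1,2,3,4,5]],Ref.mk 1245 1614 [0,1,2,3] [[0,1,2,3,4,5,6],[0,1,2,3,4,5],[0,1,2,3,4,5,6],[0,1,2,3,4,5]]],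
Node.mk [0,820,182,1542,2448,27,976,3114,2225,2529,2939,3663,45,1164,1729,843] [(0,0),(0,1),(0,2),(0,5),(2,1),(3,1)] [Ref.mk 2937 1343 [0,1,2,3] [[0,1,2,3,4,5,6],[0,1,2,3,4,5],[0,1,2,3,4,5],[0,1,2,3,4,5]],Ref.mk 2938 1267 [1,2,0,3] [[2,1,4,3,0,5],[3,1,0,4,2,5],[0,1,2,4,5,3],[3,1,2,4,0,5]],Ref.mk 2940 1615 [0,1,2,3] [[0,1,2,3,4,5,6],[0,1,2,3,4,5],[0,1,2,3,4,5],[0,1,2,3,4,5]],Ref.mk 2941 1615 [0,1,2,3] [[0,1,2,3,4,5,7],[0,1,2,3,4,5],[0,1,2,3,4,5],[0,1,2,3,4,5]]],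
Node.mk [0,820,182,1542,2448,27,976,3114,2225,2529,2939,3663,45,1164,1729] [(0,0),(0,1),(0,2),(0,3),(0,4),(0,5)] [Ref.mk 978 1612 [0,1,2,3] [[0,1,2,3,4,5,6],[0,1,2,3,4,5],[0,1,2,3,4,5],[0,1,2,3,4,5]],Ref.mk 2940 1615 [0,1,2,3] [[0,1,2,3,4,5,6],[0,1,2,3,4,5],[0,1,2,3,4,5],[0,1,2,3,4,5]],Ref.mk 843 1616 [0,1,2,3] [[0,1,2,3,4,5,6],[0,1,2,3,4,5],[0,1,2,3,4,5],[0,1,2,3,4,5]]],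
Node.mk [0,820,182,1542,2448,27,976,3114,2225,2529,2939,3663,45,1164,1876,1227] [(0,0),(0,2),(0,3),(0,4),(1,2),(3,1)] [],
Node.mk [0,820,182,1542,2448,27,976,3114,2225,2529,2939,3663,45,1164,1876,1219] [(0,0),(0,2),(0,4),(1,0),(1,2),(3,1)] [],
Node.mk [0,820,182,1542,2448,27,976,3114,2225,2529,2939,3663,45,1164,1876] [(2,0),(2,1),(2,2),(2,3),(2,4),(2,5)] [Ref.mk 2691 1602 [0,1,2,3] [[0,1,2,3,4,5],[0,1,2,3,4,5],[0,1,2,3,4,6,5],[0,1,2,3,4,5]],Ref.mk 1227 1618 [0,1,2,3] [[0,1,2,3,4,5],[0,1,2,3,4,5],[0,1,2,3,4,5,6],[0,1,2,3,4,5]],Ref.mk 1219 1619 [0,1,2,3] [[0,1,2,3,4,5],[0,1,2,3,4,5],[0,1,2,3,4,5,6],[0,1,2,3,4,5]]],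
Node.mk [0,820,182,1542,2448,27,976,3114,2225,2529,2939,3663,45,1164] [(0,0),(0,2),(0,3),(1,0),(1,2),(2,1)] [Ref.mk 1729 1617 [0,1,2,3] [[0,1,2,3,4,5],[0,1,2,3,4,5],[0,1,2,3,4,5],[0,1,2,3,4,5]],Ref.mk 1876 1620 [0,1,2,3] [[0,1,2,3,4,5],[0,1,2,3,4,5],[0,1,2,3,4,5],[0,1,2,3,4,5]]],
Node.mk [0,820,182,1542,2448,27,976,3114,2225,2529,2939,3663,45,1173] [(0,0),(0,3),(1,2),(1,4),(2,5),(3,1)] [],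
Node.mk [0,820,182,1542,2448,27,976,3114,2225,2529,2939,3663,45,1191,1756,978] [(0,0),(0,1),(0,2),(0,3),(1,2),(3,1)] [],
Node.mk [0,820,182,1542,2448,27,976,3114,2225,2529,2939,3663,45,1191,1756,2940,1216] [(0,0),(0,1),(0,2),(0,3),(1,2),(3,1)] [],
Node.mk [0,820,182,1542,2448,27,976,3114,2225,2529,2939,3663,45,1191,1756,2940,1272] [(0,0),(0,2),(0,3),(1,2),(1,6),(3,1)] [],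
Node.mk [0,820,182,1542,2448,27,976,3114,2225,2529,2939,3663,45,1191,1756,2940] [(2,0),(2,1),(2,2),(2,3),(2,4),(2,5)] [Ref.mk 2691 1609 [0,1,2,3] [[0,1,2,3,4,5],[0,1,2,3,4,5],[0,1,2,3,4,6],[0,1,2,3,4,5]],Ref.mk 1216 1624 [0,1,2,3] [[0,1,2,3,4,5,6],[0,1,2,3,4,5,6],[0,1,2,3,4,5,6],[0,1,2,3,4,5]],Ref.mk 1272 1625 [0,1,2,3] [[0,1,2,3,4,5,6],[0,1,2,3,4,5,6],[0,1,2,3,4,5,6],[0,1,2,3,4,5]]],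
Node.mk [0,820,182,1542,2448,27,976,3114,2225,2529,2939,3663,45,1191,1756,870] [(0,0),(0,1),(0,2),(0,5),(2,1),(3,1)] [Ref.mk 2937 1354 [0,1,2,3] [[0,1,2,3,4,5,6],[0,1,2,3,4,5,6],[0,1,2,3,4,5],[0,1,2,3,4,5]],Ref.mk 2938 1513 [0,1,2,3] [[0,1,2,3,4,5,6],[0,1,2,3,4,5,6],[0,1,2,3,4,5],[0,1,2,3,4,5]],Ref.mk 2940 1626 [0,1,2,3] [[0,1,2,3,4,5,6],[0,1,2,3,4,5,6],[0,1,2,3,4,5],[0,1,2,3,4,5]],Ref.mk 2941 1626 [0,1,2,3] [[0,1,2,3,4,5,7],[0,1,2,3,4,5,6],[0,1,2,3,4,5],[0,1,2,3,4,5]]],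
Node.mk [0,820,182,1542,2448,27,976,3114,2225,2529,2939,3663,45,1191,1756] [(0,0),(0,1),(0,2),(0,3),(0,4),(0,5)] [Ref.mk 978 1623 [0,1,2,3] [[0,1,2,3,4,5,6],[0,1,2,3,4,5,6],[0,1,2,3,4,5],[0,1,2,3,4,5]],Ref.mk 2940 1626 [0,1,2,3] [[0,1,2,3,4,5,6],[0,1,2,3,4,5,6],[0,1,2,3,4,5],[0,1,2,3,4,5]],Ref.mk 870 1627 [0,1,2,3] [[0,1,2,3,4,5,6],[0,1,2,3,4,5,6],[0,1,2,3,4,5],[0,1,2,3,4,5]]],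
Node.mk [0,820,182,1542,2448,27,976,3114,2225,2529,2939,3663,45,1191,1876,1227] [(0,0),(0,2),(0,3),(0,4),(1,2),(3,1)] [],
Node.mk [0,820,182,1542,2448,27,976,3114,2225,2529,2939,3663,45,1191,1876,1219] [(0,0),(0,2),(0,4),(1,0),(1,2),(3,1)] [],
Node.mk [0,820,182,1542,2448,27,976,3114,2225,2529,2939,3663,45,1191,1876] [(2,0),(2,1),(2,2),(2,3),(2,4),(2,5)] [Ref.mk 2691 1602 [0,1,2,3] [[0,1,2,3,4,5],[0,1,2,3,4,5],[0,1,2,3,4,6,5],[0,1,2,3,4,5]],Ref.mk 1227 1629 [0,1,2,3] [[0,1,2,3,4,5],[0,1,2,3,4,5,6],[0,1,2,3,4,5,6],[0,1,2,3,4,5]],Ref.mk 1219 1630 [0,1,2,3] [[0,1,2,3,4,5],[0,1,2,3,4,5,6],[0,1,2,3,4,5,6],[0,1,2,3,4,5]]],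
Node.mk [0,820,182,1542,2448,27,976,3114,2225,2529,2939,3663,45,1191] [(0,0),(0,2),(0,3),(1,0),(1,2),(2,1)] [Ref.mk 1756 1628 [0,1,2,3] [[0,1,2,3,4,5],[0,1,2,3,4,5,6],[0,1,2,3,4,5],[0,1,2,3,4,5]],Ref.mk 1876 1631 [0,1,2,3] [[0,1,2,3,4,5],[0,1,2,3,4,5,6],[0,1,2,3,4,5],[0,1,2,3,4,5]]],
Node.mk [0,820,182,1542,2448,27,976,3114,2225,2529,2939,3663,45,1876,1729,1945] [(0,0),(0,1),(0,2),(0,4),(1,2),(3,2)] [],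
Node.mk [0,820,182,1542,2448,27,976,3114,2225,2529,2939,3663,45,1876,1729,1957] [(0,0),(0,2),(0,4),(1,1),(1,2),(3,2)] [],
Node.mk [0,820,182,1542,2448,27,976,3114,2225,2529,2939,3663,45,1876,1729] [(2,0),(2,1),(2,2),(2,3),(2,4),(2,5)] [Ref.mk 2691 1631 [0,2,1,3] [[0,3,2,4,1,5],[3,1,0,4,2,6,5],[2,0,4,3,5,1],[3,2,1,0,4,5]],Ref.mk 1945 1633 [0,1,2,3] [[0,1,2,3,4,5],[0,1,2,3,4,5],[0,1,2,3,4,5,6],[0,1,2,3,4,5]],Ref.mk 1957 1634 [0,1,2,3] [[0,1,2,3,4,5],[0,1,2,3,4,5],[0,1,2,3,4,5,6],[0,1,2,3,4,5]]],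
Node.mk [0,820,182,1542,2448,27,976,3114,2225,2529,2939,3663,45,1876,1756,1945] [(0,0),(0,1),(0,2),(0,4),(1,2),(3,2)] [],
Node.mk [0,820,182,1542,2448,27,976,3114,2225,2529,2939,3663,45,1876,1756,1957] [(0,0),(0,2),(0,4),(1,1),(1,2),(3,2)] [],
Node.mk [0,820,182,1542,2448,27,976,3114,2225,2529,2939,3663,45,1876,1756] [(2,0),(2,1),(2,2),(2,3),(2,4),(2,5)] [Ref.mk 2691 1602 [0,1,2,3] [[0,1,2,3,4,5],[0,1,2,3,4,5],[0,1,2,3,4,6,5],[0,1,2,3,4,5]],Ref.mk 1945 1636 [0,1,2,3] [[0,1,2,3,4,5],[0,1,2,3,4,5,6],[0,1,2,3,4,5,6],[0,1,2,3,4,5]],Ref.mk 1957 1637 [0,1,2,3] [[0,1,2,3,4,5],[0,1,2,3,4,5,6],[0,1,2,3,4,5,6],[0,1,2,3,4,5]]],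
Node.mk [0,820,182,1542,2448,27,976,3114,2225,2529,2939,3663,45,1876] [(0,0),(0,4),(1,0),(1,1),(1,2),(1,4)] [Ref.mk 1729 1635 [0,1,2,3] [[0,1,2,3,4,5],[0,1,2,3,4,5],[0,1,2,3,4,5],[0,1,2,3,4,5]],Ref.mk 1747 1635 [0,1,2,3] [[0,1,2,3,4,5],[0,1,2,5,4,3],[0,1,2,3,4,5],[0,1,2,3,4,5]],Ref.mk 1756 1638 [0,1,2,3] [[0,1,2,3,4,5],[0,1,2,3,4,5,6],[0,1,2,3,4,5],[0,1,2,3,4,5]],Ref.mk 1164 1620 [0,1,2,3] [[0,1,2,3,4,5],[0,1,2,3,4,5],[0,1,2,3,4,5],[0,1,2,3,4,5]],Ref.mk 1182 1620 [0,1,2,3] [[0,1,2,3,4,5],[0,1,2,5,4,3],[0,1,2,3,4,5],[0,1,2,3,4,5]],Ref.mk 1191 1631 [0,1,2,3] [[0,1,2,3,4,5],[0,1,2,3,4,5,6],[0,1,2,3,4,5],[0,1,2,3,4,5]]],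
Node.mk [0,820,182,1542,2448,27,976,3114,2225,2529,2939,3663,45] [(1,0),(2,0),(2,1),(2,2),(2,3),(2,4)] [Ref.mk 2610 1609 [0,1,2,3] [[0,1,2,3,4,5],[0,1,2,3,4,5],[0,1,2,3,4,5],[0,1,2,3,4,5]],Ref.mk 1146 1610 [0,1,2,3] [[0,1,2,3,4,5],[0,1,2,3,4,5],[0,1,2,3,4,5],[0,1,2,3,4,5]],Ref.mk 1155 1611 [0,1,2,3] [[0,1,2,3,4,5],[0,1,2,3,4,5],[0,1,2,3,4,5],[0,1,2,3,4,5]],Ref.mk 1164 1621 [0,1,2,3] [[0,1,2,3,4,5],[0,1,2,3,4,5],[0,1,2,3,4,5],[0,1,2,3,4,5]],Ref.mk 1173 1622 [0,1,2,3] [[0,1,2,3,4,5],[0,1,2,3,4,5],[0,1,2,3,4,5],[0,1,2,3,4,5]],Ref.mk 1182 1621 [0,1,2,3] [[0,1,2,3,4,5],[0,1,2,5,4,3],[0,1,2,3,4,5],[0,1,2,3,4,5]],Ref.mk 1191 1632 [0,1,2,3] [[0,1,2,3,4,5],[0,1,2,3,4,5,6],[0,1,2,3,4,5],[0,1,2,3,4,5]],Ref.mk 1876 1639 [0,1,2,3] [[0,1,2,3,4,5],[0,1,2,3,4,5],[0,1,2,3,4,5],[0,1,2,3,4,5]]],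
Node.mk [0,820,182,1542,2448,27,976,3114,2225,2529,2939,3663,1747,2610,1545] [(0,0),(0,2),(1,0),(1,2),(2,1),(3,2)] [],
Node.mk [0,820,182,1542,2448,27,976,3114,2225,2529,2939,3663,1747,2610,978] [(0,0),(0,2),(1,0),(1,2),(2,3),(3,1)] [],
Node.mk [0,820,182,1542,2448,27,976,3114,2225,2529,2939,3663,1747,2610,1716] [(0,0),(0,2),(1,2),(2,1),(2,3),(3,2)] [],
Node.mk [0,820,182,1542,2448,27,976,3114,2225,2529,2939,3663,1747,2610,2940,860] [(0,0),(0,2),(1,2),(2,1),(2,3),(3,1)] [],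
Node.mk [0,820,182,1542,2448,27,976,3114,2225,2529,2939,3663,1747,2610,2940,862] [(0,0),(0,2),(1,2),(2,1),(2,3),(3,1)] [],
Node.mk [0,820,182,1542,2448,27,976,3114,2225,2529,2939,3663,1747,2610,2940] [(0,0),(0,1),(0,2),(0,3),(0,4),(1,2)] [Ref.mk 1544 1368 [0,1,2,3] [[0,1,2,5,4,6],[0,1,2,3,4,5],[0,1,2,3,4,5],[0,1,2,3,4,5]],Ref.mk 977 1519 [1,2,0,3] [[2,1,4,5,0,3],[3,1,0,4,2,5],[0,1,2,5,6,3],[3,1,2,4,0,5]],Ref.mk 1715 1643 [0,1,2,3] [[0,1,2,3,4,6,5],[0,1,2,3,4,5],[0,1,2,3,4,5],[0,1,2,3,4,5]],Ref.mk 860 1644 [0,1,2,3] [[0,1,2,3,4,5,6],[0,1,2,3,4,5],[0,1,2,3,4,5],[0,1,2,3,4,5]],Ref.mk 1545 1368 [0,1,2,3] [[0,1,2,6,4,5],[0,1,2,3,4,5],[0,1,2,3,4,5],[0,1,2,3,4,5]],Ref.mk 978 1519 [1,2,0,3] [[2,1,4,5,0,3],[3,1,0,4,2,5],[0,1,2,6,5,3],[3,1,2,4,0,5]],Ref.mk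 1716 1643 [0,1,2,3] [[0,1,2,3,4,5,6],[0,1,2,3,4,5],[0,1,2,3,4,5],[0,1,2,3,4,5]],Ref.mk 861 1644 [0,1,2,3] [[0,1,2,3,4,6,5],[0,1,2,3,4,5],[0,1,2,3,4,5],[0,1,2,3,4,5]],Ref.mk 1546 1641 [0,1,2,3] [[0,1,2,3,4,6,7],[0,1,2,3,4,5],[0,1,2,3,4,5],[0,1,2,3,4,5]],Ref.mk 979 1642 [0,1,2,3] [[0,1,2,3,4,6,7],[0,1,2,3,4,5],[0,1,2,3,4,5],[0,1,2,3,4,5]],Ref.mk 1717 1643 [0,1,2,3] [[0,1,2,3,4,6,7],[0,1,2,3,4,5],[0,1,2,3,4,5],[0,1,2,3,4,5]],Ref.mk 862 1645 [0,1,2,3] [[0,1,2,3,4,5,6,7],[0,1,2,3,4,5],[0,1,2,3,4,5],[0,1,2,3,4,5]]],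
Node.mk [0,820,182,1542,2448,27,976,3114,2225,2529,2939,3663,1747,2610] [(0,0),(0,1),(0,2),(0,3),(0,4),(0,5)] [Ref.mk 1545 1641 [0,1,2,3] [[0,1,2,3,4,5,6],[0,1,2,3,4,5],[0,1,2,3,4,5],[0,1,2,3,4,5]],Ref.mk 978 1642 [0,1,2,3] [[0,1,2,3,4,5,6],[0,1,2,3,4,5],[0,1,2,3,4,5],[0,1,2,3,4,5]],Ref.mk 1716 1643 [0,1,2,3] [[0,1,2,3,4,5,6],[0,1,2,3,4,5],[0,1,2,3,4,5],[0,1,2,3,4,5]],Ref.mk 2940 1646 [0,1,2,3] [[0,1,2,3,4,5,6],[0,1,2,3,4,5],[0,1,2,3,4,5],[0,1,2,3,4,5]],Ref.mk 861 1610 [0,2,1,3] [[0,6,2,1,4,5],[3,1,0,4,2,5],[2,5,4,0,3,1],[3,1,2,0,4,5]]],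
Node.mk [0,820,182,1542,2448,27,976,3114,2225,2529,2939,3663,1747,1182,865] [(0,0),(0,1),(0,2),(1,2),(2,1),(3,1)] [],
Node.mk [0,820,182,1542,2448,27,976,3114,2225,2529,2939,3663,1747,1182,1029] [(0,0),(0,1),(0,2),(0,3),(1,2),(3,1)] [],
Node.mk [0,820,182,1542,2448,27,976,3114,2225,2529,2939,3663,1747,1182] [(1,0),(1,1),(1,2),(1,3),(1,4),(1,5)] [Ref.mk 54 1628 [0,1,2,3] [[0,1,2,3,4,5],[0,1,2,3,4,6,5],[0,1,2,3,4,5],[0,1,2,3,4,5]],Ref.mk 865 1648 [0,1,2,3] [[0,1,2,3,4,5],[0,1,2,3,4,5,6],[0,1,2,3,4,5],[0,1,2,3,4,5]],Ref.mk 1029 1649 [0,1,2,3] [[0,1,2,3,4,5],[0,1,2,3,4,5,6],[0,1,2,3,4,5],[0,1,2,3,4,5]]],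
Node.mk [0,820,182,1542,2448,27,976,3114,2225,2529,2939,3663,1747,1876,1756] [(0,0),(0,1),(0,2),(1,2),(2,3),(3,2)] [],
Node.mk [0,820,182,1542,2448,27,976,3114,2225,2529,2939,3663,1747,1876,1597] [(0,0),(0,1),(0,2),(0,4),(1,2),(3,2)] [],
Node.mk [0,820,182,1542,2448,27,976,3114,2225,2529,2939,3663,1747,1876] [(1,0),(1,1),(1,2),(1,3),(1,4),(1,5)] [Ref.mk 54 1638 [0,1,2,3] [[0,1,2,3,4,5],[0,1,2,3,4,6,5],[0,1,2,3,4,5],[0,1,2,3,4,5]],Ref.mk 1756 1651 [0,1,2,3] [[0,1,2,3,4,5],[0,1,2,3,4,5,6],[0,1,2,3,4,5],[0,1,2,3,4,5]],Ref.mk 1597 1652 [0,1,2,3] [[0,1,2,3,4,5],[0,1,2,3,4,5,6],[0,1,2,3,4,5],[0,1,2,3,4,5]]],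
Node.mk [0,820,182,1542,2448,27,976,3114,2225,2529,2939,3663,1747] [(0,1),(2,0),(2,1),(2,2),(2,3),(2,4)] [Ref.mk 2610 1647 [0,1,2,3] [[0,1,2,3,4,5],[0,1,2,3,4,5],[0,1,2,3,4,5],[0,1,2,3,4,5]],Ref.mk 1182 1650 [0,1,2,3] [[0,1,2,3,4,5],[0,1,2,3,4,5],[0,1,2,3,4,5],[0,1,2,3,4,5]],Ref.mk 1876 1653 [0,1,2,3] [[0,1,2,3,4,5],[0,1,2,3,4,5],[0,1,2,3,4,5],[0,1,2,3,4,5]]],
Node.mk [0,820,182,1542,2448,27,976,3114,2225,2529,2939,3663,777] [(0,0),(0,2),(0,3),(1,0),(2,0),(2,1)] [Ref.mk 1747 1654 [0,1,2,3] [[0,1,2,3,4,5],[0,1,2,3,4,5],[0,1,2,3,4],[0,1,2,3,4,5]]],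
Node.mk [0,820,182,1542,2448,27,976,3114,2225,2529,2939,3663,939] [(0,0),(0,3),(0,4),(2,0),(2,2),(3,1)] [Ref.mk 1747 1654 [0,1,2,3] [[0,1,2,3,4,5],[0,1,2,3,4,5],[0,1,2,3,4],[0,1,2,3,4,5]]],
Node.mk [0,820,182,1542,2448,27,976,3114,2225,2529,2939,3663,1020] [(0,0),(0,2),(1,2),(2,1),(2,3),(3,1)] [],
Node.mk [0,820,182,1542,2448,27,976,3114,2225,2529,2939,3663,1101,1795,2610,1110] [(0,0),(0,2),(0,3),(1,2),(2,4),(3,1)] [],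
Node.mk [0,820,182,1542,2448,27,976,3114,2225,2529,2939,3663,1101,1795,2610,868] [(0,0),(0,2),(0,3),(0,4),(1,2),(3,1)] [],
Node.mk [0,820,182,1542,2448,27,976,3114,2225,2529,2939,3663,1101,1795,2610] [(1,0),(1,1),(1,2),(1,3),(1,4),(1,5)] [Ref.mk 54 1631 [0,1,2,3] [[0,1,2,3,4,5],[0,1,2,3,4,6,5],[0,1,2,3,5,4],[0,1,2,3,4,5]],Ref.mk 1110 1658 [0,1,2,3] [[0,1,2,3,4,5],[0,1,2,3,4,5,6],[0,1,2,3,4,5],[0,1,2,3,4,5]],Ref.mk 868 1659 [0,1,2,3] [[0,1,2,3,4,5],[0,1,2,3,4,5,6],[0,1,2,3,4,5],[0,1,2,3,4,5]]],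
Node.mk [0,820,182,1542,2448,27,976,3114,2225,2529,2939,3663,1101,1795] [(2,0),(2,1),(2,2),(2,3),(2,4),(3,1)] [Ref.mk 2610 1660 [0,1,2,3] [[0,1,2,3,4,5],[0,1,2,3,4,5],[0,1,2,3,4,5],[0,1,2,3,4,5]]],
Node.mk [0,820,182,1542,2448,27,976,3114,2225,2529,2939,3663,1101] [(0,0),(0,2),(0,3),(1,0),(1,2),(2,1)] [Ref.mk 1747 1654 [0,1,2,3] [[0,1,2,3,4,5],[0,1,2,3,4,5],[0,1,2,3,4],[0,1,2,3,4,5]],Ref.mk 1795 1661 [0,1,2,3] [[0,1,2,3,4,5],[0,1,2,3,4,5],[0,1,2,3,4],[0,1,2,3,4,5]]],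
Node.mk [0,820,182,1542,2448,27,976,3114,2225,2529,2939,3663,1182,1876,1191] [(0,0),(0,2),(0,3),(1,2),(2,5),(3,1)] []]

/-- nodes -/
noncomputable def c26 : List Node := [
Node.mk [0,820,182,1542,2448,27,976,3114,2225,2529,2939,3663,1182,1876,868] [(0,0),(0,2),(0,3),(0,4),(1,2),(3,1)] [],
Node.mk [0,820,182,1542,2448,27,976,3114,2225,2529,2939,3663,1182,1876] [(1,0),(1,1),(1,2),(1,3),(1,4),(1,5)] [Ref.mk 54 1631 [0,1,2,3] [[0,1,2,3,4,5],[0,1,2,3,4,6,5],[0,1,2,3,4,5],[0,1,2,3,4,5]],Ref.mk 1191 1663 [0,1,2,3] [[0,1,2,3,4,5],[0,1,2,3,4,5,6],[0,1,2,3,4,5],[0,1,2,3,4,5]],Ref.mk 868 1664 [0,1,2,3] [[0,1,2,3,4,5],[0,1,2,3,4,5,6],[0,1,2,3,4,5],[0,1,2,3,4,5]]],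
Node.mk [0,820,182,1542,2448,27,976,3114,2225,2529,2939,3663,1182] [(0,0),(0,2),(0,3),(1,0),(1,2),(2,1)] [Ref.mk 1747 1650 [0,1,2,3] [[0,1,2,3,4,5],[0,1,2,3,4,5],[0,1,2,3,4,5],[0,1,2,3,4,5]],Ref.mk 1876 1665 [0,1,2,3] [[0,1,2,3,4,5],[0,1,2,3,4,5],[0,1,2,3,4,5],[0,1,2,3,4,5]]],
Node.mk [0,820,182,1542,2448,27,976,3114,2225,2529,2939,3663] [(1,0),(1,1),(1,2),(1,3),(1,4),(2,1)] [Ref.mk 45 1640 [0,1,2,3] [[0,1,2,3,4,5],[0,1,2,3,4,5],[0,1,2,3,4],[0,1,2,3,4,5]],Ref.mk 1747 1654 [0,1,2,3] [[0,1,2,3,4,5],[0,1,2,3,4,5],[0,1,2,3,4],[0,1,2,3,4,5]],Ref.mk 777 1655 [0,1,2,3] [[0,1,2,3,4,5],[0,1,2,3,4,5],[0,1,2,3,4],[0,1,2,3,4,5]],Ref.mk 939 1656 [0,1,2,3] [[0,1,2,3,4,5],[0,1,2,3,4,5],[0,1,2,3,4],[0,1,2,3,4,5]],Ref.mk 1020 1657 [0,1,2,3]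 [[0,1,2,3,4,5],[0,1,2,3,4,5],[0,1,2,3,4],[0,1,2,3,4,5]],Ref.mk 1101 1662 [0,1,2,3] [[0,1,2,3,4,5],[0,1,2,3,4,5],[0,1,2,3,4],[0,1,2,3,4,5]],Ref.mk 1182 1666 [0,1,2,3] [[0,1,2,3,4,5],[0,1,2,3,4,5],[0,1,2,3,4,5],[0,1,2,3,4,5]]],
Node.mk [0,820,182,1542,2448,27,976,3114,2225,2529,2939,3808] [(0,0),(0,1),(1,0),(2,0),(2,2),(3,5)] [],
Node.mk [0,820,182,1542,2448,27,976,3114,2225,2529,2939,3970,2610,3900,4458] [(0,0),(0,2),(0,3),(1,0),(1,2),(2,1)] [],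
Node.mk [0,820,182,1542,2448,27,976,3114,2225,2529,2939,3970,2610,3900] [(3,0),(3,1),(3,2),(3,3),(3,4),(3,5)] [Ref.mk 4392 1654 [0,2,1,3] [[0,1,2,3,4,5],[3,1,0,5,2,4],[2,1,4,0,3],[3,1,5,0,4,6]],Ref.mk 4618 98 [3,1,2,0] [[0,1,3,2,6],[0,1,2,3],[0,1,3,2],[0,1,3,2]],Ref.mk 4458 1669 [0,1,2,3] [[0,1,2,3,4,5],[0,1,2,3,4],[0,1,2,3,4,5],[0,1,2,3,4,5,6]]],
Node.mk [0,820,182,1542,2448,27,976,3114,2225,2529,2939,3970,2610,1795,4699] [(0,0),(0,1),(0,2),(1,0),(1,2),(2,4)] [],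
Node.mk [0,820,182,1542,2448,27,976,3114,2225,2529,2939,3970,2610,1795,4459] [(0,0),(0,1),(0,2),(0,4),(1,0),(1,2)] [],
Node.mk [0,820,182,1542,2448,27,976,3114,2225,2529,2939,3970,2610,1795] [(3,0),(3,1),(3,2),(3,3),(3,4),(3,5)] [Ref.mk 4392 1667 [0,1,2,3] [[0,1,2,3,4,5],[0,1,2,3,4],[0,1,2,3,4],[0,1,2,3,4,6]],Ref.mk 4699 1671 [0,1,2,3] [[0,1,2,3,4,5],[0,1,2,3,4],[0,1,2,3,4,5],[0,1,2,3,4,5,6]],Ref.mk 4459 1672 [0,1,2,3] [[0,1,2,3,4,5],[0,1,2,3,4],[0,1,2,3,4,5],[0,1,2,3,4,5,6]]],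
Node.mk [0,820,182,1542,2448,27,976,3114,2225,2529,2939,3970,2610] [(0,0),(0,1),(0,2),(1,2),(2,1),(3,1)] [Ref.mk 3900 1670 [0,1,2,3] [[0,1,2,3,4,5],[0,1,2,3,4],[0,1,2,3,4,5],[0,1,2,3,4,5]],Ref.mk 1795 1673 [0,1,2,3] [[0,1,2,3,4,5],[0,1,2,3,4],[0,1,2,3,4,5],[0,1,2,3,4,5]]],
Node.mk [0,820,182,1542,2448,27,976,3114,2225,2529,2939,3970] [(1,0),(2,0),(2,1),(2,2),(2,3),(2,4)] [Ref.mk 2610 1674 [0,1,2,3] [[0,1,2,3,4,5],[0,1,2,3,4],[0,1,2,3,4,5],[0,1,2,3,4,5]]],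
Node.mk [0,820,182,1542,2448,27,976,3114,2225,2529,2939,4051,3900,4458] [(0,0),(0,2),(0,3),(1,0),(1,2),(2,1)] [],
Node.mk [0,820,182,1542,2448,27,976,3114,2225,2529,2939,4051,3900] [(3,0),(3,1),(3,2),(3,3),(3,4),(3,5)] [Ref.mk 4392 1654 [0,2,1,3] [[0,1,2,3,4,5],[3,1,0,4,2,5],[2,1,4,0,3],[3,1,5,0,4,6]],Ref.mk 4618 98 [3,1,2,0] [[0,1,3,2,6],[0,1,2,3],[0,1,3,2],[0,1,3,2]],Ref.mk 4458 1676 [0,1,2,3] [[0,1,2,3,4,5],[0,1,2,3,4],[0,1,2,3,4,5],[0,1,2,3,4,5,6]]],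
Node.mk [0,820,182,1542,2448,27,976,3114,2225,2529,2939,4051,1876,1545] [(0,0),(0,1),(0,2),(0,4),(1,0),(1,2)] [],
Node.mk [0,820,182,1542,2448,27,976,3114,2225,2529,2939,4051,1876,1140] [(0,0),(0,1),(0,2),(1,0),(1,2),(2,5)] [],
Node.mk [0,820,182,1542,2448,27,976,3114,2225,2529,2939,4051,1876,2940] [(0,0),(0,1),(0,2),(0,3),(0,4),(1,2)] [Ref.mk 1544 1389 [0,1,2,3] [[0,1,2,5,4,6,3],[0,1,2,3,4],[0,1,2,3,4,5],[0,1,2,3,4,5]],Ref.mk 1139 1679 [0,1,2,3] [[0,1,2,3,4,6,5],[0,1,2,3,4],[0,1,2,3,4,5],[0,1,2,3,4,5]],Ref.mk 1545 1389 [0,1,2,3] [[0,1,2,6,4,5,3],[0,1,2,3,4],[0,1,2,3,4,5],[0,1,2,3,4,5]],Ref.mk 1140 1679 [0,1,2,3] [[0,1,2,3,4,5,6],[0,1,2,3,4],[0,1,2,3,4,5],[0,1,2,3,4,5]],Ref.mk 1546 1678 [0,1,2,3] [[0,1,2,3,4,6,7],[0,1,2,3,4],[0,1,2,3,4,5],[0,1,2,3,4,5]],Ref.mk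 1141 1679 [0,1,2,3] [[0,1,2,3,4,6,7],[0,1,2,3,4],[0,1,2,3,4,5],[0,1,2,3,4,5]]],
Node.mk [0,820,182,1542,2448,27,976,3114,2225,2529,2939,4051,1876] [(0,0),(0,1),(0,2),(0,3),(0,4),(0,5)] [Ref.mk 1545 1678 [0,1,2,3] [[0,1,2,3,4,5,6],[0,1,2,3,4],[0,1,2,3,4,5],[0,1,2,3,4,5]],Ref.mk 1140 1679 [0,1,2,3] [[0,1,2,3,4,5,6],[0,1,2,3,4],[0,1,2,3,4,5],[0,1,2,3,4,5]],Ref.mk 2940 1680 [0,1,2,3] [[0,1,2,3,4,5,6],[0,1,2,3,4],[0,1,2,3,4,5],[0,1,2,3,4,5]]],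
Node.mk [0,820,182,1542,2448,27,976,3114,2225,2529,2939,4051] [(0,0),(0,1),(0,2),(1,2),(2,1),(3,1)] [Ref.mk 3900 1677 [0,1,2,3] [[0,1,2,3,4,5],[0,1,2,3,4],[0,1,2,3,4,5],[0,1,2,3,4,5]],Ref.mk 1876 1681 [0,1,2,3] [[0,1,2,3,4,5],[0,1,2,3,4],[0,1,2,3,4,5],[0,1,2,3,4,5]]],
Node.mk [0,820,182,1542,2448,27,976,3114,2225,2529,2939,3900,3757,45] [(0,0),(0,2),(0,3),(0,4),(1,2),(2,1)] [Ref.mk 3646 26 [3,1,2,0] [[0,1,3,2,5],[0,1,2,3],[0,1,3,2],[0,1,3,2]],Ref.mk 3808 1668 [0,1,2,3] [[0,1,2,3,4,5],[0,1,2,3,4],[0,1,2,3,4],[0,1,2,3,4,5]],Ref.mk 3889 98 [3,1,2,0] [[0,1,3,2,5],[0,1,2,3],[0,1,3,2],[0,1,3,2]],Ref.mk 3970 1675 [0,1,2,3] [[0,1,2,3,4,5],[0,1,2,3,4],[0,1,2,3,4],[0,1,2,3,4,5]],Ref.mk 4051 1677 [0,1,2,3] [[0,1,2,3,4,5],[0,1,2,5,4],[0,1,2,3,4,5],[0,1,2,3,4,5]],Ref.mk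 1729 1673 [0,2,1,3] [[0,1,2,3,4,5],[3,1,0,4,2],[2,1,4,0,3,5],[3,1,5,0,4,2]]],
Node.mk [0,820,182,1542,2448,27,976,3114,2225,2529,2939,3900,3757] [(1,0),(1,1),(1,2),(1,3),(1,4),(2,1)] [Ref.mk 45 1683 [0,1,2,3] [[0,1,2,3,4,5],[0,1,2,3,4,5],[0,1,2,3,4],[0,1,2,3,4,5]]],
Node.mk [0,820,182,1542,2448,27,976,3114,2225,2529,2939,3900,3775,3970] [(0,0),(0,2),(1,2),(2,1),(2,3),(2,4)] [Ref.mk 3646 26 [3,1,2,0] [[0,1,3,2,5],[0,1,2,3],[0,1,3,2],[0,1,3,2]],Ref.mk 3808 1668 [0,1,2,3] [[0,1,2,3,4,5],[0,1,2,3,4],[0,1,2,3,4],[0,1,2,3,4,5]],Ref.mk 4051 1677 [0,1,2,3] [[0,1,2,3,4,5],[0,1,2,3,4],[0,1,2,3,4,5],[0,1,2,3,4,5]]],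
Node.mk [0,820,182,1542,2448,27,976,3114,2225,2529,2939,3900,3775] [(0,0),(0,3),(0,4),(2,0),(2,1),(2,2)] [Ref.mk 3889 98 [3,1,2,0] [[0,1,3,2,5],[0,1,2,3],[0,1,3,2],[0,1,3,2]],Ref.mk 3970 1685 [0,1,2,3] [[0,1,2,3,4,5],[0,1,2,3,4,5],[0,1,2,3,4],[0,1,2,3,4,5]],Ref.mk 4051 1677 [0,1,2,3] [[0,1,2,3,4,5],[0,1,2,3,4],[0,1,2,3,4,5],[0,1,2,3,4,5]],Ref.mk 1747 1681 [0,2,1,3] [[0,1,2,3,4,5],[3,1,0,4,2],[2,1,4,0,3,5],[3,1,5,0,4,2]]],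
Node.mk [0,820,182,1542,2448,27,976,3114,2225,2529,2939,3900] [(0,0),(0,3),(1,0),(1,1),(1,2),(1,4)] [Ref.mk 1729 1675 [0,2,1,3] [[0,1,2,3,4,5],[3,1,0,4,2],[2,1,4,0,3],[3,1,5,0,4,2]],Ref.mk 1747 1677 [0,2,1,3] [[0,1,2,3,4,5],[3,1,0,4,2],[2,1,4,0,3,5],[3,1,5,0,4,2]],Ref.mk 3757 1684 [0,1,2,3] [[0,1,2,3,4,5],[0,1,2,3,4],[0,1,2,3,4],[0,1,2,3,4,5]],Ref.mk 3775 1686 [0,1,2,3] [[0,1,2,3,4,5],[0,1,2,3,4,5],[0,1,2,3,4],[0,1,2,3,4,5]]],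
Node.mk [0,820,182,1542,2448,27,976,3114,2225,2529,2939] [(2,1),(3,0),(3,1),(3,2),(3,3),(3,4)] [Ref.mk 3663 1667 [0,1,2,3] [[0,1,2,3,4,5],[0,1,2,3,4],[0,1,2,3,4],[0,1,2,3,4,5]],Ref.mk 3646 26 [3,1,2,0] [[0,1,3,2,5],[0,1,2,3],[0,1,3,2],[0,1,3,2]],Ref.mk 3808 1668 [0,1,2,3] [[0,1,2,3,4,5],[0,1,2,3,4],[0,1,2,3,4],[0,1,2,3,4,5]],Ref.mk 3889 98 [3,1,2,0] [[0,1,3,2,5],[0,1,2,3],[0,1,3,2],[0,1,3,2]],Ref.mk 3970 1675 [0,1,2,3] [[0,1,2,3,4,5],[0,1,2,3,4],[0,1,2,3,4],[0,1,2,3,4,5]],Ref.mk 4051 1682 [0,1,2,3] [[0,1,2,3,4,5],[0,1,2,3,4],[0,1,2,3,4,5],[0,1,2,3,4,5]],Ref.mk 3900 1687 [0,1,2,3] [[0,1,2,3,4,5],[0,1,2,3,4],[0,1,2,3,4],[0,1,2,3,4,5]]],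
Node.mk [0,820,182,1542,2448,27,976,3114,2225,2529] [(0,0),(0,1),(0,2),(1,1),(2,1),(3,1)] [Ref.mk 2937 1399 [0,1,2,3] [[0,1,2,3,4],[0,1,2,3,4],[0,1,2,3,4],[0,1,2,3,4]],Ref.mk 2938 1554 [0,1,2,3] [[0,1,2,3,4],[0,1,2,3,4],[0,1,2,3,4],[0,1,2,3,4]],Ref.mk 2939 1688 [0,1,2,3] [[0,1,2,3,4,5],[0,1,2,3,4],[0,1,2,3,4],[0,1,2,3,4]]],
Node.mk [0,820,182,1542,2448,27,976,3114,2225,360,282,2358] [(0,0),(0,2),(0,3),(1,0),(2,1),(3,2)] [],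
Node.mk [0,820,182,1542,2448,27,976,3114,2225,360,282,2286] [(0,0),(0,1),(0,2),(0,3),(2,1),(2,3)] [],
Node.mk [0,820,182,1542,2448,27,976,3114,2225,360,282] [(0,4),(1,0),(1,4),(2,3),(3,0),(3,1)] [Ref.mk 2358 1690 [0,1,2,3] [[0,1,2,3,4],[0,1,2,3,4],[0,1,2,3,4],[0,1,2,3,4]],Ref.mk 2286 1691 [0,1,2,3] [[0,1,2,3,4],[0,1,2,3,4],[0,1,2,3,4],[0,1,2,3,4]]],
Node.mk [0,820,182,1542,2448,27,976,3114,2225,360,283,2286,3171] [(0,0),(0,2),(0,3),(0,4),(2,1),(2,3)] [],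
Node.mk [0,820,182,1542,2448,27,976,3114,2225,360,283,2286,3900] [(0,0),(0,2),(0,3),(0,4),(2,1),(2,3)] [],
Node.mk [0,820,182,1542,2448,27,976,3114,2225,360,283,2286] [(0,0),(2,1),(3,0),(3,1),(3,2),(3,3)] [Ref.mk 3160 98 [3,1,2,0] [[0,1,3,2,4],[0,1,2,3],[0,1,3,2],[0,1,3,2]],Ref.mk 3889 98 [3,1,2,0] [[0,1,3,2,5],[0,1,2,3],[0,1,3,2],[0,1,3,2]],Ref.mk 3171 1693 [0,1,2,3] [[0,1,2,3,4],[0,1,2,3,4],[0,1,2,3,4],[0,1,2,3,4]],Ref.mk 3900 1694 [0,1,2,3] [[0,1,2,3,4],[0,1,2,3,4],[0,1,2,3,4],[0,1,2,3,4,5]]],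
Node.mk [0,820,182,1542,2448,27,976,3114,2225,360,283] [(0,4),(1,0),(1,4),(2,3),(3,0),(3,1)] [Ref.mk 2286 1695 [0,1,2,3] [[0,1,2,3,4],[0,1,2,3,4],[0,1,2,3,4],[0,1,2,3,4]]],
Node.mk [0,820,182,1542,2448,27,976,3114,2225,360,284,2286] [(0,0),(0,1),(0,2),(2,1),(2,3),(3,1)] [],
Node.mk [0,820,182,1542,2448,27,976,3114,2225,360,284] [(0,4),(1,0),(1,4),(2,3),(3,0),(3,1)] [Ref.mk 2286 1697 [0,1,2,3] [[0,1,2,3,4,5],[0,1,2,3,4],[0,1,2,3,4],[0,1,2,3,4]]],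
Node.mk [0,820,182,1542,2448,27,976,3114,2225,360] [(0,0),(0,1),(0,2),(1,1),(2,1),(3,1)] [Ref.mk 282 1692 [0,1,2,3] [[0,1,2,3,4],[0,1,2,3,4],[0,1,2,3,4],[0,1,2,3,4]],Ref.mk 283 1696 [0,1,2,3] [[0,1,2,3,4],[0,1,2,3,4],[0,1,2,3,4],[0,1,2,3,4]],Ref.mk 284 1698 [0,1,2,3] [[0,1,2,3,4,5],[0,1,2,3,4],[0,1,2,3,4],[0,1,2,3,4]]],
Node.mk [0,820,182,1542,2448,27,976,3114,2225,1795,117] [(0,0),(0,2),(0,4),(1,0),(2,3),(3,1)] [],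
Node.mk [0,820,182,1542,2448,27,976,3114,2225,1795] [(0,4),(1,0),(2,0),(2,2),(2,3),(3,1)] [Ref.mk 2286 1689 [0,2,1,3] [[0,4,2,1,3],[1,4,0,3,2],[2,1,4,0,3],[3,2,1,0,4]],Ref.mk 2529 1689 [0,1,2,3] [[0,1,2,3,4],[0,1,2,3,4],[0,1,2,3,4],[0,1,2,3,4]],Ref.mk 2610 1689 [0,1,2,3] [[0,1,2,3,4],[0,1,2,3,4],[0,1,2,3,5],[0,1,2,3,4]],Ref.mk 117 1700 [0,1,2,3] [[0,1,2,3,4],[0,1,2,3,4],[0,1,2,3,4],[0,1,2,3,4]],Ref.mk 360 1699 [0,1,2,3] [[0,1,2,3,4],[0,1,2,3,4],[0,1,2,3,4],[0,1,2,3,4]],Ref.mk 441 1699 [0,1,2,3] [[0,1,2,3,4],[0,1,2,3,4],[0,1,2,3,5],[0,1,2,3,4]]],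
Node.mk [0,820,182,1542,2448,27,976,3114,2225] [(0,1),(2,0),(2,1),(2,2),(2,3),(3,1)] [Ref.mk 2529 1689 [0,1,2,3] [[0,1,2,3,4],[0,1,2,3,4],[0,1,2,3,4],[0,1,2,3,4]],Ref.mk 360 1699 [0,1,2,3] [[0,1,2,3,4],[0,1,2,3,4],[0,1,2,3,4],[0,1,2,3,4]],Ref.mk 1795 1701 [0,1,2,3] [[0,1,2,3,4],[0,1,2,3,4],[0,1,2,3,4],[0,1,2,3,4]]],
Node.mk [0,820,182,1542,2448,27,976,3114,174,2937,282] [(0,0),(0,3),(1,0),(2,1),(3,0),(3,2)] [],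
Node.mk [0,820,182,1542,2448,27,976,3114,174,2937] [(0,0),(0,1),(1,1),(1,2),(2,1),(3,1)] [Ref.mk 282 1703 [0,1,2,3] [[0,1,2,3,4],[0,1,2,3,4],[0,1,2,3],[0,1,2,3,4]]],
Node.mk [0,820,182,1542,2448,27,976,3114,174] [(0,4),(1,0),(2,2),(2,3),(3,0),(3,1)] [Ref.mk 2937 1704 [0,1,2,3] [[0,1,2,3,4],[0,1,2,3,4],[0,1,2,3],[0,1,2,3,4]]],
Node.mk [0,820,182,1542,2448,27,976,3114,1471,1648] [(0,0),(0,1),(0,3),(0,4),(3,0),(3,2)] [],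
Node.mk [0,820,182,1542,2448,27,976,3114,1471,2377] [(0,0),(1,0),(2,0),(2,1),(2,2),(2,3)] [],
Node.mk [0,820,182,1542,2448,27,976,3114,1471] [(0,0),(0,4),(1,0),(1,2),(2,3),(3,1)] [Ref.mk 1648 1706 [0,1,2,3] [[0,1,2,3,4],[0,1,2,3,4],[0,1,2,3],[0,1,2,3,4]],Ref.mk 2377 1707 [0,1,2,3] [[0,1,2,3,4],[0,1,2,3,4],[0,1,2,3],[0,1,2,3,4]],Ref.mk 2225 1702 [0,1,2,3] [[0,1,2,3,4],[0,1,2,3,4],[0,1,2,3],[0,1,2,3,4]],Ref.mk 174 1705 [0,1,2,3] [[0,1,2,3,4],[0,1,2,3,4],[0,1,2,3],[0,1,2,3,4]]],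
Node.mk [0,820,182,1542,2448,27,976,3114,1633,1648] [(0,0),(0,1),(0,4),(3,0),(3,1),(3,2)] [],
Node.mk [0,820,182,1542,2448,27,976,3114,1633,2377] [(0,0),(1,0),(2,0),(2,1),(2,2),(2,3)] [],
Node.mk [0,820,182,1542,2448,27,976,3114,1633] [(0,0),(0,4),(1,0),(1,2),(2,3),(3,1)] [Ref.mk 1648 1709 [0,1,2,3] [[0,1,2,3,4],[0,1,2,3,4],[0,1,2,3],[0,1,2,3,4]],Ref.mk 2377 1710 [0,1,2,3] [[0,1,2,3,4],[0,1,2,3,4],[0,1,2,3],[0,1,2,3,4]],Ref.mk 2225 1702 [0,1,2,3] [[0,1,2,3,4],[0,1,2,3,4],[0,1,2,3],[0,1,2,3,4]],Ref.mk 174 1705 [0,1,2,3] [[0,1,2,3,4],[0,1,2,3,4],[0,1,2,3],[0,1,2,3,4]]],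
Node.mk [0,820,182,1542,2448,27,976,3114,1795,1648] [(0,0),(0,1),(0,3),(0,4),(3,0),(3,2)] [],
Node.mk [0,820,182,1542,2448,27,976,3114,1795] [(0,0),(0,4),(1,0),(1,2),(2,3),(3,1)] [Ref.mk 1648 1712 [0,1,2,3] [[0,1,2,3,4],[0,1,2,3,4],[0,1,2,3,4],[0,1,2,3,4]],Ref.mk 2225 1701 [0,1,2,3] [[0,1,2,3,4],[0,1,2,3,4],[0,1,2,3,4],[0,1,2,3,4]],Ref.mk 174 1705 [0,1,2,3] [[0,1,2,3,4],[0,1,2,3,4],[0,1,2,3],[0,1,2,3,4]]],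
Node.mk [0,820,182,1542,2448,27,976,3114] [(0,0),(0,1),(1,2),(2,1),(2,3),(3,1)] [Ref.mk 2225 1702 [0,1,2,3] [[0,1,2,3,4],[0,1,2,3,4],[0,1,2,3],[0,1,2,3,4]],Ref.mk 174 1705 [0,1,2,3] [[0,1,2,3,4],[0,1,2,3,4],[0,1,2,3],[0,1,2,3,4]],Ref.mk 1471 1708 [0,1,2,3] [[0,1,2,3,4],[0,1,2,3,4],[0,1,2,3],[0,1,2,3,4]],Ref.mk 1633 1711 [0,1,2,3] [[0,1,2,3,4],[0,1,2,3,4],[0,1,2,3],[0,1,2,3,4]],Ref.mk 1795 1713 [0,1,2,3] [[0,1,2,3,4],[0,1,2,3,4],[0,1,2,3,4],[0,1,2,3,4]]],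
Node.mk [0,820,182,1542,2448,27,976,3026,1712,759] [(0,0),(0,1),(0,2),(2,0),(2,1),(2,3)] [],
Node.mk [0,820,182,1542,2448,27,976,3026,1712] [(0,0),(0,1),(0,2),(1,2),(2,1),(2,3)] [Ref.mk 759 1715 [0,1,2,3] [[0,1,2,3,4],[0,1,2,3],[0,1,2,3],[0,1,2,3,4]]],
Node.mk [0,820,182,1542,2448,27,976,3026,3171,921,3079] [(0,0),(0,2),(1,2),(2,1),(2,2),(2,3)] [],
Node.mk [0,820,182,1542,2448,27,976,3026,3171,921] [(0,0),(0,2),(0,3),(1,2),(2,1),(2,3)] [Ref.mk 3079 1717 [0,1,2,3] [[0,1,2,3,4],[0,1,2,3],[0,1,2,3],[0,1,2,3,4]]],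
Node.mk [0,820,182,1542,2448,27,976,3026,3171,1083,3241] [(0,0),(0,2),(1,2),(2,1),(2,3),(2,4)] [],
Node.mk [0,820,182,1542,2448,27,976,3026,3171,1083] [(0,0),(0,2),(0,3),(1,2),(2,1),(2,3)] [Ref.mk 3241 1719 [0,1,2,3] [[0,1,2,3,4],[0,1,2,3],[0,1,2,3,4],[0,1,2,3,4]]],
Node.mk [0,820,182,1542,2448,27,976,3026,3171] [(0,0),(0,1),(1,2),(2,0),(2,1),(2,3)] [Ref.mk 921 1718 [0,1,2,3] [[0,1,2,3,4],[0,1,2,3],[0,1,2,3],[0,1,2,3,4]],Ref.mk 1083 1720 [0,1,2,3] [[0,1,2,3,4],[0,1,2,3],[0,1,2,3,4],[0,1,2,3,4]]],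
Node.mk [0,820,182,1542,2448,27,976,3026] [(0,0),(0,1),(2,0),(2,1),(3,0),(3,1)] [Ref.mk 1712 1716 [0,1,2,3] [[0,1,2,3,4],[0,1,2,3],[0,1,2,3],[0,1,2,3,4]],Ref.mk 3171 1721 [0,1,2,3] [[0,1,2,3,4],[0,1,2,3],[0,1,2,3],[0,1,2,3,4]]],
Node.mk [0,820,182,1542,2448,27,976,3171,3807,3028] [(0,0),(1,0),(1,1),(1,2),(1,3),(2,1)] [],
Node.mk [0,820,182,1542,2448,27,976,3171,3807,3037] [(0,0),(1,0),(1,1),(1,2),(1,4),(2,1)] [],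
Node.mk [0,820,182,1542,2448,27,976,3171,3807] [(0,0),(0,3),(1,0),(1,1),(1,2),(2,3)] [Ref.mk 3026 1721 [0,1,2,3] [[0,1,2,3,4],[0,1,2,3],[0,1,2,3],[0,1,2,3,4]],Ref.mk 3028 1723 [0,1,2,3] [[0,1,2,3,4],[0,1,2,3],[0,1,2,3],[0,1,2,3,4,5]],Ref.mk 3037 1724 [0,1,2,3] [[0,1,2,3,4],[0,1,2,3,4],[0,1,2,3],[0,1,2,3,4,5]]],
Node.mk [0,820,182,1542,2448,27,976,3171,3729,1001,3028] [(0,0),(0,2),(0,3),(3,0),(3,1),(3,4)] [],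
Node.mk [0,820,182,1542,2448,27,976,3171,3729,1001] [(0,0),(0,2),(0,3),(1,0),(3,0),(3,1)] [Ref.mk 3028 1726 [0,1,2,3] [[0,1,2,3,4],[0,1,2,3],[0,1,2,3],[0,1,2,3,4,5]]]]

/-- nodes -/
noncomputable def c27 : List Node := [
Node.mk [0,820,182,1542,2448,27,976,3171,3729] [(0,0),(0,3),(1,0),(2,0),(2,1),(3,0)] [Ref.mk 1001 1727 [0,1,2,3] [[0,1,2,3,4],[0,1,2,3],[0,1,2,3],[0,1,2,3,4,5]]],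
Node.mk [0,820,182,1542,2448,27,976,3171,3900] [(0,0),(0,3),(1,1),(2,0),(2,3),(3,0)] [],
Node.mk [0,820,182,1542,2448,27,976,3171] [(1,2),(3,0),(3,1),(3,2),(3,3),(3,4)] [Ref.mk 3807 1725 [0,1,2,3] [[0,1,2,3,4],[0,1,2,3],[0,1,2,3],[0,1,2,3,4,5]],Ref.mk 3816 346 [0,1,2,3] [[0,1,2,3,4],[0,1,2,3],[0,1,2,3],[0,1,2,3,5]],Ref.mk 3834 1097 [0,1,2,3] [[0,1,2,3,4],[0,1,2,3],[0,1,2,3],[0,1,2,3,5]],Ref.mk 3843 1714 [0,1,2,3] [[0,1,2,3,4],[0,1,2,3,4],[0,1,2,3],[0,1,2,3,5]],Ref.mk 3889 95 [3,1,2,0] [[0,1,3,2,5,4],[0,1,2,3],[0,1,3,2],[0,1,3,2,4]],Ref.mk 3729 1728 [0,1,2,3] [[0,1,2,3,4],[0,1,2,3],[0,1,2,3],[0,1,2,3,4,5]],Ref.mk 3900 1729 [0,1,2,3] [[0,1,2,3,4],[0,1,2,3],[0,1,2,3],[0,1,2,3,4,5]],Ref.mk 3739 96 [3,1,2,0] [[0,5,3,2,1,4],[0,1,2,3],[0,1,3,2],[0,4,3,2,1]]],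
Node.mk [0,820,182,1542,2448,27,976,3028,1633,3171,1795] [(0,0),(0,2),(0,4),(1,2),(2,1),(2,3)] [],
Node.mk [0,820,182,1542,2448,27,976,3028,1633,3171] [(0,0),(1,2),(2,0),(2,1),(2,2),(2,3)] [Ref.mk 1795 1731 [0,1,2,3] [[0,1,2,3,4],[0,1,2,3],[0,1,2,3,4],[0,1,2,3,4]]],
Node.mk [0,820,182,1542,2448,27,976,3028,1633,921,1057] [(0,0),(0,4),(2,0),(2,1),(2,2),(3,0)] [],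
Node.mk [0,820,182,1542,2448,27,976,3028,1633,921] [(0,0),(0,2),(1,2),(2,1),(2,2),(2,3)] [Ref.mk 733 26 [0,1,2,3] [[0,1,2,3,4],[0,1,2,3],[0,1,2,3],[0,1,2,3]],Ref.mk 1057 1733 [0,1,2,3] [[0,1,2,3,4],[0,1,2,3],[0,1,2,3,4],[0,1,2,3,4]]],
Node.mk [0,820,182,1542,2448,27,976,3028,1633] [(0,0),(0,1),(0,4),(2,0),(2,1),(3,0)] [Ref.mk 3171 1732 [0,1,2,3] [[0,1,2,3,4],[0,1,2,3],[0,1,2,3],[0,1,2,3,4]],Ref.mk 921 1734 [0,1,2,3] [[0,1,2,3,4],[0,1,2,3],[0,1,2,3],[0,1,2,3,4]]],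
Node.mk [0,820,182,1542,2448,27,976,3028,1714] [(0,0),(0,2),(0,4),(1,2),(2,1),(2,3)] [Ref.mk 1648 1735 [3,1,2,0] [[0,1,3,4,2],[3,1,2,0],[0,1,3,2],[0,1,4,2,3]]],
Node.mk [0,820,182,1542,2448,27,976,3028,1795,1083,3241] [(0,0),(0,1),(0,3),(0,4),(2,0),(3,0)] [],
Node.mk [0,820,182,1542,2448,27,976,3028,1795,1083] [(0,0),(0,4),(1,3),(2,0),(2,1),(3,0)] [Ref.mk 3241 1737 [0,1,2,3] [[0,1,2,3,4],[0,1,2,3],[0,1,2,3,4],[0,1,2,3,4]],Ref.mk 3171 1730 [0,1,2,3] [[0,1,2,3,4],[0,1,2,3],[0,1,2,3],[0,1,2,3,4]]],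
Node.mk [0,820,182,1542,2448,27,976,3028,1795] [(0,0),(0,4),(1,1),(2,0),(3,0),(3,2)] [Ref.mk 3241 91 [3,1,2,0] [[0,2,3,4,1],[0,1,2,3],[0,4,3,2,1],[0,4,1,2,3]],Ref.mk 1083 1738 [0,1,2,3] [[0,1,2,3,4],[0,1,2,3],[0,1,2,3,4],[0,1,2,3,4]]],
Node.mk [0,820,182,1542,2448,27,976,3028] [(0,0),(0,1),(2,0),(2,1),(3,0),(3,1)] [Ref.mk 3171 1730 [0,1,2,3] [[0,1,2,3,4],[0,1,2,3],[0,1,2,3],[0,1,2,3,4]],Ref.mk 1633 1735 [0,1,2,3] [[0,1,2,3,4],[0,1,2,3],[0,1,2,3],[0,1,2,3,4]],Ref.mk 1714 1736 [0,1,2,3] [[0,1,2,3,4],[0,1,2,3],[0,1,2,3],[0,1,2,3,4]],Ref.mk 1795 1739 [0,1,2,3] [[0,1,2,3,4],[0,1,2,3],[0,1,2,3,4],[0,1,2,3,4]]],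
Node.mk [0,820,182,1542,2448,27,976] [(1,0),(1,2),(3,0),(3,1),(3,2),(3,3)] [Ref.mk 3087 346 [0,1,2,3] [[0,1,2,3,4],[0,1,2,3],[0,1,2,3],[0,1,2,3,4]],Ref.mk 3105 1097 [0,1,2,3] [[0,1,2,3,4],[0,1,2,3],[0,1,2,3],[0,1,2,3,4]],Ref.mk 3114 1714 [0,1,2,3] [[0,1,2,3,4],[0,1,2,3,4],[0,1,2,3],[0,1,2,3,4]],Ref.mk 3026 1722 [0,1,2,3] [[0,1,2,3,4],[0,1,2,3],[0,1,2,3],[0,1,2,3,4]],Ref.mk 3171 1730 [0,1,2,3] [[0,1,2,3,4],[0,1,2,3],[0,1,2,3],[0,1,2,3,4]],Ref.mk 3010 98 [3,1,2,0] [[0,4,3,2,1],[0,1,2,3],[0,1,3,2],[0,4,3,2]],Ref.mk 3028 1740 [0,1,2,3] [[0,1,2,3,4],[0,1,2,3],[0,1,2,3],[0,1,2,3,4]],Ref.mk 3037 98 [3,1,2,0] [[0,4,3,2,1],[0,4,2,3],[0,1,3,2],[0,4,3,2]]],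
Node.mk [0,820,182,1542,2448,27,1057,3087,2377,185,2523] [(0,0),(0,1),(0,3),(0,4),(1,0),(1,2)] [],
Node.mk [0,820,182,1542,2448,27,1057,3087,2377,185] [(0,0),(0,1),(0,4),(2,1),(3,0),(3,1)] [Ref.mk 2523 1742 [0,1,2,3] [[0,1,2,3,4,5],[0,1,2,3],[0,1,2,3,4],[0,1,2,3,4]]],
Node.mk [0,820,182,1542,2448,27,1057,3087,2377,842] [(0,0),(0,1),(0,2),(1,2),(2,1),(3,1)] [Ref.mk 248 326 [0,1,2,3] [[0,1,2,3,5],[0,1,2,3],[0,1,2,3],[0,1,2,3]]],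
Node.mk [0,820,182,1542,2448,27,1057,3087,2377] [(0,0),(0,1),(0,2),(0,3),(0,4),(1,0)] [Ref.mk 185 1743 [0,1,2,3] [[0,1,2,3,4,5],[0,1,2,3],[0,1,2,3,4],[0,1,2,3,4]],Ref.mk 842 1744 [0,1,2,3] [[0,1,2,3,4,5],[0,1,2,3],[0,1,2,3,4],[0,1,2,3,4]]],
Node.mk [0,820,182,1542,2448,27,1057,3087,1810] [(0,0),(0,1),(1,1),(1,2),(2,1),(3,1)] [],
Node.mk [0,820,182,1542,2448,27,1057,3087,1819] [(0,0),(0,1),(1,1),(1,2),(2,1),(3,1)] [],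
Node.mk [0,820,182,1542,2448,27,1057,3087] [(0,0),(0,3),(1,0),(1,1),(1,2),(2,1)] [Ref.mk 2377 1745 [0,1,2,3] [[0,1,2,3,4],[0,1,2,3],[0,1,2,3,4],[0,1,2,3,4]],Ref.mk 1810 1746 [0,1,2,3] [[0,1,2,3,4],[0,1,2,3],[0,1,2,3,4],[0,1,2,3,4]],Ref.mk 1819 1747 [0,1,2,3] [[0,1,2,3,4],[0,1,2,3,4],[0,1,2,3,4],[0,1,2,3,4]]],
Node.mk [0,820,182,1542,2448,27,1057,3105,2216,36,1058] [(0,0),(1,0),(1,2),(1,3),(2,4),(3,1)] [],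
Node.mk [0,820,182,1542,2448,27,1057,3105,2216,36,1139] [(0,0),(1,0),(1,1),(1,2),(1,3),(3,1)] [],
Node.mk [0,820,182,1542,2448,27,1057,3105,2216,36,1796,1621] [(0,0),(1,0),(1,1),(1,2),(1,3),(3,2)] [],
Node.mk [0,820,182,1542,2448,27,1057,3105,2216,36,1796,1702] [(0,0),(1,0),(1,1),(1,2),(1,3),(3,2)] [],
Node.mk [0,820,182,1542,2448,27,1057,3105,2216,36,1796] [(0,0),(1,1),(2,0),(2,1),(2,4),(3,0)] [Ref.mk 1621 1751 [0,1,2,3] [[0,1,2,3,4,5],[0,1,2,3,4],[0,1,2,3,4],[0,1,2,3,4]],Ref.mk 1702 1752 [0,1,2,3] [[0,1,2,3,4,5],[0,1,2,3,4],[0,1,2,3,4],[0,1,2,3,4]],Ref.mk 1864 1750 [0,1,2,3] [[0,5,2,4,3,1],[0,1,2,3,4],[0,4,2,3,1,5],[0,2,1,3,4]],Ref.mk 896 1751 [0,1,2,3] [[0,5,2,4,3,1],[0,1,2,3,4],[0,4,2,3,1],[0,2,1,3,4]],Ref.mk 977 1752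 [0,1,2,3] [[0,5,2,4,3,1],[0,1,2,3,4],[0,4,2,3,1],[0,2,1,3,4]],Ref.mk 1139 1750 [0,1,2,3] [[0,1,2,3,4,5],[0,1,2,3,4],[0,1,2,3,4,5],[0,1,2,3,4]]],
Node.mk [0,820,182,1542,2448,27,1057,3105,2216,36,2939,3663,45,2610,336] [(0,0),(0,3),(1,1),(2,0),(2,4),(3,0)] [],
Node.mk [0,820,182,1542,2448,27,1057,3105,2216,36,2939,3663,45,2610,1794,1545] [(0,0),(0,2),(1,0),(1,2),(2,1),(3,2)] [],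
Node.mk [0,820,182,1542,2448,27,1057,3105,2216,36,2939,3663,45,2610,1794,825] [(0,0),(0,2),(1,1),(1,2),(2,1),(3,1)] [],
Node.mk [0,820,182,1542,2448,27,1057,3105,2216,36,2939,3663,45,2610,1794,2940] [(0,0),(0,1),(0,2),(0,3),(0,4),(1,2)] [Ref.mk 1544 1755 [0,1,2,3] [[0,1,2,3,4,6,5],[0,1,2,3,4,5],[0,1,2,3,4,5],[0,1,2,3,4,5]],Ref.mk 1058 1749 [0,1,2,3] [[0,1,2,3,4,5],[0,1,2,3,4],[0,1,2,3,4],[0,1,2,3,4]],Ref.mk 824 1756 [0,1,2,3] [[0,1,2,3,4,6,5],[0,1,2,3,4,5],[0,1,2,3,4,5],[0,1,2,3,4,5]],Ref.mk 1796 1753 [0,1,2,3] [[0,1,2,3,4,5],[0,1,2,3,4],[0,1,2,3,4],[0,1,2,3,4]],Ref.mk 1545 1755 [0,1,2,3] [[0,1,2,3,4,5,6],[0,1,2,3,4,5],[0,1,2,3,4,5],[0,1,2,3,4,5]],Ref.mk 1059 1749 [0,1,2,3] [[0,1,2,3,4,6],[0,1,2,3,4],[0,1,2,3,4],[0,1,2,3,4]],Ref.mk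 825 1756 [0,1,2,3] [[0,1,2,3,4,5,6],[0,1,2,3,4,5],[0,1,2,3,4,5],[0,1,2,3,4,5]],Ref.mk 1797 1753 [0,1,2,3] [[0,1,2,3,4,6],[0,1,2,3,4],[0,1,2,3,4],[0,1,2,3,4]],Ref.mk 1546 1755 [0,1,2,3] [[0,1,2,3,4,6,7],[0,1,2,3,4,5],[0,1,2,3,4,5],[0,1,2,3,4,5]],Ref.mk 1060 1749 [0,1,2,3] [[0,1,2,3,4,7],[0,1,2,3,4],[0,1,2,3,4],[0,1,2,3,4]],Ref.mk 826 1756 [0,1,2,3] [[0,1,2,3,4,6,7],[0,1,2,3,4,5],[0,1,2,3,4,5],[0,1,2,3,4,5]],Ref.mk 1798 1753 [0,1,2,3] [[0,1,2,3,4,7],[0,1,2,3,4],[0,1,2,3,4],[0,1,2,3,4]]],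
Node.mk [0,820,182,1542,2448,27,1057,3105,2216,36,2939,3663,45,2610,1794] [(0,0),(0,1),(0,2),(0,3),(0,4),(0,5)] [Ref.mk 1545 1755 [0,1,2,3] [[0,1,2,3,4,5,6],[0,1,2,3,4,5],[0,1,2,3,4,5],[0,1,2,3,4,5]],Ref.mk 1059 1749 [0,1,2,3] [[0,1,2,3,4,6],[0,1,2,3,4],[0,1,2,3,4],[0,1,2,3,4]],Ref.mk 825 1756 [0,1,2,3] [[0,1,2,3,4,5,6],[0,1,2,3,4,5],[0,1,2,3,4,5],[0,1,2,3,4,5]],Ref.mk 1797 1753 [0,1,2,3] [[0,1,2,3,4,6],[0,1,2,3,4],[0,1,2,3,4],[0,1,2,3,4]],Ref.mk 2940 1757 [0,1,2,3] [[0,1,2,3,4,5,6],[0,1,2,3,4,5],[0,1,2,3,4,5],[0,1,2,3,4,5]]],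
Node.mk [0,820,182,1542,2448,27,1057,3105,2216,36,2939,3663,45,2610,2523] [(0,0),(0,3),(1,1),(1,2),(2,4),(3,3)] [],
Node.mk [0,820,182,1542,2448,27,1057,3105,2216,36,2939,3663,45,2610,3252] [(0,0),(0,2),(0,3),(1,1),(2,4),(3,4)] [],
Node.mk [0,820,182,1542,2448,27,1057,3105,2216,36,2939,3663,45,2610,3981,3732] [(0,0),(0,2),(0,3),(1,0),(1,2),(2,1)] [Ref.mk 1797 1753 [0,1,2,3] [[0,1,2,3,4,6],[0,1,2,3,4],[0,1,2,3,4],[0,1,2,3,4]]],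
Node.mk [0,820,182,1542,2448,27,1057,3105,2216,36,2939,3663,45,2610,3981,825] [(0,0),(0,2),(1,1),(1,2),(2,1),(3,1)] [],
Node.mk [0,820,182,1542,2448,27,1057,3105,2216,36,2939,3663,45,2610,3981,2940] [(0,0),(0,1),(0,2),(0,3),(0,4),(1,2)] [Ref.mk 3731 1761 [0,1,2,3] [[0,1,2,3,4,6,5],[0,1,2,3,4,5],[0,1,2,3,4,5],[0,1,2,3,4,5]],Ref.mk 1058 1749 [0,1,2,3] [[0,1,2,3,4,5],[0,1,2,3,4],[0,1,2,3,4],[0,1,2,3,4]],Ref.mk 824 1762 [0,1,2,3] [[0,1,2,3,4,6,5],[0,1,2,3,4,5],[0,1,2,3,4,5],[0,1,2,3,4,5]],Ref.mk 1796 1753 [0,1,2,3] [[0,1,2,3,4,5],[0,1,2,3,4],[0,1,2,3,4],[0,1,2,3,4]],Ref.mk 3732 1761 [0,1,2,3] [[0,1,2,3,4,5,6],[0,1,2,3,4,5],[0,1,2,3,4,5],[0,1,2,3,4,5]],Ref.mk 1059 1749 [0,1,2,3] [[0,1,2,3,4,6],[0,1,2,3,4],[0,1,2,3,4],[0,1,2,3,4]],Ref.mk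 825 1762 [0,1,2,3] [[0,1,2,3,4,5,6],[0,1,2,3,4,5],[0,1,2,3,4,5],[0,1,2,3,4,5]],Ref.mk 1797 1753 [0,1,2,3] [[0,1,2,3,4,6],[0,1,2,3,4],[0,1,2,3,4],[0,1,2,3,4]],Ref.mk 3733 1761 [0,1,2,3] [[0,1,2,3,4,6,7],[0,1,2,3,4,5],[0,1,2,3,4,5],[0,1,2,3,4,5]],Ref.mk 1060 1749 [0,1,2,3] [[0,1,2,3,4,7],[0,1,2,3,4],[0,1,2,3,4],[0,1,2,3,4]],Ref.mk 826 1762 [0,1,2,3] [[0,1,2,3,4,6,7],[0,1,2,3,4,5],[0,1,2,3,4,5],[0,1,2,3,4,5]],Ref.mk 1798 1753 [0,1,2,3] [[0,1,2,3,4,7],[0,1,2,3,4],[0,1,2,3,4],[0,1,2,3,4]]],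
Node.mk [0,820,182,1542,2448,27,1057,3105,2216,36,2939,3663,45,2610,3981] [(0,0),(0,1),(0,2),(0,3),(0,4),(0,5)] [Ref.mk 3732 1761 [0,1,2,3] [[0,1,2,3,4,5,6],[0,1,2,3,4,5],[0,1,2,3,4,5],[0,1,2,3,4,5]],Ref.mk 1059 1749 [0,1,2,3] [[0,1,2,3,4,6],[0,1,2,3,4],[0,1,2,3,4],[0,1,2,3,4]],Ref.mk 825 1762 [0,1,2,3] [[0,1,2,3,4,5,6],[0,1,2,3,4,5],[0,1,2,3,4,5],[0,1,2,3,4,5]],Ref.mk 1797 1753 [0,1,2,3] [[0,1,2,3,4,6],[0,1,2,3,4],[0,1,2,3,4],[0,1,2,3,4]],Ref.mk 2940 1763 [0,1,2,3] [[0,1,2,3,4,5,6],[0,1,2,3,4,5],[0,1,2,3,4,5],[0,1,2,3,4,5]]],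
Node.mk [0,820,182,1542,2448,27,1057,3105,2216,36,2939,3663,45,2610,4710,4461] [(0,0),(0,2),(0,3),(1,0),(1,2),(2,1)] [Ref.mk 1797 1753 [0,1,2,3] [[0,1,2,3,4,6],[0,1,2,3,4],[0,1,2,3,4],[0,1,2,3,4]]],
Node.mk [0,820,182,1542,2448,27,1057,3105,2216,36,2939,3663,45,2610,4710,825] [(0,0),(0,2),(1,1),(1,2),(2,1),(3,1)] [],
Node.mk [0,820,182,1542,2448,27,1057,3105,2216,36,2939,3663,45,2610,4710,2940] [(0,0),(0,1),(0,2),(0,3),(0,4),(1,2)] [Ref.mk 4460 1765 [0,1,2,3] [[0,1,2,3,4,6,5],[0,1,2,3,4,5],[0,1,2,3,4,5],[0,1,2,3,4,5,6]],Ref.mk 1058 1749 [0,1,2,3] [[0,1,2,3,4,5],[0,1,2,3,4],[0,1,2,3,4],[0,1,2,3,4]],Ref.mk 824 1766 [0,1,2,3] [[0,1,2,3,4,6,5],[0,1,2,3,4,5],[0,1,2,3,4,5],[0,1,2,3,4,5,6]],Ref.mk 1796 1753 [0,1,2,3] [[0,1,2,3,4,5],[0,1,2,3,4],[0,1,2,3,4],[0,1,2,3,4]],Ref.mk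 4461 1765 [0,1,2,3] [[0,1,2,3,4,5,6],[0,1,2,3,4,5],[0,1,2,3,4,5],[0,1,2,3,4,5,6]],Ref.mk 1059 1749 [0,1,2,3] [[0,1,2,3,4,6],[0,1,2,3,4],[0,1,2,3,4],[0,1,2,3,4]],Ref.mk 825 1766 [0,1,2,3] [[0,1,2,3,4,5,6],[0,1,2,3,4,5],[0,1,2,3,4,5],[0,1,2,3,4,5,6]],Ref.mk 1797 1753 [0,1,2,3] [[0,1,2,3,4,6],[0,1,2,3,4],[0,1,2,3,4],[0,1,2,3,4]],Ref.mk 4462 1765 [0,1,2,3] [[0,1,2,3,4,6,7],[0,1,2,3,4,5],[0,1,2,3,4,5],[0,1,2,3,4,5,6]],Ref.mk 1060 1749 [0,1,2,3] [[0,1,2,3,4,7],[0,1,2,3,4],[0,1,2,3,4],[0,1,2,3,4]],Ref.mk 826 1766 [0,1,2,3] [[0,1,2,3,4,6,7],[0,1,2,3,4,5],[0,1,2,3,4,5],[0,1,2,3,4,5,6]],Ref.mk 1798 1753 [0,1,2,3] [[0,1,2,3,4,7],[0,1,2,3,4],[0,1,2,3,4],[0,1,2,3,4]]],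
Node.mk [0,820,182,1542,2448,27,1057,3105,2216,36,2939,3663,45,2610,4710] [(0,0),(0,1),(0,2),(0,3),(0,4),(0,5)] [Ref.mk 4461 1765 [0,1,2,3] [[0,1,2,3,4,5,6],[0,1,2,3,4,5],[0,1,2,3,4,5],[0,1,2,3,4,5,6]],Ref.mk 1059 1749 [0,1,2,3] [[0,1,2,3,4,6],[0,1,2,3,4],[0,1,2,3,4],[0,1,2,3,4]],Ref.mk 825 1766 [0,1,2,3] [[0,1,2,3,4,5,6],[0,1,2,3,4,5],[0,1,2,3,4,5],[0,1,2,3,4,5,6]],Ref.mk 1797 1753 [0,1,2,3] [[0,1,2,3,4,6],[0,1,2,3,4],[0,1,2,3,4],[0,1,2,3,4]],Ref.mk 2940 1767 [0,1,2,3] [[0,1,2,3,4,5,6],[0,1,2,3,4,5],[0,1,2,3,4,5],[0,1,2,3,4,5,6]]],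
Node.mk [0,820,182,1542,2448,27,1057,3105,2216,36,2939,3663,45,2610,1633] [(0,0),(0,4),(1,1),(2,0),(2,2),(3,2)] [],
Node.mk [0,820,182,1542,2448,27,1057,3105,2216,36,2939,3663,45,2610,1714,244] [(0,0),(0,1),(1,0),(2,0),(2,3),(3,0)] [],
Node.mk [0,820,182,1542,2448,27,1057,3105,2216,36,2939,3663,45,2610,1714] [(0,0),(1,2),(2,1),(3,1),(3,2),(3,3)] [Ref.mk 244 1770 [0,1,2,3] [[0,1,2,3,4,5],[0,1,2,3,4,5],[0,1,2,3,4,5],[0,1,2,3,4,5]],Ref.mk 3160 98 [3,1,2,0] [[0,1,3,2,4],[0,1,2,3],[0,1,3,2],[0,1,3,2]],Ref.mk 3889 98 [3,1,2,0] [[0,1,3,2,5],[0,1,2,3],[0,1,3,2],[0,1,3,2]],Ref.mk 4618 98 [3,1,2,0] [[0,1,3,2,6],[0,1,2,3],[0,1,3,2],[0,1,3,2]],Ref.mk 336 1754 [0,1,2,3] [[0,1,2,3,4,5],[0,1,2,3,4,5],[0,1,2,3,4,5],[0,1,2,3,4,5]],Ref.mk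 3252 1760 [0,1,2,3] [[0,1,2,3,4,5],[0,1,2,3,4,5],[0,1,2,3,4,5],[0,1,2,3,4,5]],Ref.mk 3981 1764 [0,1,2,3] [[0,1,2,3,4,5],[0,1,2,3,4,5],[0,1,2,3,4,5],[0,1,2,3,4,5]],Ref.mk 4710 1768 [0,1,2,3] [[0,1,2,3,4,5],[0,1,2,3,4,5],[0,1,2,3,4,5],[0,1,2,3,4,5,6]]],
Node.mk [0,820,182,1542,2448,27,1057,3105,2216,36,2939,3663,45,2610,1795,1545] [(0,0),(0,2),(1,0),(1,2),(2,1),(3,2)] [],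
Node.mk [0,820,182,1542,2448,27,1057,3105,2216,36,2939,3663,45,2610,1795,825] [(0,0),(0,2),(1,1),(1,2),(2,1),(3,1)] [],
Node.mk [0,820,182,1542,2448,27,1057,3105,2216,36,2939,3663,45,2610,1795,2940] [(0,0),(0,1),(0,2),(0,3),(0,4),(1,2)] [Ref.mk 1544 1772 [0,1,2,3] [[0,1,2,3,4,6,5],[0,1,2,3,4,5],[0,1,2,3,4,5],[0,1,2,3,4,5]],Ref.mk 1058 1749 [0,1,2,3] [[0,1,2,3,4,5],[0,1,2,3,4],[0,1,2,3,4],[0,1,2,3,4]],Ref.mk 824 1773 [0,1,2,3] [[0,1,2,3,4,6,5],[0,1,2,3,4,5],[0,1,2,3,4,5],[0,1,2,3,4,5]],Ref.mk 1796 1753 [0,1,2,3] [[0,1,2,3,4,5],[0,1,2,3,4],[0,1,2,3,4],[0,1,2,3,4]],Ref.mk 1545 1772 [0,1,2,3] [[0,1,2,3,4,5,6],[0,1,2,3,4,5],[0,1,2,3,4,5],[0,1,2,3,4,5]],Ref.mk 1059 1749 [0,1,2,3] [[0,1,2,3,4,6],[0,1,2,3,4],[0,1,2,3,4],[0,1,2,3,4]],Ref.mk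 825 1773 [0,1,2,3] [[0,1,2,3,4,5,6],[0,1,2,3,4,5],[0,1,2,3,4,5],[0,1,2,3,4,5]],Ref.mk 1797 1753 [0,1,2,3] [[0,1,2,3,4,6],[0,1,2,3,4],[0,1,2,3,4],[0,1,2,3,4]],Ref.mk 1546 1772 [0,1,2,3] [[0,1,2,3,4,6,7],[0,1,2,3,4,5],[0,1,2,3,4,5],[0,1,2,3,4,5]],Ref.mk 1060 1749 [0,1,2,3] [[0,1,2,3,4,7],[0,1,2,3,4],[0,1,2,3,4],[0,1,2,3,4]],Ref.mk 826 1773 [0,1,2,3] [[0,1,2,3,4,6,7],[0,1,2,3,4,5],[0,1,2,3,4,5],[0,1,2,3,4,5]],Ref.mk 1798 1753 [0,1,2,3] [[0,1,2,3,4,7],[0,1,2,3,4],[0,1,2,3,4],[0,1,2,3,4]]],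
Node.mk [0,820,182,1542,2448,27,1057,3105,2216,36,2939,3663,45,2610,1795] [(0,0),(0,1),(0,2),(0,3),(0,4),(0,5)] [Ref.mk 1545 1772 [0,1,2,3] [[0,1,2,3,4,5,6],[0,1,2,3,4,5],[0,1,2,3,4,5],[0,1,2,3,4,5]],Ref.mk 1059 1749 [0,1,2,3] [[0,1,2,3,4,6],[0,1,2,3,4],[0,1,2,3,4],[0,1,2,3,4]],Ref.mk 825 1773 [0,1,2,3] [[0,1,2,3,4,5,6],[0,1,2,3,4,5],[0,1,2,3,4,5],[0,1,2,3,4,5]],Ref.mk 1797 1753 [0,1,2,3] [[0,1,2,3,4,6],[0,1,2,3,4],[0,1,2,3,4],[0,1,2,3,4]],Ref.mk 2940 1774 [0,1,2,3] [[0,1,2,3,4,5,6],[0,1,2,3,4,5],[0,1,2,3,4,5],[0,1,2,3,4,5]]],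
Node.mk [0,820,182,1542,2448,27,1057,3105,2216,36,2939,3663,45,2610,1957,1545] [(0,0),(0,2),(1,0),(1,2),(2,1),(3,2)] [],
Node.mk [0,820,182,1542,2448,27,1057,3105,2216,36,2939,3663,45,2610,1957,825] [(0,0),(0,2),(1,1),(1,2),(2,1),(3,1)] [],
Node.mk [0,820,182,1542,2448,27,1057,3105,2216,36,2939,3663,45,2610,1957,2940] [(0,0),(0,1),(0,2),(0,3),(0,4),(1,2)] [Ref.mk 1544 1776 [0,1,2,3] [[0,1,2,3,4,6,5],[0,1,2,3,4,5],[0,1,2,3,4,5,6],[0,1,2,3,4,5]],Ref.mk 1220 1750 [0,1,2,3] [[0,1,2,3,4,5],[0,1,2,3,4],[0,1,2,3,4,6],[0,1,2,3,4]],Ref.mk 824 1777 [0,1,2,3] [[0,1,2,3,4,6,5],[0,1,2,3,4,5],[0,1,2,3,4,5,6],[0,1,2,3,4,5]],Ref.mk 1796 1753 [0,1,2,3] [[0,1,2,3,4,5],[0,1,2,3,4],[0,1,2,3,4],[0,1,2,3,4]],Ref.mk 1545 1776 [0,1,2,3] [[0,1,2,3,4,5,6],[0,1,2,3,4,5],[0,1,2,3,4,5,6],[0,1,2,3,4,5]],Ref.mk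 1221 1750 [0,1,2,3] [[0,1,2,3,4,6],[0,1,2,3,4],[0,1,2,3,4,6],[0,1,2,3,4]],Ref.mk 825 1777 [0,1,2,3] [[0,1,2,3,4,5,6],[0,1,2,3,4,5],[0,1,2,3,4,5,6],[0,1,2,3,4,5]],Ref.mk 1797 1753 [0,1,2,3] [[0,1,2,3,4,6],[0,1,2,3,4],[0,1,2,3,4],[0,1,2,3,4]],Ref.mk 1546 1776 [0,1,2,3] [[0,1,2,3,4,6,7],[0,1,2,3,4,5],[0,1,2,3,4,5,6],[0,1,2,3,4,5]],Ref.mk 1222 1750 [0,1,2,3] [[0,1,2,3,4,7],[0,1,2,3,4],[0,1,2,3,4,6],[0,1,2,3,4]],Ref.mk 826 1777 [0,1,2,3] [[0,1,2,3,4,6,7],[0,1,2,3,4,5],[0,1,2,3,4,5,6],[0,1,2,3,4,5]],Ref.mk 1798 1753 [0,1,2,3] [[0,1,2,3,4,7],[0,1,2,3,4],[0,1,2,3,4],[0,1,2,3,4]]],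
Node.mk [0,820,182,1542,2448,27,1057,3105,2216,36,2939,3663,45,2610,1957] [(0,0),(0,1),(0,2),(0,3),(0,4),(0,5)] [Ref.mk 1545 1776 [0,1,2,3] [[0,1,2,3,4,5,6],[0,1,2,3,4,5],[0,1,2,3,4,5,6],[0,1,2,3,4,5]],Ref.mk 1221 1750 [0,1,2,3] [[0,1,2,3,4,6],[0,1,2,3,4],[0,1,2,3,4,6],[0,1,2,3,4]],Ref.mk 825 1777 [0,1,2,3] [[0,1,2,3,4,5,6],[0,1,2,3,4,5],[0,1,2,3,4,5,6],[0,1,2,3,4,5]],Ref.mk 1797 1753 [0,1,2,3] [[0,1,2,3,4,6],[0,1,2,3,4],[0,1,2,3,4],[0,1,2,3,4]],Ref.mk 2940 1778 [0,1,2,3] [[0,1,2,3,4,5,6],[0,1,2,3,4,5],[0,1,2,3,4,5,6],[0,1,2,3,4,5]]],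
Node.mk [0,820,182,1542,2448,27,1057,3105,2216,36,2939,3663,45,2610] [(0,0),(0,1),(0,2),(2,0),(2,1),(3,1)] [Ref.mk 336 1754 [0,1,2,3] [[0,1,2,3,4,5],[0,1,2,3,4,5],[0,1,2,3,4,5],[0,1,2,3,4,5]],Ref.mk 1794 1758 [0,1,2,3] [[0,1,2,3,4,5],[0,1,2,3,4,5],[0,1,2,3,4,5],[0,1,2,3,4,5]],Ref.mk 2523 1759 [0,1,2,3] [[0,1,2,3,4,5],[0,1,2,3,4,5],[0,1,2,3,4,5],[0,1,2,3,4,5]],Ref.mk 3252 1760 [0,1,2,3] [[0,1,2,3,4,5],[0,1,2,3,4,5],[0,1,2,3,4,5],[0,1,2,3,4,5]],Ref.mk 3981 1764 [0,1,2,3] [[0,1,2,3,4,5],[0,1,2,3,4,5],[0,1,2,3,4,5],[0,1,2,3,4,5]],Ref.mk 4710 1768 [0,1,2,3] [[0,1,2,3,4,5],[0,1,2,3,4,5],[0,1,2,3,4,5],[0,1,2,3,4,5,6]],Ref.mk 1633 1769 [0,1,2,3] [[0,1,2,3,4,5],[0,1,2,3,4,5],[0,1,2,3,4,5],[0,1,2,3,4,5]],Ref.mk 1714 1771 [0,1,2,3]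 [[0,1,2,3,4,5],[0,1,2,3,4,5],[0,1,2,3,4,5],[0,1,2,3,4,5]],Ref.mk 1795 1775 [0,1,2,3] [[0,1,2,3,4,5],[0,1,2,3,4,5],[0,1,2,3,4,5],[0,1,2,3,4,5]],Ref.mk 1876 1771 [0,1,2,3] [[0,1,2,3,4,5],[0,1,2,3,4,5],[0,1,2,5,4,3],[0,1,2,3,4,5]],Ref.mk 1957 1779 [0,1,2,3] [[0,1,2,3,4,5],[0,1,2,3,4,5],[0,1,2,3,4,5,6],[0,1,2,3,4,5]],Ref.mk 1796 1753 [0,1,2,3] [[0,1,2,3,4,5],[0,1,2,3,4],[0,1,2,3,4],[0,1,2,3,4]],Ref.mk 1797 1753 [0,1,2,3] [[0,1,2,3,4,6],[0,1,2,3,4],[0,1,2,3,4],[0,1,2,3,4]]],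
Node.mk [0,820,182,1542,2448,27,1057,3105,2216,36,2939,3663,45,1146] [(0,0),(0,2),(1,0),(1,1),(1,2),(3,1)] [],
Node.mk [0,820,182,1542,2448,27,1057,3105,2216,36,2939,3663,45,1155] [(0,0),(0,3),(1,2),(1,3),(2,5),(3,1)] [Ref.mk 2917 26 [3,1,2,0] [[0,1,3,2,4],[0,1,2,3],[0,1,3,2],[0,1,3,2]]],
Node.mk [0,820,182,1542,2448,27,1057,3105,2216,36,2939,3663,45,1164] [(0,0),(0,3),(1,2),(1,3),(2,5),(3,1)] [],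
Node.mk [0,820,182,1542,2448,27,1057,3105,2216,36,2939,3663,45,1173,1819,2940,1216] [(0,0),(0,1),(0,2),(0,3),(1,2),(3,1)] [],
Node.mk [0,820,182,1542,2448,27,1057,3105,2216,36,2939,3663,45,1173,1819,2940,1254] [(0,0),(0,2),(0,3),(1,2),(1,4),(3,1)] [],
Node.mk [0,820,182,1542,2448,27,1057,3105,2216,36,2939,3663,45,1173,1819,2940] [(2,0),(2,1),(2,2),(2,3),(2,4),(2,5)] [Ref.mk 2691 1780 [0,1,2,3] [[0,1,2,3,4,5],[0,1,2,3,4,5],[0,1,2,3,4,6],[0,1,2,3,4,5]],Ref.mk 1216 1784 [0,1,2,3] [[0,1,2,3,4,5,6],[0,1,2,3,4,5],[0,1,2,3,4,5,6],[0,1,2,3,4,5]],Ref.mk 1254 1785 [0,1,2,3] [[0,1,2,3,4,5,6],[0,1,2,3,4,5],[0,1,2,3,4,5,6],[0,1,2,3,4,5]]],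
Node.mk [0,820,182,1542,2448,27,1057,3105,2216,36,2939,3663,45,1173,1819,852] [(0,0),(0,1),(0,2),(1,2),(2,1),(3,1)] [],
Node.mk [0,820,182,1542,2448,27,1057,3105,2216,36,2939,3663,45,1173,1819] [(0,0),(0,1),(0,2),(0,3),(0,4),(0,5)] [Ref.mk 1059 1749 [0,1,2,3] [[0,1,2,3,4,6],[0,1,2,3,4],[0,1,2,3,4],[0,1,2,3,4]],Ref.mk 2940 1786 [0,1,2,3] [[0,1,2,3,4,5,6],[0,1,2,3,4,5],[0,1,2,3,4,5],[0,1,2,3,4,5]],Ref.mk 852 1787 [0,1,2,3] [[0,1,2,3,4,5,6],[0,1,2,3,4,5],[0,1,2,3,4,5],[0,1,2,3,4,5]]],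
Node.mk [0,820,182,1542,2448,27,1057,3105,2216,36,2939,3663,45,1173,1876,825] [(0,0),(0,2),(0,3),(0,4),(1,2),(3,1)] [],
Node.mk [0,820,182,1542,2448,27,1057,3105,2216,36,2939,3663,45,1173,1876] [(0,0),(0,1),(0,2),(0,3),(0,4),(0,5)] [Ref.mk 1140 1750 [0,1,2,3] [[0,1,2,3,4,6],[0,1,2,3,4],[0,1,2,3,4,5],[0,1,2,3,4]],Ref.mk 825 1789 [0,1,2,3] [[0,1,2,3,4,5,6],[0,1,2,3,4,5],[0,1,2,3,4,5],[0,1,2,3,4,5]],Ref.mk 2940 1779 [2,1,0,3] [[0,5,2,4,1,3],[0,1,2,3,4,5],[0,4,2,5,3,6,1],[0,2,1,4,3,5]]],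
Node.mk [0,820,182,1542,2448,27,1057,3105,2216,36,2939,3663,45,1173] [(0,0),(0,2),(0,3),(1,0),(1,2),(2,1)] [Ref.mk 1819 1788 [0,1,2,3] [[0,1,2,3,4,5],[0,1,2,3,4,5],[0,1,2,3,4,5],[0,1,2,3,4,5]],Ref.mk 1876 1790 [0,1,2,3] [[0,1,2,3,4,5],[0,1,2,3,4,5],[0,1,2,3,4,5],[0,1,2,3,4,5]]]]

/-- nodes -/
noncomputable def c28 : List Node := [
Node.mk [0,820,182,1542,2448,27,1057,3105,2216,36,2939,3663,45,1191,1837,870] [(0,0),(0,1),(0,2),(1,2),(2,1),(3,1)] [],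
Node.mk [0,820,182,1542,2448,27,1057,3105,2216,36,2939,3663,45,1191,1837] [(0,0),(0,1),(0,2),(0,3),(0,4),(0,5)] [Ref.mk 1059 1749 [0,1,2,3] [[0,1,2,3,4,6],[0,1,2,3,4],[0,1,2,3,4],[0,1,2,3,4]],Ref.mk 2940 1779 [2,1,0,3] [[0,5,2,1,4,3],[0,6,2,3,4,5],[0,3,2,5,4,6,1],[0,1,2,4,3,5]],Ref.mk 870 1792 [0,1,2,3] [[0,1,2,3,4,5,6],[0,1,2,3,4,5,6],[0,1,2,3,4,5],[0,1,2,3,4,5]]],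
Node.mk [0,820,182,1542,2448,27,1057,3105,2216,36,2939,3663,45,1191] [(0,0),(0,2),(0,3),(0,5),(1,0),(2,1)] [Ref.mk 2935 1780 [2,1,0,3] [[0,5,2,1,4,3],[0,6,2,3,4,5],[0,3,2,5,4,1],[0,1,2,4,3,5]],Ref.mk 1837 1793 [0,1,2,3] [[0,1,2,3,4,5],[0,1,2,3,4,5,6],[0,1,2,3,4,5],[0,1,2,3,4,5]],Ref.mk 1876 1793 [2,1,0,3] [[0,5,2,1,4,3],[0,6,2,3,4,5,1],[0,3,2,5,4,1],[0,1,2,4,3,5]],Ref.mk 2938 983 [2,1,0,3] [[0,5,2,1,4,3],[0,6,2,3,4,5,1],[0,3,2,4,5,1],[0,1,2,4,3,5]],Ref.mk 2940 1780 [2,1,0,3] [[0,5,2,1,4,3],[0,6,2,3,4,5],[0,3,2,5,4,6],[0,1,2,4,3,5]]],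
Node.mk [0,820,182,1542,2448,27,1057,3105,2216,36,2939,3663,45,1876] [(0,0),(0,2),(0,4),(0,5),(1,0),(1,1)] [Ref.mk 2935 1771 [2,1,0,3] [[0,5,2,4,1,3],[0,1,2,3,4,5],[0,4,2,1,3,5],[0,2,1,4,3,5]],Ref.mk 1801 1782 [2,1,0,3] [[0,5,2,4,1,3],[0,1,2,3,4,5],[0,4,2,5,3,1],[0,2,1,4,3,5]],Ref.mk 1810 1783 [2,1,0,3] [[0,5,2,4,1,3],[0,1,2,3,4,5],[0,4,2,5,3,1],[0,2,1,4,3,5]],Ref.mk 1819 1790 [2,1,0,3] [[0,5,2,4,1,3],[0,1,2,3,4,5],[0,4,2,5,3,1],[0,2,1,4,3,5]],Ref.mk 1828 1790 [2,1,0,3] [[0,5,2,4,1,3],[0,1,2,3,5,4],[0,4,2,5,3,1],[0,2,1,4,3,5]],Ref.mk 1837 1793 [0,1,2,3] [[0,1,2,4,3,5],[0,6,2,3,4,5,1],[0,4,2,3,1,5],[0,2,1,3,4,5]],Ref.mk 2937 990 [2,1,0,3] [[0,5,2,4,1,3],[0,1,2,3,4,5],[0,4,2,3,5,1],[0,2,1,4,3,5]],Ref.mk 1155 1782 [0,1,2,3]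 [[0,1,2,3,4,5],[0,1,2,3,4,5],[0,1,2,3,4,5],[0,1,2,3,4,5]],Ref.mk 1164 1783 [0,1,2,3] [[0,1,2,3,4,5],[0,1,2,3,4,5],[0,1,2,3,4,5],[0,1,2,3,4,5]],Ref.mk 1173 1790 [0,1,2,3] [[0,1,2,3,4,5],[0,1,2,3,4,5],[0,1,2,3,4,5],[0,1,2,3,4,5]],Ref.mk 1182 1790 [0,1,2,3] [[0,1,2,3,4,5],[0,1,2,3,5,4],[0,1,2,3,4,5],[0,1,2,3,4,5]],Ref.mk 1191 1793 [2,1,0,3] [[0,5,2,1,4,3],[0,6,2,3,4,5,1],[0,3,2,5,4,1],[0,1,2,4,3,5]],Ref.mk 2940 1779 [2,1,0,3] [[0,5,2,4,1,3],[0,1,2,3,4,5],[0,4,2,5,3,6,1],[0,2,1,4,3,5]]],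
Node.mk [0,820,182,1542,2448,27,1057,3105,2216,36,2939,3663,45] [(1,0),(2,0),(2,1),(2,2),(2,3),(2,4)] [Ref.mk 2610 1780 [0,1,2,3] [[0,1,2,3,4,5],[0,1,2,3,4,5],[0,1,2,3,4,5],[0,1,2,3,4,5]],Ref.mk 1146 1781 [0,1,2,3] [[0,1,2,3,4,5],[0,1,2,3,4,5],[0,1,2,3,4,5],[0,1,2,3,4,5]],Ref.mk 1155 1782 [0,1,2,3] [[0,1,2,3,4,5],[0,1,2,3,4,5],[0,1,2,3,4,5],[0,1,2,3,4,5]],Ref.mk 1164 1783 [0,1,2,3] [[0,1,2,3,4,5],[0,1,2,3,4,5],[0,1,2,3,4,5],[0,1,2,3,4,5]],Ref.mk 1173 1791 [0,1,2,3] [[0,1,2,3,4,5],[0,1,2,3,4,5],[0,1,2,3,4,5],[0,1,2,3,4,5]],Ref.mk 1182 1791 [0,1,2,3] [[0,1,2,3,4,5],[0,1,2,3,5,4],[0,1,2,3,4,5],[0,1,2,3,4,5]],Ref.mk 1191 1794 [0,1,2,3] [[0,1,2,3,4,5],[0,1,2,3,4,5,6],[0,1,2,3,4,5],[0,1,2,3,4,5]],Ref.mk 1876 1795 [0,1,2,3] [[0,1,2,3,4,5],[0,1,2,3,4,5],[0,1,2,3,4,5],[0,1,2,3,4,5]]],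
Node.mk [0,820,182,1542,2448,27,1057,3105,2216,36,2939,3663,1828,1545] [(0,0),(0,2),(1,0),(1,2),(2,1),(3,2)] [],
Node.mk [0,820,182,1542,2448,27,1057,3105,2216,36,2939,3663,1828,2940,860] [(0,0),(0,1),(0,2),(1,2),(2,1),(3,1)] [Ref.mk 1796 1753 [0,1,2,3] [[0,1,2,3,4,5],[0,1,2,3,4],[0,1,2,3,4],[0,1,2,3,4]]],
Node.mk [0,820,182,1542,2448,27,1057,3105,2216,36,2939,3663,1828,2940,862] [(0,0),(0,1),(0,2),(1,2),(2,1),(3,1)] [Ref.mk 1798 1753 [0,1,2,3] [[0,1,2,3,4,7],[0,1,2,3,4],[0,1,2,3,4],[0,1,2,3,4]]],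
Node.mk [0,820,182,1542,2448,27,1057,3105,2216,36,2939,3663,1828,2940] [(0,0),(0,1),(0,2),(0,3),(0,4),(1,2)] [Ref.mk 1544 1797 [0,1,2,3] [[0,1,2,3,4,6,5],[0,1,2,3,4,5],[0,1,2,3,4],[0,1,2,3,4,5]],Ref.mk 1058 1797 [0,1,2,3] [[0,1,2,4,3,6,5],[0,5,2,3,4,1],[0,4,2,3,1],[0,2,1,3,4,5]],Ref.mk 1796 1798 [0,1,2,3] [[0,1,2,4,3,5,6],[0,5,2,3,4,1],[0,4,2,3,1],[0,2,1,3,4,5]],Ref.mk 860 1798 [0,1,2,3] [[0,1,2,3,4,5,6],[0,1,2,3,4,5],[0,1,2,3,4],[0,1,2,3,4,5]],Ref.mk 1545 1797 [0,1,2,3] [[0,1,2,3,4,5,6],[0,1,2,3,4,5],[0,1,2,3,4],[0,1,2,3,4,5]],Ref.mk 1059 1797 [0,1,2,3] [[0,1,2,4,3,5,6],[0,5,2,3,4,1],[0,4,2,3,1],[0,2,1,3,4,5]],Ref.mk 1797 1798 [0,1,2,3] [[0,1,2,4,3,6,5],[0,5,2,3,4,1],[0,4,2,3,1],[0,2,1,3,4,5]],Ref.mk 861 1798 [0,1,2,3]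 [[0,1,2,3,4,6,5],[0,1,2,3,4,5],[0,1,2,3,4],[0,1,2,3,4,5]],Ref.mk 1546 1797 [0,1,2,3] [[0,1,2,3,4,6,7],[0,1,2,3,4,5],[0,1,2,3,4],[0,1,2,3,4,5]],Ref.mk 1060 1797 [0,1,2,3] [[0,1,2,4,3,6,7],[0,5,2,3,4,1],[0,4,2,3,1],[0,2,1,3,4,5]],Ref.mk 1798 1799 [0,1,2,3] [[0,1,2,4,3,5,6,7],[0,5,2,3,4,1],[0,4,2,3,1],[0,2,1,3,4,5]],Ref.mk 862 1799 [0,1,2,3] [[0,1,2,3,4,5,6,7],[0,1,2,3,4,5],[0,1,2,3,4],[0,1,2,3,4,5]]],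
Node.mk [0,820,182,1542,2448,27,1057,3105,2216,36,2939,3663,1828,861] [(0,0),(0,1),(0,2),(1,2),(2,1),(3,1)] [Ref.mk 1797 1753 [0,1,2,3] [[0,1,2,3,4,6],[0,1,2,3,4],[0,1,2,3,4],[0,1,2,3,4]]],
Node.mk [0,820,182,1542,2448,27,1057,3105,2216,36,2939,3663,1828] [(0,0),(0,1),(0,2),(0,3),(0,4),(0,5)] [Ref.mk 1545 1797 [0,1,2,3] [[0,1,2,3,4,5,6],[0,1,2,3,4,5],[0,1,2,3,4],[0,1,2,3,4,5]],Ref.mk 1059 1797 [0,1,2,3] [[0,1,2,4,3,5,6],[0,5,2,3,4,1],[0,4,2,3,1],[0,2,1,3,4,5]],Ref.mk 1797 1801 [0,1,2,3] [[0,1,2,4,3,5,6],[0,5,2,3,4,1],[0,4,2,3,1],[0,2,1,3,4,5]],Ref.mk 2940 1800 [0,1,2,3] [[0,1,2,3,4,5,6],[0,1,2,3,4,5],[0,1,2,3,4],[0,1,2,3,4,5]],Ref.mk 861 1801 [0,1,2,3] [[0,1,2,3,4,5,6],[0,1,2,3,4,5],[0,1,2,3,4],[0,1,2,3,4,5]]],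
Node.mk [0,820,182,1542,2448,27,1057,3105,2216,36,2939,3663,777] [(0,0),(0,2),(0,3),(1,0),(2,0),(2,1)] [Ref.mk 1828 1802 [0,1,2,3] [[0,1,2,3,4,5],[0,1,2,3,4,5],[0,1,2,3,4],[0,1,2,3,4,5]]],
Node.mk [0,820,182,1542,2448,27,1057,3105,2216,36,2939,3663,939] [(0,0),(0,3),(0,4),(2,0),(2,2),(3,1)] [Ref.mk 1828 1802 [0,1,2,3] [[0,1,2,3,4,5],[0,1,2,3,4,5],[0,1,2,3,4],[0,1,2,3,4,5]]],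
Node.mk [0,820,182,1542,2448,27,1057,3105,2216,36,2939,3663,1020,1714,2610,825] [(0,0),(0,2),(0,3),(0,4),(1,2),(3,1)] [],
Node.mk [0,820,182,1542,2448,27,1057,3105,2216,36,2939,3663,1020,1714,2610,2940] [(0,0),(0,1),(0,2),(0,3),(0,4),(1,2)] [Ref.mk 977 871 [0,1,2,3] [[0,1,2,3,5,6],[0,1,2,3,4,5],[0,1,2,3,5],[0,1,2,3,4,5]],Ref.mk 824 1805 [0,1,2,3] [[0,1,2,3,4,6,5],[0,1,2,3,4,5],[0,1,2,3,4,5],[0,1,2,3,4,5]],Ref.mk 978 871 [0,1,2,3] [[0,1,2,3,6,5],[0,1,2,3,4,5],[0,1,2,3,5],[0,1,2,3,4,5]],Ref.mk 825 1805 [0,1,2,3] [[0,1,2,3,4,5,6],[0,1,2,3,4,5],[0,1,2,3,4,5],[0,1,2,3,4,5]],Ref.mk 979 1741 [0,1,2,3] [[0,1,2,3,7],[0,1,2,3],[0,1,2,3],[0,1,2,3]],Ref.mk 826 1805 [0,1,2,3] [[0,1,2,3,4,6,7],[0,1,2,3,4,5],[0,1,2,3,4,5],[0,1,2,3,4,5]]],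
Node.mk [0,820,182,1542,2448,27,1057,3105,2216,36,2939,3663,1020,1714,2610] [(0,0),(0,1),(0,2),(0,3),(0,4),(0,5)] [Ref.mk 978 1006 [0,1,2,3] [[0,1,2,3,6,5],[0,1,2,3,4,5],[0,1,2,3,5],[0,1,2,3,4,5]],Ref.mk 825 1805 [0,1,2,3] [[0,1,2,3,4,5,6],[0,1,2,3,4,5],[0,1,2,3,4,5],[0,1,2,3,4,5]],Ref.mk 2940 1806 [0,1,2,3] [[0,1,2,3,4,5,6],[0,1,2,3,4,5],[0,1,2,3,4,5],[0,1,2,3,4,5]]],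
Node.mk [0,820,182,1542,2448,27,1057,3105,2216,36,2939,3663,1020,1714] [(2,0),(2,1),(2,2),(2,3),(2,4),(3,1)] [Ref.mk 2610 1807 [0,1,2,3] [[0,1,2,3,4,5],[0,1,2,3,4,5],[0,1,2,3,4,5],[0,1,2,3,4,5]]],
Node.mk [0,820,182,1542,2448,27,1057,3105,2216,36,2939,3663,1020] [(0,0),(0,2),(0,3),(1,0),(1,2),(2,1)] [Ref.mk 1828 1802 [0,1,2,3] [[0,1,2,3,4,5],[0,1,2,3,4,5],[0,1,2,3,4],[0,1,2,3,4,5]],Ref.mk 1714 1808 [0,1,2,3] [[0,1,2,3,4,5],[0,1,2,3,4,5],[0,1,2,3,4],[0,1,2,3,4,5]]],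
Node.mk [0,820,182,1542,2448,27,1057,3105,2216,36,2939,3663,1101] [(0,0),(0,2),(1,2),(2,1),(2,4),(3,1)] [],
Node.mk [0,820,182,1542,2448,27,1057,3105,2216,36,2939,3663,1182] [(0,0),(0,2),(0,3),(1,0),(1,2),(2,1)] [Ref.mk 1828 1802 [0,1,2,3] [[0,1,2,3,4,5],[0,1,2,3,4,5],[0,1,2,3,4],[0,1,2,3,4,5]],Ref.mk 1876 1802 [2,1,0,3] [[0,5,2,1,4,3],[0,5,2,3,4,1],[0,3,2,5,4],[0,1,2,4,3,5]]],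
Node.mk [0,820,182,1542,2448,27,1057,3105,2216,36,2939,3663] [(1,0),(1,1),(1,2),(1,3),(1,4),(2,1)] [Ref.mk 45 1796 [0,1,2,3] [[0,1,2,3,4,5],[0,1,2,3,4,5],[0,1,2,3,4],[0,1,2,3,4,5]],Ref.mk 1828 1802 [0,1,2,3] [[0,1,2,3,4,5],[0,1,2,3,4,5],[0,1,2,3,4],[0,1,2,3,4,5]],Ref.mk 777 1803 [0,1,2,3] [[0,1,2,3,4,5],[0,1,2,3,4,5],[0,1,2,3,4],[0,1,2,3,4,5]],Ref.mk 939 1804 [0,1,2,3] [[0,1,2,3,4,5],[0,1,2,3,4,5],[0,1,2,3,4],[0,1,2,3,4,5]],Ref.mk 1020 1809 [0,1,2,3] [[0,1,2,3,4,5],[0,1,2,3,4,5],[0,1,2,3,4],[0,1,2,3,4,5]],Ref.mk 1101 1810 [0,1,2,3] [[0,1,2,3,4,5],[0,1,2,3,4,5],[0,1,2,3,4],[0,1,2,3,4,5]],Ref.mk 1182 1811 [0,1,2,3] [[0,1,2,3,4,5],[0,1,2,3,4,5],[0,1,2,3,4,5],[0,1,2,3,4,5]]],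
Node.mk [0,820,182,1542,2448,27,1057,3105,2216,36,2939,3970] [(0,0),(1,0),(1,2),(1,3),(2,1),(2,4)] [],
Node.mk [0,820,182,1542,2448,27,1057,3105,2216,36,2939,4051,3981,3732] [(0,0),(0,1),(1,0),(1,2),(1,3),(3,5)] [],
Node.mk [0,820,182,1542,2448,27,1057,3105,2216,36,2939,4051,3981,2940] [(0,0),(0,1),(0,2),(0,3),(0,4),(1,2)] [Ref.mk 3731 1814 [0,1,2,3] [[0,1,2,3,4,6,5],[0,1,2,3,4],[0,1,2,3,4,5],[0,1,2,3,4,5]],Ref.mk 1058 1035 [2,1,0,3] [[0,1,2,5,4,3],[0,1,2,3,4],[0,1,2,5,6,3],[0,1,5,4,3,2]],Ref.mk 3732 1814 [0,1,2,3] [[0,1,2,3,4,5,6],[0,1,2,3,4],[0,1,2,3,4,5],[0,1,2,3,4,5]],Ref.mk 1059 1035 [2,1,0,3] [[0,1,2,5,4,3],[0,1,2,3,4],[0,1,2,6,5,3],[0,1,5,4,3,2]],Ref.mk 3733 1814 [0,1,2,3] [[0,1,2,3,4,6,7],[0,1,2,3,4],[0,1,2,3,4,5],[0,1,2,3,4,5]],Ref.mk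 1060 1749 [0,1,2,3] [[0,1,2,3,4,7],[0,1,2,3,4],[0,1,2,3,4],[0,1,2,3,4]]],
Node.mk [0,820,182,1542,2448,27,1057,3105,2216,36,2939,4051,3981] [(0,0),(0,1),(0,2),(0,3),(0,4),(0,5)] [Ref.mk 3732 1814 [0,1,2,3] [[0,1,2,3,4,5,6],[0,1,2,3,4],[0,1,2,3,4,5],[0,1,2,3,4,5]],Ref.mk 1059 1749 [0,1,2,3] [[0,1,2,3,4,6],[0,1,2,3,4],[0,1,2,3,4],[0,1,2,3,4]],Ref.mk 2940 1815 [0,1,2,3] [[0,1,2,3,4,5,6],[0,1,2,3,4],[0,1,2,3,4,5],[0,1,2,3,4,5]]],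
Node.mk [0,820,182,1542,2448,27,1057,3105,2216,36,2939,4051] [(0,0),(0,1),(1,2),(1,3),(2,1),(3,1)] [Ref.mk 3981 1816 [0,1,2,3] [[0,1,2,3,4,5],[0,1,2,3,4],[0,1,2,3,4,5],[0,1,2,3,4,5]],Ref.mk 1876 1816 [0,1,2,3] [[0,4,2,1,3,5],[0,1,2,3,4],[0,5,2,3,1,4],[0,2,5,3,4,1]]],
Node.mk [0,820,182,1542,2448,27,1057,3105,2216,36,2939,3981,2610,3732] [(0,0),(0,2),(0,3),(1,0),(1,2),(2,1)] [Ref.mk 1797 1753 [0,1,2,3] [[0,1,2,3,4,6],[0,1,2,3,4],[0,1,2,3,4],[0,1,2,3,4]]],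
Node.mk [0,820,182,1542,2448,27,1057,3105,2216,36,2939,3981,2610,825] [(0,0),(0,2),(1,1),(1,2),(2,1),(3,1)] [],
Node.mk [0,820,182,1542,2448,27,1057,3105,2216,36,2939,3981,2610,2940] [(0,0),(0,1),(0,2),(0,3),(0,4),(1,2)] [Ref.mk 3731 1818 [0,1,2,3] [[0,1,2,3,4,6,5],[0,1,2,3,4],[0,1,2,3,4,5],[0,1,2,3,4,5]],Ref.mk 1058 1749 [0,1,2,3] [[0,1,2,3,4,5],[0,1,2,3,4],[0,1,2,3,4],[0,1,2,3,4]],Ref.mk 824 1819 [0,1,2,3] [[0,1,2,3,4,6,5],[0,1,2,3,4],[0,1,2,3,4,5],[0,1,2,3,4,5]],Ref.mk 1796 1753 [0,1,2,3] [[0,1,2,3,4,5],[0,1,2,3,4],[0,1,2,3,4],[0,1,2,3,4]],Ref.mk 3732 1818 [0,1,2,3] [[0,1,2,3,4,5,6],[0,1,2,3,4],[0,1,2,3,4,5],[0,1,2,3,4,5]],Ref.mk 1059 1749 [0,1,2,3] [[0,1,2,3,4,6],[0,1,2,3,4],[0,1,2,3,4],[0,1,2,3,4]],Ref.mk 825 1819 [0,1,2,3]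 [[0,1,2,3,4,5,6],[0,1,2,3,4],[0,1,2,3,4,5],[0,1,2,3,4,5]],Ref.mk 1797 1753 [0,1,2,3] [[0,1,2,3,4,6],[0,1,2,3,4],[0,1,2,3,4],[0,1,2,3,4]],Ref.mk 3733 1818 [0,1,2,3] [[0,1,2,3,4,6,7],[0,1,2,3,4],[0,1,2,3,4,5],[0,1,2,3,4,5]],Ref.mk 1060 1749 [0,1,2,3] [[0,1,2,3,4,7],[0,1,2,3,4],[0,1,2,3,4],[0,1,2,3,4]],Ref.mk 826 1819 [0,1,2,3] [[0,1,2,3,4,6,7],[0,1,2,3,4],[0,1,2,3,4,5],[0,1,2,3,4,5]],Ref.mk 1798 1753 [0,1,2,3] [[0,1,2,3,4,7],[0,1,2,3,4],[0,1,2,3,4],[0,1,2,3,4]]],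
Node.mk [0,820,182,1542,2448,27,1057,3105,2216,36,2939,3981,2610] [(0,0),(0,1),(0,2),(0,3),(0,4),(0,5)] [Ref.mk 3732 1818 [0,1,2,3] [[0,1,2,3,4,5,6],[0,1,2,3,4],[0,1,2,3,4,5],[0,1,2,3,4,5]],Ref.mk 1059 1749 [0,1,2,3] [[0,1,2,3,4,6],[0,1,2,3,4],[0,1,2,3,4],[0,1,2,3,4]],Ref.mk 825 1819 [0,1,2,3] [[0,1,2,3,4,5,6],[0,1,2,3,4],[0,1,2,3,4,5],[0,1,2,3,4,5]],Ref.mk 1797 1753 [0,1,2,3] [[0,1,2,3,4,6],[0,1,2,3,4],[0,1,2,3,4],[0,1,2,3,4]],Ref.mk 2940 1820 [0,1,2,3] [[0,1,2,3,4,5,6],[0,1,2,3,4],[0,1,2,3,4,5],[0,1,2,3,4,5]]],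
Node.mk [0,820,182,1542,2448,27,1057,3105,2216,36,2939,3981,1876,825] [(0,0),(0,3),(0,4),(1,1),(1,2),(1,3)] [],
Node.mk [0,820,182,1542,2448,27,1057,3105,2216,36,2939,3981,1876] [(0,0),(0,1),(0,2),(0,3),(0,4),(0,5)] [Ref.mk 825 1822 [0,1,2,3] [[0,1,2,3,4,5,6],[0,1,2,3,4],[0,1,2,3,4,5],[0,1,2,3,4,5]],Ref.mk 1797 1753 [0,1,2,3] [[0,1,2,3,4,6],[0,1,2,3,4],[0,1,2,3,4],[0,1,2,3,4]],Ref.mk 2940 1821 [2,1,0,3] [[0,5,2,4,1,3],[0,1,2,3,4],[0,4,2,5,3,6],[0,2,1,4,3,5]]],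
Node.mk [0,820,182,1542,2448,27,1057,3105,2216,36,2939,3981] [(0,3),(2,0),(2,1),(2,2),(2,3),(2,4)] [Ref.mk 2610 1821 [0,1,2,3] [[0,1,2,3,4,5],[0,1,2,3,4],[0,1,2,3,4,5],[0,1,2,3,4,5]],Ref.mk 4051 1816 [0,1,2,3] [[0,1,2,3,4,5],[0,1,2,3,4],[0,1,2,3,4,5],[0,1,2,3,4,5]],Ref.mk 1876 1823 [0,1,2,3] [[0,1,2,3,4,5],[0,1,2,3,4],[0,1,2,3,4,5],[0,1,2,3,4,5]]],
Node.mk [0,820,182,1542,2448,27,1057,3105,2216,36,2939] [(2,1),(3,0),(3,1),(3,2),(3,3),(3,4)] [Ref.mk 3663 1812 [0,1,2,3] [[0,1,2,3,4,5],[0,1,2,3,4],[0,1,2,3,4],[0,1,2,3,4,5]],Ref.mk 3646 26 [3,1,2,0] [[0,1,3,2,5],[0,1,2,3],[0,1,3,2],[0,1,3,2]],Ref.mk 3808 1741 [3,1,2,0] [[0,1,3,2,5],[0,1,2,3],[0,1,3,2],[0,1,3,2]],Ref.mk 3889 98 [3,1,2,0] [[0,1,3,2,5],[0,1,2,3],[0,1,3,2],[0,1,3,2]],Ref.mk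 3970 1813 [0,1,2,3] [[0,1,2,3,4,5],[0,1,2,3,4],[0,1,2,3,4],[0,1,2,3,4,5]],Ref.mk 4051 1817 [0,1,2,3] [[0,1,2,3,4,5],[0,1,2,3,4],[0,1,2,3,4,5],[0,1,2,3,4,5]],Ref.mk 3981 1824 [0,1,2,3] [[0,1,2,3,4,5],[0,1,2,3,4],[0,1,2,3,4],[0,1,2,3,4,5]]],
Node.mk [0,820,182,1542,2448,27,1057,3105,2216,36,275,3834,45,432,336] [(0,0),(0,3),(1,1),(2,4),(3,0),(3,3)] [],
Node.mk [0,820,182,1542,2448,27,1057,3105,2216,36,275,3834,45,432,1794,1545] [(0,0),(0,2),(1,0),(1,3),(2,1),(3,2)] [],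
Node.mk [0,820,182,1542,2448,27,1057,3105,2216,36,275,3834,45,432,1794,825] [(0,0),(0,2),(1,1),(1,3),(2,1),(3,1)] [],
Node.mk [0,820,182,1542,2448,27,1057,3105,2216,36,275,3834,45,432,1794,276] [(0,0),(0,1),(0,2),(0,3),(0,4),(1,3)] [Ref.mk 1544 1827 [0,1,2,3] [[0,1,2,3,4,6,5],[0,1,2,3,4,5],[0,1,2,3,4,5],[0,1,2,3,4,5]],Ref.mk 1058 1749 [0,1,2,3] [[0,1,2,3,4,5],[0,1,2,3,4],[0,1,2,3,4],[0,1,2,3,4]],Ref.mk 824 1828 [0,1,2,3] [[0,1,2,3,4,6,5],[0,1,2,3,4,5],[0,1,2,3,4,5],[0,1,2,3,4,5]],Ref.mk 1796 1753 [0,1,2,3] [[0,1,2,3,4,5],[0,1,2,3,4],[0,1,2,3,4],[0,1,2,3,4]],Ref.mk 1545 1827 [0,1,2,3] [[0,1,2,3,4,5,6],[0,1,2,3,4,5],[0,1,2,3,4,5],[0,1,2,3,4,5]],Ref.mk 1059 1749 [0,1,2,3] [[0,1,2,3,4,6],[0,1,2,3,4],[0,1,2,3,4],[0,1,2,3,4]],Ref.mk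 825 1828 [0,1,2,3] [[0,1,2,3,4,5,6],[0,1,2,3,4,5],[0,1,2,3,4,5],[0,1,2,3,4,5]],Ref.mk 1797 1753 [0,1,2,3] [[0,1,2,3,4,6],[0,1,2,3,4],[0,1,2,3,4],[0,1,2,3,4]],Ref.mk 1546 1827 [0,1,2,3] [[0,1,2,3,4,6,7],[0,1,2,3,4,5],[0,1,2,3,4,5],[0,1,2,3,4,5]],Ref.mk 1060 1749 [0,1,2,3] [[0,1,2,3,4,7],[0,1,2,3,4],[0,1,2,3,4],[0,1,2,3,4]],Ref.mk 826 1828 [0,1,2,3] [[0,1,2,3,4,6,7],[0,1,2,3,4,5],[0,1,2,3,4,5],[0,1,2,3,4,5]],Ref.mk 1798 1753 [0,1,2,3] [[0,1,2,3,4,7],[0,1,2,3,4],[0,1,2,3,4],[0,1,2,3,4]]],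
Node.mk [0,820,182,1542,2448,27,1057,3105,2216,36,275,3834,45,432,1794] [(0,0),(0,1),(0,2),(0,3),(0,4),(0,5)] [Ref.mk 1545 1827 [0,1,2,3] [[0,1,2,3,4,5,6],[0,1,2,3,4,5],[0,1,2,3,4,5],[0,1,2,3,4,5]],Ref.mk 1059 1749 [0,1,2,3] [[0,1,2,3,4,6],[0,1,2,3,4],[0,1,2,3,4],[0,1,2,3,4]],Ref.mk 825 1828 [0,1,2,3] [[0,1,2,3,4,5,6],[0,1,2,3,4,5],[0,1,2,3,4,5],[0,1,2,3,4,5]],Ref.mk 1797 1753 [0,1,2,3] [[0,1,2,3,4,6],[0,1,2,3,4],[0,1,2,3,4],[0,1,2,3,4]],Ref.mk 276 1829 [0,1,2,3] [[0,1,2,3,4,5,6],[0,1,2,3,4,5],[0,1,2,3,4,5],[0,1,2,3,4,5]]],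
Node.mk [0,820,182,1542,2448,27,1057,3105,2216,36,275,3834,45,432,2523] [(0,0),(0,3),(1,1),(2,4),(3,0),(3,3)] [],
Node.mk [0,820,182,1542,2448,27,1057,3105,2216,36,275,3834,45,432,3252,3003] [(0,0),(0,2),(0,3),(1,0),(1,3),(2,1)] [Ref.mk 1797 1753 [0,1,2,3] [[0,1,2,3,4,6],[0,1,2,3,4],[0,1,2,3,4],[0,1,2,3,4]]],
Node.mk [0,820,182,1542,2448,27,1057,3105,2216,36,275,3834,45,432,3252,825] [(0,0),(0,2),(1,1),(1,3),(2,1),(3,1)] [],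
Node.mk [0,820,182,1542,2448,27,1057,3105,2216,36,275,3834,45,432,3252,276] [(0,0),(0,1),(0,2),(0,3),(0,4),(1,3)] [Ref.mk 3002 1832 [0,1,2,3] [[0,1,2,3,4,6,5],[0,1,2,3,4,5],[0,1,2,3,4,5],[0,1,2,3,4,5]],Ref.mk 1058 1749 [0,1,2,3] [[0,1,2,3,4,5],[0,1,2,3,4],[0,1,2,3,4],[0,1,2,3,4]],Ref.mk 824 1833 [0,1,2,3] [[0,1,2,3,4,6,5],[0,1,2,3,4,5],[0,1,2,3,4,5],[0,1,2,3,4,5]],Ref.mk 1796 1753 [0,1,2,3] [[0,1,2,3,4,5],[0,1,2,3,4],[0,1,2,3,4],[0,1,2,3,4]],Ref.mk 3003 1832 [0,1,2,3] [[0,1,2,3,4,5,6],[0,1,2,3,4,5],[0,1,2,3,4,5],[0,1,2,3,4,5]],Ref.mk 1059 1749 [0,1,2,3] [[0,1,2,3,4,6],[0,1,2,3,4],[0,1,2,3,4],[0,1,2,3,4]],Ref.mk 825 1833 [0,1,2,3] [[0,1,2,3,4,5,6],[0,1,2,3,4,5],[0,1,2,3,4,5],[0,1,2,3,4,5]],Ref.mk 1797 1753 [0,1,2,3] [[0,1,2,3,4,6],[0,1,2,3,4],[0,1,2,3,4],[0,1,2,3,4]],Ref.mk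 3004 1832 [0,1,2,3] [[0,1,2,3,4,6,7],[0,1,2,3,4,5],[0,1,2,3,4,5],[0,1,2,3,4,5]],Ref.mk 1060 1749 [0,1,2,3] [[0,1,2,3,4,7],[0,1,2,3,4],[0,1,2,3,4],[0,1,2,3,4]],Ref.mk 826 1833 [0,1,2,3] [[0,1,2,3,4,6,7],[0,1,2,3,4,5],[0,1,2,3,4,5],[0,1,2,3,4,5]],Ref.mk 1798 1753 [0,1,2,3] [[0,1,2,3,4,7],[0,1,2,3,4],[0,1,2,3,4],[0,1,2,3,4]]],
Node.mk [0,820,182,1542,2448,27,1057,3105,2216,36,275,3834,45,432,3252] [(0,0),(0,1),(0,2),(0,3),(0,4),(0,5)] [Ref.mk 3003 1832 [0,1,2,3] [[0,1,2,3,4,5,6],[0,1,2,3,4,5],[0,1,2,3,4,5],[0,1,2,3,4,5]],Ref.mk 1059 1749 [0,1,2,3] [[0,1,2,3,4,6],[0,1,2,3,4],[0,1,2,3,4],[0,1,2,3,4]],Ref.mk 825 1833 [0,1,2,3] [[0,1,2,3,4,5,6],[0,1,2,3,4,5],[0,1,2,3,4,5],[0,1,2,3,4,5]],Ref.mk 1797 1753 [0,1,2,3] [[0,1,2,3,4,6],[0,1,2,3,4],[0,1,2,3,4],[0,1,2,3,4]],Ref.mk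 276 1834 [0,1,2,3] [[0,1,2,3,4,5,6],[0,1,2,3,4,5],[0,1,2,3,4,5],[0,1,2,3,4,5]]],
Node.mk [0,820,182,1542,2448,27,1057,3105,2216,36,275,3834,45,432,4710,4461] [(0,0),(0,2),(0,3),(1,0),(1,3),(2,1)] [Ref.mk 1797 1753 [0,1,2,3] [[0,1,2,3,4,6],[0,1,2,3,4],[0,1,2,3,4],[0,1,2,3,4]]],
Node.mk [0,820,182,1542,2448,27,1057,3105,2216,36,275,3834,45,432,4710,825] [(0,0),(0,2),(1,1),(1,3),(2,1),(3,1)] [],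
Node.mk [0,820,182,1542,2448,27,1057,3105,2216,36,275,3834,45,432,4710,276] [(0,0),(0,1),(0,2),(0,3),(0,4),(1,3)] [Ref.mk 4460 1836 [0,1,2,3] [[0,1,2,3,4,6,5],[0,1,2,3,4,5],[0,1,2,3,4,5],[0,1,2,3,4,5,6]],Ref.mk 1058 1749 [0,1,2,3] [[0,1,2,3,4,5],[0,1,2,3,4],[0,1,2,3,4],[0,1,2,3,4]],Ref.mk 824 1834 [3,1,2,0] [[0,6,3,1,2,4,5],[0,1,2,3,4,5],[0,4,3,2,1,5],[0,3,4,2,5,6]],Ref.mk 1796 1753 [0,1,2,3] [[0,1,2,3,4,5],[0,1,2,3,4],[0,1,2,3,4],[0,1,2,3,4]],Ref.mk 4461 1836 [0,1,2,3] [[0,1,2,3,4,5,6],[0,1,2,3,4,5],[0,1,2,3,4,5],[0,1,2,3,4,5,6]],Ref.mk 1059 1749 [0,1,2,3] [[0,1,2,3,4,6],[0,1,2,3,4],[0,1,2,3,4],[0,1,2,3,4]],Ref.mk 825 1834 [3,1,2,0] [[0,6,3,1,2,4,5],[0,1,2,3,4,5],[0,4,3,2,1,5],[0,3,4,2,6,5]],Ref.mk 1797 1753 [0,1,2,3] [[0,1,2,3,4,6],[0,1,2,3,4],[0,1,2,3,4],[0,1,2,3,4]],Ref.mk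 4462 1836 [0,1,2,3] [[0,1,2,3,4,6,7],[0,1,2,3,4,5],[0,1,2,3,4,5],[0,1,2,3,4,5,6]],Ref.mk 1060 1749 [0,1,2,3] [[0,1,2,3,4,7],[0,1,2,3,4],[0,1,2,3,4],[0,1,2,3,4]],Ref.mk 826 1837 [0,1,2,3] [[0,1,2,3,4,6,7],[0,1,2,3,4,5],[0,1,2,3,4,5],[0,1,2,3,4,5,6]],Ref.mk 1798 1753 [0,1,2,3] [[0,1,2,3,4,7],[0,1,2,3,4],[0,1,2,3,4],[0,1,2,3,4]]],
Node.mk [0,820,182,1542,2448,27,1057,3105,2216,36,275,3834,45,432,4710] [(0,0),(0,1),(0,2),(0,3),(0,4),(0,5)] [Ref.mk 4461 1836 [0,1,2,3] [[0,1,2,3,4,5,6],[0,1,2,3,4,5],[0,1,2,3,4,5],[0,1,2,3,4,5,6]],Ref.mk 1059 1749 [0,1,2,3] [[0,1,2,3,4,6],[0,1,2,3,4],[0,1,2,3,4],[0,1,2,3,4]],Ref.mk 825 1837 [0,1,2,3] [[0,1,2,3,4,5,6],[0,1,2,3,4,5],[0,1,2,3,4,5],[0,1,2,3,4,5,6]],Ref.mk 1797 1753 [0,1,2,3] [[0,1,2,3,4,6],[0,1,2,3,4],[0,1,2,3,4],[0,1,2,3,4]],Ref.mk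 276 1838 [0,1,2,3] [[0,1,2,3,4,5,6],[0,1,2,3,4,5],[0,1,2,3,4,5],[0,1,2,3,4,5,6]]],
Node.mk [0,820,182,1542,2448,27,1057,3105,2216,36,275,3834,45,432,1471] [(0,0),(0,4),(1,1),(2,0),(3,0),(3,2)] [],
Node.mk [0,820,182,1542,2448,27,1057,3105,2216,36,275,3834,45,432,1633] [(0,0),(0,4),(1,1),(1,3),(2,2),(3,2)] [],
Node.mk [0,820,182,1542,2448,27,1057,3105,2216,36,275,3834,45,432,1795,3241] [(0,0),(0,2),(1,0),(1,3),(2,1),(2,4)] [],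
Node.mk [0,820,182,1542,2448,27,1057,3105,2216,36,275,3834,45,432,1795] [(0,0),(2,1),(3,0),(3,1),(3,2),(3,3)] [Ref.mk 3241 1842 [0,1,2,3] [[0,1,2,3,4,5],[0,1,2,3,4,5],[0,1,2,3,4,5],[0,1,2,3,4,5]],Ref.mk 3970 1842 [0,1,2,3] [[0,1,2,3,4,5],[0,1,2,3,4,5],[0,1,2,3,4,5],[0,1,2,3,5,4]],Ref.mk 4699 1839 [0,1,2,3] [[0,4,2,1,3,5],[0,1,2,3,4,5],[0,4,2,3,1,5],[0,2,6,3,4,5,1]],Ref.mk 3252 1835 [0,1,2,3] [[0,1,2,3,4,5],[0,1,2,3,4,5],[0,1,2,3,4,5],[0,1,2,3,4,5]],Ref.mk 3981 1835 [0,1,2,3] [[0,1,2,3,4,5],[0,1,2,3,4,5],[0,1,2,3,4,5],[0,1,2,3,5,4]],Ref.mk 4710 1839 [0,1,2,3] [[0,1,2,3,4,5],[0,1,2,3,4,5],[0,1,2,3,4,5],[0,1,2,3,4,5,6]]],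
Node.mk [0,820,182,1542,2448,27,1057,3105,2216,36,275,3834,45,432,1876,1545] [(0,0),(0,2),(1,0),(1,3),(2,1),(3,2)] [],
Node.mk [0,820,182,1542,2448,27,1057,3105,2216,36,275,3834,45,432,1876,825] [(0,0),(0,2),(1,1),(1,3),(2,1),(3,1)] [],
Node.mk [0,820,182,1542,2448,27,1057,3105,2216,36,275,3834,45,432,1876,276] [(0,0),(0,1),(0,2),(0,3),(0,4),(1,3)] [Ref.mk 1544 1844 [0,1,2,3] [[0,1,2,3,4,6,5],[0,1,2,3,4,5],[0,1,2,3,4,5],[0,1,2,3,4,5]],Ref.mk 1139 1750 [0,1,2,3] [[0,1,2,3,4,5],[0,1,2,3,4],[0,1,2,3,4,5],[0,1,2,3,4]],Ref.mk 824 1845 [0,1,2,3] [[0,1,2,3,4,6,5],[0,1,2,3,4,5],[0,1,2,3,4,5],[0,1,2,3,4,5]],Ref.mk 1796 1753 [0,1,2,3] [[0,1,2,3,4,5],[0,1,2,3,4],[0,1,2,3,4],[0,1,2,3,4]],Ref.mk 1545 1844 [0,1,2,3] [[0,1,2,3,4,5,6],[0,1,2,3,4,5],[0,1,2,3,4,5],[0,1,2,3,4,5]],Ref.mk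 1140 1750 [0,1,2,3] [[0,1,2,3,4,6],[0,1,2,3,4],[0,1,2,3,4,5],[0,1,2,3,4]],Ref.mk 825 1845 [0,1,2,3] [[0,1,2,3,4,5,6],[0,1,2,3,4,5],[0,1,2,3,4,5],[0,1,2,3,4,5]],Ref.mk 1797 1753 [0,1,2,3] [[0,1,2,3,4,6],[0,1,2,3,4],[0,1,2,3,4],[0,1,2,3,4]],Ref.mk 1546 1844 [0,1,2,3] [[0,1,2,3,4,6,7],[0,1,2,3,4,5],[0,1,2,3,4,5],[0,1,2,3,4,5]],Ref.mk 1141 1750 [0,1,2,3] [[0,1,2,3,4,7],[0,1,2,3,4],[0,1,2,3,4,5],[0,1,2,3,4]],Ref.mk 826 1845 [0,1,2,3] [[0,1,2,3,4,6,7],[0,1,2,3,4,5],[0,1,2,3,4,5],[0,1,2,3,4,5]],Ref.mk 1798 1753 [0,1,2,3] [[0,1,2,3,4,7],[0,1,2,3,4],[0,1,2,3,4],[0,1,2,3,4]]],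
Node.mk [0,820,182,1542,2448,27,1057,3105,2216,36,275,3834,45,432,1876] [(0,0),(0,1),(0,2),(0,3),(0,4),(0,5)] [Ref.mk 1545 1844 [0,1,2,3] [[0,1,2,3,4,5,6],[0,1,2,3,4,5],[0,1,2,3,4,5],[0,1,2,3,4,5]],Ref.mk 1140 1750 [0,1,2,3] [[0,1,2,3,4,6],[0,1,2,3,4],[0,1,2,3,4,5],[0,1,2,3,4]],Ref.mk 825 1845 [0,1,2,3] [[0,1,2,3,4,5,6],[0,1,2,3,4,5],[0,1,2,3,4,5],[0,1,2,3,4,5]],Ref.mk 1797 1753 [0,1,2,3] [[0,1,2,3,4,6],[0,1,2,3,4],[0,1,2,3,4],[0,1,2,3,4]],Ref.mk 276 1846 [0,1,2,3] [[0,1,2,3,4,5,6],[0,1,2,3,4,5],[0,1,2,3,4,5],[0,1,2,3,4,5]]],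
Node.mk [0,820,182,1542,2448,27,1057,3105,2216,36,275,3834,45,432,1957,3403,1545] [(0,0),(0,1),(0,2),(0,4),(1,0),(1,3)] [],
Node.mk [0,820,182,1542,2448,27,1057,3105,2216,36,275,3834,45,432,1957,3403,276] [(0,0),(0,1),(0,2),(0,3),(0,4),(1,3)] [Ref.mk 1544 1848 [0,1,2,3] [[0,1,2,3,4,6,5],[0,1,2,3,4,5],[0,1,2,3,4,5,6],[0,1,2,3,4,5]],Ref.mk 1220 1750 [0,1,2,3] [[0,1,2,3,4,5],[0,1,2,3,4],[0,1,2,3,4,6],[0,1,2,3,4]],Ref.mk 1545 1848 [0,1,2,3] [[0,1,2,3,4,5,6],[0,1,2,3,4,5],[0,1,2,3,4,5,6],[0,1,2,3,4,5]],Ref.mk 1221 1750 [0,1,2,3] [[0,1,2,3,4,6],[0,1,2,3,4],[0,1,2,3,4,6],[0,1,2,3,4]],Ref.mk 1546 1848 [0,1,2,3] [[0,1,2,3,4,6,7],[0,1,2,3,4,5],[0,1,2,3,4,5,6],[0,1,2,3,4,5]],Ref.mk 1222 1750 [0,1,2,3] [[0,1,2,3,4,7],[0,1,2,3,4],[0,1,2,3,4,6],[0,1,2,3,4]]],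
Node.mk [0,820,182,1542,2448,27,1057,3105,2216,36,275,3834,45,432,1957,3403] [(0,0),(0,1),(0,2),(0,3),(0,4),(0,5)] [Ref.mk 1545 1848 [0,1,2,3] [[0,1,2,3,4,5,6],[0,1,2,3,4,5],[0,1,2,3,4,5,6],[0,1,2,3,4,5]],Ref.mk 1221 1750 [0,1,2,3] [[0,1,2,3,4,6],[0,1,2,3,4],[0,1,2,3,4,6],[0,1,2,3,4]],Ref.mk 276 1849 [0,1,2,3] [[0,1,2,3,4,5,6],[0,1,2,3,4,5],[0,1,2,3,4,5,6],[0,1,2,3,4,5]]],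
Node.mk [0,820,182,1542,2448,27,1057,3105,2216,36,275,3834,45,432,1957] [(0,0),(2,1),(3,0),(3,1),(3,2),(3,3)] [Ref.mk 3403 1850 [0,1,2,3] [[0,1,2,3,4,5],[0,1,2,3,4,5],[0,1,2,3,4,5,6],[0,1,2,3,4,5]],Ref.mk 4132 1850 [0,1,2,3] [[0,1,2,3,4,5],[0,1,2,3,4,5],[0,1,2,3,4,5,6],[0,1,2,3,5,4]],Ref.mk 4861 1839 [0,1,2,3] [[0,4,2,1,3,5],[0,1,2,3,4,5],[0,6,2,3,1,5],[0,2,6,3,4,5,1]],Ref.mk 3252 1835 [0,1,2,3] [[0,1,2,3,4,5],[0,1,2,3,4,5],[0,1,2,3,4,5],[0,1,2,3,4,5]],Ref.mk 3981 1835 [0,1,2,3] [[0,1,2,3,4,5],[0,1,2,3,4,5],[0,1,2,3,4,5],[0,1,2,3,5,4]],Ref.mk 4710 1839 [0,1,2,3] [[0,1,2,3,4,5],[0,1,2,3,4,5],[0,1,2,3,4,5],[0,1,2,3,4,5,6]]],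
Node.mk [0,820,182,1542,2448,27,1057,3105,2216,36,275,3834,45,432] [(0,0),(0,1),(0,2),(2,1),(2,3),(3,1)] [Ref.mk 336 1826 [0,1,2,3] [[0,1,2,3,4,5],[0,1,2,3,4,5],[0,1,2,3,4,5],[0,1,2,3,4,5]],Ref.mk 1794 1830 [0,1,2,3] [[0,1,2,3,4,5],[0,1,2,3,4,5],[0,1,2,3,4,5],[0,1,2,3,4,5]],Ref.mk 2523 1831 [0,1,2,3] [[0,1,2,3,4,5],[0,1,2,3,4,5],[0,1,2,3,4,5],[0,1,2,3,4,5]],Ref.mk 3252 1835 [0,1,2,3] [[0,1,2,3,4,5],[0,1,2,3,4,5],[0,1,2,3,4,5],[0,1,2,3,4,5]],Ref.mk 3981 1835 [0,1,2,3] [[0,1,2,3,4,5],[0,1,2,3,4,5],[0,1,2,3,4,5],[0,1,2,3,5,4]],Ref.mk 4710 1839 [0,1,2,3] [[0,1,2,3,4,5],[0,1,2,3,4,5],[0,1,2,3,4,5],[0,1,2,3,4,5,6]],Ref.mk 1471 1840 [0,1,2,3] [[0,1,2,3,4,5],[0,1,2,3,4,5],[0,1,2,3,4,5],[0,1,2,3,4,5]],Ref.mk 1633 1841 [0,1,2,3] [[0,1,2,3,4,5],[0,1,2,3,4,5],[0,1,2,3,4,5],[0,1,2,3,4,5]],Ref.mk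 1795 1843 [0,1,2,3] [[0,1,2,3,4,5],[0,1,2,3,4,5],[0,1,2,3,4,5],[0,1,2,3,4,5]],Ref.mk 1876 1847 [0,1,2,3] [[0,1,2,3,4,5],[0,1,2,3,4,5],[0,1,2,3,4,5],[0,1,2,3,4,5]],Ref.mk 1957 1851 [0,1,2,3] [[0,1,2,3,4,5],[0,1,2,3,4,5],[0,1,2,3,4,5,6],[0,1,2,3,4,5]],Ref.mk 1796 1753 [0,1,2,3] [[0,1,2,3,4,5],[0,1,2,3,4],[0,1,2,3,4],[0,1,2,3,4]],Ref.mk 1797 1753 [0,1,2,3] [[0,1,2,3,4,6],[0,1,2,3,4],[0,1,2,3,4],[0,1,2,3,4]]],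
Node.mk [0,820,182,1542,2448,27,1057,3105,2216,36,275,3834,45,1146] [(0,0),(0,2),(1,0),(1,1),(1,3),(3,1)] [],
Node.mk [0,820,182,1542,2448,27,1057,3105,2216,36,275,3834,45,1155] [(0,0),(0,3),(1,2),(1,3),(2,5),(3,1)] [],
Node.mk [0,820,182,1542,2448,27,1057,3105,2216,36,275,3834,45,1164] [(0,0),(0,3),(1,3),(2,5),(3,0),(3,1)] []]

/-- nodes -/
noncomputable def c29 : List Node := [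
Node.mk [0,820,182,1542,2448,27,1057,3105,2216,36,275,3834,45,1173,1819,276,1216] [(0,0),(0,1),(0,2),(0,3),(1,3),(3,1)] [],
Node.mk [0,820,182,1542,2448,27,1057,3105,2216,36,275,3834,45,1173,1819,276,1254] [(0,0),(0,2),(0,3),(1,3),(1,4),(3,1)] [],
Node.mk [0,820,182,1542,2448,27,1057,3105,2216,36,275,3834,45,1173,1819,276] [(2,0),(2,1),(2,2),(2,3),(2,4),(2,5)] [Ref.mk 513 1852 [0,1,2,3] [[0,1,2,3,4,5],[0,1,2,3,4,5],[0,1,2,3,4,6],[0,1,2,3,4,5]],Ref.mk 1216 1856 [0,1,2,3] [[0,1,2,3,4,5,6],[0,1,2,3,4,5],[0,1,2,3,4,5,6],[0,1,2,3,4,5]],Ref.mk 1254 1857 [0,1,2,3] [[0,1,2,3,4,5,6],[0,1,2,3,4,5],[0,1,2,3,4,5,6],[0,1,2,3,4,5]]],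
Node.mk [0,820,182,1542,2448,27,1057,3105,2216,36,275,3834,45,1173,1819,852] [(0,0),(0,1),(0,2),(1,3),(2,1),(3,1)] [],
Node.mk [0,820,182,1542,2448,27,1057,3105,2216,36,275,3834,45,1173,1819] [(0,0),(0,1),(0,2),(0,3),(0,4),(0,5)] [Ref.mk 1059 1749 [0,1,2,3] [[0,1,2,3,4,6],[0,1,2,3,4],[0,1,2,3,4],[0,1,2,3,4]],Ref.mk 276 1858 [0,1,2,3] [[0,1,2,3,4,5,6],[0,1,2,3,4,5],[0,1,2,3,4,5],[0,1,2,3,4,5]],Ref.mk 852 1859 [0,1,2,3] [[0,1,2,3,4,5,6],[0,1,2,3,4,5],[0,1,2,3,4,5],[0,1,2,3,4,5]]],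
Node.mk [0,820,182,1542,2448,27,1057,3105,2216,36,275,3834,45,1173,1876,825] [(0,0),(0,2),(0,3),(0,4),(1,3),(3,1)] [],
Node.mk [0,820,182,1542,2448,27,1057,3105,2216,36,275,3834,45,1173,1876,276] [(0,0),(0,1),(0,2),(0,3),(0,4),(1,3)] [Ref.mk 1139 1750 [0,1,2,3] [[0,1,2,3,4,5],[0,1,2,3,4],[0,1,2,3,4,5],[0,1,2,3,4]],Ref.mk 824 1861 [0,1,2,3] [[0,1,2,3,4,6,5],[0,1,2,3,4,5],[0,1,2,3,4,5],[0,1,2,3,4,5]],Ref.mk 1140 1750 [0,1,2,3] [[0,1,2,3,4,6],[0,1,2,3,4],[0,1,2,3,4,5],[0,1,2,3,4]],Ref.mk 825 1861 [0,1,2,3] [[0,1,2,3,4,5,6],[0,1,2,3,4,5],[0,1,2,3,4,5],[0,1,2,3,4,5]],Ref.mk 1141 1750 [0,1,2,3] [[0,1,2,3,4,7],[0,1,2,3,4],[0,1,2,3,4,5],[0,1,2,3,4]],Ref.mk 826 1861 [0,1,2,3] [[0,1,2,3,4,6,7],[0,1,2,3,4,5],[0,1,2,3,4,5],[0,1,2,3,4,5]]],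
Node.mk [0,820,182,1542,2448,27,1057,3105,2216,36,275,3834,45,1173,1876] [(0,0),(0,1),(0,2),(0,3),(0,4),(0,5)] [Ref.mk 1140 1750 [0,1,2,3] [[0,1,2,3,4,6],[0,1,2,3,4],[0,1,2,3,4,5],[0,1,2,3,4]],Ref.mk 825 1861 [0,1,2,3] [[0,1,2,3,4,5,6],[0,1,2,3,4,5],[0,1,2,3,4,5],[0,1,2,3,4,5]],Ref.mk 276 1862 [0,1,2,3] [[0,1,2,3,4,5,6],[0,1,2,3,4,5],[0,1,2,3,4,5],[0,1,2,3,4,5]]],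
Node.mk [0,820,182,1542,2448,27,1057,3105,2216,36,275,3834,45,1173] [(0,0),(0,2),(0,3),(1,0),(1,3),(2,1)] [Ref.mk 1819 1860 [0,1,2,3] [[0,1,2,3,4,5],[0,1,2,3,4,5],[0,1,2,3,4,5],[0,1,2,3,4,5]],Ref.mk 1876 1863 [0,1,2,3] [[0,1,2,3,4,5],[0,1,2,3,4,5],[0,1,2,3,4,5],[0,1,2,3,4,5]]],
Node.mk [0,820,182,1542,2448,27,1057,3105,2216,36,275,3834,45,1191,1837,276,1216] [(0,0),(0,1),(0,2),(0,3),(1,3),(3,1)] [],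
Node.mk [0,820,182,1542,2448,27,1057,3105,2216,36,275,3834,45,1191,1837,276,1272] [(0,0),(0,2),(0,3),(1,3),(1,6),(3,1)] [],
Node.mk [0,820,182,1542,2448,27,1057,3105,2216,36,275,3834,45,1191,1837,276] [(2,0),(2,1),(2,2),(2,3),(2,4),(2,5)] [Ref.mk 513 1851 [0,1,2,3] [[0,1,2,4,3,6],[0,6,2,3,4,5],[0,4,2,3,1,6,5],[0,2,1,3,4,5]],Ref.mk 1216 1865 [0,1,2,3] [[0,1,2,3,4,5,6],[0,1,2,3,4,5,6],[0,1,2,3,4,5,6],[0,1,2,3,4,5]],Ref.mk 1272 1866 [0,1,2,3] [[0,1,2,3,4,5,6],[0,1,2,3,4,5,6],[0,1,2,3,4,5,6],[0,1,2,3,4,5]]],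
Node.mk [0,820,182,1542,2448,27,1057,3105,2216,36,275,3834,45,1191,1837,870] [(0,0),(0,1),(0,2),(1,3),(2,1),(3,1)] [],
Node.mk [0,820,182,1542,2448,27,1057,3105,2216,36,275,3834,45,1191,1837] [(0,0),(0,1),(0,2),(0,3),(0,4),(0,5)] [Ref.mk 1059 1749 [0,1,2,3] [[0,1,2,3,4,6],[0,1,2,3,4],[0,1,2,3,4],[0,1,2,3,4]],Ref.mk 276 1867 [0,1,2,3] [[0,1,2,3,4,5,6],[0,1,2,3,4,5,6],[0,1,2,3,4,5],[0,1,2,3,4,5]],Ref.mk 870 1868 [0,1,2,3] [[0,1,2,3,4,5,6],[0,1,2,3,4,5,6],[0,1,2,3,4,5],[0,1,2,3,4,5]]],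
Node.mk [0,820,182,1542,2448,27,1057,3105,2216,36,275,3834,45,1191,1876,825] [(0,0),(0,2),(0,3),(0,4),(1,3),(3,1)] [],
Node.mk [0,820,182,1542,2448,27,1057,3105,2216,36,275,3834,45,1191,1876,276] [(0,0),(0,1),(0,2),(0,3),(0,4),(1,3)] [Ref.mk 1139 1750 [0,1,2,3] [[0,1,2,3,4,5],[0,1,2,3,4],[0,1,2,3,4,5],[0,1,2,3,4]],Ref.mk 824 1870 [0,1,2,3] [[0,1,2,3,4,6,5],[0,1,2,3,4,5,6],[0,1,2,3,4,5],[0,1,2,3,4,5]],Ref.mk 1140 1750 [0,1,2,3] [[0,1,2,3,4,6],[0,1,2,3,4],[0,1,2,3,4,5],[0,1,2,3,4]],Ref.mk 825 1870 [0,1,2,3] [[0,1,2,3,4,5,6],[0,1,2,3,4,5,6],[0,1,2,3,4,5],[0,1,2,3,4,5]],Ref.mk 1141 1750 [0,1,2,3] [[0,1,2,3,4,7],[0,1,2,3,4],[0,1,2,3,4,5],[0,1,2,3,4]],Ref.mk 826 1870 [0,1,2,3] [[0,1,2,3,4,6,7],[0,1,2,3,4,5,6],[0,1,2,3,4,5],[0,1,2,3,4,5]]],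
Node.mk [0,820,182,1542,2448,27,1057,3105,2216,36,275,3834,45,1191,1876] [(0,0),(0,1),(0,2),(0,3),(0,4),(0,5)] [Ref.mk 1140 1750 [0,1,2,3] [[0,1,2,3,4,6],[0,1,2,3,4],[0,1,2,3,4,5],[0,1,2,3,4]],Ref.mk 825 1870 [0,1,2,3] [[0,1,2,3,4,5,6],[0,1,2,3,4,5,6],[0,1,2,3,4,5],[0,1,2,3,4,5]],Ref.mk 276 1871 [0,1,2,3] [[0,1,2,3,4,5,6],[0,1,2,3,4,5,6],[0,1,2,3,4,5],[0,1,2,3,4,5]]],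
Node.mk [0,820,182,1542,2448,27,1057,3105,2216,36,275,3834,45,1191] [(0,0),(0,2),(0,3),(1,0),(1,3),(2,1)] [Ref.mk 1837 1869 [0,1,2,3] [[0,1,2,3,4,5],[0,1,2,3,4,5,6],[0,1,2,3,4,5],[0,1,2,3,4,5]],Ref.mk 1876 1872 [0,1,2,3] [[0,1,2,3,4,5],[0,1,2,3,4,5,6],[0,1,2,3,4,5],[0,1,2,3,4,5]]],
Node.mk [0,820,182,1542,2448,27,1057,3105,2216,36,275,3834,45,1876,1819,1597] [(0,0),(0,1),(0,2),(0,4),(1,3),(3,2)] [],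
Node.mk [0,820,182,1542,2448,27,1057,3105,2216,36,275,3834,45,1876,1819] [(1,0),(1,1),(1,2),(1,3),(1,4),(1,5)] [Ref.mk 54 1869 [0,1,2,3] [[0,1,2,4,3,5],[0,4,2,3,5,6,1],[0,4,2,3,1,5],[0,2,1,3,4,5]],Ref.mk 1837 1869 [0,1,2,3] [[0,1,2,4,3,5],[0,6,2,3,4,5,1],[0,4,2,3,1,5],[0,2,1,3,4,5]],Ref.mk 1597 1874 [0,1,2,3] [[0,1,2,3,4,5],[0,1,2,3,4,5,6],[0,1,2,3,4,5],[0,1,2,3,4,5]]],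
Node.mk [0,820,182,1542,2448,27,1057,3105,2216,36,275,3834,45,1876] [(0,0),(0,4),(1,0),(1,1),(1,2),(1,3)] [Ref.mk 1819 1875 [0,1,2,3] [[0,1,2,3,4,5],[0,1,2,3,4,5],[0,1,2,3,4,5],[0,1,2,3,4,5]],Ref.mk 1828 1875 [0,1,2,3] [[0,1,2,3,4,5],[0,1,2,3,5,4],[0,1,2,3,4,5],[0,1,2,3,4,5]],Ref.mk 1837 1869 [0,1,2,3] [[0,1,2,4,3,5],[0,6,2,3,4,5,1],[0,4,2,3,1,5],[0,2,1,3,4,5]],Ref.mk 1173 1863 [0,1,2,3] [[0,1,2,3,4,5],[0,1,2,3,4,5],[0,1,2,3,4,5],[0,1,2,3,4,5]],Ref.mk 1182 1863 [0,1,2,3] [[0,1,2,3,4,5],[0,1,2,3,5,4],[0,1,2,3,4,5],[0,1,2,3,4,5]],Ref.mk 1191 1872 [0,1,2,3] [[0,1,2,3,4,5],[0,1,2,3,4,5,6],[0,1,2,3,4,5],[0,1,2,3,4,5]]],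
Node.mk [0,820,182,1542,2448,27,1057,3105,2216,36,275,3834,45] [(1,0),(2,0),(2,1),(2,2),(2,3),(2,4)] [Ref.mk 432 1852 [0,1,2,3] [[0,1,2,3,4,5],[0,1,2,3,4,5],[0,1,2,3,4,5],[0,1,2,3,4,5]],Ref.mk 1146 1853 [0,1,2,3] [[0,1,2,3,4,5],[0,1,2,3,4,5],[0,1,2,3,4,5],[0,1,2,3,4,5]],Ref.mk 1155 1854 [0,1,2,3] [[0,1,2,3,4,5],[0,1,2,3,4,5],[0,1,2,3,4,5],[0,1,2,3,4,5]],Ref.mk 1164 1855 [0,1,2,3] [[0,1,2,3,4,5],[0,1,2,3,4,5],[0,1,2,3,4,5],[0,1,2,3,4,5]],Ref.mk 1173 1864 [0,1,2,3] [[0,1,2,3,4,5],[0,1,2,3,4,5],[0,1,2,3,4,5],[0,1,2,3,4,5]],Ref.mk 1182 1864 [0,1,2,3] [[0,1,2,3,4,5],[0,1,2,3,5,4],[0,1,2,3,4,5],[0,1,2,3,4,5]],Ref.mk 1191 1873 [0,1,2,3] [[0,1,2,3,4,5],[0,1,2,3,4,5,6],[0,1,2,3,4,5],[0,1,2,3,4,5]],Ref.mk 1876 1876 [0,1,2,3] [[0,1,2,3,4,5],[0,1,2,3,4,5],[0,1,2,3,4,5],[0,1,2,3,4,5]]],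
Node.mk [0,820,182,1542,2448,27,1057,3105,2216,36,275,3834,1828,1545] [(0,0),(0,2),(1,0),(1,3),(2,1),(3,2)] [],
Node.mk [0,820,182,1542,2448,27,1057,3105,2216,36,275,3834,1828,276,860] [(0,0),(0,1),(0,2),(1,3),(2,1),(3,1)] [Ref.mk 1796 1753 [0,1,2,3] [[0,1,2,3,4,5],[0,1,2,3,4],[0,1,2,3,4],[0,1,2,3,4]]],
Node.mk [0,820,182,1542,2448,27,1057,3105,2216,36,275,3834,1828,276,862] [(0,0),(0,1),(0,2),(1,3),(2,1),(3,1)] [Ref.mk 1798 1753 [0,1,2,3] [[0,1,2,3,4,7],[0,1,2,3,4],[0,1,2,3,4],[0,1,2,3,4]]],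
Node.mk [0,820,182,1542,2448,27,1057,3105,2216,36,275,3834,1828,276] [(0,0),(0,1),(0,2),(0,3),(0,4),(1,3)] [Ref.mk 1544 1878 [0,1,2,3] [[0,1,2,3,4,6,5],[0,1,2,3,4,5],[0,1,2,3,4],[0,1,2,3,4,5]],Ref.mk 1058 1878 [0,1,2,3] [[0,1,2,4,3,6,5],[0,5,2,3,4,1],[0,4,2,3,1],[0,2,1,3,4,5]],Ref.mk 1796 1879 [0,1,2,3] [[0,1,2,4,3,5,6],[0,5,2,3,4,1],[0,4,2,3,1],[0,2,1,3,4,5]],Ref.mk 860 1879 [0,1,2,3] [[0,1,2,3,4,5,6],[0,1,2,3,4,5],[0,1,2,3,4],[0,1,2,3,4,5]],Ref.mk 1545 1878 [0,1,2,3] [[0,1,2,3,4,5,6],[0,1,2,3,4,5],[0,1,2,3,4],[0,1,2,3,4,5]],Ref.mk 1059 1878 [0,1,2,3] [[0,1,2,4,3,5,6],[0,5,2,3,4,1],[0,4,2,3,1],[0,2,1,3,4,5]],Ref.mk 1797 1879 [0,1,2,3] [[0,1,2,4,3,6,5],[0,5,2,3,4,1],[0,4,2,3,1],[0,2,1,3,4,5]],Ref.mk 861 1879 [0,1,2,3] [[0,1,2,3,4,6,5],[0,1,2,3,4,5],[0,1,2,3,4],[0,1,2,3,4,5]],Ref.mk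 1546 1878 [0,1,2,3] [[0,1,2,3,4,6,7],[0,1,2,3,4,5],[0,1,2,3,4],[0,1,2,3,4,5]],Ref.mk 1060 1878 [0,1,2,3] [[0,1,2,4,3,6,7],[0,5,2,3,4,1],[0,4,2,3,1],[0,2,1,3,4,5]],Ref.mk 1798 1880 [0,1,2,3] [[0,1,2,4,3,5,6,7],[0,5,2,3,4,1],[0,4,2,3,1],[0,2,1,3,4,5]],Ref.mk 862 1880 [0,1,2,3] [[0,1,2,3,4,5,6,7],[0,1,2,3,4,5],[0,1,2,3,4],[0,1,2,3,4,5]]],
Node.mk [0,820,182,1542,2448,27,1057,3105,2216,36,275,3834,1828,861] [(0,0),(0,1),(0,2),(1,3),(2,1),(3,1)] [Ref.mk 1797 1753 [0,1,2,3] [[0,1,2,3,4,6],[0,1,2,3,4],[0,1,2,3,4],[0,1,2,3,4]]],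
Node.mk [0,820,182,1542,2448,27,1057,3105,2216,36,275,3834,1828] [(0,0),(0,1),(0,2),(0,3),(0,4),(0,5)] [Ref.mk 1545 1878 [0,1,2,3] [[0,1,2,3,4,5,6],[0,1,2,3,4,5],[0,1,2,3,4],[0,1,2,3,4,5]],Ref.mk 1059 1878 [0,1,2,3] [[0,1,2,4,3,5,6],[0,5,2,3,4,1],[0,4,2,3,1],[0,2,1,3,4,5]],Ref.mk 1797 1882 [0,1,2,3] [[0,1,2,4,3,5,6],[0,5,2,3,4,1],[0,4,2,3,1],[0,2,1,3,4,5]],Ref.mk 276 1881 [0,1,2,3] [[0,1,2,3,4,5,6],[0,1,2,3,4,5],[0,1,2,3,4],[0,1,2,3,4,5]],Ref.mk 861 1882 [0,1,2,3] [[0,1,2,3,4,5,6],[0,1,2,3,4,5],[0,1,2,3,4],[0,1,2,3,4,5]]],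
Node.mk [0,820,182,1542,2448,27,1057,3105,2216,36,275,3834,777] [(0,0),(0,3),(0,4),(2,0),(3,0),(3,1)] [Ref.mk 1828 1883 [0,1,2,3] [[0,1,2,3,4,5],[0,1,2,3,4,5],[0,1,2,3,4],[0,1,2,3,4,5]]],
Node.mk [0,820,182,1542,2448,27,1057,3105,2216,36,275,3834,939] [(0,0),(0,3),(0,4),(1,3),(2,2),(3,1)] [Ref.mk 1828 1883 [0,1,2,3] [[0,1,2,3,4,5],[0,1,2,3,4,5],[0,1,2,3,4],[0,1,2,3,4,5]]],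
Node.mk [0,820,182,1542,2448,27,1057,3105,2216,36,275,3834,1020] [(0,0),(0,2),(0,3),(0,4),(2,3),(3,1)] [Ref.mk 1828 1883 [0,1,2,3] [[0,1,2,3,4,5],[0,1,2,3,4,5],[0,1,2,3,4],[0,1,2,3,4,5]]],
Node.mk [0,820,182,1542,2448,27,1057,3105,2216,36,275,3834,1101] [(0,0),(0,2),(1,3),(2,1),(2,4),(3,1)] [],
Node.mk [0,820,182,1542,2448,27,1057,3105,2216,36,275,3834,1182,1876,825] [(0,0),(0,2),(0,3),(0,4),(1,3),(3,1)] [],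
Node.mk [0,820,182,1542,2448,27,1057,3105,2216,36,275,3834,1182,1876,276] [(0,0),(0,1),(0,2),(0,3),(0,4),(1,3)] [Ref.mk 1139 1750 [0,1,2,3] [[0,1,2,3,4,5],[0,1,2,3,4],[0,1,2,3,4,5],[0,1,2,3,4]],Ref.mk 824 1888 [0,1,2,3] [[0,1,2,3,4,6,5],[0,1,2,3,4,5],[0,1,2,3,4,5],[0,1,2,3,4,5]],Ref.mk 1140 1750 [0,1,2,3] [[0,1,2,3,4,6],[0,1,2,3,4],[0,1,2,3,4,5],[0,1,2,3,4]],Ref.mk 825 1888 [0,1,2,3] [[0,1,2,3,4,5,6],[0,1,2,3,4,5],[0,1,2,3,4,5],[0,1,2,3,4,5]],Ref.mk 1141 1750 [0,1,2,3] [[0,1,2,3,4,7],[0,1,2,3,4],[0,1,2,3,4,5],[0,1,2,3,4]],Ref.mk 826 1888 [0,1,2,3] [[0,1,2,3,4,6,7],[0,1,2,3,4,5],[0,1,2,3,4,5],[0,1,2,3,4,5]]],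
Node.mk [0,820,182,1542,2448,27,1057,3105,2216,36,275,3834,1182,1876] [(0,0),(0,1),(0,2),(0,3),(0,4),(0,5)] [Ref.mk 1140 1887 [0,1,2,3] [[0,1,2,3,6,5],[0,1,2,3,4,5],[0,1,2,3,5],[0,1,2,3,4,5]],Ref.mk 825 1888 [0,1,2,3] [[0,1,2,3,4,5,6],[0,1,2,3,4,5],[0,1,2,3,4,5],[0,1,2,3,4,5]],Ref.mk 276 1889 [0,1,2,3] [[0,1,2,3,4,5,6],[0,1,2,3,4,5],[0,1,2,3,4,5],[0,1,2,3,4,5]]],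
Node.mk [0,820,182,1542,2448,27,1057,3105,2216,36,275,3834,1182] [(0,0),(0,2),(0,3),(1,0),(1,3),(2,1)] [Ref.mk 1828 1883 [0,1,2,3] [[0,1,2,3,4,5],[0,1,2,3,4,5],[0,1,2,3,4],[0,1,2,3,4,5]],Ref.mk 1876 1890 [0,1,2,3] [[0,1,2,3,4,5],[0,1,2,3,4,5],[0,1,2,3,4,5],[0,1,2,3,4,5]]],
Node.mk [0,820,182,1542,2448,27,1057,3105,2216,36,275,3834] [(1,0),(1,1),(1,2),(1,3),(1,4),(2,1)] [Ref.mk 45 1877 [0,1,2,3] [[0,1,2,3,4,5],[0,1,2,3,4,5],[0,1,2,3,4],[0,1,2,3,4,5]],Ref.mk 1828 1883 [0,1,2,3] [[0,1,2,3,4,5],[0,1,2,3,4,5],[0,1,2,3,4],[0,1,2,3,4,5]],Ref.mk 777 1884 [0,1,2,3] [[0,1,2,3,4,5],[0,1,2,3,4,5],[0,1,2,3,4],[0,1,2,3,4,5]],Ref.mk 939 1885 [0,1,2,3] [[0,1,2,3,4,5],[0,1,2,3,4,5],[0,1,2,3,4],[0,1,2,3,4,5]],Ref.mk 1020 1886 [0,1,2,3] [[0,1,2,3,4,5],[0,1,2,3,4,5],[0,1,2,3,4],[0,1,2,3,4,5]],Ref.mk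 1101 1887 [0,1,2,3] [[0,1,2,3,4,5],[0,1,2,3,4,5],[0,1,2,3,4],[0,1,2,3,4,5]],Ref.mk 1182 1891 [0,1,2,3] [[0,1,2,3,4,5],[0,1,2,3,4,5],[0,1,2,3,4,5],[0,1,2,3,4,5]]],
Node.mk [0,820,182,1542,2448,27,1057,3105,2216,36,275,3970] [(0,0),(0,2),(1,0),(1,3),(2,1),(2,4)] [Ref.mk 2939 1813 [3,1,2,0] [[0,1,3,2,5,4],[0,1,2,3,4],[0,1,3,2,4],[0,1,3,2,5,4]]],
Node.mk [0,820,182,1542,2448,27,1057,3105,2216,36,275,4051,3981,3732] [(0,0),(0,1),(0,2),(1,0),(1,3),(3,5)] [Ref.mk 2939 1814 [0,1,3,2] [[0,3,5,1,4,2,6],[0,1,2,3,4],[0,5,4,3,1,2],[0,4,5,3,2,1]]],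
Node.mk [0,820,182,1542,2448,27,1057,3105,2216,36,275,4051,3981,276] [(0,0),(0,1),(0,2),(0,3),(0,4),(1,3)] [Ref.mk 3731 1894 [0,1,2,3] [[0,1,2,3,4,6,5],[0,1,2,3,4],[0,1,2,3,4,5],[0,1,2,3,4,5]],Ref.mk 1058 1681 [3,1,0,2] [[0,5,3,2,1,4],[0,1,3,4,2],[0,3,2,5,6,1],[0,4,1,3,2,5]],Ref.mk 3732 1894 [0,1,2,3] [[0,1,2,3,4,5,6],[0,1,2,3,4],[0,1,2,3,4,5],[0,1,2,3,4,5]],Ref.mk 1059 1681 [3,1,0,2] [[0,5,3,2,1,4],[0,1,3,4,2],[0,3,2,6,5,1],[0,4,1,3,2,5]],Ref.mk 3733 1894 [0,1,2,3] [[0,1,2,3,4,6,7],[0,1,2,3,4],[0,1,2,3,4,5],[0,1,2,3,4,5]],Ref.mk 1060 1749 [0,1,2,3] [[0,1,2,3,4,7],[0,1,2,3,4],[0,1,2,3,4],[0,1,2,3,4]]],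
Node.mk [0,820,182,1542,2448,27,1057,3105,2216,36,275,4051,3981] [(0,0),(0,1),(0,2),(0,3),(0,4),(0,5)] [Ref.mk 3732 1894 [0,1,2,3] [[0,1,2,3,4,5,6],[0,1,2,3,4],[0,1,2,3,4,5],[0,1,2,3,4,5]],Ref.mk 1059 1749 [0,1,2,3] [[0,1,2,3,4,6],[0,1,2,3,4],[0,1,2,3,4],[0,1,2,3,4]],Ref.mk 276 1895 [0,1,2,3] [[0,1,2,3,4,5,6],[0,1,2,3,4],[0,1,2,3,4,5],[0,1,2,3,4,5]]],
Node.mk [0,820,182,1542,2448,27,1057,3105,2216,36,275,4051] [(0,0),(0,1),(0,2),(0,5),(2,1),(3,1)] [Ref.mk 3981 1896 [0,1,2,3] [[0,1,2,3,4,5],[0,1,2,3,4],[0,1,2,3,4,5],[0,1,2,3,4,5]],Ref.mk 273 1682 [3,1,0,2] [[0,1,3,5,2,4],[0,1,3,4,2],[0,1,2,3,5,4],[0,1,5,3,2,4]],Ref.mk 1876 1896 [0,1,2,3] [[0,4,2,1,3,5],[0,1,2,3,4],[0,5,2,3,1,4],[0,2,5,3,4,1]],Ref.mk 274 1892 [3,1,2,0] [[0,1,3,2,5,4],[0,1,2,3,4],[0,1,3,2,5],[0,1,3,2,5,4]],Ref.mk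 276 1892 [3,1,2,0] [[0,1,3,2,5,4],[0,1,2,3,4],[0,1,3,2,5],[0,1,3,2,5,6]]],
Node.mk [0,820,182,1542,2448,27,1057,3105,2216,36,275,3981,432,3732] [(0,0),(0,2),(0,3),(1,0),(1,3),(2,1)] [Ref.mk 1797 1753 [0,1,2,3] [[0,1,2,3,4,6],[0,1,2,3,4],[0,1,2,3,4],[0,1,2,3,4]]],
Node.mk [0,820,182,1542,2448,27,1057,3105,2216,36,275,3981,432,825] [(0,0),(0,2),(1,1),(1,3),(2,1),(3,1)] [],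
Node.mk [0,820,182,1542,2448,27,1057,3105,2216,36,275,3981,432,276] [(0,0),(0,1),(0,2),(0,3),(0,4),(1,3)] [Ref.mk 3731 1898 [0,1,2,3] [[0,1,2,3,4,6,5],[0,1,2,3,4],[0,1,2,3,4,5],[0,1,2,3,4,5]],Ref.mk 1058 1749 [0,1,2,3] [[0,1,2,3,4,5],[0,1,2,3,4],[0,1,2,3,4],[0,1,2,3,4]],Ref.mk 824 1899 [0,1,2,3] [[0,1,2,3,4,6,5],[0,1,2,3,4],[0,1,2,3,4,5],[0,1,2,3,4,5]],Ref.mk 1796 1753 [0,1,2,3] [[0,1,2,3,4,5],[0,1,2,3,4],[0,1,2,3,4],[0,1,2,3,4]],Ref.mk 3732 1898 [0,1,2,3] [[0,1,2,3,4,5,6],[0,1,2,3,4],[0,1,2,3,4,5],[0,1,2,3,4,5]],Ref.mk 1059 1749 [0,1,2,3] [[0,1,2,3,4,6],[0,1,2,3,4],[0,1,2,3,4],[0,1,2,3,4]],Ref.mk 825 1899 [0,1,2,3] [[0,1,2,3,4,5,6],[0,1,2,3,4],[0,1,2,3,4,5],[0,1,2,3,4,5]],Ref.mk 1797 1753 [0,1,2,3] [[0,1,2,3,4,6],[0,1,2,3,4],[0,1,2,3,4],[0,1,2,3,4]],Ref.mk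 3733 1898 [0,1,2,3] [[0,1,2,3,4,6,7],[0,1,2,3,4],[0,1,2,3,4,5],[0,1,2,3,4,5]],Ref.mk 1060 1749 [0,1,2,3] [[0,1,2,3,4,7],[0,1,2,3,4],[0,1,2,3,4],[0,1,2,3,4]],Ref.mk 826 1899 [0,1,2,3] [[0,1,2,3,4,6,7],[0,1,2,3,4],[0,1,2,3,4,5],[0,1,2,3,4,5]],Ref.mk 1798 1753 [0,1,2,3] [[0,1,2,3,4,7],[0,1,2,3,4],[0,1,2,3,4],[0,1,2,3,4]]],
Node.mk [0,820,182,1542,2448,27,1057,3105,2216,36,275,3981,432] [(0,0),(0,1),(0,2),(0,3),(0,4),(0,5)] [Ref.mk 3732 1898 [0,1,2,3] [[0,1,2,3,4,5,6],[0,1,2,3,4],[0,1,2,3,4,5],[0,1,2,3,4,5]],Ref.mk 1059 1749 [0,1,2,3] [[0,1,2,3,4,6],[0,1,2,3,4],[0,1,2,3,4],[0,1,2,3,4]],Ref.mk 825 1899 [0,1,2,3] [[0,1,2,3,4,5,6],[0,1,2,3,4],[0,1,2,3,4,5],[0,1,2,3,4,5]],Ref.mk 1797 1753 [0,1,2,3] [[0,1,2,3,4,6],[0,1,2,3,4],[0,1,2,3,4],[0,1,2,3,4]],Ref.mk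 276 1900 [0,1,2,3] [[0,1,2,3,4,5,6],[0,1,2,3,4],[0,1,2,3,4,5],[0,1,2,3,4,5]]],
Node.mk [0,820,182,1542,2448,27,1057,3105,2216,36,275,3981,1876,825] [(0,0),(0,2),(0,3),(0,4),(1,1),(1,3)] [Ref.mk 2939 1822 [0,1,3,2] [[0,1,5,4,3,2,6],[0,1,2,3,4],[0,1,4,3,2,5],[0,1,4,3,2,5]]],
Node.mk [0,820,182,1542,2448,27,1057,3105,2216,36,275,3981,1876,276] [(0,0),(0,1),(0,2),(0,3),(0,4),(1,3)] [Ref.mk 824 1902 [0,1,2,3] [[0,1,2,3,4,6,5],[0,1,2,3,4],[0,1,2,3,4,5],[0,1,2,3,4,5]],Ref.mk 1796 1753 [0,1,2,3] [[0,1,2,3,4,5],[0,1,2,3,4],[0,1,2,3,4],[0,1,2,3,4]],Ref.mk 825 1902 [0,1,2,3] [[0,1,2,3,4,5,6],[0,1,2,3,4],[0,1,2,3,4,5],[0,1,2,3,4,5]],Ref.mk 1797 1753 [0,1,2,3] [[0,1,2,3,4,6],[0,1,2,3,4],[0,1,2,3,4],[0,1,2,3,4]],Ref.mk 826 1902 [0,1,2,3]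 [[0,1,2,3,4,6,7],[0,1,2,3,4],[0,1,2,3,4,5],[0,1,2,3,4,5]],Ref.mk 1798 1753 [0,1,2,3] [[0,1,2,3,4,7],[0,1,2,3,4],[0,1,2,3,4],[0,1,2,3,4]]],
Node.mk [0,820,182,1542,2448,27,1057,3105,2216,36,275,3981,1876] [(0,0),(0,1),(0,2),(0,3),(0,4),(0,5)] [Ref.mk 825 1902 [0,1,2,3] [[0,1,2,3,4,5,6],[0,1,2,3,4],[0,1,2,3,4,5],[0,1,2,3,4,5]],Ref.mk 1797 1753 [0,1,2,3] [[0,1,2,3,4,6],[0,1,2,3,4],[0,1,2,3,4],[0,1,2,3,4]],Ref.mk 276 1903 [0,1,2,3] [[0,1,2,3,4,5,6],[0,1,2,3,4],[0,1,2,3,4,5],[0,1,2,3,4,5]]],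
Node.mk [0,820,182,1542,2448,27,1057,3105,2216,36,275,3981] [(0,3),(2,0),(2,1),(2,2),(2,3),(2,4)] [Ref.mk 432 1901 [0,1,2,3] [[0,1,2,3,4,5],[0,1,2,3,4],[0,1,2,3,4,5],[0,1,2,3,4,5]],Ref.mk 4051 1896 [0,1,2,3] [[0,1,2,3,4,5],[0,1,2,3,4],[0,1,2,3,4,5],[0,1,2,3,4,5]],Ref.mk 1876 1904 [0,1,2,3] [[0,1,2,3,4,5],[0,1,2,3,4],[0,1,2,3,4,5],[0,1,2,3,4,5]]],
Node.mk [0,820,182,1542,2448,27,1057,3105,2216,36,275] [(2,1),(3,0),(3,1),(3,2),(3,3),(3,4)] [Ref.mk 3834 1892 [0,1,2,3] [[0,1,2,3,4,5],[0,1,2,3,4],[0,1,2,3,4],[0,1,2,3,4,5]],Ref.mk 3646 26 [3,1,2,0] [[0,1,3,2,5],[0,1,2,3],[0,1,3,2],[0,1,3,2]],Ref.mk 3808 1741 [3,1,2,0] [[0,1,3,2,5],[0,1,2,3],[0,1,3,2],[0,1,3,2]],Ref.mk 3889 98 [3,1,2,0] [[0,1,3,2,5],[0,1,2,3],[0,1,3,2],[0,1,3,2]],Ref.mk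 3970 1893 [0,1,2,3] [[0,1,2,3,4,5],[0,1,2,3,4],[0,1,2,3,4],[0,1,2,3,4,5]],Ref.mk 4051 1897 [0,1,2,3] [[0,1,2,3,4,5],[0,1,2,3,4],[0,1,2,3,4,5],[0,1,2,3,4,5]],Ref.mk 3981 1905 [0,1,2,3] [[0,1,2,3,4,5],[0,1,2,3,4],[0,1,2,3,4],[0,1,2,3,4,5]]],
Node.mk [0,820,182,1542,2448,27,1057,3105,2216,36] [(0,0),(0,1),(0,2),(0,3),(0,4),(2,1)] [Ref.mk 734 26 [0,1,2,3] [[0,1,2,3,5],[0,1,2,3],[0,1,2,3],[0,1,2,3]],Ref.mk 896 98 [0,1,2,3] [[0,1,2,3,5],[0,1,2,3],[0,1,2,3],[0,1,2,3]],Ref.mk 977 1702 [0,1,2,3] [[0,1,2,3,5],[0,1,2,4,3],[0,1,2,3],[0,1,2,3,4]],Ref.mk 1058 1749 [0,1,2,3] [[0,1,2,3,4,5],[0,1,2,3,4],[0,1,2,3,4],[0,1,2,3,4]],Ref.mk 1139 1750 [0,1,2,3] [[0,1,2,3,4,5],[0,1,2,3,4],[0,1,2,3,4,5],[0,1,2,3,4]],Ref.mk 1796 1753 [0,1,2,3] [[0,1,2,3,4,5],[0,1,2,3,4],[0,1,2,3,4],[0,1,2,3,4]],Ref.mk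 2939 1825 [0,1,2,3] [[0,1,2,3,4,5],[0,1,2,3,4],[0,1,2,3,4],[0,1,2,3,4]],Ref.mk 275 1906 [0,1,2,3] [[0,1,2,3,4,5],[0,1,2,3,4],[0,1,2,3,4],[0,1,2,3,4]]],
Node.mk [0,820,182,1542,2448,27,1057,3105,2216,2385] [(0,0),(0,1),(0,2),(1,1),(2,1),(3,1)] [],
Node.mk [0,820,182,1542,2448,27,1057,3105,2216,1819] [(0,3),(1,0),(1,2),(1,3),(2,1),(3,2)] [Ref.mk 9 1907 [0,1,2,3] [[0,1,2,4,3],[0,4,2,3,1],[0,4,2,3,1],[0,2,1,3,4]],Ref.mk 2358 1908 [0,1,2,3] [[0,1,2,4,3],[0,4,2,3,1],[0,4,2,3,1],[0,2,1,3,4]],Ref.mk 36 1907 [0,1,2,3] [[0,1,2,3,4],[0,1,2,3,4],[0,1,2,3,4],[0,1,2,3,4]],Ref.mk 2385 1908 [0,1,2,3] [[0,1,2,3,4],[0,1,2,3,4],[0,1,2,3,4],[0,1,2,3,4]],Ref.mk 45 1907 [0,1,2,3] [[0,1,2,4,3],[0,4,2,3,5],[0,4,2,3,1],[0,2,1,3,4]],Ref.mk 2394 1908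 [0,1,2,3] [[0,1,2,4,3],[0,4,2,3,5],[0,4,2,3,1],[0,2,1,3,4]]],
Node.mk [0,820,182,1542,2448,27,1057,3105,2216] [(0,3),(1,0),(1,1),(1,2),(1,3),(2,1)] [Ref.mk 36 1907 [0,1,2,3] [[0,1,2,3,4],[0,1,2,3,4],[0,1,2,3,4],[0,1,2,3,4]],Ref.mk 2385 1908 [0,1,2,3] [[0,1,2,3,4],[0,1,2,3,4],[0,1,2,3,4],[0,1,2,3,4]],Ref.mk 1819 1909 [0,1,2,3] [[0,1,2,3,4],[0,1,2,3,4],[0,1,2,3,4],[0,1,2,3,4]]],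
Node.mk [0,820,182,1542,2448,27,1057,3105,272] [(0,0),(0,1),(1,1),(2,1),(3,0),(3,1)] [Ref.mk 2936 1910 [0,1,3,2] [[0,1,2,4,3],[0,1,2,3],[0,1,4,3,2],[0,1,4,3,2]],Ref.mk 2216 1910 [0,1,2,3] [[0,1,2,3,4],[0,1,2,3],[0,1,2,3,4],[0,1,2,3,4]]],
Node.mk [0,820,182,1542,2448,27,1057,3105,273,2937,2216] [(0,0),(0,2),(0,3),(1,0),(2,1),(3,2)] [],
Node.mk [0,820,182,1542,2448,27,1057,3105,273,2937,1001] [(0,0),(0,2),(0,3),(1,0),(2,1),(3,2)] [],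
Node.mk [0,820,182,1542,2448,27,1057,3105,273,2937] [(0,0),(0,3),(1,0),(1,2),(2,1),(3,2)] [Ref.mk 2216 1912 [0,1,2,3] [[0,1,2,3,4],[0,1,2,3],[0,1,2,3,4],[0,1,2,3,4]],Ref.mk 1001 1913 [0,1,2,3] [[0,1,2,3,4],[0,1,2,3],[0,1,2,3,4],[0,1,2,3,4]]],
Node.mk [0,820,182,1542,2448,27,1057,3105,273] [(0,0),(0,1),(1,1),(2,1),(3,0),(3,1)] [Ref.mk 2216 1910 [0,1,2,3] [[0,1,2,3,4],[0,1,2,3],[0,1,2,3,4],[0,1,2,3,4]],Ref.mk 2937 1914 [0,1,2,3] [[0,1,2,3,4],[0,1,2,3],[0,1,2,3,4],[0,1,2,3,4]]],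
Node.mk [0,820,182,1542,2448,27,1057,3105,274,2938,36] [(0,0),(0,4),(1,0),(1,2),(2,4),(3,1)] [Ref.mk 2216 1907 [0,1,2,3] [[0,1,2,3,4],[0,1,2,3,4],[0,1,2,3,4],[0,1,2,3,4]]],
Node.mk [0,820,182,1542,2448,27,1057,3105,274,2938] [(0,3),(1,0),(1,1),(1,2),(1,3),(2,1)] [Ref.mk 36 1916 [0,1,2,3] [[0,1,2,3,4],[0,1,2,3,4],[0,1,2,3,4],[0,1,2,3,4]],Ref.mk 1819 1914 [0,1,2,3] [[0,1,2,4,3],[0,4,2,3],[0,4,2,3,1],[0,2,1,3,4]]],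
Node.mk [0,820,182,1542,2448,27,1057,3105,274] [(0,0),(0,1),(1,1),(2,1),(3,0),(3,1)] [Ref.mk 2216 1910 [0,1,2,3] [[0,1,2,3,4],[0,1,2,3],[0,1,2,3,4],[0,1,2,3,4]],Ref.mk 2938 1917 [0,1,2,3] [[0,1,2,3,4],[0,1,2,3],[0,1,2,3,4],[0,1,2,3,4]]],
Node.mk [0,820,182,1542,2448,27,1057,3105,275] [(0,0),(0,1),(1,1),(2,1),(3,0),(3,1)] [Ref.mk 2216 1910 [0,1,2,3] [[0,1,2,3,4],[0,1,2,3],[0,1,2,3,4],[0,1,2,3,4]],Ref.mk 2939 1910 [0,1,3,2] [[0,1,5,4,3],[0,1,2,3],[0,1,4,3,2],[0,1,4,3,2]]]]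

/-- nodes -/
noncomputable def c30 : List Node := [
Node.mk [0,820,182,1542,2448,27,1057,3105] [(0,0),(0,1),(1,1),(1,2),(2,1),(3,1)] [Ref.mk 2216 1910 [0,1,2,3] [[0,1,2,3,4],[0,1,2,3],[0,1,2,3,4],[0,1,2,3,4]],Ref.mk 272 1911 [0,1,2,3] [[0,1,2,3,4],[0,1,2,3],[0,1,2,3,4],[0,1,2,3,4]],Ref.mk 273 1915 [0,1,2,3] [[0,1,2,3,4],[0,1,2,3],[0,1,2,3,4],[0,1,2,3,4]],Ref.mk 274 1918 [0,1,2,3] [[0,1,2,3,4],[0,1,2,3],[0,1,2,3,4],[0,1,2,3,4]],Ref.mk 275 1919 [0,1,2,3] [[0,1,2,3,4,5],[0,1,2,3],[0,1,2,3,4],[0,1,2,3,4]]],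
Node.mk [0,820,182,1542,2448,27,1057,3114,2225,1058,2377] [(0,0),(0,1),(0,2),(0,3),(1,0),(1,3)] [],
Node.mk [0,820,182,1542,2448,27,1057,3114,2225,1058] [(0,0),(1,0),(1,2),(1,4),(2,4),(3,1)] [Ref.mk 2377 1921 [0,1,2,3] [[0,1,2,3,4,5],[0,1,2,3,4],[0,1,2,3,4],[0,1,2,3,4]]],
Node.mk [0,820,182,1542,2448,27,1057,3114,2225,1139,2377] [(0,0),(0,1),(0,2),(0,3),(1,0),(1,3)] [],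
Node.mk [0,820,182,1542,2448,27,1057,3114,2225,1139] [(0,0),(1,0),(1,1),(1,2),(1,4),(3,1)] [Ref.mk 2377 1923 [0,1,2,3] [[0,1,2,3,4,5],[0,1,2,3,4],[0,1,2,3,4,5],[0,1,2,3,4]]],
Node.mk [0,820,182,1542,2448,27,1057,3114,2225,1796,1621] [(0,0),(1,0),(1,1),(1,2),(1,4),(3,2)] [],
Node.mk [0,820,182,1542,2448,27,1057,3114,2225,1796] [(0,0),(1,1),(2,0),(2,1),(2,4),(3,0)] [Ref.mk 1621 1925 [0,1,2,3] [[0,1,2,3,4,5],[0,1,2,3,4],[0,1,2,3,4],[0,1,2,3,4]],Ref.mk 1702 1701 [0,1,2,3] [[0,5,2,4,1],[0,1,2,3,4],[0,4,2,3,1],[0,2,1,3,4]],Ref.mk 1864 1924 [0,1,2,3] [[0,5,2,4,3,1],[0,1,2,3,4],[0,4,2,3,1,5],[0,2,1,3,4]],Ref.mk 896 1925 [0,1,2,3] [[0,5,2,4,3,1],[0,1,2,3,4],[0,4,2,3,1],[0,2,1,3,4]],Ref.mk 977 1701 [0,1,2,3] [[0,1,2,3,5],[0,1,2,3,4],[0,1,2,3,4],[0,1,2,3,4]],Ref.mk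 1139 1924 [0,1,2,3] [[0,1,2,3,4,5],[0,1,2,3,4],[0,1,2,3,4,5],[0,1,2,3,4]]],
Node.mk [0,820,182,1542,2448,27,1057,3114,2225,2939,3663,45,2610,1792,825] [(0,0),(0,2),(1,1),(1,2),(2,1),(3,1)] [],
Node.mk [0,820,182,1542,2448,27,1057,3114,2225,2939,3663,45,2610,1792,2940] [(0,0),(0,1),(0,2),(0,3),(0,4),(1,2)] [Ref.mk 1544 1922 [0,1,3,2] [[0,1,2,4,3,5],[0,1,4,3,2],[0,1,3,4,2],[0,1,4,2,3]],Ref.mk 1058 1922 [0,1,2,3] [[0,1,2,3,4,5],[0,1,2,3,4],[0,1,2,3,4],[0,1,2,3,4]],Ref.mk 824 1927 [0,1,2,3] [[0,1,2,3,4,6,5],[0,1,2,3,4,5],[0,1,2,3,4,5],[0,1,2,3,4,5]],Ref.mk 1796 1927 [0,1,2,3] [[0,1,2,4,3,6,5],[0,1,2,3,4,5],[0,4,2,3,1,5],[0,2,1,3,4,5]],Ref.mk 1545 1922 [0,1,3,2] [[0,1,2,4,3,6],[0,1,4,3,2],[0,1,3,4,2],[0,1,4,2,3]],Ref.mk 1059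 1922 [0,1,2,3] [[0,1,2,3,4,6],[0,1,2,3,4],[0,1,2,3,4],[0,1,2,3,4]],Ref.mk 825 1927 [0,1,2,3] [[0,1,2,3,4,5,6],[0,1,2,3,4,5],[0,1,2,3,4,5],[0,1,2,3,4,5]],Ref.mk 1797 1927 [0,1,2,3] [[0,1,2,4,3,5,6],[0,1,2,3,4,5],[0,4,2,3,1,5],[0,2,1,3,4,5]],Ref.mk 1546 1922 [0,1,3,2] [[0,1,2,4,3,7],[0,1,4,3,2],[0,1,3,4,2],[0,1,4,2,3]],Ref.mk 1060 1922 [0,1,2,3] [[0,1,2,3,4,7],[0,1,2,3,4],[0,1,2,3,4],[0,1,2,3,4]],Ref.mk 826 1927 [0,1,2,3] [[0,1,2,3,4,6,7],[0,1,2,3,4,5],[0,1,2,3,4,5],[0,1,2,3,4,5]],Ref.mk 1798 1927 [0,1,2,3] [[0,1,2,4,3,6,7],[0,1,2,3,4,5],[0,4,2,3,1,5],[0,2,1,3,4,5]]],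
Node.mk [0,820,182,1542,2448,27,1057,3114,2225,2939,3663,45,2610,1792] [(0,0),(0,1),(0,2),(0,3),(0,4),(0,5)] [Ref.mk 1545 1922 [0,1,3,2] [[0,1,2,4,3,6],[0,1,4,3,2],[0,1,3,4,2],[0,1,4,2,3]],Ref.mk 1059 1922 [0,1,2,3] [[0,1,2,3,4,6],[0,1,2,3,4],[0,1,2,3,4],[0,1,2,3,4]],Ref.mk 825 1927 [0,1,2,3] [[0,1,2,3,4,5,6],[0,1,2,3,4,5],[0,1,2,3,4,5],[0,1,2,3,4,5]],Ref.mk 1797 1927 [0,1,2,3] [[0,1,2,4,3,5,6],[0,1,2,3,4,5],[0,4,2,3,1,5],[0,2,1,3,4,5]],Ref.mk 2940 1928 [0,1,2,3] [[0,1,2,3,4,5,6],[0,1,2,3,4,5],[0,1,2,3,4,5],[0,1,2,3,4,5]]],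
Node.mk [0,820,182,1542,2448,27,1057,3114,2225,2939,3663,45,2610,1810,2940,842] [(0,0),(0,1),(0,2),(1,2),(2,1),(3,1)] [Ref.mk 1796 1926 [0,1,2,3] [[0,1,2,3,4,5],[0,1,2,3,4],[0,1,2,3,4],[0,1,2,3,4]]],
Node.mk [0,820,182,1542,2448,27,1057,3114,2225,2939,3663,45,2610,1810,2940,844] [(0,0),(0,1),(0,2),(1,2),(2,1),(3,1)] [Ref.mk 1798 1926 [0,1,2,3] [[0,1,2,3,4,7],[0,1,2,3,4],[0,1,2,3,4],[0,1,2,3,4]]],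
Node.mk [0,820,182,1542,2448,27,1057,3114,2225,2939,3663,45,2610,1810,2940] [(0,0),(0,1),(0,2),(0,3),(0,4),(1,2)] [Ref.mk 1544 1922 [0,1,3,2] [[0,1,2,4,3,5],[0,1,4,3,2],[0,1,3,4,2],[0,1,4,2,3]],Ref.mk 1058 1922 [0,1,2,3] [[0,1,2,3,4,5],[0,1,2,3,4],[0,1,2,3,4],[0,1,2,3,4]],Ref.mk 1796 1926 [0,1,2,3] [[0,1,2,3,4,5],[0,1,2,3,4],[0,1,2,3,4],[0,1,2,3,4]],Ref.mk 842 1930 [0,1,2,3] [[0,1,2,3,4,5,6],[0,1,2,3,4,5],[0,1,2,3,4,5],[0,1,2,3,4,5]],Ref.mk 1545 1922 [0,1,3,2] [[0,1,2,4,3,6],[0,1,4,3,2],[0,1,3,4,2],[0,1,4,2,3]],Ref.mk 1059 1922 [0,1,2,3] [[0,1,2,3,4,6],[0,1,2,3,4],[0,1,2,3,4],[0,1,2,3,4]],Ref.mk 1797 1926 [0,1,2,3] [[0,1,2,3,4,6],[0,1,2,3,4],[0,1,2,3,4],[0,1,2,3,4]],Ref.mk 843 1930 [0,1,2,3] [[0,1,2,3,4,6,5],[0,1,2,3,4,5],[0,1,2,3,4,5],[0,1,2,3,4,5]],Ref.mk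 1546 1922 [0,1,3,2] [[0,1,2,4,3,7],[0,1,4,3,2],[0,1,3,4,2],[0,1,4,2,3]],Ref.mk 1060 1922 [0,1,2,3] [[0,1,2,3,4,7],[0,1,2,3,4],[0,1,2,3,4],[0,1,2,3,4]],Ref.mk 1798 1926 [0,1,2,3] [[0,1,2,3,4,7],[0,1,2,3,4],[0,1,2,3,4],[0,1,2,3,4]],Ref.mk 844 1931 [0,1,2,3] [[0,1,2,3,4,5,6,7],[0,1,2,3,4,5],[0,1,2,3,4,5],[0,1,2,3,4,5]]],
Node.mk [0,820,182,1542,2448,27,1057,3114,2225,2939,3663,45,2610,1810,843] [(0,0),(0,1),(0,2),(1,2),(2,1),(3,1)] [Ref.mk 1797 1926 [0,1,2,3] [[0,1,2,3,4,6],[0,1,2,3,4],[0,1,2,3,4],[0,1,2,3,4]]],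
Node.mk [0,820,182,1542,2448,27,1057,3114,2225,2939,3663,45,2610,1810] [(0,0),(0,1),(0,2),(0,3),(0,4),(0,5)] [Ref.mk 1545 1922 [0,1,3,2] [[0,1,2,4,3,6],[0,1,4,3,2],[0,1,3,4,2],[0,1,4,2,3]],Ref.mk 1059 1922 [0,1,2,3] [[0,1,2,3,4,6],[0,1,2,3,4],[0,1,2,3,4],[0,1,2,3,4]],Ref.mk 1797 1926 [0,1,2,3] [[0,1,2,3,4,6],[0,1,2,3,4],[0,1,2,3,4],[0,1,2,3,4]],Ref.mk 2940 1932 [0,1,2,3] [[0,1,2,3,4,5,6],[0,1,2,3,4,5],[0,1,2,3,4,5],[0,1,2,3,4,5]],Ref.mk 843 1933 [0,1,2,3] [[0,1,2,3,4,5,6],[0,1,2,3,4,5],[0,1,2,3,4,5],[0,1,2,3,4,5]]],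
Node.mk [0,820,182,1542,2448,27,1057,3114,2225,2939,3663,45,2610,1837,2940,869] [(0,0),(0,1),(0,2),(1,2),(2,1),(3,1)] [Ref.mk 1796 1926 [0,1,2,3] [[0,1,2,3,4,5],[0,1,2,3,4],[0,1,2,3,4],[0,1,2,3,4]]],
Node.mk [0,820,182,1542,2448,27,1057,3114,2225,2939,3663,45,2610,1837,2940,871] [(0,0),(0,1),(0,2),(1,2),(2,1),(3,1)] [Ref.mk 1798 1926 [0,1,2,3] [[0,1,2,3,4,7],[0,1,2,3,4],[0,1,2,3,4],[0,1,2,3,4]]],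
Node.mk [0,820,182,1542,2448,27,1057,3114,2225,2939,3663,45,2610,1837,2940] [(0,0),(0,1),(0,2),(0,3),(0,4),(1,2)] [Ref.mk 1544 1922 [0,1,3,2] [[0,1,2,4,3,5],[0,1,4,3,2],[0,1,3,4,2],[0,1,4,2,3]],Ref.mk 1058 1922 [0,1,2,3] [[0,1,2,3,4,5],[0,1,2,3,4],[0,1,2,3,4],[0,1,2,3,4]],Ref.mk 1796 1935 [0,1,2,3] [[0,1,2,4,3,5,6],[0,6,2,3,4,5,1],[0,4,2,3,1,5],[0,2,1,3,4,5]],Ref.mk 869 1935 [0,1,2,3] [[0,1,2,3,4,5,6],[0,1,2,3,4,5,6],[0,1,2,3,4,5],[0,1,2,3,4,5]],Ref.mk 1545 1922 [0,1,3,2] [[0,1,2,4,3,6],[0,1,4,3,2],[0,1,3,4,2],[0,1,4,2,3]],Ref.mk 1059 1922 [0,1,2,3] [[0,1,2,3,4,6],[0,1,2,3,4],[0,1,2,3,4],[0,1,2,3,4]],Ref.mk 1797 1935 [0,1,2,3] [[0,1,2,4,3,6,5],[0,6,2,3,4,5,1],[0,4,2,3,1,5],[0,2,1,3,4,5]],Ref.mk 870 1935 [0,1,2,3] [[0,1,2,3,4,6,5],[0,1,2,3,4,5,6],[0,1,2,3,4,5],[0,1,2,3,4,5]],Ref.mk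 1546 1922 [0,1,3,2] [[0,1,2,4,3,7],[0,1,4,3,2],[0,1,3,4,2],[0,1,4,2,3]],Ref.mk 1060 1922 [0,1,2,3] [[0,1,2,3,4,7],[0,1,2,3,4],[0,1,2,3,4],[0,1,2,3,4]],Ref.mk 1798 1936 [0,1,2,3] [[0,1,2,4,3,5,6,7],[0,6,2,3,4,5,1],[0,4,2,3,1,5],[0,2,1,3,4,5]],Ref.mk 871 1936 [0,1,2,3] [[0,1,2,3,4,5,6,7],[0,1,2,3,4,5,6],[0,1,2,3,4,5],[0,1,2,3,4,5]]],
Node.mk [0,820,182,1542,2448,27,1057,3114,2225,2939,3663,45,2610,1837,870] [(0,0),(0,1),(0,2),(1,2),(2,1),(3,1)] [Ref.mk 1797 1926 [0,1,2,3] [[0,1,2,3,4,6],[0,1,2,3,4],[0,1,2,3,4],[0,1,2,3,4]]],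
Node.mk [0,820,182,1542,2448,27,1057,3114,2225,2939,3663,45,2610,1837] [(0,0),(0,1),(0,2),(0,3),(0,4),(0,5)] [Ref.mk 1545 1922 [0,1,3,2] [[0,1,2,4,3,6],[0,1,4,3,2],[0,1,3,4,2],[0,1,4,2,3]],Ref.mk 1059 1922 [0,1,2,3] [[0,1,2,3,4,6],[0,1,2,3,4],[0,1,2,3,4],[0,1,2,3,4]],Ref.mk 1797 1938 [0,1,2,3] [[0,1,2,4,3,5,6],[0,6,2,3,4,5,1],[0,4,2,3,1,5],[0,2,1,3,4,5]],Ref.mk 2940 1937 [0,1,2,3] [[0,1,2,3,4,5,6],[0,1,2,3,4,5,6],[0,1,2,3,4,5],[0,1,2,3,4,5]],Ref.mk 870 1938 [0,1,2,3] [[0,1,2,3,4,5,6],[0,1,2,3,4,5,6],[0,1,2,3,4,5],[0,1,2,3,4,5]]],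
Node.mk [0,820,182,1542,2448,27,1057,3114,2225,2939,3663,45,2610,1471] [(0,0),(0,4),(1,1),(2,0),(2,2),(3,2)] [],
Node.mk [0,820,182,1542,2448,27,1057,3114,2225,2939,3663,45,2610,1633] [(0,0),(0,4),(1,1),(2,0),(2,2),(3,2)] [],
Node.mk [0,820,182,1542,2448,27,1057,3114,2225,2939,3663,45,2610,1714,1029,825] [(0,0),(0,2),(0,3),(0,4),(1,2),(3,1)] [],
Node.mk [0,820,182,1542,2448,27,1057,3114,2225,2939,3663,45,2610,1714,1029,2940] [(0,0),(0,1),(0,2),(0,3),(0,4),(1,2)] [Ref.mk 977 1741 [0,1,2,3] [[0,1,2,3,5],[0,1,2,3],[0,1,2,3],[0,1,2,3]],Ref.mk 824 1942 [0,1,2,3] [[0,1,2,3,4,6,5],[0,1,2,3,4,5,6],[0,1,2,3,4,5],[0,1,2,3,4,5]],Ref.mk 978 1741 [0,1,2,3] [[0,1,2,3,6],[0,1,2,3],[0,1,2,3],[0,1,2,3]],Ref.mk 825 1942 [0,1,2,3] [[0,1,2,3,4,5,6],[0,1,2,3,4,5,6],[0,1,2,3,4,5],[0,1,2,3,4,5]],Ref.mk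 979 1741 [0,1,2,3] [[0,1,2,3,7],[0,1,2,3],[0,1,2,3],[0,1,2,3]],Ref.mk 826 1942 [0,1,2,3] [[0,1,2,3,4,6,7],[0,1,2,3,4,5,6],[0,1,2,3,4,5],[0,1,2,3,4,5]]],
Node.mk [0,820,182,1542,2448,27,1057,3114,2225,2939,3663,45,2610,1714,1029] [(0,0),(0,1),(0,2),(0,3),(0,4),(0,5)] [Ref.mk 978 1741 [0,1,2,3] [[0,1,2,3,6],[0,1,2,3],[0,1,2,3],[0,1,2,3]],Ref.mk 825 1942 [0,1,2,3] [[0,1,2,3,4,5,6],[0,1,2,3,4,5,6],[0,1,2,3,4,5],[0,1,2,3,4,5]],Ref.mk 2940 1943 [0,1,2,3] [[0,1,2,3,4,5,6],[0,1,2,3,4,5,6],[0,1,2,3,4,5],[0,1,2,3,4,5]]],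
Node.mk [0,820,182,1542,2448,27,1057,3114,2225,2939,3663,45,2610,1714] [(0,0),(0,4),(1,0),(1,1),(1,2),(1,4)] [Ref.mk 1810 1934 [0,1,2,3] [[0,1,2,3,4,5],[0,1,2,3,4,5],[0,1,2,3,4,5],[0,1,2,3,4,5]],Ref.mk 1828 1934 [0,1,2,3] [[0,1,2,3,4,5],[0,1,2,5,4,3],[0,1,2,3,4,5],[0,1,2,3,4,5]],Ref.mk 1837 1939 [0,1,2,3] [[0,1,2,3,4,5],[0,1,2,3,4,5,6],[0,1,2,3,4,5],[0,1,2,3,4,5]],Ref.mk 1002 1660 [0,2,1,3] [[0,1,2,4,3,5],[3,1,0,5,2,4],[2,1,4,3,0,5],[3,1,2,0,4,5]],Ref.mk 1020 1660 [0,2,1,3] [[0,1,2,4,3,5],[3,1,0,5,2,4],[2,1,4,5,0,3],[3,1,2,0,4,5]],Ref.mk 1029 1944 [0,1,2,3] [[0,1,2,3,4,5],[0,1,2,3,4,5,6],[0,1,2,3,4,5],[0,1,2,3,4,5]]],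
Node.mk [0,820,182,1542,2448,27,1057,3114,2225,2939,3663,45,2610,1795,825] [(0,0),(0,2),(1,1),(1,2),(2,1),(3,1)] [],
Node.mk [0,820,182,1542,2448,27,1057,3114,2225,2939,3663,45,2610,1795,2940] [(0,0),(0,1),(0,2),(0,3),(0,4),(1,2)] [Ref.mk 1544 1922 [0,1,3,2] [[0,1,2,4,3,5],[0,1,4,3,2],[0,1,3,4,2],[0,1,4,2,3]],Ref.mk 1058 1922 [0,1,2,3] [[0,1,2,3,4,5],[0,1,2,3,4],[0,1,2,3,4],[0,1,2,3,4]],Ref.mk 824 1946 [0,1,2,3] [[0,1,2,3,4,6,5],[0,1,2,3,4,5],[0,1,2,3,4,5],[0,1,2,3,4,5]],Ref.mk 1796 1926 [0,1,2,3] [[0,1,2,3,4,5],[0,1,2,3,4],[0,1,2,3,4],[0,1,2,3,4]],Ref.mk 1545 1922 [0,1,3,2] [[0,1,2,4,3,6],[0,1,4,3,2],[0,1,3,4,2],[0,1,4,2,3]],Ref.mk 1059 1922 [0,1,2,3] [[0,1,2,3,4,6],[0,1,2,3,4],[0,1,2,3,4],[0,1,2,3,4]],Ref.mk 825 1946 [0,1,2,3]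 [[0,1,2,3,4,5,6],[0,1,2,3,4,5],[0,1,2,3,4,5],[0,1,2,3,4,5]],Ref.mk 1797 1926 [0,1,2,3] [[0,1,2,3,4,6],[0,1,2,3,4],[0,1,2,3,4],[0,1,2,3,4]],Ref.mk 1546 1922 [0,1,3,2] [[0,1,2,4,3,7],[0,1,4,3,2],[0,1,3,4,2],[0,1,4,2,3]],Ref.mk 1060 1922 [0,1,2,3] [[0,1,2,3,4,7],[0,1,2,3,4],[0,1,2,3,4],[0,1,2,3,4]],Ref.mk 826 1946 [0,1,2,3] [[0,1,2,3,4,6,7],[0,1,2,3,4,5],[0,1,2,3,4,5],[0,1,2,3,4,5]],Ref.mk 1798 1926 [0,1,2,3] [[0,1,2,3,4,7],[0,1,2,3,4],[0,1,2,3,4],[0,1,2,3,4]]],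
Node.mk [0,820,182,1542,2448,27,1057,3114,2225,2939,3663,45,2610,1795] [(0,0),(0,1),(0,2),(0,3),(0,4),(0,5)] [Ref.mk 1545 1922 [0,1,3,2] [[0,1,2,4,3,6],[0,1,4,3,2],[0,1,3,4,2],[0,1,4,2,3]],Ref.mk 1059 1922 [0,1,2,3] [[0,1,2,3,4,6],[0,1,2,3,4],[0,1,2,3,4],[0,1,2,3,4]],Ref.mk 825 1946 [0,1,2,3] [[0,1,2,3,4,5,6],[0,1,2,3,4,5],[0,1,2,3,4,5],[0,1,2,3,4,5]],Ref.mk 1797 1926 [0,1,2,3] [[0,1,2,3,4,6],[0,1,2,3,4],[0,1,2,3,4],[0,1,2,3,4]],Ref.mk 2940 1947 [0,1,2,3] [[0,1,2,3,4,5,6],[0,1,2,3,4,5],[0,1,2,3,4,5],[0,1,2,3,4,5]]],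
Node.mk [0,820,182,1542,2448,27,1057,3114,2225,2939,3663,45,2610,1957,825] [(0,0),(0,2),(1,1),(1,2),(2,1),(3,1)] [],
Node.mk [0,820,182,1542,2448,27,1057,3114,2225,2939,3663,45,2610,1957,2940] [(0,0),(0,1),(0,2),(0,3),(0,4),(1,2)] [Ref.mk 1544 1639 [2,1,0,3] [[0,6,2,4,1,5],[0,1,2,3,4,5],[0,4,2,5,6,1],[0,2,1,4,3,5]],Ref.mk 1220 1924 [0,1,2,3] [[0,1,2,3,4,5],[0,1,2,3,4],[0,1,2,3,4,6],[0,1,2,3,4]],Ref.mk 824 1949 [0,1,2,3] [[0,1,2,3,4,6,5],[0,1,2,3,4,5],[0,1,2,3,4,5,6],[0,1,2,3,4,5]],Ref.mk 1796 1926 [0,1,2,3] [[0,1,2,3,4,5],[0,1,2,3,4],[0,1,2,3,4],[0,1,2,3,4]],Ref.mk 1545 1639 [2,1,0,3] [[0,6,2,4,1,5],[0,1,2,3,4,5],[0,4,2,6,5,1],[0,2,1,4,3,5]],Ref.mk 1221 1924 [0,1,2,3] [[0,1,2,3,4,6],[0,1,2,3,4],[0,1,2,3,4,6],[0,1,2,3,4]],Ref.mk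 825 1949 [0,1,2,3] [[0,1,2,3,4,5,6],[0,1,2,3,4,5],[0,1,2,3,4,5,6],[0,1,2,3,4,5]],Ref.mk 1797 1926 [0,1,2,3] [[0,1,2,3,4,6],[0,1,2,3,4],[0,1,2,3,4],[0,1,2,3,4]],Ref.mk 1546 1922 [0,1,3,2] [[0,1,2,4,3,7],[0,1,4,3,2],[0,1,3,4,2],[0,1,4,2,3]],Ref.mk 1222 1924 [0,1,2,3] [[0,1,2,3,4,7],[0,1,2,3,4],[0,1,2,3,4,6],[0,1,2,3,4]],Ref.mk 826 1949 [0,1,2,3] [[0,1,2,3,4,6,7],[0,1,2,3,4,5],[0,1,2,3,4,5,6],[0,1,2,3,4,5]],Ref.mk 1798 1926 [0,1,2,3] [[0,1,2,3,4,7],[0,1,2,3,4],[0,1,2,3,4],[0,1,2,3,4]]],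
Node.mk [0,820,182,1542,2448,27,1057,3114,2225,2939,3663,45,2610,1957] [(0,0),(0,1),(0,2),(0,3),(0,4),(0,5)] [Ref.mk 1545 1922 [0,1,3,2] [[0,1,2,4,3,6],[0,1,4,3,2],[0,1,3,4,2],[0,1,4,2,3]],Ref.mk 1221 1924 [0,1,2,3] [[0,1,2,3,4,6],[0,1,2,3,4],[0,1,2,3,4,6],[0,1,2,3,4]],Ref.mk 825 1949 [0,1,2,3] [[0,1,2,3,4,5,6],[0,1,2,3,4,5],[0,1,2,3,4,5,6],[0,1,2,3,4,5]],Ref.mk 1797 1926 [0,1,2,3] [[0,1,2,3,4,6],[0,1,2,3,4],[0,1,2,3,4],[0,1,2,3,4]],Ref.mk 2940 1950 [0,1,2,3] [[0,1,2,3,4,5,6],[0,1,2,3,4,5],[0,1,2,3,4,5,6],[0,1,2,3,4,5]]],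
Node.mk [0,820,182,1542,2448,27,1057,3114,2225,2939,3663,45,2610] [(0,0),(0,2),(0,3),(1,0),(1,2),(2,1)] [Ref.mk 1792 1929 [0,1,2,3] [[0,1,2,3,4,5],[0,1,2,3,4,5],[0,1,2,3,4,5],[0,1,2,3,4,5]],Ref.mk 1810 1934 [0,1,2,3] [[0,1,2,3,4,5],[0,1,2,3,4,5],[0,1,2,3,4,5],[0,1,2,3,4,5]],Ref.mk 1819 1747 [0,1,2,3] [[0,1,2,4,3],[0,4,2,3,1],[0,4,2,3,1],[0,2,1,3,4]],Ref.mk 1828 1934 [0,1,2,3] [[0,1,2,3,4,5],[0,1,2,5,4,3],[0,1,2,3,4,5],[0,1,2,3,4,5]],Ref.mk 1837 1939 [0,1,2,3] [[0,1,2,3,4,5],[0,1,2,3,4,5,6],[0,1,2,3,4,5],[0,1,2,3,4,5]],Ref.mk 1471 1940 [0,1,2,3] [[0,1,2,3,4,5],[0,1,2,3,4,5],[0,1,2,3,4,5],[0,1,2,3,4,5]],Ref.mk 1633 1941 [0,1,2,3] [[0,1,2,3,4,5],[0,1,2,3,4,5],[0,1,2,3,4,5],[0,1,2,3,4,5]],Ref.mk 1714 1945 [0,1,2,3] [[0,1,2,3,4,5],[0,1,2,3,4,5],[0,1,2,3,4,5],[0,1,2,3,4,5]],Ref.mk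 1795 1948 [0,1,2,3] [[0,1,2,3,4,5],[0,1,2,3,4,5],[0,1,2,3,4,5],[0,1,2,3,4,5]],Ref.mk 1876 1945 [0,1,2,3] [[0,1,2,3,4,5],[0,1,2,3,4,5],[0,1,2,5,4,3],[0,1,2,3,4,5]],Ref.mk 1957 1951 [0,1,2,3] [[0,1,2,3,4,5],[0,1,2,3,4,5],[0,1,2,3,4,5,6],[0,1,2,3,4,5]],Ref.mk 1796 1926 [0,1,2,3] [[0,1,2,3,4,5],[0,1,2,3,4],[0,1,2,3,4],[0,1,2,3,4]],Ref.mk 1797 1926 [0,1,2,3] [[0,1,2,3,4,6],[0,1,2,3,4],[0,1,2,3,4],[0,1,2,3,4]]],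
Node.mk [0,820,182,1542,2448,27,1057,3114,2225,2939,3663,45,1146] [(0,0),(0,2),(1,0),(1,1),(1,2),(3,1)] [],
Node.mk [0,820,182,1542,2448,27,1057,3114,2225,2939,3663,45,1155] [(0,0),(0,3),(1,2),(1,4),(2,5),(3,1)] [Ref.mk 2917 26 [3,1,2,0] [[0,1,3,2,4],[0,1,2,3],[0,1,3,2],[0,1,3,2]]],
Node.mk [0,820,182,1542,2448,27,1057,3114,2225,2939,3663,45,1164,1810,843] [(0,0),(0,1),(0,2),(1,2),(2,1),(3,1)] [],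
Node.mk [0,820,182,1542,2448,27,1057,3114,2225,2939,3663,45,1164,1810] [(0,0),(0,1),(0,2),(0,3),(0,4),(0,5)] [Ref.mk 1059 1922 [0,1,2,3] [[0,1,2,3,4,6],[0,1,2,3,4],[0,1,2,3,4],[0,1,2,3,4]],Ref.mk 2940 1934 [2,1,0,3] [[0,1,2,4,5,3],[3,1,2,0,4,5],[0,1,2,5,3,6],[0,1,2,4,3,5]],Ref.mk 843 1955 [0,1,2,3] [[0,1,2,3,4,5,6],[0,1,2,3,4,5],[0,1,2,3,4,5],[0,1,2,3,4,5]]],
Node.mk [0,820,182,1542,2448,27,1057,3114,2225,2939,3663,45,1164,1876,825] [(0,0),(0,2),(0,3),(0,4),(1,2),(3,1)] [],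
Node.mk [0,820,182,1542,2448,27,1057,3114,2225,2939,3663,45,1164,1876] [(0,0),(0,1),(0,2),(0,3),(0,4),(0,5)] [Ref.mk 1140 1924 [0,1,2,3] [[0,1,2,3,4,6],[0,1,2,3,4],[0,1,2,3,4,5],[0,1,2,3,4]],Ref.mk 825 1957 [0,1,2,3] [[0,1,2,3,4,5,6],[0,1,2,3,4,5],[0,1,2,3,4,5],[0,1,2,3,4,5]],Ref.mk 2940 1934 [2,1,0,3] [[0,5,2,4,1,3],[0,1,2,3,4,5],[0,4,2,5,3,6],[0,2,1,4,3,5]]],
Node.mk [0,820,182,1542,2448,27,1057,3114,2225,2939,3663,45,1164] [(0,0),(0,2),(0,3),(1,0),(1,2),(2,1)] [Ref.mk 1810 1956 [0,1,2,3] [[0,1,2,3,4,5],[0,1,2,3,4,5],[0,1,2,3,4,5],[0,1,2,3,4,5]],Ref.mk 1876 1958 [0,1,2,3] [[0,1,2,3,4,5],[0,1,2,3,4,5],[0,1,2,3,4,5],[0,1,2,3,4,5]]],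
Node.mk [0,820,182,1542,2448,27,1057,3114,2225,2939,3663,45,1173] [(0,0),(0,3),(1,2),(1,4),(2,5),(3,1)] [],
Node.mk [0,820,182,1542,2448,27,1057,3114,2225,2939,3663,45,1191,1837,870] [(0,0),(0,1),(0,2),(1,2),(2,1),(3,1)] [],
Node.mk [0,820,182,1542,2448,27,1057,3114,2225,2939,3663,45,1191,1837] [(0,0),(0,1),(0,2),(0,3),(0,4),(0,5)] [Ref.mk 1059 1922 [0,1,2,3] [[0,1,2,3,4,6],[0,1,2,3,4],[0,1,2,3,4],[0,1,2,3,4]],Ref.mk 2940 1951 [2,1,0,3] [[0,5,2,1,4,3],[0,6,2,3,4,5],[0,3,2,5,4,6,1],[0,1,2,4,3,5]],Ref.mk 870 1961 [0,1,2,3] [[0,1,2,3,4,5,6],[0,1,2,3,4,5,6],[0,1,2,3,4,5],[0,1,2,3,4,5]]],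
Node.mk [0,820,182,1542,2448,27,1057,3114,2225,2939,3663,45,1191] [(0,0),(0,2),(0,3),(0,5),(1,0),(2,1)] [Ref.mk 2935 1952 [2,1,0,3] [[0,5,2,1,4,3],[0,6,2,3,4,5],[0,3,2,5,4,1],[0,1,2,4,3,5]],Ref.mk 1837 1962 [0,1,2,3] [[0,1,2,3,4,5],[0,1,2,3,4,5,6],[0,1,2,3,4,5],[0,1,2,3,4,5]],Ref.mk 1876 1962 [2,1,0,3] [[0,5,2,1,4,3],[0,6,2,3,4,5,1],[0,3,2,5,4,1],[0,1,2,4,3,5]],Ref.mk 2938 1632 [2,1,0,3] [[0,5,2,1,4,3],[0,6,2,3,4,5,1],[0,3,2,4,5,1],[0,1,2,4,3,5]],Ref.mk 2940 1952 [2,1,0,3] [[0,5,2,1,4,3],[0,6,2,3,4,5],[0,3,2,5,4,6],[0,1,2,4,3,5]]],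
Node.mk [0,820,182,1542,2448,27,1057,3114,2225,2939,3663,45,1876] [(0,0),(0,2),(0,4),(0,5),(1,0),(1,1)] [Ref.mk 2935 1945 [2,1,0,3] [[0,5,2,4,1,3],[0,1,2,3,4,5],[0,4,2,1,3,5],[0,2,1,4,3,5]],Ref.mk 1801 1954 [2,1,0,3] [[0,5,2,4,1,3],[0,1,2,3,4,5],[0,4,2,5,3,1],[0,2,1,4,3,5]],Ref.mk 1810 1958 [2,1,0,3] [[0,5,2,4,1,3],[0,1,2,3,4,5],[0,4,2,5,3,1],[0,2,1,4,3,5]],Ref.mk 1819 1960 [2,1,0,3] [[0,5,2,4,1,3],[0,1,2,3,4,5],[0,4,2,5,3,1],[0,2,1,4,3,5]],Ref.mk 1828 1958 [2,1,0,3] [[0,5,2,4,1,3],[0,1,2,5,4,3],[0,4,2,5,3,1],[0,2,1,4,3,5]],Ref.mk 1837 1962 [0,1,2,3] [[0,1,2,4,3,5],[0,6,2,3,4,5,1],[0,4,2,3,1,5],[0,2,1,3,4,5]],Ref.mk 2937 1639 [2,1,0,3] [[0,5,2,4,1,3],[0,1,2,3,4,5],[0,4,2,3,5,1],[0,2,1,4,3,5]],Ref.mk 1155 1954 [0,1,2,3] [[0,1,2,3,4,5],[0,1,2,3,4,5],[0,1,2,3,4,5],[0,1,2,3,4,5]],Ref.mk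 1164 1958 [0,1,2,3] [[0,1,2,3,4,5],[0,1,2,3,4,5],[0,1,2,3,4,5],[0,1,2,3,4,5]],Ref.mk 1173 1960 [0,1,2,3] [[0,1,2,3,4,5],[0,1,2,3,4,5],[0,1,2,3,4,5],[0,1,2,3,4,5]],Ref.mk 1182 1958 [0,1,2,3] [[0,1,2,3,4,5],[0,1,2,5,4,3],[0,1,2,3,4,5],[0,1,2,3,4,5]],Ref.mk 1191 1962 [2,1,0,3] [[0,5,2,1,4,3],[0,6,2,3,4,5,1],[0,3,2,5,4,1],[0,1,2,4,3,5]],Ref.mk 2940 1951 [2,1,0,3] [[0,5,2,4,1,3],[0,1,2,3,4,5],[0,4,2,5,3,6,1],[0,2,1,4,3,5]]],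
Node.mk [0,820,182,1542,2448,27,1057,3114,2225,2939,3663,45] [(1,0),(2,0),(2,1),(2,2),(2,3),(2,4)] [Ref.mk 2610 1952 [0,1,2,3] [[0,1,2,3,4,5],[0,1,2,3,4,5],[0,1,2,3,4,5],[0,1,2,3,4,5]],Ref.mk 1146 1953 [0,1,2,3] [[0,1,2,3,4,5],[0,1,2,3,4,5],[0,1,2,3,4,5],[0,1,2,3,4,5]],Ref.mk 1155 1954 [0,1,2,3] [[0,1,2,3,4,5],[0,1,2,3,4,5],[0,1,2,3,4,5],[0,1,2,3,4,5]],Ref.mk 1164 1959 [0,1,2,3] [[0,1,2,3,4,5],[0,1,2,3,4,5],[0,1,2,3,4,5],[0,1,2,3,4,5]],Ref.mk 1173 1960 [0,1,2,3] [[0,1,2,3,4,5],[0,1,2,3,4,5],[0,1,2,3,4,5],[0,1,2,3,4,5]],Ref.mk 1182 1959 [0,1,2,3] [[0,1,2,3,4,5],[0,1,2,5,4,3],[0,1,2,3,4,5],[0,1,2,3,4,5]],Ref.mk 1191 1963 [0,1,2,3] [[0,1,2,3,4,5],[0,1,2,3,4,5,6],[0,1,2,3,4,5],[0,1,2,3,4,5]],Ref.mk 1876 1964 [0,1,2,3] [[0,1,2,3,4,5],[0,1,2,3,4,5],[0,1,2,3,4,5],[0,1,2,3,4,5]]],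
Node.mk [0,820,182,1542,2448,27,1057,3114,2225,2939,3663,1828,2940,860] [(0,0),(0,1),(0,2),(1,2),(2,1),(3,1)] [Ref.mk 1796 1926 [0,1,2,3] [[0,1,2,3,4,5],[0,1,2,3,4],[0,1,2,3,4],[0,1,2,3,4]]],
Node.mk [0,820,182,1542,2448,27,1057,3114,2225,2939,3663,1828,2940,862] [(0,0),(0,1),(0,2),(1,2),(2,1),(3,1)] [Ref.mk 1798 1926 [0,1,2,3] [[0,1,2,3,4,7],[0,1,2,3,4],[0,1,2,3,4],[0,1,2,3,4]]],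
Node.mk [0,820,182,1542,2448,27,1057,3114,2225,2939,3663,1828,2940] [(0,0),(0,1),(0,2),(0,3),(0,4),(1,2)] [Ref.mk 1544 1922 [0,1,3,2] [[0,1,2,4,3,5],[0,1,4,3,2],[0,1,3,4,2],[0,1,4,2,3]],Ref.mk 1058 1922 [0,1,2,3] [[0,1,2,3,4,5],[0,1,2,3,4],[0,1,2,3,4],[0,1,2,3,4]],Ref.mk 1796 1966 [0,1,2,3] [[0,1,2,4,3,5,6],[0,5,2,3,4,1],[0,4,2,3,1],[0,2,1,3,4,5]],Ref.mk 860 1966 [0,1,2,3] [[0,1,2,3,4,5,6],[0,1,2,3,4,5],[0,1,2,3,4],[0,1,2,3,4,5]],Ref.mk 1545 1922 [0,1,3,2] [[0,1,2,4,3,6],[0,1,4,3,2],[0,1,3,4,2],[0,1,4,2,3]],Ref.mk 1059 1922 [0,1,2,3] [[0,1,2,3,4,6],[0,1,2,3,4],[0,1,2,3,4],[0,1,2,3,4]],Ref.mk 1797 1966 [0,1,2,3] [[0,1,2,4,3,6,5],[0,5,2,3,4,1],[0,4,2,3,1],[0,2,1,3,4,5]],Ref.mk 861 1966 [0,1,2,3] [[0,1,2,3,4,6,5],[0,1,2,3,4,5],[0,1,2,3,4],[0,1,2,3,4,5]],Ref.mk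 1546 1922 [0,1,3,2] [[0,1,2,4,3,7],[0,1,4,3,2],[0,1,3,4,2],[0,1,4,2,3]],Ref.mk 1060 1922 [0,1,2,3] [[0,1,2,3,4,7],[0,1,2,3,4],[0,1,2,3,4],[0,1,2,3,4]],Ref.mk 1798 1967 [0,1,2,3] [[0,1,2,4,3,5,6,7],[0,5,2,3,4,1],[0,4,2,3,1],[0,2,1,3,4,5]],Ref.mk 862 1967 [0,1,2,3] [[0,1,2,3,4,5,6,7],[0,1,2,3,4,5],[0,1,2,3,4],[0,1,2,3,4,5]]],
Node.mk [0,820,182,1542,2448,27,1057,3114,2225,2939,3663,1828,861] [(0,0),(0,1),(0,2),(1,2),(2,1),(3,1)] [Ref.mk 1797 1926 [0,1,2,3] [[0,1,2,3,4,6],[0,1,2,3,4],[0,1,2,3,4],[0,1,2,3,4]]],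
Node.mk [0,820,182,1542,2448,27,1057,3114,2225,2939,3663,1828] [(0,0),(0,1),(0,2),(0,3),(0,4),(0,5)] [Ref.mk 1545 1922 [0,1,3,2] [[0,1,2,4,3,6],[0,1,4,3,2],[0,1,3,4,2],[0,1,4,2,3]],Ref.mk 1059 1922 [0,1,2,3] [[0,1,2,3,4,6],[0,1,2,3,4],[0,1,2,3,4],[0,1,2,3,4]],Ref.mk 1797 1969 [0,1,2,3] [[0,1,2,4,3,5,6],[0,5,2,3,4,1],[0,4,2,3,1],[0,2,1,3,4,5]],Ref.mk 2940 1968 [0,1,2,3] [[0,1,2,3,4,5,6],[0,1,2,3,4,5],[0,1,2,3,4],[0,1,2,3,4,5]],Ref.mk 861 1969 [0,1,2,3] [[0,1,2,3,4,5,6],[0,1,2,3,4,5],[0,1,2,3,4],[0,1,2,3,4,5]]],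
Node.mk [0,820,182,1542,2448,27,1057,3114,2225,2939,3663,777] [(0,0),(0,2),(0,3),(1,0),(2,0),(2,1)] [Ref.mk 1828 1970 [0,1,2,3] [[0,1,2,3,4,5],[0,1,2,3,4,5],[0,1,2,3,4],[0,1,2,3,4,5]]],
Node.mk [0,820,182,1542,2448,27,1057,3114,2225,2939,3663,939] [(0,0),(0,3),(0,4),(2,0),(2,2),(3,1)] [Ref.mk 1828 1970 [0,1,2,3] [[0,1,2,3,4,5],[0,1,2,3,4,5],[0,1,2,3,4],[0,1,2,3,4,5]]],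
Node.mk [0,820,182,1542,2448,27,1057,3114,2225,2939,3663,1020,1714,2610,825] [(0,0),(0,2),(0,3),(0,4),(1,2),(3,1)] [],
Node.mk [0,820,182,1542,2448,27,1057,3114,2225,2939,3663,1020,1714,2610,2940] [(0,0),(0,1),(0,2),(0,3),(0,4),(1,2)] [Ref.mk 977 1530 [0,2,1,3] [[0,1,2,4,5,6],[3,1,0,5,2,4],[2,1,4,0,3],[3,1,2,0,4,5]],Ref.mk 824 1973 [0,1,2,3] [[0,1,2,3,4,6,5],[0,1,2,3,4,5],[0,1,2,3,4,5],[0,1,2,3,4,5]],Ref.mk 978 1530 [0,2,1,3] [[0,1,2,4,6,5],[3,1,0,5,2,4],[2,1,4,0,3],[3,1,2,0,4,5]],Ref.mk 825 1973 [0,1,2,3] [[0,1,2,3,4,5,6],[0,1,2,3,4,5],[0,1,2,3,4,5],[0,1,2,3,4,5]],Ref.mk 979 1741 [0,1,2,3] [[0,1,2,3,7],[0,1,2,3],[0,1,2,3],[0,1,2,3]],Ref.mk 826 1973 [0,1,2,3] [[0,1,2,3,4,6,7],[0,1,2,3,4,5],[0,1,2,3,4,5],[0,1,2,3,4,5]]],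
Node.mk [0,820,182,1542,2448,27,1057,3114,2225,2939,3663,1020,1714,2610] [(0,0),(0,1),(0,2),(0,3),(0,4),(0,5)] [Ref.mk 978 1657 [0,2,1,3] [[0,1,2,4,6,5],[3,1,0,5,2,4],[2,1,4,0,3],[3,1,2,0,4,5]],Ref.mk 825 1973 [0,1,2,3] [[0,1,2,3,4,5,6],[0,1,2,3,4,5],[0,1,2,3,4,5],[0,1,2,3,4,5]],Ref.mk 2940 1974 [0,1,2,3] [[0,1,2,3,4,5,6],[0,1,2,3,4,5],[0,1,2,3,4,5],[0,1,2,3,4,5]]],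
Node.mk [0,820,182,1542,2448,27,1057,3114,2225,2939,3663,1020,1714] [(2,0),(2,1),(2,2),(2,3),(2,4),(3,1)] [Ref.mk 2610 1975 [0,1,2,3] [[0,1,2,3,4,5],[0,1,2,3,4,5],[0,1,2,3,4,5],[0,1,2,3,4,5]]],
Node.mk [0,820,182,1542,2448,27,1057,3114,2225,2939,3663,1020] [(0,0),(0,2),(0,3),(1,0),(1,2),(2,1)] [Ref.mk 1828 1970 [0,1,2,3] [[0,1,2,3,4,5],[0,1,2,3,4,5],[0,1,2,3,4],[0,1,2,3,4,5]],Ref.mk 1714 1976 [0,1,2,3] [[0,1,2,3,4,5],[0,1,2,3,4,5],[0,1,2,3,4],[0,1,2,3,4,5]]],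
Node.mk [0,820,182,1542,2448,27,1057,3114,2225,2939,3663,1101] [(0,0),(0,2),(1,2),(2,1),(2,4),(3,1)] [],
Node.mk [0,820,182,1542,2448,27,1057,3114,2225,2939,3663,1182] [(0,0),(0,2),(0,3),(1,0),(1,2),(2,1)] [Ref.mk 1828 1970 [0,1,2,3] [[0,1,2,3,4,5],[0,1,2,3,4,5],[0,1,2,3,4],[0,1,2,3,4,5]],Ref.mk 1876 1970 [2,1,0,3] [[0,5,2,1,4,3],[0,5,2,3,4,1],[0,3,2,5,4],[0,1,2,4,3,5]]],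
Node.mk [0,820,182,1542,2448,27,1057,3114,2225,2939,3663] [(1,0),(1,1),(1,2),(1,3),(1,4),(2,1)] [Ref.mk 45 1965 [0,1,2,3] [[0,1,2,3,4,5],[0,1,2,3,4,5],[0,1,2,3,4],[0,1,2,3,4,5]],Ref.mk 1828 1970 [0,1,2,3] [[0,1,2,3,4,5],[0,1,2,3,4,5],[0,1,2,3,4],[0,1,2,3,4,5]],Ref.mk 777 1971 [0,1,2,3] [[0,1,2,3,4,5],[0,1,2,3,4,5],[0,1,2,3,4],[0,1,2,3,4,5]],Ref.mk 939 1972 [0,1,2,3] [[0,1,2,3,4,5],[0,1,2,3,4,5],[0,1,2,3,4],[0,1,2,3,4,5]],Ref.mk 1020 1977 [0,1,2,3] [[0,1,2,3,4,5],[0,1,2,3,4,5],[0,1,2,3,4],[0,1,2,3,4,5]],Ref.mk 1101 1978 [0,1,2,3] [[0,1,2,3,4,5],[0,1,2,3,4,5],[0,1,2,3,4],[0,1,2,3,4,5]],Ref.mk 1182 1979 [0,1,2,3] [[0,1,2,3,4,5],[0,1,2,3,4,5],[0,1,2,3,4,5],[0,1,2,3,4,5]]],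
Node.mk [0,820,182,1542,2448,27,1057,3114,2225,2939,3970] [(0,0),(1,0),(1,2),(1,4),(2,1),(2,4)] [],
Node.mk [0,820,182,1542,2448,27,1057,3114,2225,2939,4051,3981,2940] [(0,0),(0,1),(0,2),(0,3),(0,4),(1,2)] [Ref.mk 3731 1924 [0,1,3,2] [[0,1,2,4,3,5],[0,1,4,3,2],[0,1,3,4,2,5],[0,1,4,2,3]],Ref.mk 1058 1681 [2,1,0,3] [[0,1,2,5,4,3],[0,1,2,3,4],[0,1,2,5,6,3],[0,1,5,4,3,2]],Ref.mk 3732 1924 [0,1,3,2] [[0,1,2,4,3,6],[0,1,4,3,2],[0,1,3,4,2,5],[0,1,4,2,3]],Ref.mk 1059 1681 [2,1,0,3] [[0,1,2,5,4,3],[0,1,2,3,4],[0,1,2,6,5,3],[0,1,5,4,3,2]],Ref.mk 3733 1924 [0,1,3,2] [[0,1,2,4,3,7],[0,1,4,3,2],[0,1,3,4,2,5],[0,1,4,2,3]],Ref.mk 1060 1922 [0,1,2,3] [[0,1,2,3,4,7],[0,1,2,3,4],[0,1,2,3,4],[0,1,2,3,4]]],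
Node.mk [0,820,182,1542,2448,27,1057,3114,2225,2939,4051,3981] [(0,0),(0,1),(0,2),(0,3),(0,4),(0,5)] [Ref.mk 3732 1981 [0,1,2,3] [[0,3,2,4,6,5],[0,1,2,3,4],[0,4,2,3,1],[0,5,1,3,4,2]],Ref.mk 1059 1922 [0,1,2,3] [[0,1,2,3,4,6],[0,1,2,3,4],[0,1,2,3,4],[0,1,2,3,4]],Ref.mk 2940 1982 [0,1,2,3] [[0,1,2,3,4,5,6],[0,1,2,3,4],[0,1,2,3,4,5],[0,1,2,3,4,5]]]]

/-- nodes -/
noncomputable def c31 : List Node := [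
Node.mk [0,820,182,1542,2448,27,1057,3114,2225,2939,4051] [(0,0),(0,1),(1,2),(1,4),(2,1),(3,1)] [Ref.mk 3981 1983 [0,1,2,3] [[0,1,2,3,4,5],[0,1,2,3,4],[0,1,2,3,4,5],[0,1,2,3,4,5]],Ref.mk 1876 1983 [0,1,2,3] [[0,4,2,1,3,5],[0,1,2,3,4],[0,5,2,3,1,4],[0,2,5,3,4,1]]],
Node.mk [0,820,182,1542,2448,27,1057,3114,2225,2939,3981,2610,825] [(0,0),(0,2),(1,1),(1,2),(2,1),(3,1)] [],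
Node.mk [0,820,182,1542,2448,27,1057,3114,2225,2939,3981,2610,2940] [(0,0),(0,1),(0,2),(0,3),(0,4),(1,2)] [Ref.mk 3731 1924 [0,1,3,2] [[0,1,2,4,3,5],[0,1,4,3,2],[0,1,3,4,2,5],[0,1,4,2,3]],Ref.mk 1058 1922 [0,1,2,3] [[0,1,2,3,4,5],[0,1,2,3,4],[0,1,2,3,4],[0,1,2,3,4]],Ref.mk 824 1985 [0,1,2,3] [[0,1,2,3,4,6,5],[0,1,2,3,4],[0,1,2,3,4,5],[0,1,2,3,4,5]],Ref.mk 1796 1926 [0,1,2,3] [[0,1,2,3,4,5],[0,1,2,3,4],[0,1,2,3,4],[0,1,2,3,4]],Ref.mk 3732 1924 [0,1,3,2] [[0,1,2,4,3,6],[0,1,4,3,2],[0,1,3,4,2,5],[0,1,4,2,3]],Ref.mk 1059 1922 [0,1,2,3] [[0,1,2,3,4,6],[0,1,2,3,4],[0,1,2,3,4],[0,1,2,3,4]],Ref.mk 825 1985 [0,1,2,3] [[0,1,2,3,4,5,6],[0,1,2,3,4],[0,1,2,3,4,5],[0,1,2,3,4,5]],Ref.mk 1797 1926 [0,1,2,3] [[0,1,2,3,4,6],[0,1,2,3,4],[0,1,2,3,4],[0,1,2,3,4]],Ref.mk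 3733 1924 [0,1,3,2] [[0,1,2,4,3,7],[0,1,4,3,2],[0,1,3,4,2,5],[0,1,4,2,3]],Ref.mk 1060 1922 [0,1,2,3] [[0,1,2,3,4,7],[0,1,2,3,4],[0,1,2,3,4],[0,1,2,3,4]],Ref.mk 826 1985 [0,1,2,3] [[0,1,2,3,4,6,7],[0,1,2,3,4],[0,1,2,3,4,5],[0,1,2,3,4,5]],Ref.mk 1798 1926 [0,1,2,3] [[0,1,2,3,4,7],[0,1,2,3,4],[0,1,2,3,4],[0,1,2,3,4]]],
Node.mk [0,820,182,1542,2448,27,1057,3114,2225,2939,3981,2610] [(0,0),(0,1),(0,2),(0,3),(0,4),(0,5)] [Ref.mk 3732 1981 [0,1,2,3] [[0,3,2,4,6,5],[0,1,2,3,4],[0,4,2,5,1],[0,5,1,3,4,2]],Ref.mk 1059 1922 [0,1,2,3] [[0,1,2,3,4,6],[0,1,2,3,4],[0,1,2,3,4],[0,1,2,3,4]],Ref.mk 825 1985 [0,1,2,3] [[0,1,2,3,4,5,6],[0,1,2,3,4],[0,1,2,3,4,5],[0,1,2,3,4,5]],Ref.mk 1797 1926 [0,1,2,3] [[0,1,2,3,4,6],[0,1,2,3,4],[0,1,2,3,4],[0,1,2,3,4]],Ref.mk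 2940 1986 [0,1,2,3] [[0,1,2,3,4,5,6],[0,1,2,3,4],[0,1,2,3,4,5],[0,1,2,3,4,5]]],
Node.mk [0,820,182,1542,2448,27,1057,3114,2225,2939,3981,1876,825] [(0,0),(0,3),(0,4),(1,1),(1,2),(1,4)] [],
Node.mk [0,820,182,1542,2448,27,1057,3114,2225,2939,3981,1876] [(0,0),(0,1),(0,2),(0,3),(0,4),(0,5)] [Ref.mk 825 1988 [0,1,2,3] [[0,1,2,3,4,5,6],[0,1,2,3,4],[0,1,2,3,4,5],[0,1,2,3,4,5]],Ref.mk 1797 1926 [0,1,2,3] [[0,1,2,3,4,6],[0,1,2,3,4],[0,1,2,3,4],[0,1,2,3,4]],Ref.mk 2940 1987 [2,1,0,3] [[0,5,2,4,1,3],[0,1,2,3,4],[0,4,2,5,3,6],[0,2,1,4,3,5]]],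
Node.mk [0,820,182,1542,2448,27,1057,3114,2225,2939,3981] [(0,3),(2,0),(2,1),(2,2),(2,3),(2,4)] [Ref.mk 2610 1987 [0,1,2,3] [[0,1,2,3,4,5],[0,1,2,3,4],[0,1,2,3,4,5],[0,1,2,3,4,5]],Ref.mk 4051 1983 [0,1,2,3] [[0,1,2,3,4,5],[0,1,2,3,4],[0,1,2,3,4,5],[0,1,2,3,4,5]],Ref.mk 1876 1989 [0,1,2,3] [[0,1,2,3,4,5],[0,1,2,3,4],[0,1,2,3,4,5],[0,1,2,3,4,5]]],
Node.mk [0,820,182,1542,2448,27,1057,3114,2225,2939] [(2,1),(3,0),(3,1),(3,2),(3,3),(3,4)] [Ref.mk 3663 1980 [0,1,2,3] [[0,1,2,3,4,5],[0,1,2,3,4],[0,1,2,3,4],[0,1,2,3,4,5]],Ref.mk 3646 26 [3,1,2,0] [[0,1,3,2,5],[0,1,2,3],[0,1,3,2],[0,1,3,2]],Ref.mk 3808 1741 [3,1,2,0] [[0,1,3,2,5],[0,1,2,3],[0,1,3,2],[0,1,3,2]],Ref.mk 3889 98 [3,1,2,0] [[0,1,3,2,5],[0,1,2,3],[0,1,3,2],[0,1,3,2]],Ref.mk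 3970 1981 [0,1,2,3] [[0,1,2,3,4,5],[0,1,2,3,4],[0,1,2,3,4],[0,1,2,3,4,5]],Ref.mk 4051 1984 [0,1,2,3] [[0,1,2,3,4,5],[0,1,2,3,4],[0,1,2,3,4,5],[0,1,2,3,4,5]],Ref.mk 3981 1990 [0,1,2,3] [[0,1,2,3,4,5],[0,1,2,3,4],[0,1,2,3,4],[0,1,2,3,4,5]]],
Node.mk [0,820,182,1542,2448,27,1057,3114,2225] [(0,0),(0,1),(0,2),(0,3),(0,4),(2,1)] [Ref.mk 734 26 [0,1,2,3] [[0,1,2,3,5],[0,1,2,3],[0,1,2,3],[0,1,2,3]],Ref.mk 896 98 [0,1,2,3] [[0,1,2,3,5],[0,1,2,3],[0,1,2,3],[0,1,2,3]],Ref.mk 977 1702 [0,1,2,3] [[0,1,2,3,5],[0,1,2,3,4],[0,1,2,3],[0,1,2,3,4]],Ref.mk 1058 1922 [0,1,2,3] [[0,1,2,3,4,5],[0,1,2,3,4],[0,1,2,3,4],[0,1,2,3,4]],Ref.mk 1139 1924 [0,1,2,3] [[0,1,2,3,4,5],[0,1,2,3,4],[0,1,2,3,4,5],[0,1,2,3,4]],Ref.mk 1796 1926 [0,1,2,3] [[0,1,2,3,4,5],[0,1,2,3,4],[0,1,2,3,4],[0,1,2,3,4]],Ref.mk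 2939 1991 [0,1,2,3] [[0,1,2,3,4,5],[0,1,2,3,4],[0,1,2,3,4],[0,1,2,3,4]],Ref.mk 284 1991 [0,1,3,2] [[0,1,2,4,3,5],[0,1,4,3,2],[0,1,3,4,2],[0,1,4,2,3]]],
Node.mk [0,820,182,1542,2448,27,1057,3114,281] [(0,0),(0,1),(1,1),(2,1),(3,0),(3,1)] [Ref.mk 2936 1992 [0,1,2,3] [[0,1,2,3,4],[0,1,4,3,2],[0,1,3,2,4],[0,1,2,4,3]],Ref.mk 2225 1992 [0,1,2,3] [[0,1,2,3,4],[0,1,2,3,4],[0,1,2,3,4],[0,1,2,3,4]]],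
Node.mk [0,820,182,1542,2448,27,1057,3114,282] [(0,0),(0,3),(1,0),(2,1),(3,0),(3,2)] [Ref.mk 2225 1992 [0,1,2,3] [[0,1,2,3,4],[0,1,2,3,4],[0,1,2,3,4],[0,1,2,3,4]]],
Node.mk [0,820,182,1542,2448,27,1057,3114,283] [(0,0),(0,4),(1,0),(2,4),(3,0),(3,1)] [Ref.mk 2225 1992 [0,1,2,3] [[0,1,2,3,4],[0,1,2,3,4],[0,1,2,3,4],[0,1,2,3,4]]],
Node.mk [0,820,182,1542,2448,27,1057,3114,284] [(0,0),(0,1),(1,1),(2,1),(3,0),(3,1)] [Ref.mk 2225 1991 [0,1,3,2] [[0,1,2,4,3,5],[0,1,4,3,2],[0,1,3,4,2],[0,1,4,2,3]],Ref.mk 2939 1991 [0,1,3,2] [[0,1,5,4,3,2],[0,1,2,3,4],[0,1,4,3,2],[0,1,4,3,2]]],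
Node.mk [0,820,182,1542,2448,27,1057,3114] [(0,0),(0,1),(1,1),(1,2),(2,1),(3,1)] [Ref.mk 2225 1992 [0,1,2,3] [[0,1,2,3,4],[0,1,2,3,4],[0,1,2,3,4],[0,1,2,3,4]],Ref.mk 281 1993 [0,1,2,3] [[0,1,2,3,4],[0,1,2,3,4],[0,1,2,3,4],[0,1,2,3,4]],Ref.mk 282 1994 [0,1,2,3] [[0,1,2,3,4],[0,1,2,3,4],[0,1,2,3,4],[0,1,2,3,4]],Ref.mk 283 1995 [0,1,2,3] [[0,1,2,3,4],[0,1,2,3,4],[0,1,2,3,4],[0,1,2,3,4]],Ref.mk 284 1996 [0,1,2,3] [[0,1,2,3,4,5],[0,1,2,3,4],[0,1,2,3,4],[0,1,2,3,4]]],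
Node.mk [0,820,182,1542,2448,27,1057,3241,2377,2225] [(0,1),(2,1),(3,0),(3,1),(3,2),(3,3)] [Ref.mk 3114 1992 [0,1,2,3] [[0,1,2,3,4],[0,1,2,3,4],[0,1,2,3,4],[0,1,2,3,4]],Ref.mk 3843 1992 [0,1,2,3] [[0,1,2,3,4],[0,1,2,3,4],[0,1,2,3,4],[0,1,2,3,5]]],
Node.mk [0,820,182,1542,2448,27,1057,3241,2377] [(0,0),(0,1),(1,0),(1,1),(1,2),(1,3)] [Ref.mk 2225 1998 [0,1,2,3] [[0,1,2,3,4],[0,1,2,3,4],[0,1,2,3,4],[0,1,2,3,4]]],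
Node.mk [0,820,182,1542,2448,27,1057,3241] [(0,0),(1,0),(2,0),(2,1),(2,4),(3,0)] [Ref.mk 2377 1999 [0,1,2,3] [[0,1,2,3,4],[0,1,2,3],[0,1,2,3,4],[0,1,2,3,4]],Ref.mk 1001 1999 [3,1,2,0] [[0,1,3,2,4],[0,1,2,3],[0,1,3,2,4],[0,1,3,2,4]]],
Node.mk [0,820,182,1542,2448,27,1057,3322,3252,2999] [(0,0),(0,1),(1,0),(2,0),(3,0),(3,4)] [],
Node.mk [0,820,182,1542,2448,27,1057,3322,3252,1055] [(0,0),(0,1),(0,3),(1,0),(2,0),(3,0)] [],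
Node.mk [0,820,182,1542,2448,27,1057,3322,3252,3002] [(0,0),(0,1),(1,0),(2,0),(3,0),(3,4)] [],
Node.mk [0,820,182,1542,2448,27,1057,3322,3252,1058] [(0,0),(0,1),(0,3),(1,0),(2,0),(3,0)] [],
Node.mk [0,820,182,1542,2448,27,1057,3322,3252] [(0,0),(0,1),(0,3),(0,4),(2,0),(3,0)] [Ref.mk 2999 2001 [0,1,2,3] [[0,1,2,3,4],[0,1,2,3],[0,1,2,3,4,5],[0,1,2,3,4]],Ref.mk 1055 2002 [0,1,2,3] [[0,1,2,3,4],[0,1,2,3],[0,1,2,3,4,5],[0,1,2,3,4]],Ref.mk 3002 2003 [0,1,2,3] [[0,1,2,3,4,5],[0,1,2,3],[0,1,2,3,4,5],[0,1,2,3,4]],Ref.mk 1058 2004 [0,1,2,3] [[0,1,2,3,4,5],[0,1,2,3],[0,1,2,3,4,5],[0,1,2,3,4]]],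
Node.mk [0,820,182,1542,2448,27,1057,3322] [(0,0),(0,1),(2,0),(2,1),(3,0),(3,1)] [Ref.mk 3252 2005 [0,1,2,3] [[0,1,2,3,4],[0,1,2,3],[0,1,2,3,4,5],[0,1,2,3,4]],Ref.mk 1876 2005 [0,1,2,3] [[0,4,2,1,3],[0,1,2,3],[0,5,2,3,1,4],[0,2,4,3,1]]],
Node.mk [0,820,182,1542,2448,27,1057,3252,1633,1819,3037] [(0,0),(0,1),(0,3),(0,4),(2,0),(3,0)] [],
Node.mk [0,820,182,1542,2448,27,1057,3252,1633,1819] [(0,0),(0,3),(1,1),(2,0),(2,4),(3,0)] [Ref.mk 3079 64 [0,1,2,3] [[0,3,2,4,1],[0,1,2,3],[0,4,2,3,1],[0,4,1,3,2]],Ref.mk 3037 2007 [0,1,2,3] [[0,1,2,3,4],[0,1,2,3,4],[0,1,2,3,4],[0,1,2,3,4]]],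
Node.mk [0,820,182,1542,2448,27,1057,3252,1633,2225,1783] [(0,0),(0,1),(1,0),(1,1),(2,0),(3,0)] [],
Node.mk [0,820,182,1542,2448,27,1057,3252,1633,2225,1810,3028] [(0,0),(0,1),(0,3),(0,4),(2,0),(3,0)] [],
Node.mk [0,820,182,1542,2448,27,1057,3252,1633,2225,1810] [(0,0),(0,3),(1,1),(2,0),(2,4),(3,0)] [Ref.mk 3079 91 [0,1,2,3] [[0,3,2,4,1],[0,1,2,3],[0,4,2,3,1],[0,4,1,3,2]],Ref.mk 3028 2010 [0,1,2,3] [[0,1,2,3,4],[0,1,2,3,4],[0,1,2,3,4],[0,1,2,3,4]]],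
Node.mk [0,820,182,1542,2448,27,1057,3252,1633,2225] [(1,1),(1,2),(2,1),(3,0),(3,1),(3,3)] [Ref.mk 1656 1701 [0,1,3,2] [[0,1,2,4,3],[0,1,4,3,2],[0,1,3,2,4],[0,1,4,2,3]],Ref.mk 3114 1992 [0,1,2,3] [[0,1,2,3,4],[0,1,2,3,4],[0,1,2,3,4],[0,1,2,3,4]],Ref.mk 3843 1992 [0,1,2,3] [[0,1,2,3,4],[0,1,2,3,4],[0,1,2,3,4],[0,1,2,3,5]],Ref.mk 3079 64 [0,1,2,3] [[0,3,2,4,1],[0,1,2,3],[0,4,2,3,1],[0,4,1,3,2]],Ref.mk 1783 2009 [0,1,2,3] [[0,1,2,3,4],[0,1,2,3,4],[0,1,2,3,4],[0,1,2,3,4]],Ref.mk 1810 2011 [0,1,2,3] [[0,1,2,3,4],[0,1,2,3,4],[0,1,2,3,4],[0,1,2,3,4]],Ref.mk 1819 2008 [0,1,2,3] [[0,1,2,3,4],[0,1,2,3,4],[0,1,2,3,4],[0,1,2,3,4]],Ref.mk 1828 2008 [0,1,2,3] [[0,1,2,3,4],[0,1,2,3,5],[0,1,2,3,4],[0,1,2,3,4]]],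
Node.mk [0,820,182,1542,2448,27,1057,3252,1633,3037] [(0,0),(0,3),(0,4),(1,1),(2,0),(3,0)] [Ref.mk 3079 64 [0,1,2,3] [[0,3,2,4,1],[0,1,2,3],[0,4,2,3,1],[0,4,1,3,2]],Ref.mk 1819 2007 [0,1,2,3] [[0,1,2,3,4],[0,1,2,3,4],[0,1,2,3,4],[0,1,2,3,4]]],
Node.mk [0,820,182,1542,2448,27,1057,3252,1633] [(1,0),(1,1),(1,2),(1,3),(2,2),(3,0)] [Ref.mk 1819 2008 [0,1,2,3] [[0,1,2,3,4],[0,1,2,3,4],[0,1,2,3,4],[0,1,2,3,4]],Ref.mk 2225 2012 [0,1,2,3] [[0,1,2,3,4],[0,1,2,3,4],[0,1,2,3,4],[0,1,2,3,4]],Ref.mk 3037 2013 [0,1,2,3] [[0,1,2,3,4],[0,1,2,3,4],[0,1,2,3,4],[0,1,2,3,4]]],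
Node.mk [0,820,182,1542,2448,27,1057,3252,1876,821] [(0,0),(0,3),(0,4),(1,1),(2,0),(3,0)] [],
Node.mk [0,820,182,1542,2448,27,1057,3252,1876,1793] [(0,0),(0,1),(1,0),(1,1),(2,0),(3,0)] [],
Node.mk [0,820,182,1542,2448,27,1057,3252,1876,824] [(0,0),(0,3),(0,4),(1,1),(2,0),(3,0)] [],
Node.mk [0,820,182,1542,2448,27,1057,3252,1876,1796] [(0,0),(0,1),(1,0),(1,1),(2,0),(3,0)] [],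
Node.mk [0,820,182,1542,2448,27,1057,3252,1876] [(0,0),(0,1),(0,3),(0,4),(2,0),(3,0)] [Ref.mk 821 2015 [0,1,2,3] [[0,1,2,3,4],[0,1,2,3],[0,1,2,3,4,5],[0,1,2,3,4]],Ref.mk 1793 2016 [0,1,2,3] [[0,1,2,3,4],[0,1,2,3],[0,1,2,3,4,5],[0,1,2,3,4]],Ref.mk 824 2017 [0,1,2,3] [[0,1,2,3,4,5],[0,1,2,3],[0,1,2,3,4,5],[0,1,2,3,4]],Ref.mk 1796 2018 [0,1,2,3] [[0,1,2,3,4,5],[0,1,2,3],[0,1,2,3,4,5],[0,1,2,3,4]]],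
Node.mk [0,820,182,1542,2448,27,1057,3252] [(0,0),(0,3),(2,0),(2,1),(2,4),(3,0)] [Ref.mk 3079 91 [0,1,2,3] [[0,3,2,4,1],[0,1,2,3],[0,4,2,3,1],[0,4,1,3,2]],Ref.mk 3160 91 [3,1,2,0] [[0,1,3,2,4],[0,1,2,3],[0,1,3,2,4],[0,1,3,2,4]],Ref.mk 3322 2005 [0,1,2,3] [[0,1,2,3,4],[0,1,2,3],[0,1,2,3,4,5],[0,1,2,3,4]],Ref.mk 1633 2014 [0,1,2,3] [[0,1,2,3,4],[0,1,2,3],[0,1,2,3,4],[0,1,2,3,4]],Ref.mk 1714 2014 [3,1,2,0] [[0,4,3,1,2],[0,1,2,3],[0,4,3,2,1],[0,3,4,2,1]],Ref.mk 1876 2019 [0,1,2,3] [[0,1,2,3,4],[0,1,2,3],[0,1,2,3,4,5],[0,1,2,3,4]]],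
Node.mk [0,820,182,1542,2448,27,1057] [(1,2),(2,1),(3,0),(3,1),(3,2),(3,3)] [Ref.mk 3078 326 [3,1,2,0] [[0,1,3,2,4],[0,1,2,3],[0,1,3,2],[0,1,3,2]],Ref.mk 3087 1748 [0,1,2,3] [[0,1,2,3,4],[0,1,2,3],[0,1,2,3,4],[0,1,2,3,4]],Ref.mk 3105 1920 [0,1,2,3] [[0,1,2,3,4],[0,1,2,3],[0,1,2,3,4],[0,1,2,3,4]],Ref.mk 3114 1997 [0,1,2,3] [[0,1,2,3,4],[0,1,2,3,4],[0,1,2,3,4],[0,1,2,3,4]],Ref.mk 2917 26 [3,1,2,0] [[0,1,3,2,4],[0,1,2,3],[0,1,3,2],[0,1,3,2]],Ref.mk 3079 1741 [3,1,2,0] [[0,1,3,2,4],[0,1,2,3],[0,1,3,2],[0,1,3,2]],Ref.mk 3160 98 [3,1,2,0] [[0,1,3,2,4],[0,1,2,3],[0,1,3,2],[0,1,3,2]],Ref.mk 3241 2000 [0,1,2,3] [[0,1,2,3,4],[0,1,2,3],[0,1,2,3,4],[0,1,2,3,4]],Ref.mk 3322 2006 [0,1,2,3] [[0,1,2,3,4],[0,1,2,3],[0,1,2,3,4,5],[0,1,2,3,4]],Ref.mk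 3252 2020 [0,1,2,3] [[0,1,2,3,4],[0,1,2,3],[0,1,2,3,4],[0,1,2,3,4]]],
Node.mk [0,820,182,1542,2448,27,1471,2350,2529] [(0,0),(0,1),(1,1),(1,2),(2,0),(2,1)] [Ref.mk 895 98 [0,1,2,3] [[0,1,2,3,4],[0,1,2,3],[0,1,2,3],[0,1,2,3]],Ref.mk 976 1741 [0,1,2,3] [[0,1,2,3,4],[0,1,2,3],[0,1,2,3],[0,1,2,3]],Ref.mk 1057 2021 [0,1,2,3] [[0,1,2,3,4],[0,1,2,3],[0,1,2,3,4],[0,1,2,3]],Ref.mk 1138 2021 [0,1,2,3] [[0,1,2,3,4],[0,1,2,3],[0,1,2,3,5],[0,1,2,3]]],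
Node.mk [0,820,182,1542,2448,27,1471,2350,2523] [(1,1),(2,0),(2,2),(3,0),(3,2),(3,3)] [Ref.mk 1057 2021 [0,1,2,3] [[0,1,2,3,4],[0,1,2,3],[0,1,2,3,4],[0,1,2,3]]],
Node.mk [0,820,182,1542,2448,27,1471,2350,1057,1633,1544] [(0,0),(0,1),(0,4),(1,0),(2,0),(3,0)] [],
Node.mk [0,820,182,1542,2448,27,1471,2350,1057,1633,257] [(0,0),(0,1),(0,4),(1,0),(1,1),(1,2)] [],
Node.mk [0,820,182,1542,2448,27,1471,2350,1057,1633] [(0,0),(0,1),(0,2),(0,3),(0,4),(1,2)] [Ref.mk 1544 2024 [0,1,2,3] [[0,1,2,3,4,5],[0,1,2,3],[0,1,2,3,4],[0,1,2,3]],Ref.mk 248 326 [0,1,2,3] [[0,1,2,3,5],[0,1,2,3],[0,1,2,3],[0,1,2,3]],Ref.mk 257 2025 [0,1,2,3] [[0,1,2,3,4,5],[0,1,2,3],[0,1,2,3,4],[0,1,2,3]]],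
Node.mk [0,820,182,1542,2448,27,1471,2350,1057] [(0,0),(0,1),(2,0),(2,1),(3,0),(3,1)] [Ref.mk 2523 2023 [0,1,2,3] [[0,1,2,3,4],[0,1,2,3],[0,1,2,3,4],[0,1,2,3]],Ref.mk 1633 2026 [0,1,2,3] [[0,1,2,3,4],[0,1,2,3],[0,1,2,3,4],[0,1,2,3]]],
Node.mk [0,820,182,1542,2448,27,1471,2350] [(2,0),(2,1),(2,2),(2,3),(3,0),(3,2)] [Ref.mk 2529 2022 [0,1,2,3] [[0,1,2,3,4],[0,1,2,3],[0,1,2,3,4],[0,1,2,3]],Ref.mk 2523 2023 [0,1,2,3] [[0,1,2,3,4],[0,1,2,3],[0,1,2,3,4],[0,1,2,3]],Ref.mk 1057 2027 [0,1,2,3] [[0,1,2,3,4],[0,1,2,3],[0,1,2,3,4],[0,1,2,3]]],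
Node.mk [0,820,182,1542,2448,27,1471,2377,336,1001] [(0,0),(0,3),(3,0),(3,1),(3,2),(3,3)] [],
Node.mk [0,820,182,1542,2448,27,1471,2377,336] [(0,0),(0,1),(0,3),(1,1),(3,0),(3,3)] [Ref.mk 1001 2029 [0,1,2,3] [[0,1,2,3,4],[0,1,2,3],[0,1,2,3,4],[0,1,2,3]],Ref.mk 1057 2021 [0,1,2,3] [[0,1,2,3,4],[0,1,2,3],[0,1,2,3,4],[0,1,2,3]]],
Node.mk [0,820,182,1542,2448,27,1471,2377,2523] [(1,1),(2,0),(2,2),(3,0),(3,2),(3,3)] [Ref.mk 1057 2021 [0,1,2,3] [[0,1,2,3,4],[0,1,2,3],[0,1,2,3,4],[0,1,2,3]]],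
Node.mk [0,820,182,1542,2448,27,1471,2377,1057,1633,2935] [(0,0),(0,1),(0,4),(1,0),(2,0),(2,2)] [Ref.mk 336 2030 [0,1,2,3] [[0,1,2,3,4],[0,1,2,3],[0,1,2,3,4],[0,1,2,3]],Ref.mk 2523 2031 [0,1,2,3] [[0,1,2,3,4],[0,1,2,3],[0,1,2,3,4],[0,1,2,3]]],
Node.mk [0,820,182,1542,2448,27,1471,2377,1057,1633] [(0,0),(2,1),(3,0),(3,1),(3,2),(3,3)] [Ref.mk 2935 2032 [0,1,2,3] [[0,1,2,3,4],[0,1,2,3],[0,1,2,3,4],[0,1,2,3,4]]],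
Node.mk [0,820,182,1542,2448,27,1471,2377,1057] [(0,0),(0,1),(2,0),(2,1),(3,0),(3,1)] [Ref.mk 2523 2031 [0,1,2,3] [[0,1,2,3,4],[0,1,2,3],[0,1,2,3,4],[0,1,2,3]],Ref.mk 1633 2033 [0,1,2,3] [[0,1,2,3,4],[0,1,2,3],[0,1,2,3,4],[0,1,2,3]]],
Node.mk [0,820,182,1542,2448,27,1471,2377] [(0,0),(0,1),(2,0),(2,1),(2,2),(2,3)] [Ref.mk 336 2030 [0,1,2,3] [[0,1,2,3,4],[0,1,2,3],[0,1,2,3,4],[0,1,2,3]],Ref.mk 2523 2031 [0,1,2,3] [[0,1,2,3,4],[0,1,2,3],[0,1,2,3,4],[0,1,2,3]],Ref.mk 1057 2034 [0,1,2,3] [[0,1,2,3,4],[0,1,2,3],[0,1,2,3,4],[0,1,2,3]]],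
Node.mk [0,820,182,1542,2448,27,1471,974,2442] [(1,1),(1,2),(3,0),(3,1),(3,2),(3,3)] [Ref.mk 3078 326 [3,1,2,0] [[0,1,3,2,4],[0,1,2,3],[0,1,3,2],[0,1,3,2]]],
Node.mk [0,820,182,1542,2448,27,1471,974,3171] [(0,0),(1,1),(1,2),(2,0),(2,1),(2,3)] [],
Node.mk [0,820,182,1542,2448,27,1471,974] [(0,0),(2,0),(2,1),(3,0),(3,1),(3,2)] [Ref.mk 2350 2028 [0,1,2,3] [[0,1,2,3,4],[0,1,2,3],[0,1,2,3],[0,1,2,3]],Ref.mk 2442 2036 [0,1,2,3] [[0,1,2,3,4],[0,1,2,3],[0,1,2,3],[0,1,2,3]],Ref.mk 3171 2037 [0,1,2,3] [[0,1,2,3,4],[0,1,2,3],[0,1,2,3],[0,1,2,3,4]]],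
Node.mk [0,820,182,1542,2448,27,1471,1001,2442,2377] [(0,0),(0,1),(2,0),(2,1),(2,2),(2,3)] [Ref.mk 336 2029 [0,1,2,3] [[0,1,2,3,4],[0,1,2,3],[0,1,2,3,4],[0,1,2,3]]],
Node.mk [0,820,182,1542,2448,27,1471,1001,2442] [(0,0),(0,2),(0,3),(2,0),(2,1),(2,3)] [Ref.mk 2377 2039 [0,1,2,3] [[0,1,2,3,4],[0,1,2,3],[0,1,2,3],[0,1,2,3]]],
Node.mk [0,820,182,1542,2448,27,1471,1001,3171] [(0,0),(0,2),(0,3),(2,0),(2,1),(2,3)] [],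
Node.mk [0,820,182,1542,2448,27,1471,1001] [(0,0),(2,0),(2,1),(3,0),(3,1),(3,2)] [Ref.mk 2377 2035 [0,1,2,3] [[0,1,2,3,4],[0,1,2,3],[0,1,2,3],[0,1,2,3]],Ref.mk 2442 2040 [0,1,2,3] [[0,1,2,3,4],[0,1,2,3],[0,1,2,3],[0,1,2,3]],Ref.mk 3171 2041 [0,1,2,3] [[0,1,2,3,4],[0,1,2,3],[0,1,2,3],[0,1,2,3,4]]],
Node.mk [0,820,182,1542,2448,27,1471] [(0,0),(0,3),(2,0),(2,1),(3,0),(3,2)] [Ref.mk 2350 2028 [0,1,2,3] [[0,1,2,3,4],[0,1,2,3],[0,1,2,3],[0,1,2,3]],Ref.mk 2377 2035 [0,1,2,3] [[0,1,2,3,4],[0,1,2,3],[0,1,2,3],[0,1,2,3]],Ref.mk 974 2038 [0,1,2,3] [[0,1,2,3,4],[0,1,2,3],[0,1,2,3],[0,1,2,3]],Ref.mk 1001 2042 [0,1,2,3] [[0,1,2,3,4],[0,1,2,3],[0,1,2,3],[0,1,2,3]],Ref.mk 895 98 [0,1,2,3] [[0,1,2,3,4],[0,1,2,3],[0,1,2,3],[0,1,2,3]],Ref.mk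 976 1741 [0,1,2,3] [[0,1,2,3,4],[0,1,2,3],[0,1,2,3],[0,1,2,3]],Ref.mk 1057 2021 [0,1,2,3] [[0,1,2,3,4],[0,1,2,3],[0,1,2,3,4],[0,1,2,3]]],
Node.mk [0,820,182,1542,2448,27,1633,892,3090] [(0,0),(1,0),(1,1),(2,0),(2,2),(3,0)] [],
Node.mk [0,820,182,1542,2448,27,1633,892,3001] [(0,0),(0,1),(2,0),(2,1),(2,2),(3,0)] [Ref.mk 976 1741 [0,1,2,3] [[0,1,2,3,4],[0,1,2,3],[0,1,2,3],[0,1,2,3]],Ref.mk 1057 2021 [0,1,2,3] [[0,1,2,3,4],[0,1,2,3],[0,1,2,3,4],[0,1,2,3]]],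
Node.mk [0,820,182,1542,2448,27,1633,892] [(0,0),(1,2),(3,0),(3,1),(3,2),(3,3)] [Ref.mk 3079 1730 [3,1,2,0] [[0,1,3,2,4],[0,1,2,3],[0,1,3,2],[0,1,3,2,4]],Ref.mk 3007 1730 [3,1,2,0] [[0,4,3,2,1],[0,1,2,3],[0,1,3,2],[0,1,3,2,4]],Ref.mk 3090 2044 [0,1,2,3] [[0,1,2,3,4],[0,1,2,3],[0,1,2,3],[0,1,2,3,4]],Ref.mk 3001 2045 [0,1,2,3] [[0,1,2,3,4],[0,1,2,3],[0,1,2,3],[0,1,2,3,4]]],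
Node.mk [0,820,182,1542,2448,27,1633,2350,2442,972] [(0,0),(2,0),(2,1),(2,2),(2,3),(3,0)] []]

end Vale.Agent.P045.R4N2
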