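import Vale.Agent.P045.Check

/-! Certificate data. -/

namespace Vale.Agent.P045.R4N2

open Vale.Agent.P045

/-- nodes -/
noncomputable def c32 : List Node := [
Node.mk [0,820,182,1542,2448,27,1633,2350,2442] [(1,1),(1,2),(2,2),(3,0),(3,2),(3,3)] [Ref.mk 972 2047 [0,1,2,3] [[0,1,2,3,4],[0,1,2,3],[0,1,2,3],[0,1,2,3]],Ref.mk 976 1741 [0,1,2,3] [[0,1,2,3,4],[0,1,2,3],[0,1,2,3],[0,1,2,3]]],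
Node.mk [0,820,182,1542,2448,27,1633,2350,2523,1053] [(0,0),(2,0),(2,1),(2,2),(2,4),(3,0)] [],
Node.mk [0,820,182,1542,2448,27,1633,2350,2523] [(1,1),(1,2),(2,2),(3,0),(3,2),(3,3)] [Ref.mk 1053 2049 [0,1,2,3] [[0,1,2,3,4],[0,1,2,3],[0,1,2,3,4],[0,1,2,3]],Ref.mk 1057 2021 [0,1,2,3] [[0,1,2,3,4],[0,1,2,3],[0,1,2,3,4],[0,1,2,3]]],
Node.mk [0,820,182,1542,2448,27,1633,2350,976,3001] [(0,0),(1,0),(2,0),(2,1),(2,2),(3,0)] [],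
Node.mk [0,820,182,1542,2448,27,1633,2350,976] [(0,0),(1,2),(3,0),(3,1),(3,2),(3,3)] [Ref.mk 3079 1730 [3,1,2,0] [[0,1,3,2,4],[0,1,2,3],[0,1,3,2],[0,1,3,2,4]],Ref.mk 3001 2051 [0,1,2,3] [[0,1,2,3,4],[0,1,2,3],[0,1,2,3],[0,1,2,3,4]],Ref.mk 3028 1735 [0,1,2,3] [[0,1,2,3,4],[0,1,2,3],[0,1,2,3],[0,1,2,3,4]]],
Node.mk [0,820,182,1542,2448,27,1633,2350,1057,2935] [(0,1),(1,2),(2,0),(2,1),(2,2),(2,4)] [Ref.mk 247 326 [0,1,2,3] [[0,1,2,3,4],[0,1,2,3],[0,1,2,3],[0,1,2,3]],Ref.mk 976 2052 [0,1,2,3] [[0,1,2,3,4],[0,1,2,3],[0,1,2,3],[0,1,2,3]],Ref.mk 1138 2021 [0,1,2,3] [[0,1,2,3,4],[0,1,2,3],[0,1,2,3,5],[0,1,2,3]]],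
Node.mk [0,820,182,1542,2448,27,1633,2350,1057] [(0,0),(0,4),(3,0),(3,1),(3,2),(3,3)] [Ref.mk 3079 1730 [3,1,2,0] [[0,1,3,2,4],[0,1,2,3],[0,1,3,2],[0,1,3,2,4]],Ref.mk 2935 2053 [0,1,2,3] [[0,1,2,3,4],[0,1,2,3],[0,1,2,3,4],[0,1,2,3,4]],Ref.mk 2936 91 [2,1,3,0] [[0,1,3,4,2],[0,1,2,3],[0,1,3,4,2],[0,1,4,2,3]],Ref.mk 2937 87 [2,1,3,0] [[0,1,3,4,2],[0,1,2,3],[0,1,3,4,2],[0,1,4,3]],Ref.mk 2939 91 [2,1,3,0] [[0,1,3,4,2],[0,1,2,3],[0,1,3,4,2],[0,1,4,5,3]]],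
Node.mk [0,820,182,1542,2448,27,1633,2350] [(0,0),(0,1),(2,0),(2,1),(2,2),(3,0)] [Ref.mk 2442 2048 [0,1,2,3] [[0,1,2,3,4],[0,1,2,3],[0,1,2,3],[0,1,2,3]],Ref.mk 2523 2050 [0,1,2,3] [[0,1,2,3,4],[0,1,2,3],[0,1,2,3,4],[0,1,2,3]],Ref.mk 976 2052 [0,1,2,3] [[0,1,2,3,4],[0,1,2,3],[0,1,2,3],[0,1,2,3]],Ref.mk 1057 2054 [0,1,2,3] [[0,1,2,3,4],[0,1,2,3],[0,1,2,3,4],[0,1,2,3]]],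
Node.mk [0,820,182,1542,2448,27,1633,2377,2935] [(0,0),(0,1),(0,3),(2,0),(2,1),(2,2)] [Ref.mk 247 326 [0,1,2,3] [[0,1,2,3,4],[0,1,2,3],[0,1,2,3],[0,1,2,3]],Ref.mk 976 1741 [0,1,2,3] [[0,1,2,3,4],[0,1,2,3],[0,1,2,3],[0,1,2,3]],Ref.mk 1057 2021 [0,1,2,3] [[0,1,2,3,4],[0,1,2,3],[0,1,2,3,4],[0,1,2,3]]],
Node.mk [0,820,182,1542,2448,27,1633,2377,2937] [(0,0),(0,1),(0,3),(2,0),(2,1),(2,2)] [],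
Node.mk [0,820,182,1542,2448,27,1633,2377] [(2,1),(2,2),(3,0),(3,1),(3,2),(3,3)] [Ref.mk 2935 2056 [0,1,2,3] [[0,1,2,3,4],[0,1,2,3],[0,1,2,3],[0,1,2,3,4]],Ref.mk 2928 2041 [3,1,2,0] [[0,1,3,2,4],[0,1,2,3],[0,1,3,2],[0,1,3,2,4]],Ref.mk 2937 2057 [0,1,2,3] [[0,1,2,3,4],[0,1,2,3],[0,1,2,3],[0,1,2,3,4]]],
Node.mk [0,820,182,1542,2448,27,1633,893,2361] [(0,0),(1,1),(2,0),(2,1),(2,2),(3,0)] [],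
Node.mk [0,820,182,1542,2448,27,1633,893,3090] [(0,0),(1,0),(1,1),(2,0),(2,2),(3,0)] [],
Node.mk [0,820,182,1542,2448,27,1633,893] [(0,0),(2,0),(2,1),(3,0),(3,1),(3,2)] [Ref.mk 2350 2055 [0,1,2,3] [[0,1,2,3,4],[0,1,2,3],[0,1,2,3],[0,1,2,3]],Ref.mk 3079 1730 [3,1,2,0] [[0,1,3,2,4],[0,1,2,3],[0,1,3,2],[0,1,3,2,4]],Ref.mk 2377 2058 [0,1,2,3] [[0,1,2,3,4],[0,1,2,3],[0,1,2,3],[0,1,2,3]],Ref.mk 2361 2059 [0,1,2,3] [[0,1,2,3,4],[0,1,2,3],[0,1,2,3],[0,1,2,3]],Ref.mk 3090 2060 [0,1,2,3] [[0,1,2,3,4],[0,1,2,3],[0,1,2,3],[0,1,2,3,4]]],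
Node.mk [0,820,182,1542,2448,27,1633] [(0,0),(0,3),(2,0),(2,1),(3,0),(3,2)] [Ref.mk 892 2046 [0,1,2,3] [[0,1,2,3,4],[0,1,2,3],[0,1,2,3],[0,1,2,3]],Ref.mk 2350 2055 [0,1,2,3] [[0,1,2,3,4],[0,1,2,3],[0,1,2,3],[0,1,2,3]],Ref.mk 3079 1730 [3,1,2,0] [[0,1,3,2,4],[0,1,2,3],[0,1,3,2],[0,1,3,2,4]],Ref.mk 2377 2058 [0,1,2,3] [[0,1,2,3,4],[0,1,2,3],[0,1,2,3],[0,1,2,3]],Ref.mk 893 2061 [0,1,2,3] [[0,1,2,3,4],[0,1,2,3],[0,1,2,3],[0,1,2,3]],Ref.mk 895 81 [0,1,2,3] [[0,1,2,3,4],[0,1,2,3],[0,1,2,3],[0,1,2,3]],Ref.mk 976 1741 [0,1,2,3] [[0,1,2,3,4],[0,1,2,3],[0,1,2,3],[0,1,2,3]],Ref.mk 1057 2021 [0,1,2,3] [[0,1,2,3,4],[0,1,2,3],[0,1,2,3,4],[0,1,2,3]],Ref.mk 896 97 [0,1,2,3] [[0,1,2,3,5,4],[0,1,2,3],[0,1,2,3],[0,1,2,3]]],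
Node.mk [0,820,182,1542,2448,27,256,3087,2198,1480,2189] [(0,0),(0,1),(1,1),(2,0),(2,1),(2,2)] [Ref.mk 247 326 [0,1,2,3] [[0,1,2,3,4],[0,1,2,3],[0,1,2,3],[0,1,2,3]],Ref.mk 976 1741 [0,1,2,3] [[0,1,2,3,4],[0,1,2,3],[0,1,2,3],[0,1,2,3]],Ref.mk 1057 2021 [0,1,2,3] [[0,1,2,3,4],[0,1,2,3],[0,1,2,3,4],[0,1,2,3]]],
Node.mk [0,820,182,1542,2448,27,256,3087,2198,1480] [(0,0),(0,1),(1,1),(1,2),(2,1),(3,1)] [Ref.mk 2189 2063 [0,1,2,3] [[0,1,2,3,4],[0,1,2,3],[0,1,2,3],[0,1,2,3,4]],Ref.mk 247 326 [0,1,2,3] [[0,1,2,3,4],[0,1,2,3],[0,1,2,3],[0,1,2,3]]],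
Node.mk [0,820,182,1542,2448,27,256,3087,2198,2938] [(0,1),(1,1),(1,2),(2,0),(2,1),(3,1)] [Ref.mk 3078 326 [3,1,2,0] [[0,1,3,2,4],[0,1,2,3],[0,1,3,2],[0,1,3,2]],Ref.mk 247 326 [0,1,2,3] [[0,1,2,3,4],[0,1,2,3],[0,1,2,3],[0,1,2,3]]],
Node.mk [0,820,182,1542,2448,27,256,3087,2198,1481] [(0,0),(0,1),(1,1),(1,2),(2,0),(2,1)] [Ref.mk 895 98 [0,1,2,3] [[0,1,2,3,4],[0,1,2,3],[0,1,2,3],[0,1,2,3]],Ref.mk 896 98 [0,1,2,3] [[0,1,2,3,5],[0,1,2,3],[0,1,2,3],[0,1,2,3]],Ref.mk 248 326 [0,1,2,3] [[0,1,2,3,5],[0,1,2,3],[0,1,2,3],[0,1,2,3]],Ref.mk 977 1741 [0,1,2,3] [[0,1,2,3,5],[0,1,2,3],[0,1,2,3],[0,1,2,3]],Ref.mk 1058 2021 [0,1,2,3] [[0,1,2,3,5],[0,1,2,3],[0,1,2,3,4],[0,1,2,3]]],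
Node.mk [0,820,182,1542,2448,27,256,3087,2198] [(0,0),(0,1),(0,2),(0,3),(1,1),(2,1)] [Ref.mk 733 26 [0,1,2,3] [[0,1,2,3,4],[0,1,2,3],[0,1,2,3],[0,1,2,3]],Ref.mk 895 98 [0,1,2,3] [[0,1,2,3,4],[0,1,2,3],[0,1,2,3],[0,1,2,3]],Ref.mk 247 326 [0,1,2,3] [[0,1,2,3,4],[0,1,2,3],[0,1,2,3],[0,1,2,3]],Ref.mk 976 346 [0,1,2,3] [[0,1,2,3,4],[0,1,2,3],[0,1,2,3],[0,1,2,3,4]],Ref.mk 1057 1748 [0,1,2,3] [[0,1,2,3,4],[0,1,2,3],[0,1,2,3,4],[0,1,2,3,4]],Ref.mk 1480 2064 [0,1,2,3] [[0,1,2,3,4],[0,1,2,3],[0,1,2,3],[0,1,2,3,4]],Ref.mk 2938 2065 [0,1,2,3] [[0,1,2,3,4],[0,1,2,3],[0,1,2,3],[0,1,2,3,4]],Ref.mk 734 26 [0,1,2,3] [[0,1,2,3,5],[0,1,2,3],[0,1,2,3],[0,1,2,3]],Ref.mk 896 98 [0,1,2,3] [[0,1,2,3,5],[0,1,2,3],[0,1,2,3],[0,1,2,3]],Ref.mk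 248 326 [0,1,2,3] [[0,1,2,3,5],[0,1,2,3],[0,1,2,3],[0,1,2,3]],Ref.mk 977 346 [0,1,2,3] [[0,1,2,3,5],[0,1,2,3],[0,1,2,3],[0,1,2,3,4]],Ref.mk 1058 1748 [0,1,2,3] [[0,1,2,3,5],[0,1,2,3],[0,1,2,3,4],[0,1,2,3,4]],Ref.mk 1481 2066 [0,1,2,3] [[0,1,2,3,4,5],[0,1,2,3],[0,1,2,3],[0,1,2,3,4]]],
Node.mk [0,820,182,1542,2448,27,256,3087,2938] [(0,1),(1,1),(1,2),(2,0),(2,1),(3,1)] [Ref.mk 3078 325 [3,1,2,0] [[0,1,3,2,4],[0,1,2,3],[0,1,3,2],[0,1,3,2,4]],Ref.mk 247 325 [0,1,2,3] [[0,1,2,3,4],[0,1,2,3],[0,1,2,3],[0,1,2,3,4]]],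
Node.mk [0,820,182,1542,2448,27,256,3087] [(0,0),(0,3),(1,0),(2,1),(3,0),(3,2)] [Ref.mk 2198 2067 [0,1,2,3] [[0,1,2,3,4],[0,1,2,3],[0,1,2,3],[0,1,2,3,4]],Ref.mk 2938 2068 [0,1,2,3] [[0,1,2,3,4],[0,1,2,3],[0,1,2,3],[0,1,2,3,4]]],
Node.mk [0,820,182,1542,2448,27,256,3177,900,1001] [(1,2),(2,1),(3,0),(3,1),(3,2),(3,3)] [Ref.mk 3078 326 [3,1,2,0] [[0,1,3,2,4],[0,1,2,3],[0,1,3,2],[0,1,3,2]],Ref.mk 3807 326 [3,1,2,0] [[0,1,3,2,5],[0,1,2,3],[0,1,3,2],[0,1,3,2]],Ref.mk 2917 26 [3,1,2,0] [[0,1,3,2,4],[0,1,2,3],[0,1,3,2],[0,1,3,2]],Ref.mk 3646 26 [3,1,2,0] [[0,1,3,2,5],[0,1,2,3],[0,1,3,2],[0,1,3,2]],Ref.mk 3079 332 [3,1,2,0] [[0,1,3,2,4],[0,1,2,3],[0,1,3,2],[0,1,3,2,4]],Ref.mk 3808 332 [3,1,2,0] [[0,1,4,2,5],[0,1,2,3],[0,1,3,2],[0,1,3,2,4]],Ref.mk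 3160 98 [3,1,2,0] [[0,1,3,2,4],[0,1,2,3],[0,1,3,2],[0,1,3,2]],Ref.mk 3889 98 [3,1,2,0] [[0,1,3,2,5],[0,1,2,3],[0,1,3,2],[0,1,3,2]],Ref.mk 3241 1745 [3,1,2,0] [[0,1,3,2,4],[0,1,2,3],[0,1,3,2,4],[0,1,3,2,4]],Ref.mk 3970 1743 [3,1,2,0] [[0,1,3,2,5,4],[0,1,2,3],[0,1,3,2,4],[0,1,3,2,4]],Ref.mk 2928 2043 [3,1,2,0] [[0,1,3,2,4],[0,1,2,3],[0,1,3,2],[0,1,3,2]],Ref.mk 3657 2043 [3,1,2,0] [[0,1,3,2,5],[0,1,2,3],[0,1,3,2],[0,1,3,2]],Ref.mk 3171 2062 [3,1,2,0] [[0,1,3,2,4],[0,1,2,3],[0,1,3,2],[0,1,3,2]],Ref.mk 3900 2062 [3,1,2,0] [[0,1,3,2,5],[0,1,2,3],[0,1,3,2],[0,1,3,2]]],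
Node.mk [0,820,182,1542,2448,27,256,3177,900,751,1715] [(0,3),(2,1),(2,3),(3,0),(3,1),(3,2)] [],
Node.mk [0,820,182,1542,2448,27,256,3177,900,751,1796] [(0,0),(0,1),(1,1),(1,2),(2,1),(2,4)] [Ref.mk 247 326 [0,1,2,3] [[0,1,2,3,4],[0,1,2,3],[0,1,2,3],[0,1,2,3]],Ref.mk 734 26 [0,1,2,3] [[0,1,2,3,5],[0,1,2,3],[0,1,2,3],[0,1,2,3]],Ref.mk 896 98 [0,1,2,3] [[0,1,2,3,5],[0,1,2,3],[0,1,2,3],[0,1,2,3]],Ref.mk 248 326 [0,1,2,3] [[0,1,2,3,5],[0,1,2,3],[0,1,2,3],[0,1,2,3]],Ref.mk 977 1741 [0,1,2,3] [[0,1,2,3,5],[0,1,2,3],[0,1,2,3],[0,1,2,3]],Ref.mk 1139 2021 [0,1,2,3] [[0,1,2,3,5],[0,1,2,3],[0,1,2,3,5],[0,1,2,3]]],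
Node.mk [0,820,182,1542,2448,27,256,3177,900,751,1481] [(0,0),(0,1),(1,1),(1,2),(2,1),(3,1)] [Ref.mk 248 326 [0,1,2,3] [[0,1,2,3,5],[0,1,2,3],[0,1,2,3],[0,1,2,3]]],
Node.mk [0,820,182,1542,2448,27,256,3177,900,751,185,245] [(0,0),(2,1),(3,0),(3,1),(3,2),(3,3)] [Ref.mk 2917 26 [3,1,2,0] [[0,1,3,2,4],[0,1,2,3],[0,1,3,2],[0,1,3,2]],Ref.mk 3646 26 [3,1,2,0] [[0,1,3,2,5],[0,1,2,3],[0,1,3,2],[0,1,3,2]],Ref.mk 3079 346 [3,1,2,0] [[0,1,3,2,4],[0,1,2,3],[0,1,3,2],[0,1,3,2,4]],Ref.mk 3808 346 [3,1,2,0] [[0,1,3,2,5],[0,1,2,3],[0,1,3,2],[0,1,3,2,4]],Ref.mk 3160 98 [3,1,2,0] [[0,1,3,2,4],[0,1,2,3],[0,1,3,2],[0,1,3,2]],Ref.mk 3889 98 [3,1,2,0] [[0,1,3,2,5],[0,1,2,3],[0,1,3,2],[0,1,3,2]],Ref.mk 3241 1748 [3,1,2,0] [[0,1,3,2,4],[0,1,2,3],[0,1,3,2,4],[0,1,3,2,4]],Ref.mk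 3970 1748 [3,1,2,0] [[0,1,3,2,5],[0,1,2,3],[0,1,3,2,4],[0,1,3,2,4]],Ref.mk 2928 2043 [3,1,2,0] [[0,1,3,2,4],[0,1,2,3],[0,1,3,2],[0,1,3,2]],Ref.mk 3657 2043 [3,1,2,0] [[0,1,3,2,5],[0,1,2,3],[0,1,3,2],[0,1,3,2]],Ref.mk 3171 2062 [3,1,2,0] [[0,1,3,2,4],[0,1,2,3],[0,1,3,2],[0,1,3,2]],Ref.mk 3900 2062 [3,1,2,0] [[0,1,3,2,5],[0,1,2,3],[0,1,3,2],[0,1,3,2]]],
Node.mk [0,820,182,1542,2448,27,256,3177,900,751,185,246,1729] [(0,0),(0,1),(0,3),(3,0),(3,1),(3,2)] [],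
Node.mk [0,820,182,1542,2448,27,256,3177,900,751,185,246,1738] [(0,0),(0,1),(0,3),(3,0),(3,1),(3,2)] [],
Node.mk [0,820,182,1542,2448,27,256,3177,900,751,185,246] [(0,0),(0,3),(1,0),(1,1),(1,2),(2,1)] [Ref.mk 1729 2075 [0,1,2,3] [[0,1,2,3,4,5],[0,1,2,3],[0,1,2,3],[0,1,2,3,4]],Ref.mk 1738 2076 [0,1,2,3] [[0,1,2,3,4,5],[0,1,2,3,4],[0,1,2,3],[0,1,2,3,4]]],
Node.mk [0,820,182,1542,2448,27,256,3177,900,751,185,273] [(0,3),(2,1),(2,3),(3,0),(3,1),(3,2)] [],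
Node.mk [0,820,182,1542,2448,27,256,3177,900,751,185,282] [(0,3),(2,1),(2,3),(3,0),(3,1),(3,2)] [],
Node.mk [0,820,182,1542,2448,27,256,3177,900,751,185] [(0,0),(0,1),(1,1),(1,2),(2,1),(3,1)] [Ref.mk 245 2074 [0,1,2,3] [[0,1,2,3,4,5],[0,1,2,3],[0,1,2,3],[0,1,2,3,4]],Ref.mk 246 2077 [0,1,2,3] [[0,1,2,3,4,5],[0,1,2,3],[0,1,2,3],[0,1,2,3,4]],Ref.mk 273 2078 [0,1,2,3] [[0,1,2,3,4,5],[0,1,2,3],[0,1,2,3],[0,1,2,3,4]],Ref.mk 282 2079 [0,1,2,3] [[0,1,2,3,4,5],[0,1,2,3,4],[0,1,2,3],[0,1,2,3,4]],Ref.mk 247 326 [0,1,2,3] [[0,1,2,3,4],[0,1,2,3],[0,1,2,3],[0,1,2,3]],Ref.mk 248 2074 [0,1,2,3] [[0,1,5,3,4,2],[0,1,2,3],[0,1,2,3],[0,1,2,3,4]],Ref.mk 249 326 [0,1,2,3] [[0,1,2,3,6],[0,1,2,3],[0,1,2,3],[0,1,2,3]]],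
Node.mk [0,820,182,1542,2448,27,256,3177,900,751] [(0,0),(0,1),(0,2),(0,3),(0,4),(2,1)] [Ref.mk 734 26 [0,1,2,3] [[0,1,2,3,5],[0,1,2,3],[0,1,2,3],[0,1,2,3]],Ref.mk 896 98 [0,1,2,3] [[0,1,2,3,5],[0,1,2,3],[0,1,2,3],[0,1,2,3]],Ref.mk 248 326 [0,1,2,3] [[0,1,2,3,5],[0,1,2,3],[0,1,2,3],[0,1,2,3]],Ref.mk 977 1741 [0,1,2,3] [[0,1,2,3,5],[0,1,2,3],[0,1,2,3],[0,1,2,3]],Ref.mk 1058 2021 [0,1,2,3] [[0,1,2,3,5],[0,1,2,3],[0,1,2,3,4],[0,1,2,3]],Ref.mk 1472 2043 [0,1,2,3] [[0,1,2,3,5],[0,1,2,3],[0,1,2,3],[0,1,2,3]],Ref.mk 1634 2062 [0,1,2,3] [[0,1,2,3,5],[0,1,2,3],[0,1,2,3],[0,1,2,3]],Ref.mk 1715 2071 [0,1,2,3] [[0,1,2,3,4,5],[0,1,2,3],[0,1,2,3],[0,1,2,3,4]],Ref.mk 1796 2072 [0,1,2,3] [[0,1,2,3,4,5],[0,1,2,3],[0,1,2,3,4],[0,1,2,3,4]],Ref.mk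 1481 2073 [0,1,2,3] [[0,1,2,3,4,5],[0,1,2,3],[0,1,2,3],[0,1,2,3,4]],Ref.mk 185 2080 [0,1,2,3] [[0,1,2,3,4,5],[0,1,2,3],[0,1,2,3],[0,1,2,3,4]]],
Node.mk [0,820,182,1542,2448,27,256,3177,900] [(0,0),(0,3),(1,0),(2,1),(3,0),(3,2)] [Ref.mk 1001 2070 [0,1,2,3] [[0,1,2,3,4],[0,1,2,3],[0,1,2,3],[0,1,2,3,4]],Ref.mk 751 2081 [0,1,2,3] [[0,1,2,3,4],[0,1,2,3],[0,1,2,3],[0,1,2,3,4]]],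
Node.mk [0,820,182,1542,2448,27,256,3177,1001] [(1,2),(2,1),(3,0),(3,1),(3,2),(3,3)] [Ref.mk 3078 326 [3,1,2,0] [[0,1,3,2,4],[0,1,2,3],[0,1,3,2],[0,1,3,2]],Ref.mk 3807 326 [3,1,2,0] [[0,1,3,2,5],[0,1,2,3],[0,1,3,2],[0,1,3,2]],Ref.mk 2917 26 [3,1,2,0] [[0,1,3,2,4],[0,1,2,3],[0,1,3,2],[0,1,3,2]],Ref.mk 3646 26 [3,1,2,0] [[0,1,3,2,5],[0,1,2,3],[0,1,3,2],[0,1,3,2]],Ref.mk 3079 332 [3,1,2,0] [[0,1,3,2,4],[0,1,2,3],[0,1,3,2],[0,1,3,2,4]],Ref.mk 3808 332 [3,1,2,0] [[0,1,4,2,5],[0,1,2,3],[0,1,3,2],[0,1,3,2,4]],Ref.mk 3160 98 [3,1,2,0] [[0,1,3,2,4],[0,1,2,3],[0,1,3,2],[0,1,3,2]],Ref.mk 3889 98 [3,1,2,0] [[0,1,3,2,5],[0,1,2,3],[0,1,3,2],[0,1,3,2]],Ref.mk 3241 1745 [3,1,2,0] [[0,1,3,2,4],[0,1,2,3],[0,1,3,2,4],[0,1,3,2,4]],Ref.mk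 3970 1743 [3,1,2,0] [[0,1,3,2,5,4],[0,1,2,3],[0,1,3,2,4],[0,1,3,2,4]],Ref.mk 2928 2035 [3,1,2,0] [[0,1,3,2,4],[0,1,2,3],[0,1,3,2],[0,1,3,2]],Ref.mk 3657 2035 [3,1,2,0] [[0,1,4,2,5],[0,1,2,3],[0,1,3,2],[0,1,3,2]],Ref.mk 3171 2058 [3,1,2,0] [[0,1,3,2,4],[0,1,2,3],[0,1,3,2],[0,1,3,2]],Ref.mk 3900 2058 [3,1,2,0] [[0,1,4,2,5],[0,1,2,3],[0,1,3,2],[0,1,3,2]]],
Node.mk [0,820,182,1542,2448,27,256,3177] [(0,3),(1,0),(1,2),(2,1),(3,0),(3,2)] [Ref.mk 900 2082 [0,1,2,3] [[0,1,2,3,4],[0,1,2,3],[0,1,2,3],[0,1,2,3,4]],Ref.mk 2358 2069 [0,1,2,3] [[0,1,2,3,4],[0,1,2,3],[0,1,2,3],[0,1,2,4,3]],Ref.mk 3087 2069 [0,1,2,3] [[0,1,2,3,4],[0,1,2,3],[0,1,2,3],[0,1,2,3,4]],Ref.mk 3816 2069 [0,1,2,3] [[0,1,2,3,4],[0,1,2,3],[0,1,2,3],[0,1,2,4,5]],Ref.mk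 1001 2083 [0,1,2,3] [[0,1,2,3,4],[0,1,2,3],[0,1,2,3],[0,1,2,3,4]]],
Node.mk [0,820,182,1542,2448,27,256,2938,2189] [(0,1),(1,1),(1,2),(2,0),(2,1),(3,1)] [Ref.mk 3078 203 [3,1,2,0] [[0,1,3,2,4],[0,1,2,3],[0,1,3,2],[0,1,3,2,4]],Ref.mk 247 202 [0,1,2,3] [[0,1,2,3,4],[0,1,2,3],[0,1,2,3],[0,1,2,3,4]]],
Node.mk [0,820,182,1542,2448,27,256,2938] [(0,1),(1,1),(1,2),(2,1),(3,0),(3,1)] [Ref.mk 3078 325 [3,1,2,0] [[0,1,3,2,4],[0,1,2,3],[0,1,3,2],[0,1,3,2,4]],Ref.mk 2189 2085 [0,1,2,3] [[0,1,2,3,4],[0,1,2,3],[0,1,2,3],[0,1,2,3,4]]],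
Node.mk [0,820,182,1542,2448,27,256] [(0,3),(2,1),(3,0),(3,1),(3,2),(3,3)] [Ref.mk 3078 326 [3,1,2,0] [[0,1,3,2,4],[0,1,2,3],[0,1,3,2],[0,1,3,2]],Ref.mk 3087 2069 [0,1,2,3] [[0,1,2,3,4],[0,1,2,3],[0,1,2,3],[0,1,2,3,4]],Ref.mk 3177 2084 [0,1,2,3] [[0,1,2,3,4],[0,1,2,3],[0,1,2,3],[0,1,2,3,4]],Ref.mk 2917 26 [3,1,2,0] [[0,1,3,2,4],[0,1,2,3],[0,1,3,2],[0,1,3,2]],Ref.mk 3079 346 [3,1,2,0] [[0,1,3,2,4],[0,1,2,3],[0,1,3,2],[0,1,3,2,4]],Ref.mk 3160 98 [3,1,2,0] [[0,1,3,2,4],[0,1,2,3],[0,1,3,2],[0,1,3,2]],Ref.mk 3241 1748 [3,1,2,0] [[0,1,3,2,4],[0,1,2,3],[0,1,3,2,4],[0,1,3,2,4]],Ref.mk 2938 2086 [0,1,2,3] [[0,1,2,3,4],[0,1,2,3],[0,1,2,3],[0,1,2,3,4]]],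
Node.mk [0,820,182,1542,2448,27,1714,3105,2216,2529,2938,36,2935,244] [(0,0),(0,1),(2,0),(2,1),(2,3),(3,0)] [Ref.mk 895 84 [0,1,2,3] [[0,1,2,3,4],[0,1,2,3],[0,1,2,3],[0,1,2,3]],Ref.mk 1057 774 [0,1,2,3] [[0,1,2,3,4],[0,1,2,3,4],[0,1,2,4,3],[0,1,2,3,4]],Ref.mk 1138 2021 [0,1,2,3] [[0,1,2,3,4],[0,1,2,3],[0,1,2,3,5],[0,1,2,3]]],
Node.mk [0,820,182,1542,2448,27,1714,3105,2216,2529,2938,36,2935,973,255] [(0,0),(0,2),(1,0),(1,1),(1,2),(2,3)] [],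
Node.mk [0,820,182,1542,2448,27,1714,3105,2216,2529,2938,36,2935,973] [(0,0),(1,2),(2,1),(3,1),(3,2),(3,3)] [Ref.mk 244 2088 [0,1,2,3] [[0,1,2,3,4],[0,1,2,3,4],[0,1,2,3,4],[0,1,2,3,4]],Ref.mk 3160 72 [3,1,2,0] [[0,1,3,2,4],[0,1,2,3],[0,1,3,2],[0,1,3,2,4]],Ref.mk 3889 72 [3,1,2,0] [[0,1,3,2,5],[0,1,2,3],[0,1,3,2],[0,1,3,2,4]],Ref.mk 255 2089 [0,1,2,3] [[0,1,2,3,4],[0,1,2,3,4],[0,1,2,3,4],[0,1,2,3,4]],Ref.mk 3171 2062 [3,1,2,0] [[0,1,3,2,4],[0,1,2,3],[0,1,3,2],[0,1,3,2]],Ref.mk 3900 2062 [3,1,2,0] [[0,1,3,2,5],[0,1,2,3],[0,1,3,2],[0,1,3,2]]],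
Node.mk [0,820,182,1542,2448,27,1714,3105,2216,2529,2938,36,2935,2431] [(0,0),(0,1),(1,2),(2,1),(2,3),(3,3)] [Ref.mk 733 17 [0,1,2,3] [[0,1,2,3,4],[0,1,2,3],[0,1,2,3],[0,1,2,3]],Ref.mk 895 84 [0,1,2,3] [[0,1,2,3,4],[0,1,2,3],[0,1,2,3],[0,1,2,3]],Ref.mk 1057 774 [0,1,2,3] [[0,1,2,3,4],[0,1,2,3,4],[0,1,2,4,3],[0,1,2,3,4]],Ref.mk 1138 2021 [0,1,2,3] [[0,1,2,3,4],[0,1,2,3],[0,1,2,3,5],[0,1,2,3]]],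
Node.mk [0,820,182,1542,2448,27,1714,3105,2216,2529,2938,36,2935] [(0,0),(0,2),(0,3),(1,2),(2,1),(3,2)] [Ref.mk 244 2088 [0,1,2,3] [[0,1,2,3,4],[0,1,2,3,4],[0,1,2,3,4],[0,1,2,3,4]],Ref.mk 973 2090 [0,1,2,3] [[0,1,2,3,4],[0,1,2,3,4],[0,1,2,3,4],[0,1,2,3,4]],Ref.mk 2431 2091 [0,1,2,3] [[0,1,2,3,4],[0,1,2,3,4],[0,1,2,3,4],[0,1,2,3,4]],Ref.mk 3160 72 [3,1,2,0] [[0,1,3,2,4],[0,1,2,3],[0,1,3,2],[0,1,3,2,4]],Ref.mk 3889 72 [3,1,2,0] [[0,1,3,2,5],[0,1,2,3],[0,1,3,2],[0,1,3,2,4]],Ref.mk 733 17 [0,1,2,3] [[0,1,2,3,4],[0,1,2,3],[0,1,2,3],[0,1,2,3]],Ref.mk 895 84 [0,1,2,3] [[0,1,2,3,4],[0,1,2,3],[0,1,2,3],[0,1,2,3]],Ref.mk 976 774 [0,1,2,3] [[0,1,2,3,4],[0,1,2,3,4],[0,1,2,3,4],[0,1,2,3,4]],Ref.mk 1057 774 [0,1,2,3] [[0,1,2,3,4],[0,1,2,3,4],[0,1,2,4,3],[0,1,2,3,4]],Ref.mk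 1138 2021 [0,1,2,3] [[0,1,2,3,4],[0,1,2,3],[0,1,2,3,5],[0,1,2,3]],Ref.mk 977 1103 [0,2,1,3] [[0,1,2,4,5,3],[3,1,0,4,2],[2,1,3,0,4],[3,1,2,0,4]]],
Node.mk [0,820,182,1542,2448,27,1714,3105,2216,2529,2938,36,2937,244] [(0,0),(0,1),(1,0),(2,0),(2,3),(3,0)] [],
Node.mk [0,820,182,1542,2448,27,1714,3105,2216,2529,2938,36,2937,973,255] [(0,0),(0,2),(1,0),(1,1),(1,2),(2,3)] [],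
Node.mk [0,820,182,1542,2448,27,1714,3105,2216,2529,2938,36,2937,973] [(0,0),(1,2),(2,1),(3,1),(3,2),(3,3)] [Ref.mk 244 2093 [0,1,2,3] [[0,1,2,3,4],[0,1,2,3,4],[0,1,2,3,4],[0,1,2,3,4]],Ref.mk 3160 72 [3,1,2,0] [[0,1,3,2,4],[0,1,2,3],[0,1,3,2],[0,1,3,2,4]],Ref.mk 3889 72 [3,1,2,0] [[0,1,3,2,5],[0,1,2,3],[0,1,3,2],[0,1,3,2,4]],Ref.mk 255 2094 [0,1,2,3] [[0,1,2,3,4],[0,1,2,3,4],[0,1,2,3,4],[0,1,2,3,4]],Ref.mk 3171 2062 [3,1,2,0] [[0,1,3,2,4],[0,1,2,3],[0,1,3,2],[0,1,3,2]],Ref.mk 3900 2062 [3,1,2,0] [[0,1,3,2,5],[0,1,2,3],[0,1,3,2],[0,1,3,2]]],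
Node.mk [0,820,182,1542,2448,27,1714,3105,2216,2529,2938,36,2937,2431] [(0,0),(0,1),(1,0),(1,2),(2,3),(3,3)] [],
Node.mk [0,820,182,1542,2448,27,1714,3105,2216,2529,2938,36,2937] [(0,0),(0,2),(0,3),(1,2),(2,1),(3,2)] [Ref.mk 244 2093 [0,1,2,3] [[0,1,2,3,4],[0,1,2,3,4],[0,1,2,3,4],[0,1,2,3,4]],Ref.mk 973 2095 [0,1,2,3] [[0,1,2,3,4],[0,1,2,3,4],[0,1,2,3,4],[0,1,2,3,4]],Ref.mk 2431 2096 [0,1,2,3] [[0,1,2,3,4],[0,1,2,3,4],[0,1,2,3,4],[0,1,2,3,4]],Ref.mk 3160 72 [3,1,2,0] [[0,1,3,2,4],[0,1,2,3],[0,1,3,2],[0,1,3,2,4]],Ref.mk 3889 72 [3,1,2,0] [[0,1,3,2,5],[0,1,2,3],[0,1,3,2],[0,1,3,2,4]],Ref.mk 733 17 [0,1,2,3] [[0,1,2,3,4],[0,1,2,3],[0,1,2,3],[0,1,2,3]],Ref.mk 895 84 [0,1,2,3] [[0,1,2,3,4],[0,1,2,3],[0,1,2,3],[0,1,2,3]],Ref.mk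 976 540 [0,1,2,3] [[0,1,2,3,4],[0,1,2,3,4],[0,1,2,3,4],[0,1,2,3,4]],Ref.mk 1057 540 [0,1,2,3] [[0,1,2,3,4],[0,1,2,3,4],[0,1,2,4,3],[0,1,2,3,4]],Ref.mk 1138 1398 [2,0,1,3] [[0,1,2,3,5,4],[4,1,0,3,2],[2,1,3,0,4],[4,1,2,0,3]],Ref.mk 977 668 [0,1,2,3] [[0,1,2,3,5,4],[0,1,2,3,4],[0,1,2,3,4],[0,1,2,3,4]]],
Node.mk [0,820,182,1542,2448,27,1714,3105,2216,2529,2938,36,2939,244] [(0,0),(0,1),(1,0),(2,0),(2,3),(3,0)] [],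
Node.mk [0,820,182,1542,2448,27,1714,3105,2216,2529,2938,36,2939,973,255] [(0,0),(0,2),(1,0),(1,1),(1,2),(2,3)] [],
Node.mk [0,820,182,1542,2448,27,1714,3105,2216,2529,2938,36,2939,973] [(0,0),(1,2),(2,1),(3,1),(3,2),(3,3)] [Ref.mk 244 2098 [0,1,2,3] [[0,1,2,3,4,5],[0,1,2,3,4],[0,1,2,3,4],[0,1,2,3,4]],Ref.mk 3160 72 [3,1,2,0] [[0,1,3,2,4],[0,1,2,3],[0,1,3,2],[0,1,3,2,4]],Ref.mk 3889 72 [3,1,2,0] [[0,1,3,2,5],[0,1,2,3],[0,1,3,2],[0,1,3,2,4]],Ref.mk 255 2099 [0,1,2,3] [[0,1,2,3,4,5],[0,1,2,3,4],[0,1,2,3,4],[0,1,2,3,4]],Ref.mk 3171 2062 [3,1,2,0] [[0,1,3,2,4],[0,1,2,3],[0,1,3,2],[0,1,3,2]],Ref.mk 3900 2062 [3,1,2,0] [[0,1,3,2,5],[0,1,2,3],[0,1,3,2],[0,1,3,2]]],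
Node.mk [0,820,182,1542,2448,27,1714,3105,2216,2529,2938,36,2939,2431] [(0,0),(0,1),(1,0),(1,2),(2,3),(3,3)] [],
Node.mk [0,820,182,1542,2448,27,1714,3105,2216,2529,2938,36,2939] [(0,0),(0,2),(0,3),(1,2),(2,1),(3,2)] [Ref.mk 244 2098 [0,1,2,3] [[0,1,2,3,4,5],[0,1,2,3,4],[0,1,2,3,4],[0,1,2,3,4]],Ref.mk 973 2100 [0,1,2,3] [[0,1,2,3,4,5],[0,1,2,3,4],[0,1,2,3,4],[0,1,2,3,4]],Ref.mk 2431 2101 [0,1,2,3] [[0,1,2,3,4,5],[0,1,2,3,4],[0,1,2,3,4],[0,1,2,3,4]],Ref.mk 3160 72 [3,1,2,0] [[0,1,3,2,4],[0,1,2,3],[0,1,3,2],[0,1,3,2,4]],Ref.mk 3889 1824 [0,1,2,3] [[0,4,2,1,3,5],[0,1,2,3,4],[0,3,2,4,1],[0,2,5,3,4,1]],Ref.mk 733 17 [0,1,2,3] [[0,1,2,3,4],[0,1,2,3],[0,1,2,3],[0,1,2,3]],Ref.mk 895 84 [0,1,2,3] [[0,1,2,3,4],[0,1,2,3],[0,1,2,3],[0,1,2,3]],Ref.mk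 976 891 [0,1,2,3] [[0,1,2,3,4,5],[0,1,2,3,4],[0,1,2,3,4],[0,1,2,3,4]],Ref.mk 1057 891 [0,1,2,3] [[0,1,2,3,4,5],[0,1,2,3,4],[0,1,2,4,3],[0,1,2,3,4]],Ref.mk 1138 1398 [2,0,1,3] [[0,1,2,3,5,4],[4,1,0,5,2],[2,1,3,0,4],[4,1,2,0,3]],Ref.mk 977 1202 [0,2,1,3] [[0,1,2,4,5,3],[3,1,0,4,2],[2,1,3,0,4],[3,1,2,0,4]],Ref.mk 978 1398 [0,2,1,3] [[0,1,2,4,6,5],[3,1,0,4,2],[2,1,3,0,4],[3,1,2,0,4]]],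
Node.mk [0,820,182,1542,2448,27,1714,3105,2216,2529,2938,36] [(0,0),(0,2),(0,4),(1,1),(2,3),(3,2)] [Ref.mk 2935 2092 [0,1,2,3] [[0,1,2,3,4],[0,1,2,3,4],[0,1,2,3,4],[0,1,2,3,4]],Ref.mk 2937 2097 [0,1,2,3] [[0,1,2,3,4],[0,1,2,3,4],[0,1,2,3,4],[0,1,2,3,4]],Ref.mk 2939 2102 [0,1,2,3] [[0,1,2,3,4,5],[0,1,2,3,4],[0,1,2,3,4],[0,1,2,3,4]]],
Node.mk [0,820,182,1542,2448,27,1714,3105,2216,2529,2938] [(0,3),(1,0),(1,2),(1,3),(2,1),(3,2)] [Ref.mk 9 906 [0,1,2,3] [[0,3,2,1,4],[1,0,2,3],[0,1,2,3,4],[0,2,1,3,4]],Ref.mk 36 2103 [0,1,2,3] [[0,1,2,3,4],[0,1,2,3,4],[0,1,2,3,4],[0,1,2,3,4]]],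
Node.mk [0,820,182,1542,2448,27,1714,3105,2216,2529,2939,36,244] [(0,0),(0,1),(1,0),(2,0),(2,3),(3,0)] [],
Node.mk [0,820,182,1542,2448,27,1714,3105,2216,2529,2939,36,973,255] [(0,0),(0,2),(1,0),(1,1),(1,2),(2,3)] [],
Node.mk [0,820,182,1542,2448,27,1714,3105,2216,2529,2939,36,973] [(0,0),(1,2),(2,1),(3,1),(3,2),(3,3)] [Ref.mk 244 2105 [0,1,2,3] [[0,1,2,3,4,5],[0,1,2,3,4],[0,1,2,3,4],[0,1,2,3,4]],Ref.mk 3160 72 [3,1,2,0] [[0,1,3,2,4],[0,1,2,3],[0,1,3,2],[0,1,3,2,4]],Ref.mk 3889 1824 [0,1,2,3] [[0,4,2,1,3,5],[0,1,2,3,4],[0,3,2,4,1],[0,2,5,3,4,1]],Ref.mk 255 2106 [0,1,2,3] [[0,1,2,3,4,5],[0,1,2,3,4],[0,1,2,3,4],[0,1,2,3,4]],Ref.mk 3171 2062 [3,1,2,0] [[0,1,3,2,4],[0,1,2,3],[0,1,3,2],[0,1,3,2]],Ref.mk 3900 2062 [3,1,2,0]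 [[0,1,3,2,5],[0,1,2,3],[0,1,3,2],[0,1,3,2]]],
Node.mk [0,820,182,1542,2448,27,1714,3105,2216,2529,2939,36,2431] [(0,0),(0,1),(1,0),(1,2),(2,3),(3,3)] [],
Node.mk [0,820,182,1542,2448,27,1714,3105,2216,2529,2939,36] [(0,0),(0,2),(0,3),(1,2),(2,1),(3,2)] [Ref.mk 244 2105 [0,1,2,3] [[0,1,2,3,4,5],[0,1,2,3,4],[0,1,2,3,4],[0,1,2,3,4]],Ref.mk 973 2107 [0,1,2,3] [[0,1,2,3,4,5],[0,1,2,3,4],[0,1,2,3,4],[0,1,2,3,4]],Ref.mk 2431 2108 [0,1,2,3] [[0,1,2,3,4,5],[0,1,2,3,4],[0,1,2,3,4],[0,1,2,3,4]],Ref.mk 3160 72 [3,1,2,0] [[0,1,3,2,4],[0,1,2,3],[0,1,3,2],[0,1,3,2,4]],Ref.mk 3889 1824 [0,1,2,3] [[0,4,2,1,3,5],[0,1,2,3,4],[0,3,2,4,1],[0,2,5,3,4,1]],Ref.mk 733 17 [0,1,2,3] [[0,1,2,3,4],[0,1,2,3],[0,1,2,3],[0,1,2,3]],Ref.mk 895 1916 [2,1,3,0]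 [[0,3,4,1,2],[0,1,2,3,4],[0,2,3,4,1],[0,4,3,5,2]],Ref.mk 976 1046 [0,1,2,3] [[0,1,2,3,4,5],[0,1,2,3,4],[0,1,2,3,4],[0,1,2,3,4]],Ref.mk 1057 1046 [0,1,2,3] [[0,1,2,3,4,5],[0,1,2,3,4],[0,1,2,4,3],[0,1,2,3,4]],Ref.mk 1138 1825 [2,1,0,3] [[0,3,2,5,1,4],[0,1,2,3,4],[0,4,2,5,3],[0,2,1,4,3]],Ref.mk 977 1554 [0,2,1,3] [[0,1,2,4,5],[3,1,0,4,2],[2,1,3,0,4],[3,1,2,0,4]],Ref.mk 978 1046 [0,1,2,3] [[0,1,2,3,6,5],[0,1,2,3,4],[0,1,2,3,4],[0,1,2,3,4]]],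
Node.mk [0,820,182,1542,2448,27,1714,3105,2216,2529,2939] [(0,3),(1,0),(1,2),(1,3),(2,1),(3,2)] [Ref.mk 9 1060 [0,1,2,3] [[0,3,2,1,4,5],[1,0,2,3],[0,1,2,3,4],[0,2,1,3,4]],Ref.mk 36 2109 [0,1,2,3] [[0,1,2,3,4,5],[0,1,2,3,4],[0,1,2,3,4],[0,1,2,3,4]]],
Node.mk [0,820,182,1542,2448,27,1714,3105,2216,2529] [(0,0),(0,1),(0,2),(0,3),(1,1),(2,1)] [Ref.mk 733 17 [0,1,2,3] [[0,1,2,3,4],[0,1,2,3],[0,1,2,3],[0,1,2,3]],Ref.mk 895 84 [0,1,2,3] [[0,1,2,3,4],[0,1,2,3],[0,1,2,3],[0,1,2,3]],Ref.mk 976 1061 [0,1,2,3] [[0,1,2,3,4],[0,1,2,3],[0,1,2,3,4],[0,1,2,3,4]],Ref.mk 1057 1083 [0,1,2,3] [[0,1,2,3,4],[0,1,2,3],[0,1,2,4,3],[0,1,2,3,4]],Ref.mk 1138 1910 [0,1,2,3] [[0,1,2,3,4],[0,1,2,3],[0,1,2,4,5],[0,1,2,3,4]],Ref.mk 2938 2104 [0,1,2,3]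 [[0,1,2,3,4],[0,1,2,3],[0,1,2,3,4],[0,1,2,3,4]],Ref.mk 977 1061 [0,1,2,3] [[0,1,2,3,5],[0,1,2,3],[0,1,2,3,4],[0,1,2,3,4]],Ref.mk 2939 2110 [0,1,2,3] [[0,1,2,3,4,5],[0,1,2,3],[0,1,2,3,4],[0,1,2,3,4]]]]

/-- nodes -/
noncomputable def c33 : List Node := [
Node.mk [0,820,182,1542,2448,27,1714,3105,2216,351] [(0,0),(0,1),(0,2),(1,1),(2,1),(2,3)] [Ref.mk 733 17 [0,1,2,3] [[0,1,2,3,4],[0,1,2,3],[0,1,2,3],[0,1,2,3]],Ref.mk 895 84 [0,1,2,3] [[0,1,2,3,4],[0,1,2,3],[0,1,2,3],[0,1,2,3]],Ref.mk 1057 1910 [0,1,2,3] [[0,1,2,3,4],[0,1,2,3],[0,1,2,3,4],[0,1,2,3,4]],Ref.mk 1138 1910 [0,1,2,3] [[0,1,2,3,4],[0,1,2,3],[0,1,2,3,5],[0,1,2,3,4]]],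
Node.mk [0,820,182,1542,2448,27,1714,3105,2216] [(0,1),(1,1),(2,0),(2,1),(2,2),(2,3)] [Ref.mk 2529 2111 [0,1,2,3] [[0,1,2,3,4],[0,1,2,3],[0,1,2,3,4],[0,1,2,3,4]],Ref.mk 351 2112 [0,1,2,3] [[0,1,2,3,4],[0,1,2,3],[0,1,2,3,4],[0,1,2,3,4]],Ref.mk 1057 1910 [0,1,2,3] [[0,1,2,3,4],[0,1,2,3],[0,1,2,3,4],[0,1,2,3,4]]],
Node.mk [0,820,182,1542,2448,27,1714,3105] [(0,0),(0,1),(1,1),(1,2),(2,1),(2,3)] [Ref.mk 2216 2113 [0,1,2,3] [[0,1,2,3,4],[0,1,2,3],[0,1,2,3],[0,1,2,3,4]],Ref.mk 733 17 [0,1,2,3] [[0,1,2,3,4],[0,1,2,3],[0,1,2,3],[0,1,2,3]],Ref.mk 895 84 [0,1,2,3] [[0,1,2,3,4],[0,1,2,3],[0,1,2,3],[0,1,2,3]],Ref.mk 1057 1920 [0,1,2,3] [[0,1,2,3,4],[0,1,2,3],[0,1,2,3,4],[0,1,2,3,4]]],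
Node.mk [0,820,182,1542,2448,27,1714,3114,2225,2529,2938,1011] [(0,0),(0,3),(1,2),(1,4),(2,3),(3,1)] [],
Node.mk [0,820,182,1542,2448,27,1714,3114,2225,2529,2938,1020,2939,3663] [(1,1),(2,0),(2,1),(2,2),(2,3),(2,4)] [Ref.mk 2610 1639 [1,2,0,3] [[2,0,4,5,1,3],[3,1,0,4,2,5],[0,3,2,4,5,1],[3,2,1,4,0,5]],Ref.mk 1909 1665 [1,2,0,3] [[2,0,4,5,1,3],[3,1,0,4,2,5],[0,3,2,4,5,1],[3,2,1,4,0,5]],Ref.mk 1138 1371 [2,0,1,3] [[0,1,2,3,5,4],[4,1,0,5,2,3],[2,1,4,0,3,5],[4,1,2,0,3,5]]],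
Node.mk [0,820,182,1542,2448,27,1714,3114,2225,2529,2938,1020,2939] [(0,3),(3,0),(3,1),(3,2),(3,3),(3,4)] [Ref.mk 3663 2116 [0,1,2,3] [[0,1,2,3,4,5],[0,1,2,3,4,5],[0,1,2,3,4],[0,1,2,3,4,5]],Ref.mk 3889 1681 [1,2,0,3] [[2,0,4,5,1,3],[3,1,0,4,2],[0,3,2,4,5,1],[3,2,1,4,0,5]],Ref.mk 3775 1686 [1,0,2,3] [[2,0,4,5,1,3],[4,3,0,5,2,1],[0,1,2,3,4],[4,2,5,3,0,1]]],
Node.mk [0,820,182,1542,2448,27,1714,3114,2225,2529,2938,1020,1589] [(0,0),(0,2),(0,3),(1,2),(2,1),(3,2)] [Ref.mk 977 1741 [0,1,2,3] [[0,1,2,3,5],[0,1,2,3],[0,1,2,3],[0,1,2,3]]],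
Node.mk [0,820,182,1542,2448,27,1714,3114,2225,2529,2938,1020] [(0,0),(0,1),(0,2),(0,3),(0,4),(1,1)] [Ref.mk 977 1399 [0,2,1,3] [[0,1,2,4,5],[3,1,0,4,2],[2,1,4,0,3],[3,1,2,0,4]],Ref.mk 2939 2117 [0,1,2,3] [[0,1,2,3,4,5],[0,1,2,3,4,5],[0,1,2,3,4],[0,1,2,3,4]],Ref.mk 1589 2118 [0,1,2,3] [[0,1,2,3,4,5],[0,1,2,3,4,5],[0,1,2,3,4],[0,1,2,3,4]]],
Node.mk [0,820,182,1542,2448,27,1714,3114,2225,2529,2938] [(0,0),(0,1),(0,2),(1,1),(1,2),(2,1)] [Ref.mk 975 1399 [0,2,1,3] [[0,1,2,4,3],[3,1,0,4,2],[2,1,4,0,3],[3,1,2,0,4]],Ref.mk 1002 1399 [0,2,1,3] [[0,1,2,4,3],[3,1,0,4,2],[2,1,4,3,0],[3,1,2,0,4]],Ref.mk 1011 2115 [0,1,2,3] [[0,1,2,3,4],[0,1,2,3,4],[0,1,2,3,4],[0,1,2,3,4]],Ref.mk 1020 2119 [0,1,2,3] [[0,1,2,3,4],[0,1,2,3,4,5],[0,1,2,3,4],[0,1,2,3,4]],Ref.mk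 733 17 [0,1,2,3] [[0,1,2,3,4],[0,1,2,3],[0,1,2,3],[0,1,2,3]],Ref.mk 895 84 [0,1,2,3] [[0,1,2,3,4],[0,1,2,3],[0,1,2,3],[0,1,2,3]],Ref.mk 976 1554 [0,1,2,3] [[0,1,2,3,4],[0,1,2,3,4],[0,1,2,3,4],[0,1,2,3,4]],Ref.mk 1057 1554 [0,1,2,3] [[0,1,2,3,4],[0,1,2,3,4],[0,1,2,4,3],[0,1,2,3,4]],Ref.mk 1138 2021 [0,1,2,3] [[0,1,2,3,4],[0,1,2,3],[0,1,2,3,5],[0,1,2,3]],Ref.mk 977 1399 [0,2,1,3] [[0,1,2,4,5],[3,1,0,4,2],[2,1,4,0,3],[3,1,2,0,4]]],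
Node.mk [0,820,182,1542,2448,27,1714,3114,2225,2529,2939,1011] [(0,0),(0,3),(1,2),(1,4),(2,3),(3,1)] [],
Node.mk [0,820,182,1542,2448,27,1714,3114,2225,2529,2939,1020,3663,1909,244] [(0,0),(0,1),(0,3),(1,1),(2,0),(3,0)] [Ref.mk 1138 1975 [0,1,2,3] [[0,1,2,4,3,5],[0,5,2,3,4,1],[0,5,2,3,1,4],[0,2,1,3,4,5]]],
Node.mk [0,820,182,1542,2448,27,1714,3114,2225,2529,2939,1020,3663,1909,973] [(0,0),(0,1),(0,2),(1,2),(3,1),(3,2)] [],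
Node.mk [0,820,182,1542,2448,27,1714,3114,2225,2529,2939,1020,3663,1909] [(0,0),(0,3),(1,2),(2,1),(3,2),(3,3)] [Ref.mk 244 2122 [0,1,2,3] [[0,1,2,3,4,5],[0,1,2,3,4,5],[0,1,2,3,4,5],[0,1,2,3,4,5]],Ref.mk 973 2123 [0,1,2,3] [[0,1,2,3,4,5],[0,1,2,3,4,5],[0,1,2,3,4,5],[0,1,2,3,4,5]],Ref.mk 3160 72 [3,1,2,0] [[0,1,3,2,4],[0,1,2,3],[0,1,3,2],[0,1,3,2,4]],Ref.mk 3889 72 [3,1,2,0] [[0,1,3,2,5],[0,1,2,3],[0,1,3,2],[0,1,3,2,4]],Ref.mk 4618 72 [3,1,2,0] [[0,1,3,2,6],[0,1,2,3],[0,1,3,2],[0,1,3,2,4]],Ref.mk 1138 1975 [0,1,2,3] [[0,1,2,4,3,5],[0,5,2,3,4,1],[0,5,2,3,1,4],[0,2,1,3,4,5]]],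
Node.mk [0,820,182,1542,2448,27,1714,3114,2225,2529,2939,1020,3663] [(1,1),(2,0),(2,1),(2,2),(2,3),(2,4)] [Ref.mk 2610 1945 [0,2,1,3] [[0,1,2,4,3,5],[3,1,0,4,2,5],[2,1,4,0,5,3],[3,1,2,0,4,5]],Ref.mk 1909 2124 [0,1,2,3] [[0,1,2,3,4,5],[0,1,2,3,4,5],[0,1,2,3,4,5],[0,1,2,3,4,5]],Ref.mk 1138 1975 [0,1,2,3] [[0,1,2,3,4,5],[0,1,2,3,4,5],[0,1,2,3,5,4],[0,1,2,3,4,5]]],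
Node.mk [0,820,182,1542,2448,27,1714,3114,2225,2529,2939,1020] [(0,3),(3,0),(3,1),(3,2),(3,3),(3,4)] [Ref.mk 3663 2125 [0,1,2,3] [[0,1,2,3,4,5],[0,1,2,3,4,5],[0,1,2,3,4],[0,1,2,3,4,5]],Ref.mk 3889 1983 [0,2,1,3] [[0,3,2,1,4,5],[3,1,0,4,2],[2,0,4,3,1,5],[3,2,5,0,4,1]],Ref.mk 3775 1989 [0,2,1,3] [[0,1,2,4,3,5],[3,1,0,4,2],[2,1,4,3,5,0],[3,1,2,0,4,5]]],
Node.mk [0,820,182,1542,2448,27,1714,3114,2225,2529,2939] [(0,0),(0,1),(0,2),(1,1),(1,2),(2,1)] [Ref.mk 975 1688 [0,2,1,3] [[0,1,2,4,3,5],[3,1,0,4,2],[2,1,4,0,3],[3,1,2,0,4]],Ref.mk 1002 1688 [0,2,1,3] [[0,1,2,4,3,5],[3,1,0,4,2],[2,1,4,3,0],[3,1,2,0,4]],Ref.mk 1011 2121 [0,1,2,3] [[0,1,2,3,4,5],[0,1,2,3,4],[0,1,2,3,4],[0,1,2,3,4]],Ref.mk 1020 2126 [0,1,2,3] [[0,1,2,3,4,5],[0,1,2,3,4,5],[0,1,2,3,4],[0,1,2,3,4]],Ref.mk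 733 17 [0,1,2,3] [[0,1,2,3,4],[0,1,2,3],[0,1,2,3],[0,1,2,3]],Ref.mk 895 2121 [0,2,1,3] [[0,1,2,4,3,5],[3,1,0,4,2],[2,1,4,0,3],[3,1,2,0,4]],Ref.mk 976 1688 [0,1,2,3] [[0,1,2,3,4,5],[0,1,2,3,4],[0,1,2,3,4],[0,1,2,3,4]],Ref.mk 1057 1688 [0,1,2,3] [[0,1,2,3,4,5],[0,1,2,3,4],[0,1,2,4,3],[0,1,2,3,4]],Ref.mk 1138 2126 [0,2,1,3] [[0,1,2,4,3,5],[3,1,0,4,2,5],[2,1,4,0,3],[3,1,2,0,4]],Ref.mk 977 1554 [0,2,1,3] [[0,1,2,4,5],[3,1,0,4,2],[2,1,4,0,3],[3,1,2,0,4]],Ref.mk 978 1688 [0,2,1,3] [[0,1,2,4,6,5],[3,1,0,4,2],[2,1,4,0,3],[3,1,2,0,4]]],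
Node.mk [0,820,182,1542,2448,27,1714,3114,2225,2529] [(0,0),(0,1),(0,2),(0,3),(1,1),(2,1)] [Ref.mk 733 17 [0,1,2,3] [[0,1,2,3,4],[0,1,2,3],[0,1,2,3],[0,1,2,3]],Ref.mk 895 84 [0,1,2,3] [[0,1,2,3,4],[0,1,2,3],[0,1,2,3],[0,1,2,3]],Ref.mk 976 1689 [0,1,2,3] [[0,1,2,3,4],[0,1,2,3,4],[0,1,2,3,4],[0,1,2,3,4]],Ref.mk 1057 1701 [0,1,2,3] [[0,1,2,3,4],[0,1,2,3,4],[0,1,2,4,3],[0,1,2,3,4]],Ref.mk 1138 1992 [0,1,2,3] [[0,1,2,3,4],[0,1,2,3,4],[0,1,2,4,5],[0,1,2,3,4]],Ref.mk 2938 2120 [0,1,2,3] [[0,1,2,3,4],[0,1,2,3,4],[0,1,2,3,4],[0,1,2,3,4]],Ref.mk 977 1926 [0,2,1,3] [[0,1,2,4,5,3],[3,1,0,4,2],[2,1,4,3,0],[3,1,2,0,4]],Ref.mk 2939 2127 [0,1,2,3] [[0,1,2,3,4,5],[0,1,2,3,4],[0,1,2,3,4],[0,1,2,3,4]]],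
Node.mk [0,820,182,1542,2448,27,1714,3114,2225,360] [(0,0),(0,1),(0,2),(1,1),(2,1),(2,3)] [Ref.mk 733 17 [0,1,2,3] [[0,1,2,3,4],[0,1,2,3],[0,1,2,3],[0,1,2,3]],Ref.mk 895 84 [0,1,2,3] [[0,1,2,3,4],[0,1,2,3],[0,1,2,3],[0,1,2,3]],Ref.mk 1057 1992 [0,1,2,3] [[0,1,2,3,4],[0,1,2,3,4],[0,1,2,3,4],[0,1,2,3,4]],Ref.mk 1138 1992 [0,1,2,3] [[0,1,2,3,4],[0,1,2,3,4],[0,1,2,3,5],[0,1,2,3,4]]],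
Node.mk [0,820,182,1542,2448,27,1714,3114,2225] [(0,1),(1,1),(2,0),(2,1),(2,2),(2,3)] [Ref.mk 2529 2128 [0,1,2,3] [[0,1,2,3,4],[0,1,2,3,4],[0,1,2,3,4],[0,1,2,3,4]],Ref.mk 360 2129 [0,1,2,3] [[0,1,2,3,4],[0,1,2,3,4],[0,1,2,3,4],[0,1,2,3,4]],Ref.mk 1057 1992 [0,1,2,3] [[0,1,2,3,4],[0,1,2,3,4],[0,1,2,3,4],[0,1,2,3,4]]],
Node.mk [0,820,182,1542,2448,27,1714,3114] [(0,0),(0,1),(1,1),(1,2),(2,1),(2,3)] [Ref.mk 2225 2130 [0,1,2,3] [[0,1,2,3,4],[0,1,2,3,4],[0,1,2,3],[0,1,2,3,4]],Ref.mk 733 17 [0,1,2,3] [[0,1,2,3,4],[0,1,2,3],[0,1,2,3],[0,1,2,3]],Ref.mk 895 84 [0,1,2,3] [[0,1,2,3,4],[0,1,2,3],[0,1,2,3],[0,1,2,3]],Ref.mk 1057 1997 [0,1,2,3] [[0,1,2,3,4],[0,1,2,3,4],[0,1,2,3,4],[0,1,2,3,4]]],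
Node.mk [0,820,182,1542,2448,27,1714,3037,1011] [(0,0),(0,3),(2,0),(2,1),(3,0),(3,2)] [Ref.mk 3160 1730 [0,1,2,3] [[0,4,2,3,1],[0,4,2,3],[0,1,2,3],[0,4,2,3,1]],Ref.mk 895 84 [0,1,2,3] [[0,1,2,3,4],[0,1,2,3],[0,1,2,3],[0,1,2,3]],Ref.mk 976 81 [3,1,2,0] [[0,4,3,2,1],[0,4,2,3],[0,1,3,2],[0,4,3,2]],Ref.mk 1057 2021 [0,1,2,3] [[0,1,2,3,4],[0,1,2,3],[0,1,2,3,4],[0,1,2,3]]],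
Node.mk [0,820,182,1542,2448,27,1714,3037] [(0,0),(0,4),(1,1),(2,0),(3,0),(3,2)] [Ref.mk 3160 72 [3,1,2,0] [[0,1,3,2,4],[0,1,2,3],[0,1,3,2],[0,1,3,2,4]],Ref.mk 1011 2132 [0,1,2,3] [[0,1,2,3,4],[0,1,2,3,4],[0,1,2,3],[0,1,2,3,4]]],
Node.mk [0,820,182,1542,2448,27,1714] [(1,1),(1,2),(3,0),(3,1),(3,2),(3,3)] [Ref.mk 3078 326 [3,1,2,0] [[0,1,3,2,4],[0,1,2,3],[0,1,3,2],[0,1,3,2]],Ref.mk 3105 2114 [0,1,2,3] [[0,1,2,3,4],[0,1,2,3],[0,1,2,3],[0,1,2,3,4]],Ref.mk 3114 2131 [0,1,2,3] [[0,1,2,3,4],[0,1,2,3,4],[0,1,2,3],[0,1,2,3,4]],Ref.mk 3160 72 [3,1,2,0] [[0,1,3,2,4],[0,1,2,3],[0,1,3,2],[0,1,3,2,4]],Ref.mk 3001 2062 [3,1,2,0] [[0,1,3,4,2],[0,1,2,3],[0,1,3,2],[0,1,4,2]],Ref.mk 3028 2062 [3,1,2,0] [[0,1,3,4,2],[3,1,2,0],[0,1,3,2],[0,1,4,2]],Ref.mk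 3037 2133 [0,1,2,3] [[0,1,2,3,4],[0,1,2,3,4],[0,1,2,3],[0,1,2,3,4]]],
Node.mk [0,820,182,1542,2448,27,1795,2512,3007] [(0,0),(0,1),(1,1),(2,0),(2,1),(3,0)] [],
Node.mk [0,820,182,1542,2448,27,1795,2512,3252] [(0,0),(1,0),(1,1),(2,0),(2,4),(3,0)] [],
Node.mk [0,820,182,1542,2448,27,1795,2512,3001] [(0,0),(0,1),(2,0),(2,1),(2,4),(3,0)] [Ref.mk 895 86 [0,1,2,3] [[0,1,2,3,4],[0,1,2,3],[0,1,2,3,4],[0,1,2,3,4]],Ref.mk 976 1741 [0,1,2,3] [[0,1,2,3,4],[0,1,2,3],[0,1,2,3],[0,1,2,3]],Ref.mk 1138 2021 [0,1,2,3] [[0,1,2,3,4],[0,1,2,3],[0,1,2,3,5],[0,1,2,3]]],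
Node.mk [0,820,182,1542,2448,27,1795,2512] [(0,0),(1,2),(3,0),(3,1),(3,2),(3,3)] [Ref.mk 3241 2020 [0,1,2,3] [[0,4,2,1,3],[0,1,2,3],[0,4,2,3,1],[0,2,4,3,1]],Ref.mk 3007 2135 [0,1,2,3] [[0,1,2,3,4],[0,1,2,3],[0,1,2,3,4],[0,1,2,3,4]],Ref.mk 3252 2136 [0,1,2,3] [[0,1,2,3,4],[0,1,2,3],[0,1,2,3,4],[0,1,2,3,4]],Ref.mk 3001 2137 [0,1,2,3] [[0,1,2,3,4],[0,1,2,3],[0,1,2,3,4],[0,1,2,3,4]]],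
Node.mk [0,820,182,1542,2448,27,1795,1055,3008] [(0,0),(0,2),(1,1),(1,2),(2,1),(2,3)] [Ref.mk 3241 2020 [0,1,2,3] [[0,4,2,1,3],[0,1,2,3],[0,4,2,3,1],[0,2,4,3,1]]],
Node.mk [0,820,182,1542,2448,27,1795,1055] [(0,0),(1,2),(3,0),(3,1),(3,2),(3,3)] [Ref.mk 3241 2020 [0,1,2,3] [[0,4,2,1,3],[0,1,2,3],[0,4,2,3,1],[0,2,4,3,1]],Ref.mk 3008 2139 [0,1,2,3] [[0,1,2,3,4],[0,1,2,3],[0,1,2,3,4],[0,1,2,3,4]],Ref.mk 3252 2136 [3,1,2,0] [[0,1,3,2,4],[0,1,2,3],[0,1,3,2,4],[0,1,3,2,4]],Ref.mk 3001 2137 [3,1,2,0] [[0,1,3,4,2],[0,1,2,3],[0,1,3,2,4],[0,1,4,2,3]]],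
Node.mk [0,820,182,1542,2448,27,1795] [(0,0),(0,3),(2,0),(2,1),(3,0),(3,2)] [Ref.mk 1054 2021 [0,1,2,3] [[0,4,2,1,3],[0,1,2,3],[0,4,2,3,1],[0,2,1,3]],Ref.mk 2512 2138 [0,1,2,3] [[0,1,2,3,4],[0,1,2,3],[0,1,2,3,4],[0,1,2,3]],Ref.mk 3241 2020 [0,1,2,3] [[0,4,2,1,3],[0,1,2,3],[0,4,2,3,1],[0,2,4,3,1]],Ref.mk 1055 2140 [0,1,2,3] [[0,1,2,3,4],[0,1,2,3],[0,1,2,3,4],[0,1,2,3]],Ref.mk 895 92 [0,1,2,3] [[0,1,2,3,4],[0,1,2,3],[0,1,2,3,4],[0,1,2,3]],Ref.mk 976 1741 [0,1,2,3] [[0,1,2,3,4],[0,1,2,3],[0,1,2,3],[0,1,2,3]],Ref.mk 1057 2021 [0,1,2,3] [[0,1,2,3,4],[0,1,2,3],[0,1,2,3,4],[0,1,2,3]],Ref.mk 1138 2021 [0,1,2,3] [[0,1,2,3,4],[0,1,2,3],[0,1,2,3,5],[0,1,2,3]],Ref.mk 1058 2021 [0,1,2,3] [[0,4,2,5,3],[0,1,2,3],[0,4,2,3,1],[0,2,1,3]]],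
Node.mk [0,820,182,1542,2448,27,274,2938,3105,185,3906,9,1053] [(0,0),(1,0),(1,2),(2,4),(3,0),(3,1)] [Ref.mk 1633 2062 [0,1,2,3] [[0,1,2,3,4],[0,1,2,3],[0,1,2,3],[0,1,2,3]]],
Node.mk [0,820,182,1542,2448,27,274,2938,3105,185,3906,9,342,36,731,3019] [(0,0),(0,1),(0,3),(2,0),(2,1),(3,0)] [Ref.mk 895 98 [0,1,2,3] [[0,1,2,3,4],[0,1,2,3],[0,1,2,3],[0,1,2,3]],Ref.mk 976 1741 [0,1,2,3] [[0,1,2,3,4],[0,1,2,3],[0,1,2,3],[0,1,2,3]],Ref.mk 1057 1917 [0,1,2,3] [[0,1,2,3,4],[0,1,2,3],[0,1,2,3,4],[0,1,2,3,4]],Ref.mk 1138 1917 [0,1,2,3] [[0,1,2,3,4],[0,1,2,3],[0,1,2,3,5],[0,1,2,3,4]]],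
Node.mk [0,820,182,1542,2448,27,274,2938,3105,185,3906,9,342,36,731] [(0,0),(0,2),(1,0),(2,0),(3,0),(3,1)] [Ref.mk 3019 2143 [0,1,2,3] [[0,1,2,3,4,5],[0,1,2,3,4],[0,1,2,3,4],[0,1,2,3,4,5]]],
Node.mk [0,820,182,1542,2448,27,274,2938,3105,185,3906,9,342,36,974,112] [(0,0),(0,1),(0,3),(1,2),(2,1),(2,3)] [Ref.mk 733 26 [0,1,2,3] [[0,1,2,3,4],[0,1,2,3],[0,1,2,3],[0,1,2,3]],Ref.mk 895 98 [0,1,2,3] [[0,1,2,3,4],[0,1,2,3],[0,1,2,3],[0,1,2,3]],Ref.mk 1057 1917 [0,1,2,3] [[0,1,2,3,4],[0,1,2,3],[0,1,2,3,4],[0,1,2,3,4]],Ref.mk 1138 1917 [0,1,2,3] [[0,1,2,3,4],[0,1,2,3],[0,1,2,3,5],[0,1,2,3,4]]],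
Node.mk [0,820,182,1542,2448,27,274,2938,3105,185,3906,9,342,36,974] [(0,0),(0,2),(1,0),(1,2),(2,3),(3,1)] [Ref.mk 112 2145 [0,1,2,3] [[0,1,2,3,4,5],[0,1,2,3,4],[0,1,2,3,4],[0,1,2,3,4,5]]],
Node.mk [0,820,182,1542,2448,27,274,2938,3105,185,3906,9,342,36,1055,2512] [(0,0),(0,4),(1,0),(1,2),(2,1),(2,4)] [],
Node.mk [0,820,182,1542,2448,27,274,2938,3105,185,3906,9,342,36,1055,2593,1874,1545] [(0,0),(0,1),(0,2),(0,4),(1,0),(1,2)] [],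
Node.mk [0,820,182,1542,2448,27,274,2938,3105,185,3906,9,342,36,1055,2593,1874,186] [(0,0),(0,1),(0,2),(0,3),(0,4),(1,2)] [Ref.mk 1544 2148 [0,1,2,3] [[0,1,2,3,4,6,5],[0,1,2,3,4],[0,1,2,3,4,5],[0,1,2,3,4,5]],Ref.mk 1139 2021 [0,1,2,3] [[0,1,2,3,5],[0,1,2,3],[0,1,2,3,5],[0,1,2,3]],Ref.mk 1545 2148 [0,1,2,3] [[0,1,2,3,4,5,6],[0,1,2,3,4],[0,1,2,3,4,5],[0,1,2,3,4,5]],Ref.mk 1140 2021 [0,1,2,3] [[0,1,2,3,6],[0,1,2,3],[0,1,2,3,5],[0,1,2,3]],Ref.mk 1546 2148 [0,1,2,3] [[0,1,2,3,4,6,7],[0,1,2,3,4],[0,1,2,3,4,5],[0,1,2,3,4,5]],Ref.mk 1141 2021 [0,1,2,3] [[0,1,2,3,7],[0,1,2,3],[0,1,2,3,5],[0,1,2,3]]],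
Node.mk [0,820,182,1542,2448,27,274,2938,3105,185,3906,9,342,36,1055,2593,1874] [(0,0),(0,1),(0,2),(0,3),(0,4),(0,5)] [Ref.mk 1545 2148 [0,1,2,3] [[0,1,2,3,4,5,6],[0,1,2,3,4],[0,1,2,3,4,5],[0,1,2,3,4,5]],Ref.mk 1140 2021 [0,1,2,3] [[0,1,2,3,6],[0,1,2,3],[0,1,2,3,5],[0,1,2,3]],Ref.mk 186 2149 [0,1,2,3] [[0,1,2,3,4,5,6],[0,1,2,3,4],[0,1,2,3,4,5],[0,1,2,3,4,5]]],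
Node.mk [0,820,182,1542,2448,27,274,2938,3105,185,3906,9,342,36,1055,2593,2523,2274] [(0,0),(0,1),(0,4),(1,0),(1,2),(3,3)] [],
Node.mk [0,820,182,1542,2448,27,274,2938,3105,185,3906,9,342,36,1055,2593,2523,186] [(0,0),(0,1),(0,2),(0,3),(0,4),(1,2)] [Ref.mk 2273 2151 [0,1,2,3] [[0,1,2,3,4,6,5],[0,1,2,3,4],[0,1,2,3,4,5],[0,1,2,3,4,5]],Ref.mk 1058 2021 [0,1,2,3] [[0,1,2,3,5],[0,1,2,3],[0,1,2,3,4],[0,1,2,3]],Ref.mk 2274 2151 [0,1,2,3] [[0,1,2,3,4,5,6],[0,1,2,3,4],[0,1,2,3,4,5],[0,1,2,3,4,5]],Ref.mk 1059 2021 [0,1,2,3] [[0,1,2,3,6],[0,1,2,3],[0,1,2,3,4],[0,1,2,3]],Ref.mk 2275 2151 [0,1,2,3] [[0,1,2,3,4,6,7],[0,1,2,3,4],[0,1,2,3,4,5],[0,1,2,3,4,5]],Ref.mk 1060 2021 [0,1,2,3] [[0,1,2,3,7],[0,1,2,3],[0,1,2,3,4],[0,1,2,3]]],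
Node.mk [0,820,182,1542,2448,27,274,2938,3105,185,3906,9,342,36,1055,2593,2523] [(0,0),(0,1),(0,2),(0,3),(0,4),(0,5)] [Ref.mk 2274 2151 [0,1,2,3] [[0,1,2,3,4,5,6],[0,1,2,3,4],[0,1,2,3,4,5],[0,1,2,3,4,5]],Ref.mk 1059 2021 [0,1,2,3] [[0,1,2,3,6],[0,1,2,3],[0,1,2,3,4],[0,1,2,3]],Ref.mk 186 2152 [0,1,2,3] [[0,1,2,3,4,5,6],[0,1,2,3,4],[0,1,2,3,4,5],[0,1,2,3,4,5]]],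
Node.mk [0,820,182,1542,2448,27,274,2938,3105,185,3906,9,342,36,1055,2593] [(0,0),(0,1),(0,4),(1,2),(2,1),(3,1)] [Ref.mk 1874 2150 [0,1,2,3] [[0,1,2,3,4,5],[0,1,2,3,4],[0,1,2,3,4,5],[0,1,2,3,4,5]],Ref.mk 2523 2153 [0,1,2,3] [[0,1,2,3,4,5],[0,1,2,3,4],[0,1,2,3,4,5],[0,1,2,3,4,5]]],
Node.mk [0,820,182,1542,2448,27,274,2938,3105,185,3906,9,342,36,1055,2523,423,2431] [(0,0),(0,1),(1,0),(1,2),(2,3),(3,3)] [],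
Node.mk [0,820,182,1542,2448,27,274,2938,3105,185,3906,9,342,36,1055,2523,423] [(0,0),(0,3),(0,4),(2,1),(2,2),(2,4)] [Ref.mk 2188 2144 [3,1,2,0] [[0,1,3,2,4,5],[0,1,2,3,4],[0,1,3,2,4],[0,1,3,2,4,5]],Ref.mk 2431 2155 [0,1,2,3] [[0,1,2,3,4,5],[0,1,2,3,4],[0,1,2,3,4,5],[0,1,2,3,4,5]],Ref.mk 2593 2150 [3,1,2,0] [[0,1,3,2,4,5],[0,1,2,3,4],[0,1,3,2,5,4],[0,1,3,2,4,5]],Ref.mk 2674 2153 [0,1,2,3] [[0,1,2,3,4,5],[0,1,2,3,4],[0,1,2,3,4,6],[0,1,2,3,4,5]],Ref.mk 1469 2144 [0,1,2,3] [[0,3,2,1,4,5],[1,0,2,3,4],[0,1,2,3,4],[0,2,1,3,4,5]],Ref.mk 1712 2146 [0,1,2,3] [[0,3,2,1,4,5],[1,0,2,3,4],[0,1,2,3,4],[0,2,1,3,4,5]],Ref.mk 1874 2150 [0,1,2,3] [[0,3,2,1,4,5],[1,0,2,3,4],[0,1,2,3,5,4],[0,2,1,3,4,5]],Ref.mk 1955 2153 [3,1,2,0] [[0,2,3,1,4,5],[1,0,2,3,4],[0,1,3,2,4,6],[0,3,1,2,4,5]]],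
Node.mk [0,820,182,1542,2448,27,274,2938,3105,185,3906,9,342,36,1055,2523] [(0,3),(2,0),(2,1),(2,2),(2,3),(2,4)] [Ref.mk 423 2156 [0,1,2,3] [[0,1,2,3,4,5],[0,1,2,3,4],[0,1,2,3,4,5],[0,1,2,3,4,5]],Ref.mk 2593 2153 [0,1,2,3] [[0,1,2,3,4,5],[0,1,2,3,4],[0,1,2,3,4,5],[0,1,2,3,4,5]],Ref.mk 1874 2153 [3,1,2,0] [[0,2,3,1,4,5],[1,0,2,3,4],[0,1,3,2,4,5],[0,3,1,2,4,5]]],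
Node.mk [0,820,182,1542,2448,27,274,2938,3105,185,3906,9,342,36,1055] [(2,1),(2,3),(3,0),(3,1),(3,2),(3,4)] [Ref.mk 2188 2144 [3,1,2,0] [[0,1,3,2,4,5],[0,1,2,3,4],[0,1,3,2,4],[0,1,3,2,4,5]],Ref.mk 3646 2144 [3,1,2,0] [[0,1,5,2,4,3],[0,1,2,3,4],[0,1,3,2,4],[0,1,3,2,4,5]],Ref.mk 4375 26 [3,1,2,0] [[0,1,3,2,6],[0,1,2,3],[0,1,3,2],[0,1,3,2]],Ref.mk 2350 2146 [3,1,2,0] [[0,1,3,2,4,5],[0,1,2,3,4],[0,1,3,2,4],[0,1,3,2,4,5]],Ref.mk 3808 2146 [3,1,2,0] [[0,1,5,2,4,3],[0,1,2,3,4],[0,1,3,2,4],[0,1,3,2,4,5]],Ref.mk 4537 1097 [3,1,2,0] [[0,1,3,2,6],[0,1,2,3],[0,1,3,2],[0,1,3,2,4]],Ref.mk 2512 2147 [0,1,2,3] [[0,1,2,3,4,5],[0,1,2,3,4],[0,1,2,3,4],[0,1,2,3,4,5]],Ref.mk 3970 2147 [0,1,2,3] [[0,1,2,3,4,5],[0,1,2,3,4],[0,1,2,3,4],[0,1,2,5,4,3]],Ref.mk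 4699 1920 [3,1,2,0] [[0,1,3,2,6],[0,1,2,3],[0,1,3,2,4],[0,1,3,2,4]],Ref.mk 2593 2154 [0,1,2,3] [[0,1,2,3,4,5],[0,1,2,3,4],[0,1,2,3,4,5],[0,1,2,3,4,5]],Ref.mk 4051 2154 [0,1,2,3] [[0,1,2,3,4,5],[0,1,2,3,4],[0,1,2,3,4,5],[0,1,2,5,4,3]],Ref.mk 4780 1920 [3,1,2,0] [[0,1,3,2,6],[0,1,2,3],[0,1,3,2,5],[0,1,3,2,4]],Ref.mk 2523 2157 [0,1,2,3] [[0,1,2,3,4,5],[0,1,2,3,4],[0,1,2,3,4],[0,1,2,3,4,5]],Ref.mk 3981 2157 [0,1,2,3] [[0,1,2,3,4,5],[0,1,2,3,4],[0,1,2,3,4],[0,1,2,5,4,3]],Ref.mk 4710 2141 [3,1,2,0] [[0,1,3,2,6],[0,1,2,3],[0,1,3,2,4],[0,1,3,2]]],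
Node.mk [0,820,182,1542,2448,27,274,2938,3105,185,3906,9,342,36,1136,2593] [(0,0),(0,4),(1,0),(1,2),(2,1),(2,5)] [],
Node.mk [0,820,182,1542,2448,27,274,2938,3105,185,3906,9,342,36,1136,2674,1955,1545] [(0,0),(0,1),(0,2),(0,4),(1,0),(1,2)] [],
Node.mk [0,820,182,1542,2448,27,274,2938,3105,185,3906,9,342,36,1136,2674,1955,186] [(0,0),(0,1),(0,2),(0,3),(0,4),(1,2)] [Ref.mk 1544 2160 [0,1,2,3] [[0,1,2,3,4,6,5],[0,1,2,3,4],[0,1,2,3,4,5,6],[0,1,2,3,4,5]],Ref.mk 1220 2021 [0,1,2,3] [[0,1,2,3,5],[0,1,2,3],[0,1,2,3,6],[0,1,2,3]],Ref.mk 1545 2160 [0,1,2,3] [[0,1,2,3,4,5,6],[0,1,2,3,4],[0,1,2,3,4,5,6],[0,1,2,3,4,5]],Ref.mk 1221 2021 [0,1,2,3] [[0,1,2,3,6],[0,1,2,3],[0,1,2,3,6],[0,1,2,3]],Ref.mk 1546 2160 [0,1,2,3] [[0,1,2,3,4,6,7],[0,1,2,3,4],[0,1,2,3,4,5,6],[0,1,2,3,4,5]],Ref.mk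 1222 2021 [0,1,2,3] [[0,1,2,3,7],[0,1,2,3],[0,1,2,3,6],[0,1,2,3]]],
Node.mk [0,820,182,1542,2448,27,274,2938,3105,185,3906,9,342,36,1136,2674,1955] [(0,0),(0,1),(0,2),(0,3),(0,4),(0,5)] [Ref.mk 1545 2160 [0,1,2,3] [[0,1,2,3,4,5,6],[0,1,2,3,4],[0,1,2,3,4,5,6],[0,1,2,3,4,5]],Ref.mk 1221 2021 [0,1,2,3] [[0,1,2,3,6],[0,1,2,3],[0,1,2,3,6],[0,1,2,3]],Ref.mk 186 2161 [0,1,2,3] [[0,1,2,3,4,5,6],[0,1,2,3,4],[0,1,2,3,4,5,6],[0,1,2,3,4,5]]],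
Node.mk [0,820,182,1542,2448,27,274,2938,3105,185,3906,9,342,36,1136,2674] [(0,0),(0,1),(0,4),(1,2),(2,1),(3,1)] [Ref.mk 1955 2162 [0,1,2,3] [[0,1,2,3,4,5],[0,1,2,3,4],[0,1,2,3,4,5,6],[0,1,2,3,4,5]],Ref.mk 2604 2162 [3,1,2,0] [[0,1,3,2,4,5],[0,1,2,3,4],[0,1,3,2,4,6,5],[0,1,3,2,4,5]]],
Node.mk [0,820,182,1542,2448,27,274,2938,3105,185,3906,9,342,36,1136,2604,2274] [(0,0),(0,3),(0,4),(1,0),(1,2),(2,1)] [Ref.mk 1878 2141 [0,1,2,3] [[0,1,2,3,6],[0,1,2,3],[0,1,2,3,5],[0,1,2,3]]],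
Node.mk [0,820,182,1542,2448,27,274,2938,3105,185,3906,9,342,36,1136,2604,825] [(0,0),(0,4),(1,1),(1,2),(2,1),(3,1)] [],
Node.mk [0,820,182,1542,2448,27,274,2938,3105,185,3906,9,342,36,1136,2604,186] [(0,0),(0,1),(0,2),(0,3),(0,4),(1,2)] [Ref.mk 2273 2164 [0,1,2,3] [[0,1,2,3,4,6,5],[0,1,2,3,4],[0,1,2,3,4,5],[0,1,2,3,4,5]],Ref.mk 1139 2021 [0,1,2,3] [[0,1,2,3,5],[0,1,2,3],[0,1,2,3,5],[0,1,2,3]],Ref.mk 824 2165 [0,1,2,3] [[0,1,2,3,4,6,5],[0,1,2,3,4],[0,1,2,3,4,5],[0,1,2,3,4,5]],Ref.mk 1877 2159 [0,1,2,3] [[0,3,5,1,4,6],[1,0,2,3,4],[0,1,2,3,4,5],[0,2,1,3,4,5]],Ref.mk 2274 2164 [0,1,2,3] [[0,1,2,3,4,5,6],[0,1,2,3,4],[0,1,2,3,4,5],[0,1,2,3,4,5]],Ref.mk 1140 2021 [0,1,2,3] [[0,1,2,3,6],[0,1,2,3],[0,1,2,3,5],[0,1,2,3]],Ref.mk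 825 2165 [0,1,2,3] [[0,1,2,3,4,5,6],[0,1,2,3,4],[0,1,2,3,4,5],[0,1,2,3,4,5]],Ref.mk 1878 2159 [0,1,2,3] [[0,3,6,1,4,5],[1,0,2,3,4],[0,1,2,3,4,5],[0,2,1,3,4,5]],Ref.mk 2275 2164 [0,1,2,3] [[0,1,2,3,4,6,7],[0,1,2,3,4],[0,1,2,3,4,5],[0,1,2,3,4,5]],Ref.mk 1141 2021 [0,1,2,3] [[0,1,2,3,7],[0,1,2,3],[0,1,2,3,5],[0,1,2,3]],Ref.mk 826 2165 [0,1,2,3] [[0,1,2,3,4,6,7],[0,1,2,3,4],[0,1,2,3,4,5],[0,1,2,3,4,5]],Ref.mk 1879 2141 [0,1,2,3] [[0,1,2,3,7],[0,1,2,3],[0,1,2,3,5],[0,1,2,3]]],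
Node.mk [0,820,182,1542,2448,27,274,2938,3105,185,3906,9,342,36,1136,2604] [(0,0),(0,1),(0,2),(0,3),(0,4),(0,5)] [Ref.mk 2274 2164 [0,1,2,3] [[0,1,2,3,4,5,6],[0,1,2,3,4],[0,1,2,3,4,5],[0,1,2,3,4,5]],Ref.mk 1140 2021 [0,1,2,3] [[0,1,2,3,6],[0,1,2,3],[0,1,2,3,5],[0,1,2,3]],Ref.mk 825 2165 [0,1,2,3] [[0,1,2,3,4,5,6],[0,1,2,3,4],[0,1,2,3,4,5],[0,1,2,3,4,5]],Ref.mk 1878 2141 [0,1,2,3] [[0,1,2,3,6],[0,1,2,3],[0,1,2,3,5],[0,1,2,3]],Ref.mk 186 2166 [0,1,2,3] [[0,1,2,3,4,5,6],[0,1,2,3,4],[0,1,2,3,4,5],[0,1,2,3,4,5]]],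
Node.mk [0,820,182,1542,2448,27,274,2938,3105,185,3906,9,342,36,1136] [(2,1),(2,3),(3,0),(3,1),(3,2),(3,4)] [Ref.mk 2188 2144 [3,1,2,0] [[0,1,3,2,4,5],[0,1,2,3,4],[0,1,3,2,4],[0,1,3,2,4,5]],Ref.mk 3646 2144 [3,1,2,0] [[0,1,5,2,4,3],[0,1,2,3,4],[0,1,3,2,4],[0,1,3,2,4,5]],Ref.mk 4375 26 [3,1,2,0] [[0,1,3,2,6],[0,1,2,3],[0,1,3,2],[0,1,3,2]],Ref.mk 2350 2146 [3,1,2,0] [[0,1,3,2,4,5],[0,1,2,3,4],[0,1,3,2,4],[0,1,3,2,4,5]],Ref.mk 3808 2146 [3,1,2,0] [[0,1,5,2,4,3],[0,1,2,3,4],[0,1,3,2,4],[0,1,3,2,4,5]],Ref.mk 4537 1097 [3,1,2,0] [[0,1,3,2,6],[0,1,2,3],[0,1,3,2],[0,1,3,2,4]],Ref.mk 2512 2154 [3,1,2,0] [[0,1,3,2,4,5],[0,1,2,3,4],[0,1,3,2,4,5],[0,1,3,2,4,5]],Ref.mk 3970 2154 [3,1,2,0] [[0,1,5,2,4,3],[0,1,2,3,4],[0,1,3,2,4,5],[0,1,3,2,4,5]],Ref.mk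 4699 1920 [3,1,2,0] [[0,1,3,2,6],[0,1,2,3],[0,1,3,2,4],[0,1,3,2,4]],Ref.mk 2593 2159 [0,1,2,3] [[0,1,2,3,4,5],[0,1,2,3,4],[0,1,2,3,4,5],[0,1,2,3,4,5]],Ref.mk 4051 2159 [0,1,2,3] [[0,1,2,3,4,5],[0,1,2,3,4],[0,1,2,3,4,5],[0,1,2,5,4,3]],Ref.mk 4780 1920 [3,1,2,0] [[0,1,3,2,6],[0,1,2,3],[0,1,3,2,5],[0,1,3,2,4]],Ref.mk 2674 2163 [0,1,2,3] [[0,1,2,3,4,5],[0,1,2,3,4],[0,1,2,3,4,5,6],[0,1,2,3,4,5]],Ref.mk 4132 2163 [0,1,2,3] [[0,1,2,3,4,5],[0,1,2,3,4],[0,1,2,3,4,5,6],[0,1,2,5,4,3]],Ref.mk 4861 1920 [3,1,2,0] [[0,1,3,2,6],[0,1,2,3],[0,1,3,2,6],[0,1,3,2,4]],Ref.mk 2604 2167 [0,1,2,3] [[0,1,2,3,4,5],[0,1,2,3,4],[0,1,2,3,4,5],[0,1,2,3,4,5]],Ref.mk 4062 2167 [0,1,2,3] [[0,1,2,3,4,5],[0,1,2,3,4],[0,1,2,3,4,5],[0,1,2,5,4,3]],Ref.mk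 4791 2141 [3,1,2,0] [[0,1,3,2,6],[0,1,2,3],[0,1,3,2,5],[0,1,3,2]]],
Node.mk [0,820,182,1542,2448,27,274,2938,3105,185,3906,9,342,36] [(0,0),(0,1),(0,3),(0,4),(2,1),(2,2)] [Ref.mk 731 2144 [0,1,2,3] [[0,1,2,3,4,5],[0,1,2,3,4],[0,1,2,3,4],[0,1,2,3,4,5]],Ref.mk 974 2146 [0,1,2,3] [[0,1,2,3,4,5],[0,1,2,3,4],[0,1,2,3,4],[0,1,2,3,4,5]],Ref.mk 1055 2158 [0,1,2,3] [[0,1,2,3,4,5],[0,1,2,3,4],[0,1,2,3,4],[0,1,2,3,4,5]],Ref.mk 1136 2168 [0,1,2,3] [[0,1,2,3,4,5],[0,1,2,3,4],[0,1,2,3,4,5],[0,1,2,3,4,5]],Ref.mk 1469 2144 [0,1,2,3] [[0,3,2,1,4,5],[1,0,2,3,4],[0,1,2,3,4],[0,2,1,3,4,5]],Ref.mk 1712 2146 [0,1,2,3] [[0,3,2,1,4,5],[1,0,2,3,4],[0,1,2,3,4],[0,2,1,3,4,5]],Ref.mk 1793 2158 [0,1,2,3] [[0,3,2,1,4,5],[1,0,2,3,4],[0,1,2,3,4],[0,2,1,3,4,5]],Ref.mk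 1874 2168 [0,1,2,3] [[0,3,2,1,4,5],[1,0,2,3,4],[0,1,2,3,4,5],[0,2,1,3,4,5]],Ref.mk 734 2144 [0,1,2,3] [[0,1,5,3,4,2],[0,1,2,3,4],[0,1,2,3,4],[0,1,2,3,4,5]],Ref.mk 977 2146 [0,1,2,3] [[0,1,5,3,4,2],[0,1,2,3,4],[0,1,2,3,4],[0,1,2,3,4,5]],Ref.mk 1058 2158 [0,1,2,3] [[0,1,5,3,4,2],[0,1,2,3,4],[0,1,2,3,4],[0,1,2,3,4,5]],Ref.mk 1139 2168 [0,1,2,3] [[0,1,5,3,4,2],[0,1,2,3,4],[0,1,2,3,4,5],[0,1,2,3,4,5]],Ref.mk 1472 2144 [0,1,2,3] [[0,3,5,1,4,2],[1,0,2,3,4],[0,1,2,3,4],[0,2,1,3,4,5]],Ref.mk 1715 2146 [0,1,2,3] [[0,3,5,1,4,2],[1,0,2,3,4],[0,1,2,3,4],[0,2,1,3,4,5]],Ref.mk 1796 2158 [0,1,2,3] [[0,3,5,1,4,2],[1,0,2,3,4],[0,1,2,3,4],[0,2,1,3,4,5]],Ref.mk 1877 2168 [0,1,2,3] [[0,3,5,1,4,2],[1,0,2,3,4],[0,1,2,3,4,5],[0,2,1,3,4,5]],Ref.mk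 735 26 [0,1,2,3] [[0,1,2,3,6],[0,1,2,3],[0,1,2,3],[0,1,2,3]],Ref.mk 978 1741 [0,1,2,3] [[0,1,2,3,6],[0,1,2,3],[0,1,2,3],[0,1,2,3]],Ref.mk 1059 2021 [0,1,2,3] [[0,1,2,3,6],[0,1,2,3],[0,1,2,3,4],[0,1,2,3]],Ref.mk 1140 2021 [0,1,2,3] [[0,1,2,3,6],[0,1,2,3],[0,1,2,3,5],[0,1,2,3]],Ref.mk 1473 2043 [0,1,2,3] [[0,1,2,3,6],[0,1,2,3],[0,1,2,3],[0,1,2,3]],Ref.mk 1716 2134 [0,1,2,3] [[0,1,2,3,6],[0,1,2,3],[0,1,2,3],[0,1,2,3]],Ref.mk 1797 2141 [0,1,2,3] [[0,1,2,3,6],[0,1,2,3],[0,1,2,3,4],[0,1,2,3]],Ref.mk 1878 2141 [0,1,2,3] [[0,1,2,3,6],[0,1,2,3],[0,1,2,3,5],[0,1,2,3]]],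
Node.mk [0,820,182,1542,2448,27,274,2938,3105,185,3906,9,342,768,3019] [(0,0),(0,1),(0,3),(2,0),(2,1),(3,0)] [Ref.mk 895 98 [0,1,2,3] [[0,1,2,3,4],[0,1,2,3],[0,1,2,3],[0,1,2,3]],Ref.mk 976 1741 [0,1,2,3] [[0,1,2,3,4],[0,1,2,3],[0,1,2,3],[0,1,2,3]],Ref.mk 1057 1917 [0,1,2,3] [[0,1,2,3,4],[0,1,2,3],[0,1,2,3,4],[0,1,2,3,4]],Ref.mk 1138 1917 [0,1,2,3] [[0,1,2,3,4],[0,1,2,3],[0,1,2,3,5],[0,1,2,3,4]]],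
Node.mk [0,820,182,1542,2448,27,274,2938,3105,185,3906,9,342,768] [(0,0),(0,3),(1,4),(2,0),(3,0),(3,1)] [Ref.mk 3019 2170 [0,1,2,3] [[0,1,2,3,4,5],[0,1,2,3,4],[0,1,2,3,4],[0,1,2,3,4,5]]],
Node.mk [0,820,182,1542,2448,27,274,2938,3105,185,3906,9,342,930,3024] [(0,0),(0,1),(0,3),(0,4),(2,1),(2,2)] [],
Node.mk [0,820,182,1542,2448,27,274,2938,3105,185,3906,9,342,930] [(0,3),(1,2),(1,4),(2,2),(3,0),(3,1)] [Ref.mk 3024 2172 [0,1,2,3] [[0,1,2,3,4,5],[0,1,2,3,4],[0,1,2,3,4],[0,1,2,3,4,5]]],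
Node.mk [0,820,182,1542,2448,27,274,2938,3105,185,3906,9,342,1092,1819,1055] [(0,0),(0,4),(1,2),(2,1),(2,4),(3,1)] [],
Node.mk [0,820,182,1542,2448,27,274,2938,3105,185,3906,9,342,1092,1819] [(0,0),(0,1),(0,3),(0,4),(1,2),(1,4)] [Ref.mk 1055 2174 [0,1,2,3] [[0,1,2,3,4,5],[0,1,2,3,4],[0,1,2,3,4],[0,1,2,3,4,5]],Ref.mk 1793 2174 [0,1,2,3] [[0,3,2,1,4,5],[1,0,2,3,4],[0,1,2,3,4],[0,2,1,3,4,5]],Ref.mk 1058 2174 [0,1,2,3] [[0,1,5,3,4,2],[0,1,2,3,4],[0,1,2,3,4],[0,1,2,3,4,5]],Ref.mk 1796 2174 [0,1,2,3] [[0,3,5,1,4,2],[1,0,2,3,4],[0,1,2,3,4],[0,2,1,3,4,5]],Ref.mk 1059 2021 [0,1,2,3] [[0,1,2,3,6],[0,1,2,3],[0,1,2,3,4],[0,1,2,3]],Ref.mk 1797 2141 [0,1,2,3] [[0,1,2,3,6],[0,1,2,3],[0,1,2,3,4],[0,1,2,3]]]]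

/-- nodes -/
noncomputable def c34 : List Node := [
Node.mk [0,820,182,1542,2448,27,274,2938,3105,185,3906,9,342,1092,1900,1136] [(1,0),(1,1),(1,2),(1,3),(1,4),(3,1)] [Ref.mk 45 1764 [0,1,3,2] [[0,1,4,3,2,5],[0,4,2,3,1,5],[0,2,4,3,1,5],[0,5,1,3,2,4]]],
Node.mk [0,820,182,1542,2448,27,274,2938,3105,185,3906,9,342,1092,1900,1793] [(1,0),(1,1),(1,2),(1,3),(1,4),(3,2)] [Ref.mk 45 2158 [0,1,2,3] [[0,3,2,1,4,5],[1,0,2,3,5],[0,1,2,3,4],[0,2,1,3,4,5]]],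
Node.mk [0,820,182,1542,2448,27,274,2938,3105,185,3906,9,342,1092,1900] [(0,0),(0,1),(0,3),(0,4),(1,2),(1,4)] [Ref.mk 1136 2176 [0,1,2,3] [[0,1,2,3,4,5],[0,1,2,3,4],[0,1,2,3,4,5],[0,1,2,3,4,5]],Ref.mk 1793 2177 [0,1,2,3] [[0,1,2,3,4,5],[0,1,2,3,4],[0,1,2,3,4,5],[0,1,2,3,4,5]],Ref.mk 1139 2176 [0,1,2,3] [[0,1,5,3,4,2],[0,1,2,3,4],[0,1,2,3,4,5],[0,1,2,3,4,5]],Ref.mk 1796 2177 [0,1,2,3] [[0,1,5,3,4,2],[0,1,2,3,4],[0,1,2,3,4,5],[0,1,2,3,4,5]],Ref.mk 1140 1820 [0,1,3,2] [[0,1,4,3,6,2,5],[0,4,2,3,1],[0,2,4,3,1,5],[0,5,1,3,2,4]],Ref.mk 1797 1820 [0,1,3,2] [[0,3,4,1,6,2,5],[1,4,2,3,0],[0,1,4,3,2,5],[0,4,1,3,2,5]]],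
Node.mk [0,820,182,1542,2448,27,274,2938,3105,185,3906,9,342,1092,1828,1055] [(0,0),(0,1),(0,4),(1,2),(2,1),(2,4)] [Ref.mk 777 2171 [0,1,2,3] [[0,1,2,3,4,5],[0,1,2,3,5],[0,1,2,3,4],[0,1,2,3,4,5]],Ref.mk 939 2173 [0,1,2,3] [[0,1,2,3,4,5],[0,1,2,3,5],[0,1,2,3,4],[0,1,2,3,4,5]],Ref.mk 1020 2173 [3,1,2,0] [[0,2,3,1,4,5],[1,0,2,3,5],[0,1,3,2,4],[0,3,1,2,4,5]],Ref.mk 1182 2177 [0,1,2,3] [[0,3,2,1,4,5],[1,0,2,3,5],[0,1,2,3,4,5],[0,2,1,3,4,5]]],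
Node.mk [0,820,182,1542,2448,27,274,2938,3105,185,3906,9,342,1092,1828] [(0,0),(0,1),(0,3),(0,4),(1,2),(2,1)] [Ref.mk 1055 2179 [0,1,2,3] [[0,1,2,3,4,5],[0,1,2,3,4,5],[0,1,2,3,4],[0,1,2,3,4,5]],Ref.mk 1793 2179 [0,1,2,3] [[0,3,2,1,4,5],[1,0,2,3,5,4],[0,1,2,3,4],[0,2,1,3,4,5]],Ref.mk 1058 2179 [0,1,2,3] [[0,1,5,3,4,2],[0,1,2,3,4,5],[0,1,2,3,4],[0,1,2,3,4,5]],Ref.mk 1796 2179 [0,1,2,3] [[0,3,5,1,4,2],[1,0,2,3,5,4],[0,1,2,3,4],[0,2,1,3,4,5]],Ref.mk 1059 2021 [0,1,2,3] [[0,1,2,3,6],[0,1,2,3],[0,1,2,3,4],[0,1,2,3]],Ref.mk 1797 2141 [0,1,2,3] [[0,1,2,3,6],[0,1,2,3],[0,1,2,3,4],[0,1,2,3]]],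
Node.mk [0,820,182,1542,2448,27,274,2938,3105,185,3906,9,342,1092] [(0,3),(1,0),(1,1),(1,2),(1,3),(2,1)] [Ref.mk 36 2169 [0,1,2,3] [[0,1,2,3,4,5],[0,1,2,3,4],[0,1,2,3,4],[0,1,2,3,4,5]],Ref.mk 45 2169 [0,1,2,3] [[0,1,2,3,4,5],[0,1,2,3,5],[0,1,2,3,4],[0,1,2,3,4,5]],Ref.mk 1495 2171 [0,1,2,3] [[0,3,2,1,4,5],[1,0,2,3,4],[0,1,2,3,4],[0,2,1,3,4,5]],Ref.mk 1657 2173 [0,1,2,3] [[0,3,2,1,4,5],[1,0,2,3,4],[0,1,2,3,4],[0,2,1,3,4,5]],Ref.mk 1738 2173 [3,1,2,0] [[0,1,3,2,4,5],[0,1,2,3,4],[0,1,3,2,4],[0,1,3,2,4,5]],Ref.mk 1819 2175 [0,1,2,3] [[0,1,2,3,4,5],[0,1,2,3,4],[0,1,2,3,4],[0,1,2,3,4,5]],Ref.mk 1900 2178 [0,1,2,3] [[0,1,2,3,4,5],[0,1,2,3,4],[0,1,2,3,4,5],[0,1,2,3,4,5]],Ref.mk 1828 2180 [0,1,2,3] [[0,1,2,3,4,5],[0,1,2,3,4,5],[0,1,2,3,4],[0,1,2,3,4,5]]],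
Node.mk [0,820,182,1542,2448,27,274,2938,3105,185,3906,9,342,1173,1900,1136] [(0,0),(0,4),(1,2),(2,1),(2,5),(3,1)] [],
Node.mk [0,820,182,1542,2448,27,274,2938,3105,185,3906,9,342,1173,1900] [(0,0),(0,1),(0,3),(0,4),(1,2),(1,4)] [Ref.mk 1136 2182 [0,1,2,3] [[0,1,2,3,4,5],[0,1,2,3,4],[0,1,2,3,4,5],[0,1,2,3,4,5]],Ref.mk 1874 2182 [0,1,2,3] [[0,3,2,1,4,5],[1,0,2,3,4],[0,1,2,3,4,5],[0,2,1,3,4,5]],Ref.mk 1139 2182 [0,1,2,3] [[0,1,5,3,4,2],[0,1,2,3,4],[0,1,2,3,4,5],[0,1,2,3,4,5]],Ref.mk 1877 2182 [0,1,2,3] [[0,3,5,1,4,2],[1,0,2,3,4],[0,1,2,3,4,5],[0,2,1,3,4,5]],Ref.mk 1140 2021 [0,1,2,3] [[0,1,2,3,6],[0,1,2,3],[0,1,2,3,5],[0,1,2,3]],Ref.mk 1878 2141 [0,1,2,3] [[0,1,2,3,6],[0,1,2,3],[0,1,2,3,5],[0,1,2,3]]],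
Node.mk [0,820,182,1542,2448,27,274,2938,3105,185,3906,9,342,1173,1981,1217] [(1,0),(1,1),(1,2),(1,3),(1,4),(3,1)] [Ref.mk 45 1768 [0,1,3,2] [[0,1,4,3,2,5],[0,4,2,3,1,5],[0,2,4,3,1,5],[0,6,1,3,2,4,5]]],
Node.mk [0,820,182,1542,2448,27,274,2938,3105,185,3906,9,342,1173,1981] [(0,0),(0,1),(0,3),(0,4),(1,2),(1,4)] [Ref.mk 1217 2184 [0,1,2,3] [[0,1,2,3,4,5],[0,1,2,3,4],[0,1,2,3,4,5,6],[0,1,2,3,4,5]],Ref.mk 1874 2184 [0,1,2,3] [[0,3,2,1,4,5],[1,0,2,3,4],[0,1,2,3,4,6,5],[0,2,1,3,4,5]],Ref.mk 1220 2184 [0,1,2,3] [[0,1,5,3,4,2],[0,1,2,3,4],[0,1,2,3,4,5,6],[0,1,2,3,4,5]],Ref.mk 1877 2184 [0,1,2,3] [[0,3,5,1,4,2],[1,0,2,3,4],[0,1,2,3,4,6,5],[0,2,1,3,4,5]],Ref.mk 1221 1820 [0,1,3,2] [[0,1,4,3,6,2,5],[0,4,2,3,1],[0,2,4,3,1,5],[0,6,1,3,2,5]],Ref.mk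 1878 1820 [0,1,3,2] [[0,3,4,1,6,2,5],[1,4,2,3,0],[0,1,4,3,2,5],[0,5,1,3,2,6]]],
Node.mk [0,820,182,1542,2448,27,274,2938,3105,185,3906,9,342,1173,1909,1136] [(0,0),(0,1),(0,4),(1,2),(2,1),(2,5)] [Ref.mk 777 2171 [0,1,2,3] [[0,1,2,3,4,5],[0,1,2,3,5],[0,1,2,3,4],[0,1,2,3,4,5]],Ref.mk 939 2173 [0,1,2,3] [[0,1,2,3,4,5],[0,1,2,3,5],[0,1,2,3,4],[0,1,2,3,4,5]],Ref.mk 1020 2173 [3,1,2,0] [[0,2,3,1,4,5],[1,0,2,3,5],[0,1,3,2,4],[0,3,1,2,4,5]],Ref.mk 1101 2176 [0,1,2,3] [[0,1,2,3,4,5],[0,1,2,3,5],[0,1,2,3,4,5],[0,1,2,3,4,5]],Ref.mk 1263 2184 [0,1,2,3] [[0,1,2,3,4,5],[0,1,2,3,5],[0,1,2,3,4,6,5],[0,1,2,3,4,5]]],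
Node.mk [0,820,182,1542,2448,27,274,2938,3105,185,3906,9,342,1173,1909] [(0,0),(0,1),(0,3),(0,4),(1,2),(2,1)] [Ref.mk 1136 2186 [0,1,2,3] [[0,1,2,3,4,5],[0,1,2,3,4,5],[0,1,2,3,4,5],[0,1,2,3,4,5]],Ref.mk 1874 2186 [0,1,2,3] [[0,3,2,1,4,5],[1,0,2,3,5,4],[0,1,2,3,4,5],[0,2,1,3,4,5]],Ref.mk 1139 2186 [0,1,2,3] [[0,1,5,3,4,2],[0,1,2,3,4,5],[0,1,2,3,4,5],[0,1,2,3,4,5]],Ref.mk 1877 2186 [0,1,2,3] [[0,3,5,1,4,2],[1,0,2,3,5,4],[0,1,2,3,4,5],[0,2,1,3,4,5]],Ref.mk 1140 2021 [0,1,2,3] [[0,1,2,3,6],[0,1,2,3],[0,1,2,3,5],[0,1,2,3]],Ref.mk 1878 2141 [0,1,2,3] [[0,1,2,3,6],[0,1,2,3],[0,1,2,3,5],[0,1,2,3]]],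
Node.mk [0,820,182,1542,2448,27,274,2938,3105,185,3906,9,342,1173] [(0,3),(1,0),(1,1),(1,2),(1,3),(2,1)] [Ref.mk 36 2169 [0,1,2,3] [[0,1,2,3,4,5],[0,1,2,3,4],[0,1,2,3,4],[0,1,2,3,4,5]],Ref.mk 45 2169 [0,1,2,3] [[0,1,2,3,4,5],[0,1,2,3,5],[0,1,2,3,4],[0,1,2,3,4,5]],Ref.mk 1495 2171 [0,1,2,3] [[0,3,2,1,4,5],[1,0,2,3,4],[0,1,2,3,4],[0,2,1,3,4,5]],Ref.mk 1657 2173 [0,1,2,3] [[0,3,2,1,4,5],[1,0,2,3,4],[0,1,2,3,4],[0,2,1,3,4,5]],Ref.mk 1738 2173 [3,1,2,0] [[0,1,3,2,4,5],[0,1,2,3,4],[0,1,3,2,4],[0,1,3,2,4,5]],Ref.mk 1819 2178 [0,1,2,3] [[0,3,2,1,4,5],[1,0,2,3,4],[0,1,2,3,4,5],[0,2,1,3,4,5]],Ref.mk 1900 2183 [0,1,2,3] [[0,1,2,3,4,5],[0,1,2,3,4],[0,1,2,3,4,5],[0,1,2,3,4,5]],Ref.mk 1981 2185 [0,1,2,3] [[0,1,2,3,4,5],[0,1,2,3,4],[0,1,2,3,4,5,6],[0,1,2,3,4,5]],Ref.mk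 1909 2187 [0,1,2,3] [[0,1,2,3,4,5],[0,1,2,3,4,5],[0,1,2,3,4,5],[0,1,2,3,4,5]]],
Node.mk [0,820,182,1542,2448,27,274,2938,3105,185,3906,9,342] [(0,1),(1,0),(1,1),(1,2),(1,3),(2,1)] [Ref.mk 36 2169 [0,1,2,3] [[0,1,2,3,4,5],[0,1,2,3,4],[0,1,2,3,4],[0,1,2,3,4,5]],Ref.mk 768 2171 [0,1,2,3] [[0,1,2,3,4,5],[0,1,2,3,4],[0,1,2,3,4],[0,1,2,3,4,5]],Ref.mk 930 2173 [0,1,2,3] [[0,1,2,3,4,5],[0,1,2,3,4],[0,1,2,3,4],[0,1,2,3,4,5]],Ref.mk 1011 2173 [3,1,2,0] [[0,2,3,1,4,5],[1,0,2,3,4],[0,1,3,2,4],[0,3,1,2,4,5]],Ref.mk 1092 2181 [0,1,2,3] [[0,1,2,3,4,5],[0,1,2,3,4],[0,1,2,3,4],[0,1,2,3,4,5]],Ref.mk 1173 2188 [0,1,2,3] [[0,1,2,3,4,5],[0,1,2,3,4],[0,1,2,3,4,5],[0,1,2,3,4,5]]],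
Node.mk [0,820,182,1542,2448,27,274,2938,3105,185,3906,9,1055,36,406] [(0,0),(0,1),(1,0),(1,2),(2,5),(3,0)] [],
Node.mk [0,820,182,1542,2448,27,274,2938,3105,185,3906,9,1055,36,1864] [(0,0),(0,4),(1,0),(1,2),(3,1),(3,2)] [],
Node.mk [0,820,182,1542,2448,27,274,2938,3105,185,3906,9,1055,36,2593,1874,1545] [(0,0),(0,1),(0,2),(0,4),(1,0),(1,2)] [],
Node.mk [0,820,182,1542,2448,27,274,2938,3105,185,3906,9,1055,36,2593,1874,186] [(0,0),(0,1),(0,2),(0,3),(0,4),(1,2)] [Ref.mk 1544 2192 [0,1,2,3] [[0,1,2,3,4,6,5],[0,1,2,3,4],[0,1,2,3,4,5],[0,1,2,3,4,5]],Ref.mk 1139 2021 [0,1,2,3] [[0,1,2,3,5],[0,1,2,3],[0,1,2,3,5],[0,1,2,3]],Ref.mk 1545 436 [0,1,3,2] [[0,2,4,6,1,5,3],[0,1,2,3,4],[0,2,4,3,5,1],[0,5,1,3,2,4]],Ref.mk 1140 2021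 [0,1,2,3] [[0,1,2,3,6],[0,1,2,3],[0,1,2,3,5],[0,1,2,3]],Ref.mk 1546 2192 [0,1,2,3] [[0,1,2,3,4,6,7],[0,1,2,3,4],[0,1,2,3,4,5],[0,1,2,3,4,5]],Ref.mk 1141 2021 [0,1,2,3] [[0,1,2,3,7],[0,1,2,3],[0,1,2,3,5],[0,1,2,3]]],
Node.mk [0,820,182,1542,2448,27,274,2938,3105,185,3906,9,1055,36,2593,1874] [(0,0),(0,1),(0,2),(0,3),(0,4),(0,5)] [Ref.mk 1545 2192 [0,1,2,3] [[0,1,2,3,4,5,6],[0,1,2,3,4],[0,1,2,3,4,5],[0,1,2,3,4,5]],Ref.mk 1140 1033 [0,1,3,2] [[0,2,4,3,1,5,6],[0,1,2,3,4],[0,2,4,3,5,1],[0,5,1,3,2,4]],Ref.mk 186 2193 [0,1,2,3] [[0,1,2,3,4,5,6],[0,1,2,3,4],[0,1,2,3,4,5],[0,1,2,3,4,5]]],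
Node.mk [0,820,182,1542,2448,27,274,2938,3105,185,3906,9,1055,36,2593] [(0,0),(0,1),(0,4),(1,2),(2,1),(3,1)] [Ref.mk 1874 2194 [0,1,2,3] [[0,1,2,3,4,5],[0,1,2,3,4],[0,1,2,3,4,5],[0,1,2,3,4,5]],Ref.mk 2523 2194 [3,1,2,0] [[0,1,3,2,4,5],[0,1,2,3,4],[0,1,3,2,5,4],[0,1,3,2,4,5]]],
Node.mk [0,820,182,1542,2448,27,274,2938,3105,185,3906,9,1055,36,1874] [(0,0),(0,2),(0,4),(1,2),(3,1),(3,2)] [Ref.mk 406 2190 [0,1,2,3] [[0,1,2,3,4,5],[0,1,2,3,4],[0,1,2,3,4,5],[0,1,2,3,4,5]],Ref.mk 2593 2194 [0,1,2,3] [[0,1,2,3,4,5],[0,1,2,3,4],[0,1,2,3,4,5],[0,1,2,3,4,5]],Ref.mk 3322 1917 [3,1,2,0] [[0,1,3,2,4],[0,1,2,3],[0,1,3,2,5],[0,1,3,2,4]],Ref.mk 4051 2194 [0,1,2,3] [[0,1,2,3,4,5],[0,1,2,3,4],[0,1,2,3,4,5],[0,1,2,5,4,3]],Ref.mk 4780 1043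 [3,1,0,2] [[0,6,4,1,2,3,5],[1,0,2,3,4],[0,1,4,2,5,3],[0,5,1,2,3,4]],Ref.mk 336 2190 [0,1,2,3] [[0,3,2,1,4,5],[1,0,2,3,4],[0,1,2,3,5,4],[0,2,1,3,4,5]],Ref.mk 2523 2194 [0,1,2,3] [[0,3,2,1,4,5],[1,0,2,3,4],[0,1,2,3,5,4],[0,2,1,3,4,5]],Ref.mk 3252 2141 [3,1,2,0] [[0,1,3,2,4],[0,1,2,3],[0,1,3,2,4],[0,1,3,2]],Ref.mk 3981 2194 [0,1,2,3] [[0,3,2,1,4,5],[1,0,2,3,4],[0,1,2,3,5,4],[0,2,1,5,4,3]],Ref.mk 4710 1043 [3,1,0,2] [[0,6,4,2,1,3,5],[0,1,2,3,4],[0,3,4,2,5,1],[0,4,1,2,3,5]]],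
Node.mk [0,820,182,1542,2448,27,274,2938,3105,185,3906,9,1055,36] [(2,0),(2,1),(2,2),(2,3),(2,4),(3,1)] [Ref.mk 423 2168 [0,1,2,3] [[0,1,2,3,4,5],[0,1,2,3,4],[0,1,2,3,5,4],[0,1,2,3,4,5]],Ref.mk 406 2190 [0,1,2,3] [[0,1,2,3,4,5],[0,1,2,3,4],[0,1,2,3,4,5],[0,1,2,3,4,5]],Ref.mk 1864 2191 [0,1,2,3] [[0,1,2,3,4,5],[0,1,2,3,4],[0,1,2,3,4,5],[0,1,2,3,4,5]],Ref.mk 2593 2195 [0,1,2,3] [[0,1,2,3,4,5],[0,1,2,3,4],[0,1,2,3,4,5],[0,1,2,3,4,5]],Ref.mk 3322 1917 [3,1,2,0] [[0,1,3,2,4],[0,1,2,3],[0,1,3,2,5],[0,1,3,2,4]],Ref.mk 4051 2195 [0,1,2,3] [[0,1,2,3,4,5],[0,1,2,3,4],[0,1,2,3,4,5],[0,1,2,5,4,3]],Ref.mk 4780 1920 [3,1,2,0] [[0,1,3,2,6],[0,1,2,3],[0,1,3,2,5],[0,1,3,2,4]],Ref.mk 1874 2196 [0,1,2,3] [[0,1,2,3,4,5],[0,1,2,3,4],[0,1,2,3,4,5],[0,1,2,3,4,5]]],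
Node.mk [0,820,182,1542,2448,27,274,2938,3105,185,3906,9,1055,1819,1586] [(0,0),(0,4),(1,2),(2,1),(2,4),(3,2)] [],
Node.mk [0,820,182,1542,2448,27,274,2938,3105,185,3906,9,1055,1819,1101] [(0,0),(0,3),(0,4),(1,2),(2,4),(3,1)] [Ref.mk 1586 2198 [0,1,2,3] [[0,1,2,3,4,5],[0,1,2,3,4,5],[0,1,2,3,4],[0,1,2,3,4,5]]],
Node.mk [0,820,182,1542,2448,27,274,2938,3105,185,3906,9,1055,1819] [(0,1),(1,0),(1,1),(1,2),(1,3),(1,4)] [Ref.mk 45 2197 [0,1,2,3] [[0,1,2,3,4,5],[0,1,2,3,5],[0,1,2,3,4],[0,1,2,3,4,5]],Ref.mk 1586 2198 [0,1,2,3] [[0,1,2,3,4,5],[0,1,2,3,4,5],[0,1,2,3,4],[0,1,2,3,4,5]],Ref.mk 1101 2199 [0,1,2,3] [[0,1,2,3,4,5],[0,1,2,3,4,5],[0,1,2,3,4],[0,1,2,3,4,5]]],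
Node.mk [0,820,182,1542,2448,27,274,2938,3105,185,3906,9,1055] [(0,2),(1,0),(1,1),(1,2),(1,3),(3,1)] [Ref.mk 36 2197 [0,1,2,3] [[0,1,2,3,4,5],[0,1,2,3,4],[0,1,2,3,4],[0,1,2,3,4,5]],Ref.mk 1819 2200 [0,1,2,3] [[0,1,2,3,4,5],[0,1,2,3,4],[0,1,2,3,4],[0,1,2,3,4,5]]],
Node.mk [0,820,182,1542,2448,27,274,2938,3105,185,3906,9] [(0,1),(0,3),(2,0),(2,1),(2,2),(2,3)] [Ref.mk 1053 2142 [0,1,2,3] [[0,1,2,3,4,5],[0,1,2,3],[0,1,2,3,4],[0,1,2,3,4,5]],Ref.mk 1791 2142 [0,1,2,3] [[0,3,2,1,4,5],[1,0,2,3],[0,1,2,3,4],[0,2,1,3,4,5]],Ref.mk 342 2189 [0,1,2,3] [[0,1,2,3,4,5],[0,1,2,3],[0,1,2,3,4],[0,1,2,3,4,5]],Ref.mk 1055 2201 [0,1,2,3] [[0,1,2,3,4,5],[0,1,2,3],[0,1,2,3,4],[0,1,2,3,4,5]],Ref.mk 1793 2201 [0,1,2,3] [[0,3,2,1,4,5],[1,0,2,3],[0,1,2,3,4],[0,2,1,3,4,5]],Ref.mk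 1057 1917 [0,1,2,3] [[0,1,2,3,4],[0,1,2,3],[0,1,2,3,4],[0,1,2,3,4]],Ref.mk 1795 2141 [0,1,2,3] [[0,1,2,3,4],[0,1,2,3],[0,1,2,3,4],[0,1,2,3]],Ref.mk 1058 2201 [0,1,2,3] [[0,1,5,3,4,2],[0,1,2,3],[0,1,2,3,4],[0,1,2,3,4,5]],Ref.mk 1796 2201 [0,1,2,3] [[0,3,5,1,4,2],[1,0,2,3],[0,1,2,3,4],[0,2,1,3,4,5]],Ref.mk 1059 2021 [0,1,2,3] [[0,1,2,3,6],[0,1,2,3],[0,1,2,3,4],[0,1,2,3]],Ref.mk 1797 2141 [0,1,2,3] [[0,1,2,3,6],[0,1,2,3],[0,1,2,3,4],[0,1,2,3]]],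
Node.mk [0,820,182,1542,2448,27,274,2938,3105,185,3906,36,1053] [(0,0),(1,0),(1,2),(2,4),(3,0),(3,1)] [Ref.mk 1633 2062 [0,1,2,3] [[0,1,2,3,4],[0,1,2,3],[0,1,2,3],[0,1,2,3]]],
Node.mk [0,820,182,1542,2448,27,274,2938,3105,185,3906,36,1791] [(0,0),(1,1),(1,2),(2,4),(3,0),(3,2)] [Ref.mk 895 98 [0,1,2,3] [[0,1,2,3,4],[0,1,2,3],[0,1,2,3],[0,1,2,3]]],
Node.mk [0,820,182,1542,2448,27,274,2938,3105,185,3906,36,342,731,3019] [(0,0),(0,1),(0,3),(2,0),(2,1),(3,0)] [Ref.mk 895 98 [0,1,2,3] [[0,1,2,3,4],[0,1,2,3],[0,1,2,3],[0,1,2,3]],Ref.mk 976 1741 [0,1,2,3] [[0,1,2,3,4],[0,1,2,3],[0,1,2,3],[0,1,2,3]],Ref.mk 1057 1917 [0,1,2,3] [[0,1,2,3,4],[0,1,2,3],[0,1,2,3,4],[0,1,2,3,4]],Ref.mk 1138 1917 [0,1,2,3] [[0,1,2,3,4],[0,1,2,3],[0,1,2,3,5],[0,1,2,3,4]]],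
Node.mk [0,820,182,1542,2448,27,274,2938,3105,185,3906,36,342,731] [(0,0),(0,2),(1,0),(2,0),(3,0),(3,1)] [Ref.mk 3019 2205 [0,1,2,3] [[0,1,2,3,4,5],[0,1,2,3,4],[0,1,2,3,4],[0,1,2,3,4,5]]],
Node.mk [0,820,182,1542,2448,27,274,2938,3105,185,3906,36,342,974,112] [(0,0),(0,1),(0,3),(1,2),(2,1),(2,3)] [Ref.mk 733 26 [0,1,2,3] [[0,1,2,3,4],[0,1,2,3],[0,1,2,3],[0,1,2,3]],Ref.mk 895 98 [0,1,2,3] [[0,1,2,3,4],[0,1,2,3],[0,1,2,3],[0,1,2,3]],Ref.mk 1057 1917 [0,1,2,3] [[0,1,2,3,4],[0,1,2,3],[0,1,2,3,4],[0,1,2,3,4]],Ref.mk 1138 1917 [0,1,2,3] [[0,1,2,3,4],[0,1,2,3],[0,1,2,3,5],[0,1,2,3,4]]],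
Node.mk [0,820,182,1542,2448,27,274,2938,3105,185,3906,36,342,974] [(0,0),(0,2),(1,0),(1,2),(2,3),(3,1)] [Ref.mk 112 2207 [0,1,2,3] [[0,1,2,3,4,5],[0,1,2,3,4],[0,1,2,3,4],[0,1,2,3,4,5]]],
Node.mk [0,820,182,1542,2448,27,274,2938,3105,185,3906,36,342,1055,2512] [(0,0),(0,4),(1,0),(1,2),(2,1),(2,4)] [],
Node.mk [0,820,182,1542,2448,27,274,2938,3105,185,3906,36,342,1055,2593,1874,1545] [(0,0),(0,1),(0,2),(0,4),(1,0),(1,2)] [],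
Node.mk [0,820,182,1542,2448,27,274,2938,3105,185,3906,36,342,1055,2593,1874,186] [(0,0),(0,1),(0,2),(0,3),(0,4),(1,2)] [Ref.mk 1544 2210 [0,1,2,3] [[0,1,2,3,4,6,5],[0,1,2,3,4],[0,1,2,3,4,5],[0,1,2,3,4,5]],Ref.mk 1139 2021 [0,1,2,3] [[0,1,2,3,5],[0,1,2,3],[0,1,2,3,5],[0,1,2,3]],Ref.mk 1545 436 [0,1,3,2] [[0,2,4,6,1,5,3],[0,1,2,3,4],[0,2,4,3,5,1],[0,5,1,3,2,4]],Ref.mk 1140 2021 [0,1,2,3] [[0,1,2,3,6],[0,1,2,3],[0,1,2,3,5],[0,1,2,3]],Ref.mk 1546 2210 [0,1,2,3] [[0,1,2,3,4,6,7],[0,1,2,3,4],[0,1,2,3,4,5],[0,1,2,3,4,5]],Ref.mk 1141 2021 [0,1,2,3] [[0,1,2,3,7],[0,1,2,3],[0,1,2,3,5],[0,1,2,3]]],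
Node.mk [0,820,182,1542,2448,27,274,2938,3105,185,3906,36,342,1055,2593,1874] [(0,0),(0,1),(0,2),(0,3),(0,4),(0,5)] [Ref.mk 1545 2210 [0,1,2,3] [[0,1,2,3,4,5,6],[0,1,2,3,4],[0,1,2,3,4,5],[0,1,2,3,4,5]],Ref.mk 1140 1033 [0,1,3,2] [[0,2,4,3,1,5,6],[0,1,2,3,4],[0,2,4,3,5,1],[0,5,1,3,2,4]],Ref.mk 186 2211 [0,1,2,3] [[0,1,2,3,4,5,6],[0,1,2,3,4],[0,1,2,3,4,5],[0,1,2,3,4,5]]],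
Node.mk [0,820,182,1542,2448,27,274,2938,3105,185,3906,36,342,1055,2593,2523,2274] [(0,0),(0,1),(0,4),(1,0),(1,2),(3,3)] [],
Node.mk [0,820,182,1542,2448,27,274,2938,3105,185,3906,36,342,1055,2593,2523,186] [(0,0),(0,1),(0,2),(0,3),(0,4),(1,2)] [Ref.mk 2273 2213 [0,1,2,3] [[0,1,2,3,4,6,5],[0,1,2,3,4],[0,1,2,3,4,5],[0,1,2,3,4,5]],Ref.mk 1058 2021 [0,1,2,3] [[0,1,2,3,5],[0,1,2,3],[0,1,2,3,4],[0,1,2,3]],Ref.mk 2274 2213 [0,1,2,3] [[0,1,2,3,4,5,6],[0,1,2,3,4],[0,1,2,3,4,5],[0,1,2,3,4,5]],Ref.mk 1059 2021 [0,1,2,3] [[0,1,2,3,6],[0,1,2,3],[0,1,2,3,4],[0,1,2,3]],Ref.mk 2275 2213 [0,1,2,3] [[0,1,2,3,4,6,7],[0,1,2,3,4],[0,1,2,3,4,5],[0,1,2,3,4,5]],Ref.mk 1060 2021 [0,1,2,3] [[0,1,2,3,7],[0,1,2,3],[0,1,2,3,4],[0,1,2,3]]],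
Node.mk [0,820,182,1542,2448,27,274,2938,3105,185,3906,36,342,1055,2593,2523] [(0,0),(0,1),(0,2),(0,3),(0,4),(0,5)] [Ref.mk 2274 2213 [0,1,2,3] [[0,1,2,3,4,5,6],[0,1,2,3,4],[0,1,2,3,4,5],[0,1,2,3,4,5]],Ref.mk 1059 2021 [0,1,2,3] [[0,1,2,3,6],[0,1,2,3],[0,1,2,3,4],[0,1,2,3]],Ref.mk 186 2214 [0,1,2,3] [[0,1,2,3,4,5,6],[0,1,2,3,4],[0,1,2,3,4,5],[0,1,2,3,4,5]]],
Node.mk [0,820,182,1542,2448,27,274,2938,3105,185,3906,36,342,1055,2593] [(0,0),(0,1),(0,4),(1,2),(2,1),(3,1)] [Ref.mk 1874 2212 [0,1,2,3] [[0,1,2,3,4,5],[0,1,2,3,4],[0,1,2,3,4,5],[0,1,2,3,4,5]],Ref.mk 2523 2215 [0,1,2,3] [[0,1,2,3,4,5],[0,1,2,3,4],[0,1,2,3,4,5],[0,1,2,3,4,5]]],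
Node.mk [0,820,182,1542,2448,27,274,2938,3105,185,3906,36,342,1055,2523,423,2274] [(0,0),(0,3),(0,4),(1,0),(1,2),(2,1)] [Ref.mk 1797 2141 [0,1,2,3] [[0,1,2,3,6],[0,1,2,3],[0,1,2,3,4],[0,1,2,3]]],
Node.mk [0,820,182,1542,2448,27,274,2938,3105,185,3906,36,342,1055,2523,423,825] [(0,0),(0,4),(1,1),(1,2),(2,1),(3,1)] [],
Node.mk [0,820,182,1542,2448,27,274,2938,3105,185,3906,36,342,1055,2523,423,186] [(0,0),(0,1),(0,2),(0,3),(0,4),(1,2)] [Ref.mk 2273 2217 [0,1,2,3] [[0,1,2,3,4,6,5],[0,1,2,3,4],[0,1,2,3,4,5],[0,1,2,3,4,5]],Ref.mk 1058 2021 [0,1,2,3] [[0,1,2,3,5],[0,1,2,3],[0,1,2,3,4],[0,1,2,3]],Ref.mk 824 2218 [0,1,2,3] [[0,1,2,3,4,6,5],[0,1,2,3,4],[0,1,2,3,4,5],[0,1,2,3,4,5]],Ref.mk 1796 2141 [0,1,2,3] [[0,1,2,3,5],[0,1,2,3],[0,1,2,3,4],[0,1,2,3]],Ref.mk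 2274 2217 [0,1,2,3] [[0,1,2,3,4,5,6],[0,1,2,3,4],[0,1,2,3,4,5],[0,1,2,3,4,5]],Ref.mk 1059 2021 [0,1,2,3] [[0,1,2,3,6],[0,1,2,3],[0,1,2,3,4],[0,1,2,3]],Ref.mk 825 2218 [0,1,2,3] [[0,1,2,3,4,5,6],[0,1,2,3,4],[0,1,2,3,4,5],[0,1,2,3,4,5]],Ref.mk 1797 2141 [0,1,2,3] [[0,1,2,3,6],[0,1,2,3],[0,1,2,3,4],[0,1,2,3]],Ref.mk 2275 2217 [0,1,2,3] [[0,1,2,3,4,6,7],[0,1,2,3,4],[0,1,2,3,4,5],[0,1,2,3,4,5]],Ref.mk 1060 2021 [0,1,2,3] [[0,1,2,3,7],[0,1,2,3],[0,1,2,3,4],[0,1,2,3]],Ref.mk 826 2218 [0,1,2,3] [[0,1,2,3,4,6,7],[0,1,2,3,4],[0,1,2,3,4,5],[0,1,2,3,4,5]],Ref.mk 1798 2141 [0,1,2,3] [[0,1,2,3,7],[0,1,2,3],[0,1,2,3,4],[0,1,2,3]]],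
Node.mk [0,820,182,1542,2448,27,274,2938,3105,185,3906,36,342,1055,2523,423] [(0,0),(0,1),(0,2),(0,3),(0,4),(0,5)] [Ref.mk 2274 2217 [0,1,2,3] [[0,1,2,3,4,5,6],[0,1,2,3,4],[0,1,2,3,4,5],[0,1,2,3,4,5]],Ref.mk 1059 2021 [0,1,2,3] [[0,1,2,3,6],[0,1,2,3],[0,1,2,3,4],[0,1,2,3]],Ref.mk 825 2218 [0,1,2,3] [[0,1,2,3,4,5,6],[0,1,2,3,4],[0,1,2,3,4,5],[0,1,2,3,4,5]],Ref.mk 1797 2141 [0,1,2,3] [[0,1,2,3,6],[0,1,2,3],[0,1,2,3,4],[0,1,2,3]],Ref.mk 186 2219 [0,1,2,3] [[0,1,2,3,4,5,6],[0,1,2,3,4],[0,1,2,3,4,5],[0,1,2,3,4,5]]],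
Node.mk [0,820,182,1542,2448,27,274,2938,3105,185,3906,36,342,1055,2523,1874,825] [(0,0),(0,2),(0,3),(0,4),(1,1),(1,2)] [],
Node.mk [0,820,182,1542,2448,27,274,2938,3105,185,3906,36,342,1055,2523,1874,186] [(0,0),(0,1),(0,2),(0,3),(0,4),(1,2)] [Ref.mk 824 2221 [0,1,2,3] [[0,1,2,3,4,6,5],[0,1,2,3,4],[0,1,2,3,4,5],[0,1,2,3,4,5]],Ref.mk 1796 2141 [0,1,2,3] [[0,1,2,3,5],[0,1,2,3],[0,1,2,3,4],[0,1,2,3]],Ref.mk 825 2221 [0,1,2,3] [[0,1,2,3,4,5,6],[0,1,2,3,4],[0,1,2,3,4,5],[0,1,2,3,4,5]],Ref.mk 1797 2141 [0,1,2,3] [[0,1,2,3,6],[0,1,2,3],[0,1,2,3,4],[0,1,2,3]],Ref.mk 826 2221 [0,1,2,3] [[0,1,2,3,4,6,7],[0,1,2,3,4],[0,1,2,3,4,5],[0,1,2,3,4,5]],Ref.mk 1798 2141 [0,1,2,3] [[0,1,2,3,7],[0,1,2,3],[0,1,2,3,4],[0,1,2,3]]],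
Node.mk [0,820,182,1542,2448,27,274,2938,3105,185,3906,36,342,1055,2523,1874] [(0,0),(0,1),(0,2),(0,3),(0,4),(0,5)] [Ref.mk 825 2221 [0,1,2,3] [[0,1,2,3,4,5,6],[0,1,2,3,4],[0,1,2,3,4,5],[0,1,2,3,4,5]],Ref.mk 1797 2141 [0,1,2,3] [[0,1,2,3,6],[0,1,2,3],[0,1,2,3,4],[0,1,2,3]],Ref.mk 186 2222 [0,1,2,3] [[0,1,2,3,4,5,6],[0,1,2,3,4],[0,1,2,3,4,5],[0,1,2,3,4,5]]],
Node.mk [0,820,182,1542,2448,27,274,2938,3105,185,3906,36,342,1055,2523] [(0,3),(2,0),(2,1),(2,2),(2,3),(2,4)] [Ref.mk 423 2220 [0,1,2,3] [[0,1,2,3,4,5],[0,1,2,3,4],[0,1,2,3,4,5],[0,1,2,3,4,5]],Ref.mk 2593 2215 [0,1,2,3] [[0,1,2,3,4,5],[0,1,2,3,4],[0,1,2,3,4,5],[0,1,2,3,4,5]],Ref.mk 1874 2223 [0,1,2,3] [[0,1,2,3,4,5],[0,1,2,3,4],[0,1,2,3,4,5],[0,1,2,3,4,5]]],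
Node.mk [0,820,182,1542,2448,27,274,2938,3105,185,3906,36,342,1055] [(2,1),(2,3),(3,0),(3,1),(3,2),(3,4)] [Ref.mk 2188 2206 [3,1,2,0] [[0,1,3,2,4,5],[0,1,2,3,4],[0,1,3,2,4],[0,1,3,2,4,5]],Ref.mk 3646 2206 [3,1,2,0] [[0,1,5,2,4,3],[0,1,2,3,4],[0,1,3,2,4],[0,1,3,2,4,5]],Ref.mk 4375 26 [3,1,2,0] [[0,1,3,2,6],[0,1,2,3],[0,1,3,2],[0,1,3,2]],Ref.mk 2350 2208 [3,1,2,0] [[0,1,3,2,4,5],[0,1,2,3,4],[0,1,3,2,4],[0,1,3,2,4,5]],Ref.mk 3808 2208 [3,1,2,0] [[0,1,5,2,4,3],[0,1,2,3,4],[0,1,3,2,4],[0,1,3,2,4,5]],Ref.mk 4537 1097 [3,1,2,0] [[0,1,3,2,6],[0,1,2,3],[0,1,3,2],[0,1,3,2,4]],Ref.mk 2512 2209 [0,1,2,3] [[0,1,2,3,4,5],[0,1,2,3,4],[0,1,2,3,4],[0,1,2,3,4,5]],Ref.mk 3970 2209 [0,1,2,3] [[0,1,2,3,4,5],[0,1,2,3,4],[0,1,2,3,4],[0,1,2,5,4,3]],Ref.mk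 4699 1920 [3,1,2,0] [[0,1,3,2,6],[0,1,2,3],[0,1,3,2,4],[0,1,3,2,4]],Ref.mk 2593 2216 [0,1,2,3] [[0,1,2,3,4,5],[0,1,2,3,4],[0,1,2,3,4,5],[0,1,2,3,4,5]],Ref.mk 4051 2216 [0,1,2,3] [[0,1,2,3,4,5],[0,1,2,3,4],[0,1,2,3,4,5],[0,1,2,5,4,3]],Ref.mk 4780 1920 [3,1,2,0] [[0,1,3,2,6],[0,1,2,3],[0,1,3,2,5],[0,1,3,2,4]],Ref.mk 2523 2224 [0,1,2,3] [[0,1,2,3,4,5],[0,1,2,3,4],[0,1,2,3,4],[0,1,2,3,4,5]],Ref.mk 3981 2224 [0,1,2,3] [[0,1,2,3,4,5],[0,1,2,3,4],[0,1,2,3,4],[0,1,2,5,4,3]],Ref.mk 4710 2141 [3,1,2,0] [[0,1,3,2,6],[0,1,2,3],[0,1,3,2,4],[0,1,3,2]]],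
Node.mk [0,820,182,1542,2448,27,274,2938,3105,185,3906,36,342,1136,2593] [(0,0),(0,4),(1,0),(1,2),(2,1),(2,5)] [],
Node.mk [0,820,182,1542,2448,27,274,2938,3105,185,3906,36,342,1136,2674,1955,1545] [(0,0),(0,1),(0,2),(0,4),(1,0),(1,2)] [],
Node.mk [0,820,182,1542,2448,27,274,2938,3105,185,3906,36,342,1136,2674,1955,186] [(0,0),(0,1),(0,2),(0,3),(0,4),(1,2)] [Ref.mk 1544 2227 [0,1,2,3] [[0,1,2,3,4,6,5],[0,1,2,3,4],[0,1,2,3,4,5,6],[0,1,2,3,4,5]],Ref.mk 1220 2021 [0,1,2,3] [[0,1,2,3,5],[0,1,2,3],[0,1,2,3,6],[0,1,2,3]],Ref.mk 1545 436 [0,1,3,2] [[0,2,4,6,1,5,3],[0,1,2,3,4],[0,2,4,3,5,1],[0,6,1,3,2,5]],Ref.mk 1221 2021 [0,1,2,3] [[0,1,2,3,6],[0,1,2,3],[0,1,2,3,6],[0,1,2,3]],Ref.mk 1546 2227 [0,1,2,3] [[0,1,2,3,4,6,7],[0,1,2,3,4],[0,1,2,3,4,5,6],[0,1,2,3,4,5]],Ref.mk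 1222 2021 [0,1,2,3] [[0,1,2,3,7],[0,1,2,3],[0,1,2,3,6],[0,1,2,3]]],
Node.mk [0,820,182,1542,2448,27,274,2938,3105,185,3906,36,342,1136,2674,1955] [(0,0),(0,1),(0,2),(0,3),(0,4),(0,5)] [Ref.mk 1545 2227 [0,1,2,3] [[0,1,2,3,4,5,6],[0,1,2,3,4],[0,1,2,3,4,5,6],[0,1,2,3,4,5]],Ref.mk 1221 1033 [0,1,3,2] [[0,2,4,3,1,5,6],[0,1,2,3,4],[0,2,4,3,5,1],[0,6,1,3,2,5]],Ref.mk 186 2228 [0,1,2,3] [[0,1,2,3,4,5,6],[0,1,2,3,4],[0,1,2,3,4,5,6],[0,1,2,3,4,5]]],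
Node.mk [0,820,182,1542,2448,27,274,2938,3105,185,3906,36,342,1136,2674] [(0,0),(0,1),(0,4),(1,2),(2,1),(3,1)] [Ref.mk 1955 2229 [0,1,2,3] [[0,1,2,3,4,5],[0,1,2,3,4],[0,1,2,3,4,5,6],[0,1,2,3,4,5]],Ref.mk 2604 2229 [3,1,2,0] [[0,1,3,2,4,5],[0,1,2,3,4],[0,1,3,2,4,6,5],[0,1,3,2,4,5]]],
Node.mk [0,820,182,1542,2448,27,274,2938,3105,185,3906,36,342,1136] [(2,1),(2,3),(3,0),(3,1),(3,2),(3,4)] [Ref.mk 2188 2206 [3,1,2,0] [[0,1,3,2,4,5],[0,1,2,3,4],[0,1,3,2,4],[0,1,3,2,4,5]],Ref.mk 3646 2206 [3,1,2,0] [[0,1,5,2,4,3],[0,1,2,3,4],[0,1,3,2,4],[0,1,3,2,4,5]],Ref.mk 4375 26 [3,1,2,0] [[0,1,3,2,6],[0,1,2,3],[0,1,3,2],[0,1,3,2]],Ref.mk 2350 2208 [3,1,2,0] [[0,1,3,2,4,5],[0,1,2,3,4],[0,1,3,2,4],[0,1,3,2,4,5]],Ref.mk 3808 2208 [3,1,2,0]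 [[0,1,5,2,4,3],[0,1,2,3,4],[0,1,3,2,4],[0,1,3,2,4,5]],Ref.mk 4537 1097 [3,1,2,0] [[0,1,3,2,6],[0,1,2,3],[0,1,3,2],[0,1,3,2,4]],Ref.mk 2512 2216 [3,1,2,0] [[0,1,3,2,4,5],[0,1,2,3,4],[0,1,3,2,4,5],[0,1,3,2,4,5]],Ref.mk 3970 2216 [3,1,2,0] [[0,1,5,2,4,3],[0,1,2,3,4],[0,1,3,2,4,5],[0,1,3,2,4,5]],Ref.mk 4699 1920 [3,1,2,0] [[0,1,3,2,6],[0,1,2,3],[0,1,3,2,4],[0,1,3,2,4]],Ref.mk 2593 2226 [0,1,2,3] [[0,1,2,3,4,5],[0,1,2,3,4],[0,1,2,3,4,5],[0,1,2,3,4,5]],Ref.mk 4051 2226 [0,1,2,3] [[0,1,2,3,4,5],[0,1,2,3,4],[0,1,2,3,4,5],[0,1,2,5,4,3]],Ref.mk 4780 1920 [3,1,2,0] [[0,1,3,2,6],[0,1,2,3],[0,1,3,2,5],[0,1,3,2,4]],Ref.mk 2674 2230 [0,1,2,3] [[0,1,2,3,4,5],[0,1,2,3,4],[0,1,2,3,4,5,6],[0,1,2,3,4,5]],Ref.mk 4132 2230 [0,1,2,3] [[0,1,2,3,4,5],[0,1,2,3,4],[0,1,2,3,4,5,6],[0,1,2,5,4,3]],Ref.mk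 4861 1920 [3,1,2,0] [[0,1,3,2,6],[0,1,2,3],[0,1,3,2,6],[0,1,3,2,4]],Ref.mk 2604 2116 [0,3,1,2] [[0,1,4,3,2,5],[3,1,0,5,4,2],[2,1,3,0,4],[3,1,5,0,2,4]],Ref.mk 4062 2116 [0,3,1,2] [[0,1,4,3,2,5],[5,1,0,3,4,2],[2,1,3,0,4],[3,1,5,0,2,4]],Ref.mk 4791 1016 [3,1,0,2] [[0,6,4,2,1,5],[0,1,2,3,4],[0,3,4,2,5],[0,5,1,2,3,4]]],
Node.mk [0,820,182,1542,2448,27,274,2938,3105,185,3906,36,342,1469,893] [(0,0),(0,2),(0,4),(1,0),(2,2),(3,1)] [],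
Node.mk [0,820,182,1542,2448,27,274,2938,3105,185,3906,36,342,1469] [(0,0),(0,1),(1,1),(2,0),(2,1),(3,0)] [Ref.mk 893 2232 [0,1,2,3] [[0,1,2,3,4,5],[0,1,2,3,4],[0,1,2,3,4],[0,1,2,3,4,5]],Ref.mk 974 2208 [0,1,2,3] [[0,1,2,3,4,5],[0,1,2,3,4],[0,1,2,3,4],[0,1,2,3,4,5]],Ref.mk 1055 2225 [0,1,2,3] [[0,1,2,3,4,5],[0,1,2,3,4],[0,1,2,3,4],[0,1,2,3,4,5]],Ref.mk 1136 2231 [0,1,2,3] [[0,1,2,3,4,5],[0,1,2,3,4],[0,1,2,3,4,5],[0,1,2,3,4,5]]],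
Node.mk [0,820,182,1542,2448,27,274,2938,3105,185,3906,36,342,1712,893] [(0,0),(0,2),(0,4),(1,0),(2,2),(3,1)] [],
Node.mk [0,820,182,1542,2448,27,274,2938,3105,185,3906,36,342,1712] [(0,0),(0,1),(1,1),(1,2),(2,1),(2,3)] [Ref.mk 731 2206 [0,1,2,3] [[0,1,2,3,4,5],[0,1,2,3,4],[0,1,2,3,4],[0,1,2,3,4,5]],Ref.mk 893 2234 [0,1,2,3] [[0,1,2,3,4,5],[0,1,2,3,4],[0,1,2,3,4],[0,1,2,3,4,5]],Ref.mk 1055 2225 [0,1,2,3] [[0,1,2,3,4,5],[0,1,2,3,4],[0,1,2,3,4],[0,1,2,3,4,5]],Ref.mk 1136 2231 [0,1,2,3] [[0,1,2,3,4,5],[0,1,2,3,4],[0,1,2,3,4,5],[0,1,2,3,4,5]]],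
Node.mk [0,820,182,1542,2448,27,274,2938,3105,185,3906,36,342,1793,325] [(0,0),(0,1),(1,0),(1,2),(2,4),(3,0)] [Ref.mk 3171 2062 [3,1,2,0] [[0,1,3,2,4],[0,1,2,3],[0,1,3,2],[0,1,3,2]]],
Node.mk [0,820,182,1542,2448,27,274,2938,3105,185,3906,36,342,1793,1054,2523] [(0,0),(0,4),(1,0),(1,1),(1,2),(2,4)] [],
Node.mk [0,820,182,1542,2448,27,274,2938,3105,185,3906,36,342,1793,1054] [(0,0),(0,4),(1,2),(2,1),(3,1),(3,2)] [Ref.mk 325 2236 [0,1,2,3] [[0,1,2,3,4,5],[0,1,2,3,4],[0,1,2,3,4],[0,1,2,3,4,5]],Ref.mk 2512 2224 [3,1,2,0] [[0,1,3,2,4,5],[0,1,2,3,4],[0,1,3,2,4],[0,1,3,2,4,5]],Ref.mk 3241 1917 [3,1,2,0] [[0,1,3,2,4],[0,1,2,3],[0,1,3,2,4],[0,1,3,2,4]],Ref.mk 3970 2224 [3,1,2,0] [[0,1,5,2,4,3],[0,1,2,3,4],[0,1,3,2,4],[0,1,3,2,4,5]],Ref.mk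 4699 1920 [3,1,2,0] [[0,1,3,2,6],[0,1,2,3],[0,1,3,2,4],[0,1,3,2,4]],Ref.mk 336 2204 [3,1,2,0] [[0,1,3,2,4,5],[0,1,2,3,4],[0,1,3,2,4],[0,1,3,2,4,5]],Ref.mk 2523 2237 [0,1,2,3] [[0,1,2,3,4,5],[0,1,2,3,4],[0,1,2,3,4],[0,1,2,3,4,5]],Ref.mk 3252 2141 [3,1,2,0] [[0,1,3,2,4],[0,1,2,3],[0,1,3,2,4],[0,1,3,2]],Ref.mk 3981 2237 [0,1,2,3] [[0,1,2,3,4,5],[0,1,2,3,4],[0,1,2,3,4],[0,1,2,5,4,3]],Ref.mk 4710 2141 [3,1,2,0] [[0,1,3,2,6],[0,1,2,3],[0,1,3,2,4],[0,1,3,2]]],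
Node.mk [0,820,182,1542,2448,27,274,2938,3105,185,3906,36,342,1793] [(0,0),(0,3),(0,4),(2,1),(2,2),(3,2)] [Ref.mk 325 2236 [0,1,2,3] [[0,1,2,3,4,5],[0,1,2,3,4],[0,1,2,3,4],[0,1,2,3,4,5]],Ref.mk 1054 2238 [0,1,2,3] [[0,1,2,3,4,5],[0,1,2,3,4],[0,1,2,3,4],[0,1,2,3,4,5]],Ref.mk 2512 2224 [3,1,2,0] [[0,1,3,2,4,5],[0,1,2,3,4],[0,1,3,2,4],[0,1,3,2,4,5]],Ref.mk 3241 1917 [3,1,2,0] [[0,1,3,2,4],[0,1,2,3],[0,1,3,2,4],[0,1,3,2,4]],Ref.mk 3970 2224 [3,1,2,0] [[0,1,5,2,4,3],[0,1,2,3,4],[0,1,3,2,4],[0,1,3,2,4,5]],Ref.mk 4699 1920 [3,1,2,0] [[0,1,3,2,6],[0,1,2,3],[0,1,3,2,4],[0,1,3,2,4]],Ref.mk 731 2206 [0,1,2,3] [[0,1,2,3,4,5],[0,1,2,3,4],[0,1,2,3,4],[0,1,2,3,4,5]],Ref.mk 974 2208 [0,1,2,3] [[0,1,2,3,4,5],[0,1,2,3,4],[0,1,2,3,4],[0,1,2,3,4,5]],Ref.mk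 1055 2225 [0,1,2,3] [[0,1,2,3,4,5],[0,1,2,3,4],[0,1,2,3,4],[0,1,2,3,4,5]],Ref.mk 1136 2231 [0,1,2,3] [[0,1,2,3,4,5],[0,1,2,3,4],[0,1,2,3,4,5],[0,1,2,3,4,5]],Ref.mk 1058 2225 [0,1,2,3] [[0,1,5,3,4,2],[0,1,2,3,4],[0,1,2,3,4],[0,1,2,3,4,5]],Ref.mk 1059 2021 [0,1,2,3] [[0,1,2,3,6],[0,1,2,3],[0,1,2,3,4],[0,1,2,3]]]]

/-- nodes -/
noncomputable def c35 : List Node := [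
Node.mk [0,820,182,1542,2448,27,274,2938,3105,185,3906,36,342,1874,406] [(0,0),(0,1),(1,0),(1,2),(2,5),(3,0)] [Ref.mk 3171 2062 [3,1,2,0] [[0,1,3,2,4],[0,1,2,3],[0,1,3,2],[0,1,3,2]]],
Node.mk [0,820,182,1542,2448,27,274,2938,3105,185,3906,36,342,1874,1135,2593] [(0,0),(0,1),(0,4),(1,0),(1,2),(2,5)] [],
Node.mk [0,820,182,1542,2448,27,274,2938,3105,185,3906,36,342,1874,1135,2604] [(0,0),(0,4),(1,0),(1,1),(1,2),(2,5)] [],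
Node.mk [0,820,182,1542,2448,27,274,2938,3105,185,3906,36,342,1874,1135] [(0,0),(0,4),(1,2),(2,1),(3,1),(3,2)] [Ref.mk 406 2240 [0,1,2,3] [[0,1,2,3,4,5],[0,1,2,3,4],[0,1,2,3,4,5],[0,1,2,3,4,5]],Ref.mk 2593 2241 [0,1,2,3] [[0,1,2,3,4,5],[0,1,2,3,4],[0,1,2,3,4,5],[0,1,2,3,4,5]],Ref.mk 3322 1917 [3,1,2,0] [[0,1,3,2,4],[0,1,2,3],[0,1,3,2,5],[0,1,3,2,4]],Ref.mk 4051 2241 [0,1,2,3] [[0,1,2,3,4,5],[0,1,2,3,4],[0,1,2,3,4,5],[0,1,2,5,4,3]],Ref.mk 4780 1920 [3,1,2,0] [[0,1,3,2,6],[0,1,2,3],[0,1,3,2,5],[0,1,3,2,4]],Ref.mk 417 2204 [3,1,2,0] [[0,1,3,2,4,5],[0,1,2,3,4],[0,1,3,2,5],[0,1,3,2,4,5]],Ref.mk 2604 2242 [0,1,2,3] [[0,1,2,3,4,5],[0,1,2,3,4],[0,1,2,3,4,5],[0,1,2,3,4,5]],Ref.mk 3333 2141 [3,1,2,0] [[0,1,3,2,4],[0,1,2,3],[0,1,3,2,5],[0,1,3,2]],Ref.mk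 4062 2242 [0,1,2,3] [[0,1,2,3,4,5],[0,1,2,3,4],[0,1,2,3,4,5],[0,1,2,5,4,3]],Ref.mk 4791 2141 [3,1,2,0] [[0,1,3,2,6],[0,1,2,3],[0,1,3,2,5],[0,1,3,2]]],
Node.mk [0,820,182,1542,2448,27,274,2938,3105,185,3906,36,342,1874] [(0,0),(0,3),(0,4),(2,1),(2,2),(3,2)] [Ref.mk 406 2240 [0,1,2,3] [[0,1,2,3,4,5],[0,1,2,3,4],[0,1,2,3,4,5],[0,1,2,3,4,5]],Ref.mk 1135 2243 [0,1,2,3] [[0,1,2,3,4,5],[0,1,2,3,4],[0,1,2,3,4,5],[0,1,2,3,4,5]],Ref.mk 2593 2116 [3,0,1,2] [[0,1,4,2,3,5],[2,1,0,5,4,3],[2,1,3,0,4],[2,1,5,0,3,4]],Ref.mk 3322 1917 [3,1,2,0] [[0,1,3,2,4],[0,1,2,3],[0,1,3,2,5],[0,1,3,2,4]],Ref.mk 4051 2116 [3,0,1,2] [[0,1,4,2,5,3],[2,1,0,5,4,3],[2,1,3,0,4],[2,1,5,0,3,4]],Ref.mk 4780 2125 [3,0,1,2] [[0,1,4,2,6,5],[2,1,0,5,4,3],[2,1,3,0,4],[2,1,5,0,3,4]],Ref.mk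 731 2206 [0,1,2,3] [[0,1,2,3,4,5],[0,1,2,3,4],[0,1,2,3,4],[0,1,2,3,4,5]],Ref.mk 974 2208 [0,1,2,3] [[0,1,2,3,4,5],[0,1,2,3,4],[0,1,2,3,4],[0,1,2,3,4,5]],Ref.mk 1055 2225 [0,1,2,3] [[0,1,2,3,4,5],[0,1,2,3,4],[0,1,2,3,4],[0,1,2,3,4,5]],Ref.mk 1136 2231 [0,1,2,3] [[0,1,2,3,4,5],[0,1,2,3,4],[0,1,2,3,4,5],[0,1,2,3,4,5]],Ref.mk 1217 2231 [0,1,2,3] [[0,1,2,3,4,5],[0,1,2,3,4],[0,1,2,3,4,6],[0,1,2,3,4,5]],Ref.mk 1139 2231 [0,1,2,3] [[0,1,5,3,4,2],[0,1,2,3,4],[0,1,2,3,4,5],[0,1,2,3,4,5]],Ref.mk 1140 2021 [0,1,2,3] [[0,1,2,3,6],[0,1,2,3],[0,1,2,3,5],[0,1,2,3]]],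
Node.mk [0,820,182,1542,2448,27,274,2938,3105,185,3906,36,342] [(0,0),(0,1),(0,3),(0,4),(2,1),(2,2)] [Ref.mk 731 2206 [0,1,2,3] [[0,1,2,3,4,5],[0,1,2,3,4],[0,1,2,3,4],[0,1,2,3,4,5]],Ref.mk 974 2208 [0,1,2,3] [[0,1,2,3,4,5],[0,1,2,3,4],[0,1,2,3,4],[0,1,2,3,4,5]],Ref.mk 1055 2225 [0,1,2,3] [[0,1,2,3,4,5],[0,1,2,3,4],[0,1,2,3,4],[0,1,2,3,4,5]],Ref.mk 1136 2231 [0,1,2,3] [[0,1,2,3,4,5],[0,1,2,3,4],[0,1,2,3,4,5],[0,1,2,3,4,5]],Ref.mk 1469 2233 [0,1,2,3] [[0,1,2,3,4,5],[0,1,2,3,4],[0,1,2,3,4],[0,1,2,3,4,5]],Ref.mk 1712 2235 [0,1,2,3] [[0,1,2,3,4,5],[0,1,2,3,4],[0,1,2,3,4],[0,1,2,3,4,5]],Ref.mk 1793 2239 [0,1,2,3] [[0,1,2,3,4,5],[0,1,2,3,4],[0,1,2,3,4],[0,1,2,3,4,5]],Ref.mk 1874 2244 [0,1,2,3] [[0,1,2,3,4,5],[0,1,2,3,4],[0,1,2,3,4,5],[0,1,2,3,4,5]],Ref.mk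 734 2206 [0,1,2,3] [[0,1,5,3,4,2],[0,1,2,3,4],[0,1,2,3,4],[0,1,2,3,4,5]],Ref.mk 977 2208 [0,1,2,3] [[0,1,5,3,4,2],[0,1,2,3,4],[0,1,2,3,4],[0,1,2,3,4,5]],Ref.mk 1058 2225 [0,1,2,3] [[0,1,5,3,4,2],[0,1,2,3,4],[0,1,2,3,4],[0,1,2,3,4,5]],Ref.mk 1139 2231 [0,1,2,3] [[0,1,5,3,4,2],[0,1,2,3,4],[0,1,2,3,4,5],[0,1,2,3,4,5]],Ref.mk 1472 2233 [0,1,2,3] [[0,1,5,3,4,2],[0,1,2,3,4],[0,1,2,3,4],[0,1,2,3,4,5]],Ref.mk 1715 2235 [0,1,2,3] [[0,1,5,3,4,2],[0,1,2,3,4],[0,1,2,3,4],[0,1,2,3,4,5]],Ref.mk 1796 2239 [0,1,2,3] [[0,1,5,3,4,2],[0,1,2,3,4],[0,1,2,3,4],[0,1,2,3,4,5]],Ref.mk 1877 2244 [0,1,2,3] [[0,1,5,3,4,2],[0,1,2,3,4],[0,1,2,3,4,5],[0,1,2,3,4,5]],Ref.mk 735 26 [0,1,2,3] [[0,1,2,3,6],[0,1,2,3],[0,1,2,3],[0,1,2,3]],Ref.mk 978 1741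 [0,1,2,3] [[0,1,2,3,6],[0,1,2,3],[0,1,2,3],[0,1,2,3]],Ref.mk 1059 2021 [0,1,2,3] [[0,1,2,3,6],[0,1,2,3],[0,1,2,3,4],[0,1,2,3]],Ref.mk 1140 1812 [0,1,3,2] [[0,1,4,6,3,5],[0,1,2,3,4],[0,1,4,5,2],[0,1,5,3,2,4]],Ref.mk 1473 2043 [0,1,2,3] [[0,1,2,3,6],[0,1,2,3],[0,1,2,3],[0,1,2,3]],Ref.mk 1716 2134 [0,1,2,3] [[0,1,2,3,6],[0,1,2,3],[0,1,2,3],[0,1,2,3]],Ref.mk 1797 2141 [0,1,2,3] [[0,1,2,3,6],[0,1,2,3],[0,1,2,3,4],[0,1,2,3]],Ref.mk 1878 2141 [0,1,2,3] [[0,1,2,3,6],[0,1,2,3],[0,1,2,3,5],[0,1,2,3]]],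
Node.mk [0,820,182,1542,2448,27,274,2938,3105,185,3906,36,1055,1793,2512] [(0,0),(0,4),(1,0),(1,2),(2,1),(2,4)] [],
Node.mk [0,820,182,1542,2448,27,274,2938,3105,185,3906,36,1055,1793,2523] [(0,0),(0,4),(1,1),(1,2),(2,1),(2,4)] [],
Node.mk [0,820,182,1542,2448,27,274,2938,3105,185,3906,36,1055,1793] [(0,0),(0,2),(0,4),(3,0),(3,1),(3,2)] [Ref.mk 2512 2246 [0,1,2,3] [[0,1,2,3,4,5],[0,1,2,3,4],[0,1,2,3,4],[0,1,2,3,4,5]],Ref.mk 3241 1917 [3,1,2,0] [[0,1,3,2,4],[0,1,2,3],[0,1,3,2,4],[0,1,3,2,4]],Ref.mk 3970 2246 [0,1,2,3] [[0,1,2,3,4,5],[0,1,2,3,4],[0,1,2,3,4],[0,1,2,5,4,3]],Ref.mk 4699 1920 [3,1,2,0] [[0,1,3,2,6],[0,1,2,3],[0,1,3,2,4],[0,1,3,2,4]],Ref.mk 2523 2247 [0,1,2,3] [[0,1,2,3,4,5],[0,1,2,3,4],[0,1,2,3,4],[0,1,2,3,4,5]],Ref.mk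 3252 2141 [3,1,2,0] [[0,1,3,2,4],[0,1,2,3],[0,1,3,2,4],[0,1,3,2]],Ref.mk 3981 2247 [0,1,2,3] [[0,1,2,3,4,5],[0,1,2,3,4],[0,1,2,3,4],[0,1,2,5,4,3]],Ref.mk 4710 2141 [3,1,2,0] [[0,1,3,2,6],[0,1,2,3],[0,1,3,2,4],[0,1,3,2]]],
Node.mk [0,820,182,1542,2448,27,274,2938,3105,185,3906,36,1055,1794,2512] [(0,0),(0,4),(1,0),(1,1),(1,2),(2,4)] [],
Node.mk [0,820,182,1542,2448,27,274,2938,3105,185,3906,36,1055,1794,2523] [(0,0),(0,3),(0,4),(1,1),(1,2),(2,4)] [],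
Node.mk [0,820,182,1542,2448,27,274,2938,3105,185,3906,36,1055,1794] [(0,0),(0,4),(2,1),(3,0),(3,1),(3,2)] [Ref.mk 2512 2249 [0,1,2,3] [[0,1,2,3,4,5],[0,1,2,3,4],[0,1,2,3,4],[0,1,2,3,4,5]],Ref.mk 3241 1917 [3,1,2,0] [[0,1,3,2,4],[0,1,2,3],[0,1,3,2,4],[0,1,3,2,4]],Ref.mk 3970 2249 [0,1,2,3] [[0,1,2,3,4,5],[0,1,2,3,4],[0,1,2,3,4],[0,1,2,5,4,3]],Ref.mk 4699 1920 [3,1,2,0] [[0,1,3,2,6],[0,1,2,3],[0,1,3,2,4],[0,1,3,2,4]],Ref.mk 2523 2250 [0,1,2,3] [[0,1,2,3,4,5],[0,1,2,3,4],[0,1,2,3,4],[0,1,2,3,4,5]],Ref.mk 3252 2141 [3,1,2,0] [[0,1,3,2,4],[0,1,2,3],[0,1,3,2,4],[0,1,3,2]],Ref.mk 3981 2250 [0,1,2,3] [[0,1,2,3,4,5],[0,1,2,3,4],[0,1,2,3,4],[0,1,2,5,4,3]],Ref.mk 4710 2141 [3,1,2,0] [[0,1,3,2,6],[0,1,2,3],[0,1,3,2,4],[0,1,3,2]]],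
Node.mk [0,820,182,1542,2448,27,274,2938,3105,185,3906,36,1055] [(0,1),(2,0),(2,1),(2,2),(2,3),(3,1)] [Ref.mk 1791 2204 [0,1,2,3] [[0,1,2,3,4,5],[0,1,2,3,4],[0,1,2,3,4],[0,1,2,3,4,5]],Ref.mk 342 2225 [0,1,2,3] [[0,1,2,3,4,5],[0,1,2,3,4],[0,1,2,3,4],[0,1,2,3,4,5]],Ref.mk 423 2231 [0,1,2,3] [[0,1,2,3,4,5],[0,1,2,3,4],[0,1,2,3,5,4],[0,1,2,3,4,5]],Ref.mk 1793 2248 [0,1,2,3] [[0,1,2,3,4,5],[0,1,2,3,4],[0,1,2,3,4],[0,1,2,3,4,5]],Ref.mk 1874 1821 [0,1,3,2] [[0,1,4,2,3,5],[0,1,2,3,4],[0,1,4,3,2,5],[0,1,4,3,2,5]],Ref.mk 336 2204 [3,1,2,0] [[0,1,3,2,4,5],[0,1,2,3,4],[0,1,3,2,4],[0,1,3,2,4,5]],Ref.mk 1794 2251 [0,1,2,3] [[0,1,2,3,4,5],[0,1,2,3,4],[0,1,2,3,4],[0,1,2,3,4,5]],Ref.mk 2523 2117 [0,3,1,2] [[0,1,4,3,2,5],[3,1,0,5,4,2],[2,1,3,0,4],[3,1,4,0,2]],Ref.mk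 3252 2141 [3,1,2,0] [[0,1,3,2,4],[0,1,2,3],[0,1,3,2,4],[0,1,3,2]],Ref.mk 3981 2117 [0,3,1,2] [[0,1,4,3,2,5],[5,1,0,3,4,2],[2,1,3,0,4],[3,1,4,0,2]],Ref.mk 4710 1046 [3,1,0,2] [[0,6,4,2,1,5],[0,1,2,3,4],[0,3,4,2,5],[0,4,1,2,3]],Ref.mk 1795 2141 [0,1,2,3] [[0,1,2,3,4],[0,1,2,3],[0,1,2,3,4],[0,1,2,3]],Ref.mk 1796 2141 [0,1,2,3] [[0,1,2,3,5],[0,1,2,3],[0,1,2,3,4],[0,1,2,3]],Ref.mk 1797 2141 [0,1,2,3] [[0,1,2,3,6],[0,1,2,3],[0,1,2,3,4],[0,1,2,3]]],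
Node.mk [0,820,182,1542,2448,27,274,2938,3105,185,3906,36,1793,1054,2512] [(0,0),(0,1),(0,4),(1,0),(1,2),(2,4)] [],
Node.mk [0,820,182,1542,2448,27,274,2938,3105,185,3906,36,1793,1054,2523] [(0,0),(0,4),(1,0),(1,1),(1,2),(2,4)] [],
Node.mk [0,820,182,1542,2448,27,274,2938,3105,185,3906,36,1793,1054] [(0,0),(0,4),(2,1),(3,0),(3,1),(3,2)] [Ref.mk 2512 2253 [0,1,2,3] [[0,1,2,3,4,5],[0,1,2,3,4],[0,1,2,3,4],[0,1,2,3,4,5]],Ref.mk 3241 1917 [3,1,2,0] [[0,1,3,2,4],[0,1,2,3],[0,1,3,2,4],[0,1,3,2,4]],Ref.mk 3970 2253 [0,1,2,3] [[0,1,2,3,4,5],[0,1,2,3,4],[0,1,2,3,4],[0,1,2,5,4,3]],Ref.mk 4699 1920 [3,1,2,0] [[0,1,3,2,6],[0,1,2,3],[0,1,3,2,4],[0,1,3,2,4]],Ref.mk 2523 2254 [0,1,2,3] [[0,1,2,3,4,5],[0,1,2,3,4],[0,1,2,3,4],[0,1,2,3,4,5]],Ref.mk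 3252 2141 [3,1,2,0] [[0,1,3,2,4],[0,1,2,3],[0,1,3,2,4],[0,1,3,2]],Ref.mk 3981 2254 [0,1,2,3] [[0,1,2,3,4,5],[0,1,2,3,4],[0,1,2,3,4],[0,1,2,5,4,3]],Ref.mk 4710 2141 [3,1,2,0] [[0,1,3,2,6],[0,1,2,3],[0,1,3,2,4],[0,1,3,2]]],
Node.mk [0,820,182,1542,2448,27,274,2938,3105,185,3906,36,1793] [(0,3),(2,0),(2,1),(2,2),(2,3),(3,2)] [Ref.mk 1053 2203 [0,1,2,3] [[0,1,2,3,4,5],[0,1,2,3,4],[0,1,2,3,4],[0,1,2,3,4,5]],Ref.mk 342 2239 [0,1,2,3] [[0,1,2,3,4,5],[0,1,2,3,4],[0,1,2,3,4],[0,1,2,3,4,5]],Ref.mk 423 2244 [0,1,2,3] [[0,1,2,3,4,5],[0,1,2,3,4],[0,1,2,3,5,4],[0,1,2,3,4,5]],Ref.mk 325 2203 [3,1,2,0] [[0,1,3,2,4,5],[0,1,2,3,4],[0,1,3,2,4],[0,1,3,2,4,5]],Ref.mk 1054 2255 [0,1,2,3] [[0,1,2,3,4,5],[0,1,2,3,4],[0,1,2,3,4],[0,1,2,3,4,5]],Ref.mk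 2512 2117 [3,0,1,2] [[0,1,4,2,3,5],[2,1,0,5,4,3],[2,1,3,0,4],[2,1,4,0,3]],Ref.mk 3241 1917 [3,1,2,0] [[0,1,3,2,4],[0,1,2,3],[0,1,3,2,4],[0,1,3,2,4]],Ref.mk 3970 2117 [3,0,1,2] [[0,1,4,2,5,3],[2,1,0,5,4,3],[2,1,3,0,4],[2,1,4,0,3]],Ref.mk 4699 2109 [3,1,0,2] [[0,1,4,6,2,5],[0,1,2,3,4],[0,1,4,2,5],[0,1,4,2,3]],Ref.mk 1055 2248 [0,1,2,3] [[0,1,2,3,4,5],[0,1,2,3,4],[0,1,2,3,4],[0,1,2,3,4,5]],Ref.mk 1136 1821 [0,1,3,2] [[0,1,4,2,3,5],[0,1,2,3,4],[0,1,4,3,2,5],[0,1,5,3,2,4]],Ref.mk 1057 1917 [0,1,2,3] [[0,1,2,3,4],[0,1,2,3],[0,1,2,3,4],[0,1,2,3,4]],Ref.mk 1058 2252 [0,1,2,3] [[0,1,5,3,4,2],[0,1,2,3,4],[0,1,2,3,4],[0,1,2,3,4,5]],Ref.mk 1059 2021 [0,1,2,3] [[0,1,2,3,6],[0,1,2,3],[0,1,2,3,4],[0,1,2,3]]],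
Node.mk [0,820,182,1542,2448,27,274,2938,3105,185,3906,36] [(0,1),(0,3),(2,0),(2,1),(2,2),(2,3)] [Ref.mk 1053 2203 [0,1,2,3] [[0,1,2,3,4,5],[0,1,2,3,4],[0,1,2,3,4],[0,1,2,3,4,5]],Ref.mk 1791 2204 [0,1,2,3] [[0,1,2,3,4,5],[0,1,2,3,4],[0,1,2,3,4],[0,1,2,3,4,5]],Ref.mk 342 2245 [0,1,2,3] [[0,1,2,3,4,5],[0,1,2,3,4],[0,1,2,3,4],[0,1,2,3,4,5]],Ref.mk 1055 2252 [0,1,2,3] [[0,1,2,3,4,5],[0,1,2,3,4],[0,1,2,3,4],[0,1,2,3,4,5]],Ref.mk 1793 2256 [0,1,2,3] [[0,1,2,3,4,5],[0,1,2,3,4],[0,1,2,3,4],[0,1,2,3,4,5]],Ref.mk 1057 1916 [0,1,2,3] [[0,1,5,3,4],[0,1,2,3,4],[0,1,2,3,4],[0,1,2,5,4]],Ref.mk 1795 2141 [0,1,2,3] [[0,1,2,3,4],[0,1,2,3],[0,1,2,3,4],[0,1,2,3]],Ref.mk 1058 2252 [0,1,2,3] [[0,1,5,3,4,2],[0,1,2,3,4],[0,1,2,3,4],[0,1,2,3,4,5]],Ref.mk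 1796 2256 [0,1,2,3] [[0,1,5,3,4,2],[0,1,2,3,4],[0,1,2,3,4],[0,1,2,3,4,5]],Ref.mk 1059 1825 [0,1,3,2] [[0,1,4,6,3,5],[0,1,2,3,4],[0,1,4,5,2],[0,1,4,3,2]],Ref.mk 1797 2141 [0,1,2,3] [[0,1,2,3,6],[0,1,2,3],[0,1,2,3,4],[0,1,2,3]]],
Node.mk [0,820,182,1542,2448,27,274,2938,3105,185,3906] [(0,3),(1,0),(1,2),(1,3),(2,1),(3,2)] [Ref.mk 9 2202 [0,1,2,3] [[0,1,2,3,4,5],[0,1,2,3],[0,1,2,3],[0,1,2,3,4,5]],Ref.mk 36 2257 [0,1,2,3] [[0,1,2,3,4,5],[0,1,2,3,4],[0,1,2,3],[0,1,2,3,4,5]]],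
Node.mk [0,820,182,1542,2448,27,274,2938,3105,185] [(2,1),(3,0),(3,1),(3,2),(3,3),(3,4)] [Ref.mk 3906 2258 [0,1,2,3] [[0,1,2,3,4,5],[0,1,2,3],[0,1,2,3],[0,1,2,3,4,5]],Ref.mk 3646 26 [3,1,2,0] [[0,1,3,2,5],[0,1,2,3],[0,1,3,2],[0,1,3,2]],Ref.mk 3808 1097 [3,1,2,0] [[0,1,3,2,5],[0,1,2,3],[0,1,3,2],[0,1,3,2,4]],Ref.mk 3889 98 [3,1,2,0] [[0,1,3,2,5],[0,1,2,3],[0,1,3,2],[0,1,3,2]],Ref.mk 3970 1910 [3,1,0,2] [[0,1,4,5,2],[0,1,2,3],[0,1,4,5,3],[0,1,4,2,3]],Ref.mk 3657 2043 [3,1,2,0] [[0,1,3,2,5],[0,1,2,3],[0,1,3,2],[0,1,3,2]],Ref.mk 3819 2114 [3,1,2,0] [[0,1,3,2,5],[0,1,2,3],[0,1,3,2],[0,1,3,2,4]],Ref.mk 3900 2062 [3,1,2,0] [[0,1,3,2,5],[0,1,2,3],[0,1,3,2],[0,1,3,2]],Ref.mk 3981 2141 [3,1,2,0] [[0,1,3,2,5],[0,1,2,3],[0,1,3,2,4],[0,1,3,2]]],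
Node.mk [0,820,182,1542,2448,27,274,2938,3105] [(0,0),(0,1),(0,2),(0,3),(0,4),(2,1)] [Ref.mk 734 26 [0,1,2,3] [[0,1,2,3,5],[0,1,2,3],[0,1,2,3],[0,1,2,3]],Ref.mk 896 98 [0,1,2,3] [[0,1,2,3,5],[0,1,2,3],[0,1,2,3],[0,1,2,3]],Ref.mk 977 1097 [0,1,2,3] [[0,1,2,3,5],[0,1,2,3],[0,1,2,3],[0,1,2,3,4]],Ref.mk 1058 1910 [0,1,3,2] [[0,1,4,5,3],[0,1,2,3],[0,1,4,3,2],[0,1,4,3,2]],Ref.mk 1472 2043 [0,1,2,3] [[0,1,2,3,5],[0,1,2,3],[0,1,2,3],[0,1,2,3]],Ref.mk 1634 2062 [0,1,2,3] [[0,1,2,3,5],[0,1,2,3],[0,1,2,3],[0,1,2,3]],Ref.mk 1715 2114 [0,1,2,3] [[0,1,2,3,5],[0,1,2,3],[0,1,2,3],[0,1,2,3,4]],Ref.mk 1796 2141 [0,1,2,3] [[0,1,2,3,5],[0,1,2,3],[0,1,2,3,4],[0,1,2,3]],Ref.mk 185 2259 [0,1,2,3] [[0,1,2,3,4,5],[0,1,2,3],[0,1,2,3],[0,1,2,3,4]]],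
Node.mk [0,820,182,1542,2448,27,274,2938,2216] [(0,4),(2,1),(3,0),(3,1),(3,2),(3,3)] [Ref.mk 3105 2260 [0,1,2,3] [[0,1,2,3,4],[0,1,2,3],[0,1,2,3],[0,1,2,3,4]],Ref.mk 2917 26 [3,1,2,0] [[0,1,3,2,4],[0,1,2,3],[0,1,3,2],[0,1,3,2]],Ref.mk 3646 26 [3,1,2,0] [[0,1,3,2,5],[0,1,2,3],[0,1,3,2],[0,1,3,2]],Ref.mk 3079 1084 [3,1,2,0] [[0,1,3,2,4],[0,1,2,3],[0,1,3,2],[0,1,3,2,4]],Ref.mk 3808 1084 [3,1,2,0] [[0,1,3,2,5],[0,1,2,3],[0,1,3,2],[0,1,3,2,4]],Ref.mk 3160 98 [3,1,2,0] [[0,1,3,2,4],[0,1,2,3],[0,1,3,2],[0,1,3,2]],Ref.mk 3889 98 [3,1,2,0] [[0,1,3,2,5],[0,1,2,3],[0,1,3,2],[0,1,3,2]],Ref.mk 3241 1910 [3,1,2,0] [[0,1,3,2,4],[0,1,2,3],[0,1,3,2,4],[0,1,3,2,4]],Ref.mk 3970 2260 [2,1,0,3] [[0,1,2,4,3],[0,1,2,3],[0,1,2,4],[0,1,5,4,3]],Ref.mk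 2928 2043 [3,1,2,0] [[0,1,3,2,4],[0,1,2,3],[0,1,3,2],[0,1,3,2]],Ref.mk 3657 2043 [3,1,2,0] [[0,1,3,2,5],[0,1,2,3],[0,1,3,2],[0,1,3,2]],Ref.mk 3090 2113 [3,1,2,0] [[0,1,3,2,4],[0,1,2,3],[0,1,3,2],[0,1,3,2,4]],Ref.mk 3819 2113 [3,1,2,0] [[0,1,3,2,5],[0,1,2,3],[0,1,3,2],[0,1,3,2,4]],Ref.mk 3171 2062 [3,1,2,0] [[0,1,3,2,4],[0,1,2,3],[0,1,3,2],[0,1,3,2]],Ref.mk 3900 2062 [3,1,2,0] [[0,1,3,2,5],[0,1,2,3],[0,1,3,2],[0,1,3,2]],Ref.mk 3252 2141 [3,1,2,0] [[0,1,3,2,4],[0,1,2,3],[0,1,3,2,4],[0,1,3,2]],Ref.mk 3981 2260 [2,1,0,3] [[0,4,2,1,3],[0,1,2,3],[0,3,2,4],[0,5,2,4,3]]],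
Node.mk [0,820,182,1542,2448,27,274,2938] [(0,1),(1,1),(1,2),(2,1),(3,0),(3,1)] [Ref.mk 3105 2260 [0,1,2,3] [[0,1,2,3,4],[0,1,2,3],[0,1,2,3],[0,1,2,3,4]],Ref.mk 2216 2261 [0,1,2,3] [[0,1,2,3,4],[0,1,2,3],[0,1,2,3],[0,1,2,3,4]]],
Node.mk [0,820,182,1542,2448,27,274] [(0,0),(2,1),(3,0),(3,1),(3,2),(3,3)] [Ref.mk 2917 26 [3,1,2,0] [[0,1,3,2,4],[0,1,2,3],[0,1,3,2],[0,1,3,2]],Ref.mk 3079 1097 [3,1,2,0] [[0,1,3,2,4],[0,1,2,3],[0,1,3,2],[0,1,3,2,4]],Ref.mk 3160 98 [3,1,2,0] [[0,1,3,2,4],[0,1,2,3],[0,1,3,2],[0,1,3,2]],Ref.mk 3241 1920 [3,1,2,0] [[0,1,3,2,4],[0,1,2,3],[0,1,3,2,4],[0,1,3,2,4]],Ref.mk 2928 2043 [3,1,2,0] [[0,1,3,2,4],[0,1,2,3],[0,1,3,2],[0,1,3,2]],Ref.mk 3090 2114 [3,1,2,0] [[0,1,3,2,4],[0,1,2,3],[0,1,3,2],[0,1,3,2,4]],Ref.mk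 3171 2062 [3,1,2,0] [[0,1,3,2,4],[0,1,2,3],[0,1,3,2],[0,1,3,2]],Ref.mk 3252 2141 [3,1,2,0] [[0,1,3,2,4],[0,1,2,3],[0,1,3,2,4],[0,1,3,2]],Ref.mk 2938 2262 [0,1,2,3] [[0,1,2,3,4],[0,1,2,3],[0,1,2,3],[0,1,2,3,4]]],
Node.mk [0,820,182,1542,2448,27,283,2938,3114,185,3906,1053] [(0,0),(1,0),(1,2),(2,4),(3,0),(3,1)] [Ref.mk 1633 2062 [0,1,2,3] [[0,1,2,3,4],[0,1,2,3],[0,1,2,3],[0,1,2,3]]],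
Node.mk [0,820,182,1542,2448,27,283,2938,3114,185,3906,1791] [(0,0),(1,1),(1,2),(2,4),(3,0),(3,2)] [Ref.mk 895 98 [0,1,2,3] [[0,1,2,3,4],[0,1,2,3],[0,1,2,3],[0,1,2,3]]],
Node.mk [0,820,182,1542,2448,27,283,2938,3114,185,3906,342,731,3019] [(0,0),(0,1),(0,3),(2,0),(2,1),(3,0)] [Ref.mk 895 98 [0,1,2,3] [[0,1,2,3,4],[0,1,2,3],[0,1,2,3],[0,1,2,3]],Ref.mk 976 1741 [0,1,2,3] [[0,1,2,3,4],[0,1,2,3],[0,1,2,3],[0,1,2,3]],Ref.mk 1057 2021 [0,1,2,3] [[0,1,2,3,4],[0,1,2,3],[0,1,2,3,4],[0,1,2,3]],Ref.mk 1138 2021 [0,1,2,3] [[0,1,2,3,4],[0,1,2,3],[0,1,2,3,5],[0,1,2,3]]],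
Node.mk [0,820,182,1542,2448,27,283,2938,3114,185,3906,342,731] [(0,0),(0,2),(1,0),(2,0),(3,0),(3,1)] [Ref.mk 3019 2266 [0,1,2,3] [[0,1,2,3,4,5],[0,1,2,3,4],[0,1,2,3,4],[0,1,2,3,4,5]]],
Node.mk [0,820,182,1542,2448,27,283,2938,3114,185,3906,342,974,121] [(0,0),(0,1),(0,3),(1,2),(2,1),(2,3)] [Ref.mk 733 26 [0,1,2,3] [[0,1,2,3,4],[0,1,2,3],[0,1,2,3],[0,1,2,3]],Ref.mk 895 98 [0,1,2,3] [[0,1,2,3,4],[0,1,2,3],[0,1,2,3],[0,1,2,3]],Ref.mk 1057 2021 [0,1,2,3] [[0,1,2,3,4],[0,1,2,3],[0,1,2,3,4],[0,1,2,3]],Ref.mk 1138 2021 [0,1,2,3] [[0,1,2,3,4],[0,1,2,3],[0,1,2,3,5],[0,1,2,3]]],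
Node.mk [0,820,182,1542,2448,27,283,2938,3114,185,3906,342,974] [(0,0),(0,2),(1,0),(1,2),(2,3),(3,1)] [Ref.mk 121 2268 [0,1,2,3] [[0,1,2,3,4,5],[0,1,2,3,4],[0,1,2,3,4],[0,1,2,3,4,5]]],
Node.mk [0,820,182,1542,2448,27,283,2938,3114,185,3906,342,1055,2512] [(0,0),(0,4),(1,0),(1,2),(2,1),(2,4)] [],
Node.mk [0,820,182,1542,2448,27,283,2938,3114,185,3906,342,1055,2593,2523,2274] [(0,0),(0,1),(0,4),(1,0),(1,2),(3,3)] [],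
Node.mk [0,820,182,1542,2448,27,283,2938,3114,185,3906,342,1055,2593,2523,186] [(0,0),(0,1),(0,2),(0,3),(0,4),(1,2)] [Ref.mk 2273 2271 [0,1,2,3] [[0,1,2,3,4,6,5],[0,1,2,3,4],[0,1,2,3,4,5],[0,1,2,3,4,5]],Ref.mk 1058 1991 [0,1,3,2] [[0,1,4,5,3,2],[0,1,2,3,4],[0,1,4,3,2],[0,1,4,3,2]],Ref.mk 2274 2271 [0,1,2,3] [[0,1,2,3,4,5,6],[0,1,2,3,4],[0,1,2,3,4,5],[0,1,2,3,4,5]],Ref.mk 1059 1991 [0,1,3,2] [[0,1,4,6,3,2],[0,1,2,3,4],[0,1,4,3,2],[0,1,4,3,2]],Ref.mk 2275 2271 [0,1,2,3] [[0,1,2,3,4,6,7],[0,1,2,3,4],[0,1,2,3,4,5],[0,1,2,3,4,5]],Ref.mk 1060 1991 [0,1,3,2] [[0,1,4,7,3,2],[0,1,2,3,4],[0,1,4,3,2],[0,1,4,3,2]]],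
Node.mk [0,820,182,1542,2448,27,283,2938,3114,185,3906,342,1055,2593,2523] [(0,0),(0,1),(0,2),(0,3),(0,4),(0,5)] [Ref.mk 2274 2271 [0,1,2,3] [[0,1,2,3,4,5,6],[0,1,2,3,4],[0,1,2,3,4,5],[0,1,2,3,4,5]],Ref.mk 1059 1991 [0,1,3,2] [[0,1,4,6,3,2],[0,1,2,3,4],[0,1,4,3,2],[0,1,4,3,2]],Ref.mk 186 2272 [0,1,2,3] [[0,1,2,3,4,5,6],[0,1,2,3,4],[0,1,2,3,4,5],[0,1,2,3,4,5]]],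
Node.mk [0,820,182,1542,2448,27,283,2938,3114,185,3906,342,1055,2593] [(0,0),(0,1),(0,4),(1,2),(2,1),(3,1)] [Ref.mk 1874 2116 [3,0,1,2] [[0,1,4,2,3,5],[2,1,0,5,4,3],[2,1,4,0,3],[2,1,5,0,3,4]],Ref.mk 2523 2273 [0,1,2,3] [[0,1,2,3,4,5],[0,1,2,3,4],[0,1,2,3,4,5],[0,1,2,3,4,5]]],
Node.mk [0,820,182,1542,2448,27,283,2938,3114,185,3906,342,1055] [(2,1),(2,3),(3,0),(3,1),(3,2),(3,4)] [Ref.mk 2188 2267 [3,1,2,0] [[0,1,3,2,4,5],[0,1,2,3,4],[0,1,3,2,4],[0,1,3,2,4,5]],Ref.mk 3646 2267 [3,1,2,0] [[0,1,5,2,4,3],[0,1,2,3,4],[0,1,3,2,4],[0,1,3,2,4,5]],Ref.mk 4375 26 [3,1,2,0] [[0,1,3,2,6],[0,1,2,3],[0,1,3,2],[0,1,3,2]],Ref.mk 2350 2269 [3,1,2,0] [[0,1,3,2,4,5],[0,1,2,3,4],[0,1,3,2,4],[0,1,3,2,4,5]],Ref.mk 3808 2269 [3,1,2,0] [[0,1,5,2,4,3],[0,1,2,3,4],[0,1,3,2,4],[0,1,3,2,4,5]],Ref.mk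 4537 1714 [3,1,2,0] [[0,1,3,2,6],[0,1,2,3,4],[0,1,3,2],[0,1,3,2,4]],Ref.mk 2512 2270 [0,1,2,3] [[0,1,2,3,4,5],[0,1,2,3,4],[0,1,2,3,4],[0,1,2,3,4,5]],Ref.mk 3970 2270 [0,1,2,3] [[0,1,2,3,4,5],[0,1,2,3,4],[0,1,2,3,4],[0,1,2,5,4,3]],Ref.mk 4699 1991 [3,1,0,2] [[0,1,4,6,2,3],[0,1,2,3,4],[0,1,4,2,3],[0,1,4,2,3]],Ref.mk 2593 2274 [0,1,2,3] [[0,1,2,3,4,5],[0,1,2,3,4],[0,1,2,3,4,5],[0,1,2,3,4,5]],Ref.mk 4051 2274 [0,1,2,3] [[0,1,2,3,4,5],[0,1,2,3,4],[0,1,2,3,4,5],[0,1,2,5,4,3]],Ref.mk 4780 1991 [3,1,0,2] [[0,1,4,6,2,3],[0,1,2,3,4],[0,1,4,2,3],[0,1,5,2,3]],Ref.mk 2523 2117 [0,3,1,2] [[0,1,4,3,2,5],[3,1,0,5,4,2],[2,1,4,0,3],[3,1,4,0,2]],Ref.mk 3981 2117 [0,3,1,2] [[0,1,4,3,2,5],[5,1,0,3,4,2],[2,1,4,0,3],[3,1,4,0,2]],Ref.mk 4710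 2141 [3,1,2,0] [[0,1,3,2,6],[0,1,2,3],[0,1,3,2,4],[0,1,3,2]]],
Node.mk [0,820,182,1542,2448,27,283,2938,3114,185,3906,342,1136,2593] [(0,0),(0,4),(1,0),(1,2),(2,1),(2,5)] [],
Node.mk [0,820,182,1542,2448,27,283,2938,3114,185,3906,342,1136,2674] [(0,0),(0,1),(0,4),(1,2),(2,1),(3,1)] [Ref.mk 1955 2116 [3,0,1,2] [[0,1,4,2,3,5],[2,1,0,5,4,3],[2,1,4,0,3],[2,1,6,0,3,4]],Ref.mk 2604 2116 [0,3,1,2] [[0,1,4,3,2,5],[3,1,0,5,4,2],[2,1,4,0,3],[3,1,5,0,2,4]]],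
Node.mk [0,820,182,1542,2448,27,283,2938,3114,185,3906,342,1136] [(2,1),(2,3),(3,0),(3,1),(3,2),(3,4)] [Ref.mk 2188 2267 [3,1,2,0] [[0,1,3,2,4,5],[0,1,2,3,4],[0,1,3,2,4],[0,1,3,2,4,5]],Ref.mk 3646 2267 [3,1,2,0] [[0,1,5,2,4,3],[0,1,2,3,4],[0,1,3,2,4],[0,1,3,2,4,5]],Ref.mk 4375 26 [3,1,2,0] [[0,1,3,2,6],[0,1,2,3],[0,1,3,2],[0,1,3,2]],Ref.mk 2350 2269 [3,1,2,0] [[0,1,3,2,4,5],[0,1,2,3,4],[0,1,3,2,4],[0,1,3,2,4,5]],Ref.mk 3808 2269 [3,1,2,0] [[0,1,5,2,4,3],[0,1,2,3,4],[0,1,3,2,4],[0,1,3,2,4,5]],Ref.mk 4537 1714 [3,1,2,0] [[0,1,3,2,6],[0,1,2,3,4],[0,1,3,2],[0,1,3,2,4]],Ref.mk 2512 2274 [3,1,2,0] [[0,1,3,2,4,5],[0,1,2,3,4],[0,1,3,2,4,5],[0,1,3,2,4,5]],Ref.mk 3970 2274 [3,1,2,0] [[0,1,5,2,4,3],[0,1,2,3,4],[0,1,3,2,4,5],[0,1,3,2,4,5]],Ref.mk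 4699 1991 [3,1,0,2] [[0,1,4,6,2,3],[0,1,2,3,4],[0,1,4,2,3],[0,1,4,2,3]],Ref.mk 2593 2276 [0,1,2,3] [[0,1,2,3,4,5],[0,1,2,3,4],[0,1,2,3,4,5],[0,1,2,3,4,5]],Ref.mk 4051 2276 [0,1,2,3] [[0,1,2,3,4,5],[0,1,2,3,4],[0,1,2,3,4,5],[0,1,2,5,4,3]],Ref.mk 4780 1991 [3,1,0,2] [[0,1,4,6,2,3],[0,1,2,3,4],[0,1,4,2,3],[0,1,5,2,3]],Ref.mk 2674 2277 [0,1,2,3] [[0,1,2,3,4,5],[0,1,2,3,4],[0,1,2,3,4,5,6],[0,1,2,3,4,5]],Ref.mk 4132 2277 [0,1,2,3] [[0,1,2,3,4,5],[0,1,2,3,4],[0,1,2,3,4,5,6],[0,1,2,5,4,3]],Ref.mk 4861 1991 [3,1,0,2] [[0,1,4,6,2,3],[0,1,2,3,4],[0,1,4,2,3],[0,1,6,2,3]],Ref.mk 2604 2116 [0,3,1,2] [[0,1,4,3,2,5],[3,1,0,5,4,2],[2,1,4,0,3],[3,1,5,0,2,4]],Ref.mk 4062 2116 [0,3,1,2] [[0,1,4,3,2,5],[5,1,0,3,4,2],[2,1,4,0,3],[3,1,5,0,2,4]],Ref.mk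 4791 1667 [3,1,0,2] [[0,6,4,2,1,5],[0,1,2,3,4],[0,3,4,2,5],[0,5,1,2,3,4]]],
Node.mk [0,820,182,1542,2448,27,283,2938,3114,185,3906,342,1469,893] [(0,0),(0,2),(0,4),(1,0),(2,2),(3,1)] [],
Node.mk [0,820,182,1542,2448,27,283,2938,3114,185,3906,342,1469] [(0,0),(0,1),(1,1),(2,0),(2,1),(3,0)] [Ref.mk 893 2279 [0,1,2,3] [[0,1,2,3,4,5],[0,1,2,3,4],[0,1,2,3,4],[0,1,2,3,4,5]],Ref.mk 974 2269 [0,1,2,3] [[0,1,2,3,4,5],[0,1,2,3,4],[0,1,2,3,4],[0,1,2,3,4,5]],Ref.mk 1055 2275 [0,1,2,3] [[0,1,2,3,4,5],[0,1,2,3,4],[0,1,2,3,4],[0,1,2,3,4,5]],Ref.mk 1136 2278 [0,1,2,3] [[0,1,2,3,4,5],[0,1,2,3,4],[0,1,2,3,4,5],[0,1,2,3,4,5]]],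
Node.mk [0,820,182,1542,2448,27,283,2938,3114,185,3906,342,1712,893] [(0,0),(0,2),(0,4),(1,0),(2,2),(3,1)] [],
Node.mk [0,820,182,1542,2448,27,283,2938,3114,185,3906,342,1712] [(0,0),(0,1),(1,1),(1,2),(2,1),(2,3)] [Ref.mk 731 2267 [0,1,2,3] [[0,1,2,3,4,5],[0,1,2,3,4],[0,1,2,3,4],[0,1,2,3,4,5]],Ref.mk 893 2281 [0,1,2,3] [[0,1,2,3,4,5],[0,1,2,3,4],[0,1,2,3,4],[0,1,2,3,4,5]],Ref.mk 1055 2275 [0,1,2,3] [[0,1,2,3,4,5],[0,1,2,3,4],[0,1,2,3,4],[0,1,2,3,4,5]],Ref.mk 1136 2278 [0,1,2,3] [[0,1,2,3,4,5],[0,1,2,3,4],[0,1,2,3,4,5],[0,1,2,3,4,5]]],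
Node.mk [0,820,182,1542,2448,27,283,2938,3114,185,3906,342,1793,325] [(0,0),(0,1),(1,0),(1,2),(2,4),(3,0)] [Ref.mk 3171 2062 [3,1,2,0] [[0,1,3,2,4],[0,1,2,3],[0,1,3,2],[0,1,3,2]]],
Node.mk [0,820,182,1542,2448,27,283,2938,3114,185,3906,342,1793,1054,2512] [(0,0),(0,1),(0,4),(1,0),(1,2),(2,4)] [],
Node.mk [0,820,182,1542,2448,27,283,2938,3114,185,3906,342,1793,1054,2523] [(0,0),(0,4),(1,0),(1,1),(1,2),(2,4)] [],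
Node.mk [0,820,182,1542,2448,27,283,2938,3114,185,3906,342,1793,1054] [(0,0),(0,4),(1,2),(2,1),(3,1),(3,2)] [Ref.mk 325 2283 [0,1,2,3] [[0,1,2,3,4,5],[0,1,2,3,4],[0,1,2,3,4],[0,1,2,3,4,5]],Ref.mk 2512 2284 [0,1,2,3] [[0,1,2,3,4,5],[0,1,2,3,4],[0,1,2,3,4],[0,1,2,3,4,5]],Ref.mk 3241 1997 [3,1,2,0] [[0,1,3,2,4],[0,1,2,3,4],[0,1,3,2,4],[0,1,3,2,4]],Ref.mk 3970 2284 [0,1,2,3] [[0,1,2,3,4,5],[0,1,2,3,4],[0,1,2,3,4],[0,1,2,5,4,3]],Ref.mk 4699 1991 [3,1,0,2] [[0,1,4,6,2,3],[0,1,2,3,4],[0,1,4,2,3],[0,1,4,2,3]],Ref.mk 336 2265 [3,1,2,0] [[0,1,3,2,4,5],[0,1,2,3,4],[0,1,3,2,4],[0,1,3,2,4,5]],Ref.mk 2523 2285 [0,1,2,3] [[0,1,2,3,4,5],[0,1,2,3,4],[0,1,2,3,4],[0,1,2,3,4,5]],Ref.mk 3252 2141 [3,1,2,0] [[0,1,3,2,4],[0,1,2,3],[0,1,3,2,4],[0,1,3,2]],Ref.mk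 3981 2285 [0,1,2,3] [[0,1,2,3,4,5],[0,1,2,3,4],[0,1,2,3,4],[0,1,2,5,4,3]],Ref.mk 4710 2141 [3,1,2,0] [[0,1,3,2,6],[0,1,2,3],[0,1,3,2,4],[0,1,3,2]]],
Node.mk [0,820,182,1542,2448,27,283,2938,3114,185,3906,342,1793] [(0,0),(0,3),(0,4),(2,1),(2,2),(3,2)] [Ref.mk 325 2283 [0,1,2,3] [[0,1,2,3,4,5],[0,1,2,3,4],[0,1,2,3,4],[0,1,2,3,4,5]],Ref.mk 1054 2286 [0,1,2,3] [[0,1,2,3,4,5],[0,1,2,3,4],[0,1,2,3,4],[0,1,2,3,4,5]],Ref.mk 2512 2117 [3,0,1,2] [[0,1,4,2,3,5],[2,1,0,5,4,3],[2,1,4,0,3],[2,1,4,0,3]],Ref.mk 3241 1997 [3,1,2,0] [[0,1,3,2,4],[0,1,2,3,4],[0,1,3,2,4],[0,1,3,2,4]],Ref.mk 3970 2117 [3,0,1,2] [[0,1,4,2,5,3],[2,1,0,5,4,3],[2,1,4,0,3],[2,1,4,0,3]],Ref.mk 4699 2126 [3,0,1,2] [[0,1,4,2,6,5],[2,1,0,5,4,3],[2,1,4,0,3],[2,1,4,0,3]],Ref.mk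 731 2267 [0,1,2,3] [[0,1,2,3,4,5],[0,1,2,3,4],[0,1,2,3,4],[0,1,2,3,4,5]],Ref.mk 974 2269 [0,1,2,3] [[0,1,2,3,4,5],[0,1,2,3,4],[0,1,2,3,4],[0,1,2,3,4,5]],Ref.mk 1055 2275 [0,1,2,3] [[0,1,2,3,4,5],[0,1,2,3,4],[0,1,2,3,4],[0,1,2,3,4,5]],Ref.mk 1136 2278 [0,1,2,3] [[0,1,2,3,4,5],[0,1,2,3,4],[0,1,2,3,4,5],[0,1,2,3,4,5]],Ref.mk 1058 2275 [0,1,2,3] [[0,1,5,3,4,2],[0,1,2,3,4],[0,1,2,3,4],[0,1,2,3,4,5]],Ref.mk 1059 1991 [0,1,3,2] [[0,1,4,6,3,2],[0,1,2,3,4],[0,1,4,3,2],[0,1,4,3,2]]],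
Node.mk [0,820,182,1542,2448,27,283,2938,3114,185,3906,342,1874,406] [(0,0),(0,1),(1,0),(1,2),(2,5),(3,0)] [Ref.mk 3171 2062 [3,1,2,0] [[0,1,3,2,4],[0,1,2,3],[0,1,3,2],[0,1,3,2]]],
Node.mk [0,820,182,1542,2448,27,283,2938,3114,185,3906,342,1874,1135,2604] [(0,0),(0,4),(1,0),(1,1),(1,2),(2,5)] [],
Node.mk [0,820,182,1542,2448,27,283,2938,3114,185,3906,342,1874,1135] [(0,0),(0,4),(1,2),(2,1),(3,1),(3,2)] [Ref.mk 406 2288 [0,1,2,3] [[0,1,2,3,4,5],[0,1,2,3,4],[0,1,2,3,4,5],[0,1,2,3,4,5]],Ref.mk 2593 2116 [3,0,1,2] [[0,1,4,2,3,5],[2,1,0,5,4,3],[2,1,4,0,3],[2,1,5,0,3,4]],Ref.mk 3322 1997 [3,1,2,0] [[0,1,3,2,4],[0,1,2,3,4],[0,1,3,2,5],[0,1,3,2,4]],Ref.mk 4051 2116 [3,0,1,2] [[0,1,4,2,5,3],[2,1,0,5,4,3],[2,1,4,0,3],[2,1,5,0,3,4]],Ref.mk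 4780 2125 [3,0,1,2] [[0,1,4,2,6,5],[2,1,0,5,4,3],[2,1,4,0,3],[2,1,5,0,3,4]],Ref.mk 417 2265 [3,1,2,0] [[0,1,3,2,4,5],[0,1,2,3,4],[0,1,3,2,5],[0,1,3,2,4,5]],Ref.mk 2604 2289 [0,1,2,3] [[0,1,2,3,4,5],[0,1,2,3,4],[0,1,2,3,4,5],[0,1,2,3,4,5]],Ref.mk 3333 2141 [3,1,2,0] [[0,1,3,2,4],[0,1,2,3],[0,1,3,2,5],[0,1,3,2]],Ref.mk 4062 2289 [0,1,2,3] [[0,1,2,3,4,5],[0,1,2,3,4],[0,1,2,3,4,5],[0,1,2,5,4,3]],Ref.mk 4791 2141 [3,1,2,0] [[0,1,3,2,6],[0,1,2,3],[0,1,3,2,5],[0,1,3,2]]],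
Node.mk [0,820,182,1542,2448,27,283,2938,3114,185,3906,342,1874] [(0,0),(0,3),(0,4),(2,1),(2,2),(3,2)] [Ref.mk 406 2288 [0,1,2,3] [[0,1,2,3,4,5],[0,1,2,3,4],[0,1,2,3,4,5],[0,1,2,3,4,5]],Ref.mk 1135 2290 [0,1,2,3] [[0,1,2,3,4,5],[0,1,2,3,4],[0,1,2,3,4,5],[0,1,2,3,4,5]],Ref.mk 2593 2116 [3,0,1,2] [[0,1,4,2,3,5],[2,1,0,5,4,3],[2,1,4,0,3],[2,1,5,0,3,4]],Ref.mk 3322 1997 [3,1,2,0] [[0,1,3,2,4],[0,1,2,3,4],[0,1,3,2,5],[0,1,3,2,4]],Ref.mk 4051 2116 [3,0,1,2] [[0,1,4,2,5,3],[2,1,0,5,4,3],[2,1,4,0,3],[2,1,5,0,3,4]],Ref.mk 4780 2125 [3,0,1,2] [[0,1,4,2,6,5],[2,1,0,5,4,3],[2,1,4,0,3],[2,1,5,0,3,4]],Ref.mk 731 2267 [0,1,2,3] [[0,1,2,3,4,5],[0,1,2,3,4],[0,1,2,3,4],[0,1,2,3,4,5]],Ref.mk 974 2269 [0,1,2,3] [[0,1,2,3,4,5],[0,1,2,3,4],[0,1,2,3,4],[0,1,2,3,4,5]],Ref.mk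 1055 2275 [0,1,2,3] [[0,1,2,3,4,5],[0,1,2,3,4],[0,1,2,3,4],[0,1,2,3,4,5]],Ref.mk 1136 2278 [0,1,2,3] [[0,1,2,3,4,5],[0,1,2,3,4],[0,1,2,3,4,5],[0,1,2,3,4,5]],Ref.mk 1217 2278 [0,1,2,3] [[0,1,2,3,4,5],[0,1,2,3,4],[0,1,2,3,4,6],[0,1,2,3,4,5]],Ref.mk 1139 2278 [0,1,2,3] [[0,1,5,3,4,2],[0,1,2,3,4],[0,1,2,3,4,5],[0,1,2,3,4,5]],Ref.mk 1140 1991 [0,1,3,2] [[0,1,4,6,3,2],[0,1,2,3,4],[0,1,4,3,2],[0,1,5,3,2]]],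
Node.mk [0,820,182,1542,2448,27,283,2938,3114,185,3906,342] [(0,0),(0,1),(0,3),(0,4),(2,1),(2,2)] [Ref.mk 731 2267 [0,1,2,3] [[0,1,2,3,4,5],[0,1,2,3,4],[0,1,2,3,4],[0,1,2,3,4,5]],Ref.mk 974 2269 [0,1,2,3] [[0,1,2,3,4,5],[0,1,2,3,4],[0,1,2,3,4],[0,1,2,3,4,5]],Ref.mk 1055 2275 [0,1,2,3] [[0,1,2,3,4,5],[0,1,2,3,4],[0,1,2,3,4],[0,1,2,3,4,5]],Ref.mk 1136 2278 [0,1,2,3] [[0,1,2,3,4,5],[0,1,2,3,4],[0,1,2,3,4,5],[0,1,2,3,4,5]],Ref.mk 1469 2280 [0,1,2,3] [[0,1,2,3,4,5],[0,1,2,3,4],[0,1,2,3,4],[0,1,2,3,4,5]],Ref.mk 1712 2282 [0,1,2,3] [[0,1,2,3,4,5],[0,1,2,3,4],[0,1,2,3,4],[0,1,2,3,4,5]],Ref.mk 1793 2287 [0,1,2,3] [[0,1,2,3,4,5],[0,1,2,3,4],[0,1,2,3,4],[0,1,2,3,4,5]],Ref.mk 1874 2291 [0,1,2,3] [[0,1,2,3,4,5],[0,1,2,3,4],[0,1,2,3,4,5],[0,1,2,3,4,5]],Ref.mk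 734 2267 [0,1,2,3] [[0,1,5,3,4,2],[0,1,2,3,4],[0,1,2,3,4],[0,1,2,3,4,5]],Ref.mk 977 2269 [0,1,2,3] [[0,1,5,3,4,2],[0,1,2,3,4],[0,1,2,3,4],[0,1,2,3,4,5]],Ref.mk 1058 2275 [0,1,2,3] [[0,1,5,3,4,2],[0,1,2,3,4],[0,1,2,3,4],[0,1,2,3,4,5]],Ref.mk 1139 2278 [0,1,2,3] [[0,1,5,3,4,2],[0,1,2,3,4],[0,1,2,3,4,5],[0,1,2,3,4,5]],Ref.mk 1472 2280 [0,1,2,3] [[0,1,5,3,4,2],[0,1,2,3,4],[0,1,2,3,4],[0,1,2,3,4,5]],Ref.mk 1715 2282 [0,1,2,3] [[0,1,5,3,4,2],[0,1,2,3,4],[0,1,2,3,4],[0,1,2,3,4,5]],Ref.mk 1796 2287 [0,1,2,3] [[0,1,5,3,4,2],[0,1,2,3,4],[0,1,2,3,4],[0,1,2,3,4,5]],Ref.mk 1877 2291 [0,1,2,3] [[0,1,5,3,4,2],[0,1,2,3,4],[0,1,2,3,4,5],[0,1,2,3,4,5]],Ref.mk 735 26 [0,1,2,3] [[0,1,2,3,6],[0,1,2,3],[0,1,2,3],[0,1,2,3]],Ref.mk 978 1741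 [0,1,2,3] [[0,1,2,3,6],[0,1,2,3],[0,1,2,3],[0,1,2,3]],Ref.mk 1059 1991 [0,1,3,2] [[0,1,4,6,3,2],[0,1,2,3,4],[0,1,4,3,2],[0,1,4,3,2]],Ref.mk 1140 1980 [0,1,3,2] [[0,1,4,6,3,5],[0,1,2,3,4],[0,1,4,5,2],[0,1,5,3,2,4]],Ref.mk 1473 2043 [0,1,2,3] [[0,1,2,3,6],[0,1,2,3],[0,1,2,3],[0,1,2,3]],Ref.mk 1716 2134 [0,1,2,3] [[0,1,2,3,6],[0,1,2,3],[0,1,2,3],[0,1,2,3]],Ref.mk 1797 2141 [0,1,2,3] [[0,1,2,3,6],[0,1,2,3],[0,1,2,3,4],[0,1,2,3]],Ref.mk 1878 2141 [0,1,2,3] [[0,1,2,3,6],[0,1,2,3],[0,1,2,3,5],[0,1,2,3]]],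
Node.mk [0,820,182,1542,2448,27,283,2938,3114,185,3906,1055,1793] [(0,0),(0,2),(0,4),(3,0),(3,1),(3,2)] [Ref.mk 2512 2117 [3,0,1,2] [[0,1,4,2,3,5],[2,1,0,5,4,3],[2,1,4,0,3],[2,1,4,0,3]],Ref.mk 3241 1997 [3,1,2,0] [[0,1,3,2,4],[0,1,2,3,4],[0,1,3,2,4],[0,1,3,2,4]],Ref.mk 3970 2117 [3,0,1,2] [[0,1,4,2,5,3],[2,1,0,5,4,3],[2,1,4,0,3],[2,1,4,0,3]],Ref.mk 4699 2126 [3,0,1,2] [[0,1,4,2,6,5],[2,1,0,5,4,3],[2,1,4,0,3],[2,1,4,0,3]],Ref.mk 2523 2117 [0,3,1,2] [[0,1,4,3,2,5],[3,1,0,5,4,2],[2,1,4,0,3],[3,1,4,0,2]],Ref.mk 3252 2141 [3,1,2,0] [[0,1,3,2,4],[0,1,2,3],[0,1,3,2,4],[0,1,3,2]],Ref.mk 3981 2117 [0,3,1,2] [[0,1,4,3,2,5],[5,1,0,3,4,2],[2,1,4,0,3],[3,1,4,0,2]],Ref.mk 4710 2141 [3,1,2,0] [[0,1,3,2,6],[0,1,2,3],[0,1,3,2,4],[0,1,3,2]]],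
Node.mk [0,820,182,1542,2448,27,283,2938,3114,185,3906,1055,1794,2512] [(0,0),(0,4),(1,0),(1,1),(1,2),(2,4)] [],
Node.mk [0,820,182,1542,2448,27,283,2938,3114,185,3906,1055,1794] [(0,0),(0,4),(2,1),(3,0),(3,1),(3,2)] [Ref.mk 2512 2294 [0,1,2,3] [[0,1,2,3,4,5],[0,1,2,3,4],[0,1,2,3,4],[0,1,2,3,4,5]],Ref.mk 3241 1997 [3,1,2,0] [[0,1,3,2,4],[0,1,2,3,4],[0,1,3,2,4],[0,1,3,2,4]],Ref.mk 3970 2294 [0,1,2,3] [[0,1,2,3,4,5],[0,1,2,3,4],[0,1,2,3,4],[0,1,2,5,4,3]],Ref.mk 4699 1991 [3,1,0,2] [[0,1,4,6,2,3],[0,1,2,3,4],[0,1,4,2,3],[0,1,4,2,3]],Ref.mk 2523 2117 [0,3,1,2] [[0,1,4,3,2,5],[3,1,0,5,4,2],[2,1,4,0,3],[3,1,4,0,2]],Ref.mk 3252 2141 [3,1,2,0] [[0,1,3,2,4],[0,1,2,3],[0,1,3,2,4],[0,1,3,2]],Ref.mk 3981 2117 [0,3,1,2] [[0,1,4,3,2,5],[5,1,0,3,4,2],[2,1,4,0,3],[3,1,4,0,2]],Ref.mk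 4710 2141 [3,1,2,0] [[0,1,3,2,6],[0,1,2,3],[0,1,3,2,4],[0,1,3,2]]],
Node.mk [0,820,182,1542,2448,27,283,2938,3114,185,3906,1055] [(0,1),(2,0),(2,1),(2,2),(2,3),(3,1)] [Ref.mk 1791 2265 [0,1,2,3] [[0,1,2,3,4,5],[0,1,2,3,4],[0,1,2,3,4],[0,1,2,3,4,5]],Ref.mk 342 2275 [0,1,2,3] [[0,1,2,3,4,5],[0,1,2,3,4],[0,1,2,3,4],[0,1,2,3,4,5]],Ref.mk 423 2278 [0,1,2,3] [[0,1,2,3,4,5],[0,1,2,3,4],[0,1,2,3,5,4],[0,1,2,3,4,5]],Ref.mk 1793 2293 [0,1,2,3] [[0,1,2,3,4,5],[0,1,2,3,4],[0,1,2,3,4],[0,1,2,3,4,5]],Ref.mk 1874 1987 [0,1,3,2] [[0,1,4,2,3,5],[0,1,2,3,4],[0,1,4,3,2,5],[0,1,4,3,2,5]],Ref.mk 336 2265 [3,1,2,0] [[0,1,3,2,4,5],[0,1,2,3,4],[0,1,3,2,4],[0,1,3,2,4,5]],Ref.mk 1794 2295 [0,1,2,3] [[0,1,2,3,4,5],[0,1,2,3,4],[0,1,2,3,4],[0,1,2,3,4,5]],Ref.mk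 2523 2117 [0,3,1,2] [[0,1,4,3,2,5],[3,1,0,5,4,2],[2,1,4,0,3],[3,1,4,0,2]],Ref.mk 3252 2141 [3,1,2,0] [[0,1,3,2,4],[0,1,2,3],[0,1,3,2,4],[0,1,3,2]],Ref.mk 3981 2117 [0,3,1,2] [[0,1,4,3,2,5],[5,1,0,3,4,2],[2,1,4,0,3],[3,1,4,0,2]],Ref.mk 4710 1688 [3,1,0,2] [[0,6,4,2,1,5],[0,1,2,3,4],[0,3,4,2,5],[0,4,1,2,3]],Ref.mk 1795 2141 [0,1,2,3] [[0,1,2,3,4],[0,1,2,3],[0,1,2,3,4],[0,1,2,3]],Ref.mk 1796 2141 [0,1,2,3] [[0,1,2,3,5],[0,1,2,3],[0,1,2,3,4],[0,1,2,3]],Ref.mk 1797 2141 [0,1,2,3] [[0,1,2,3,6],[0,1,2,3],[0,1,2,3,4],[0,1,2,3]]],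
Node.mk [0,820,182,1542,2448,27,283,2938,3114,185,3906,1793,1054,2523] [(0,0),(0,4),(1,0),(1,1),(1,2),(2,4)] [],
Node.mk [0,820,182,1542,2448,27,283,2938,3114,185,3906,1793,1054] [(0,0),(0,4),(2,1),(3,0),(3,1),(3,2)] [Ref.mk 2512 2117 [3,0,1,2] [[0,1,4,2,3,5],[2,1,0,5,4,3],[2,1,4,0,3],[2,1,4,0,3]],Ref.mk 3241 1997 [3,1,2,0] [[0,1,3,2,4],[0,1,2,3,4],[0,1,3,2,4],[0,1,3,2,4]],Ref.mk 3970 2117 [3,0,1,2] [[0,1,4,2,5,3],[2,1,0,5,4,3],[2,1,4,0,3],[2,1,4,0,3]],Ref.mk 4699 2126 [3,0,1,2] [[0,1,4,2,6,5],[2,1,0,5,4,3],[2,1,4,0,3],[2,1,4,0,3]],Ref.mk 2523 2297 [0,1,2,3] [[0,1,2,3,4,5],[0,1,2,3,4],[0,1,2,3,4],[0,1,2,3,4,5]],Ref.mk 3252 2141 [3,1,2,0] [[0,1,3,2,4],[0,1,2,3],[0,1,3,2,4],[0,1,3,2]],Ref.mk 3981 2297 [0,1,2,3] [[0,1,2,3,4,5],[0,1,2,3,4],[0,1,2,3,4],[0,1,2,5,4,3]],Ref.mk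 4710 2141 [3,1,2,0] [[0,1,3,2,6],[0,1,2,3],[0,1,3,2,4],[0,1,3,2]]],
Node.mk [0,820,182,1542,2448,27,283,2938,3114,185,3906,1793] [(0,3),(2,0),(2,1),(2,2),(2,3),(3,2)] [Ref.mk 1053 2264 [0,1,2,3] [[0,1,2,3,4,5],[0,1,2,3,4],[0,1,2,3,4],[0,1,2,3,4,5]],Ref.mk 342 2287 [0,1,2,3] [[0,1,2,3,4,5],[0,1,2,3,4],[0,1,2,3,4],[0,1,2,3,4,5]],Ref.mk 423 2291 [0,1,2,3] [[0,1,2,3,4,5],[0,1,2,3,4],[0,1,2,3,5,4],[0,1,2,3,4,5]],Ref.mk 325 2264 [3,1,2,0] [[0,1,3,2,4,5],[0,1,2,3,4],[0,1,3,2,4],[0,1,3,2,4,5]],Ref.mk 1054 2298 [0,1,2,3] [[0,1,2,3,4,5],[0,1,2,3,4],[0,1,2,3,4],[0,1,2,3,4,5]],Ref.mk 2512 2117 [3,0,1,2] [[0,1,4,2,3,5],[2,1,0,5,4,3],[2,1,4,0,3],[2,1,4,0,3]],Ref.mk 3241 1997 [3,1,2,0] [[0,1,3,2,4],[0,1,2,3,4],[0,1,3,2,4],[0,1,3,2,4]],Ref.mk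 3970 2117 [3,0,1,2] [[0,1,4,2,5,3],[2,1,0,5,4,3],[2,1,4,0,3],[2,1,4,0,3]],Ref.mk 4699 2126 [3,0,1,2] [[0,1,4,2,6,5],[2,1,0,5,4,3],[2,1,4,0,3],[2,1,4,0,3]],Ref.mk 1055 2293 [0,1,2,3] [[0,1,2,3,4,5],[0,1,2,3,4],[0,1,2,3,4],[0,1,2,3,4,5]],Ref.mk 1136 1987 [0,1,3,2] [[0,1,4,2,3,5],[0,1,2,3,4],[0,1,4,3,2,5],[0,1,5,3,2,4]],Ref.mk 1057 2021 [0,1,2,3] [[0,1,2,3,4],[0,1,2,3],[0,1,2,3,4],[0,1,2,3]],Ref.mk 1058 2296 [0,1,2,3] [[0,1,5,3,4,2],[0,1,2,3,4],[0,1,2,3,4],[0,1,2,3,4,5]],Ref.mk 1059 1991 [0,1,3,2] [[0,1,4,6,3,2],[0,1,2,3,4],[0,1,4,3,2],[0,1,4,3,2]]],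
Node.mk [0,820,182,1542,2448,27,283,2938,3114,185,3906] [(0,1),(0,3),(2,0),(2,1),(2,2),(2,3)] [Ref.mk 1053 2264 [0,1,2,3] [[0,1,2,3,4,5],[0,1,2,3,4],[0,1,2,3,4],[0,1,2,3,4,5]],Ref.mk 1791 2265 [0,1,2,3] [[0,1,2,3,4,5],[0,1,2,3,4],[0,1,2,3,4],[0,1,2,3,4,5]],Ref.mk 342 2292 [0,1,2,3] [[0,1,2,3,4,5],[0,1,2,3,4],[0,1,2,3,4],[0,1,2,3,4,5]],Ref.mk 1055 2296 [0,1,2,3] [[0,1,2,3,4,5],[0,1,2,3,4],[0,1,2,3,4],[0,1,2,3,4,5]],Ref.mk 1793 2299 [0,1,2,3] [[0,1,2,3,4,5],[0,1,2,3,4],[0,1,2,3,4],[0,1,2,3,4,5]],Ref.mk 1057 2021 [0,1,2,3] [[0,1,2,3,4],[0,1,2,3],[0,1,2,3,4],[0,1,2,3]],Ref.mk 1795 2141 [0,1,2,3] [[0,1,2,3,4],[0,1,2,3],[0,1,2,3,4],[0,1,2,3]],Ref.mk 1058 2296 [0,1,2,3] [[0,1,5,3,4,2],[0,1,2,3,4],[0,1,2,3,4],[0,1,2,3,4,5]],Ref.mk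 1796 2299 [0,1,2,3] [[0,1,5,3,4,2],[0,1,2,3,4],[0,1,2,3,4],[0,1,2,3,4,5]],Ref.mk 1059 1991 [0,1,3,2] [[0,1,4,6,3,5],[0,1,2,3,4],[0,1,4,5,2],[0,1,4,3,2]],Ref.mk 1797 2141 [0,1,2,3] [[0,1,2,3,6],[0,1,2,3],[0,1,2,3,4],[0,1,2,3]]],
Node.mk [0,820,182,1542,2448,27,283,2938,3114,185] [(2,1),(3,0),(3,1),(3,2),(3,3),(3,4)] [Ref.mk 3906 2300 [0,1,2,3] [[0,1,2,3,4,5],[0,1,2,3,4],[0,1,2,3],[0,1,2,3,4,5]],Ref.mk 3646 26 [3,1,2,0] [[0,1,3,2,5],[0,1,2,3],[0,1,3,2],[0,1,3,2]],Ref.mk 3808 1714 [3,1,2,0] [[0,1,3,2,5],[0,1,2,3,4],[0,1,3,2],[0,1,3,2,4]],Ref.mk 3889 1702 [3,1,2,0] [[0,1,4,2,5],[0,1,4,3,2],[0,1,2,3],[0,1,3,4,5]],Ref.mk 3970 1991 [3,1,0,2] [[0,1,4,5,2,3],[0,1,2,3,4],[0,1,4,5,3],[0,1,4,2,3]],Ref.mk 3657 2043 [3,1,2,0] [[0,1,3,2,5],[0,1,2,3],[0,1,3,2],[0,1,3,2]],Ref.mk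 3819 2131 [3,1,2,0] [[0,1,3,2,5],[0,1,2,3,4],[0,1,3,2],[0,1,3,2,4]],Ref.mk 3900 2130 [3,1,2,0] [[0,1,4,2,5],[0,1,4,3,2],[0,1,2,3],[0,1,3,4,5]],Ref.mk 3981 2141 [3,1,2,0] [[0,1,3,2,5],[0,1,2,3],[0,1,3,2,4],[0,1,3,2]]],
Node.mk [0,820,182,1542,2448,27,283,2938,3114] [(0,0),(0,1),(0,2),(0,3),(0,4),(2,1)] [Ref.mk 734 26 [0,1,2,3] [[0,1,2,3,5],[0,1,2,3],[0,1,2,3],[0,1,2,3]],Ref.mk 896 1702 [0,1,2,3] [[0,1,4,3,5],[0,1,4,3,2],[0,1,3,2],[0,1,2,4,3]],Ref.mk 977 1714 [0,1,2,3] [[0,1,2,3,5],[0,1,2,3,4],[0,1,2,3],[0,1,2,3,4]],Ref.mk 1058 1991 [0,1,3,2] [[0,1,4,5,3,2],[0,1,2,3,4],[0,1,4,3,2],[0,1,4,3,2]],Ref.mk 1472 2043 [0,1,2,3] [[0,1,2,3,5],[0,1,2,3],[0,1,2,3],[0,1,2,3]],Ref.mk 1634 2130 [0,1,2,3] [[0,1,4,3,5],[0,1,4,3,2],[0,1,3,2],[0,1,2,4,3]],Ref.mk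 1715 2131 [0,1,2,3] [[0,1,2,3,5],[0,1,2,3,4],[0,1,2,3],[0,1,2,3,4]],Ref.mk 1796 2141 [0,1,2,3] [[0,1,2,3,5],[0,1,2,3],[0,1,2,3,4],[0,1,2,3]],Ref.mk 185 2301 [0,1,2,3] [[0,1,2,3,4,5],[0,1,2,3,4],[0,1,2,3],[0,1,2,3,4]]],
Node.mk [0,820,182,1542,2448,27,283,2938,2225] [(0,4),(2,1),(3,0),(3,1),(3,2),(3,3)] [Ref.mk 3114 2302 [0,1,2,3] [[0,1,4,3,2],[0,1,4,3,2],[0,1,3,2],[0,1,2,4,3]],Ref.mk 2917 26 [3,1,2,0] [[0,1,3,2,4],[0,1,2,3],[0,1,3,2],[0,1,3,2]],Ref.mk 3646 26 [3,1,2,0] [[0,1,3,2,5],[0,1,2,3],[0,1,3,2],[0,1,3,2]],Ref.mk 3079 1702 [3,1,2,0] [[0,1,3,2,4],[0,1,2,3,4],[0,1,3,2],[0,1,3,2,4]],Ref.mk 3808 1702 [3,1,2,0] [[0,1,3,2,5],[0,1,2,3,4],[0,1,3,2],[0,1,3,2,4]],Ref.mk 3160 98 [3,1,2,0] [[0,1,3,2,4],[0,1,2,3],[0,1,3,2],[0,1,3,2]],Ref.mk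 3889 98 [3,1,2,0] [[0,1,3,2,5],[0,1,2,3],[0,1,3,2],[0,1,3,2]],Ref.mk 3241 1994 [3,1,0,2] [[0,1,3,4,2],[0,1,4,3,2],[0,1,2,4,3],[0,1,4,3,2]],Ref.mk 3970 1991 [3,1,2,0] [[0,1,3,2,5,4],[0,1,2,3,4],[0,1,3,2,4],[0,1,3,2,4]],Ref.mk 2928 2043 [3,1,2,0] [[0,1,3,2,4],[0,1,2,3],[0,1,3,2],[0,1,3,2]],Ref.mk 3657 2043 [3,1,2,0] [[0,1,3,2,5],[0,1,2,3],[0,1,3,2],[0,1,3,2]],Ref.mk 3090 2130 [3,1,2,0] [[0,1,3,2,4],[0,1,2,3,4],[0,1,3,2],[0,1,3,2,4]],Ref.mk 3819 2130 [3,1,2,0] [[0,1,3,2,5],[0,1,2,3,4],[0,1,3,2],[0,1,3,2,4]],Ref.mk 3171 2062 [3,1,2,0] [[0,1,3,2,4],[0,1,2,3],[0,1,3,2],[0,1,3,2]],Ref.mk 3900 2062 [3,1,2,0] [[0,1,3,2,5],[0,1,2,3],[0,1,3,2],[0,1,3,2]],Ref.mk 3252 2141 [3,1,2,0] [[0,1,3,2,4],[0,1,2,3],[0,1,3,2,4],[0,1,3,2]],Ref.mk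 3981 2302 [2,1,0,3] [[0,4,2,1,3],[0,1,2,3,4],[0,3,2,4],[0,5,2,4,3]]]]

/-- nodes -/
noncomputable def c36 : List Node := [
Node.mk [0,820,182,1542,2448,27,283,2938] [(0,1),(1,1),(1,2),(2,1),(3,0),(3,1)] [Ref.mk 3114 2302 [0,1,2,3] [[0,1,2,3,4],[0,1,2,3,4],[0,1,2,3],[0,1,2,3,4]],Ref.mk 2225 2303 [0,1,2,3] [[0,1,2,3,4],[0,1,2,3,4],[0,1,2,3],[0,1,2,3,4]]],
Node.mk [0,820,182,1542,2448,27,283] [(0,0),(2,1),(3,0),(3,1),(3,2),(3,3)] [Ref.mk 2917 26 [3,1,2,0] [[0,1,3,2,4],[0,1,2,3],[0,1,3,2],[0,1,3,2]],Ref.mk 3079 1714 [3,1,2,0] [[0,1,3,2,4],[0,1,2,3,4],[0,1,3,2],[0,1,3,2,4]],Ref.mk 3160 98 [3,1,2,0] [[0,1,3,2,4],[0,1,2,3],[0,1,3,2],[0,1,3,2]],Ref.mk 3241 1997 [3,1,2,0] [[0,1,3,2,4],[0,1,2,3,4],[0,1,3,2,4],[0,1,3,2,4]],Ref.mk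 2928 2043 [3,1,2,0] [[0,1,3,2,4],[0,1,2,3],[0,1,3,2],[0,1,3,2]],Ref.mk 3090 2131 [3,1,2,0] [[0,1,3,2,4],[0,1,2,3,4],[0,1,3,2],[0,1,3,2,4]],Ref.mk 3171 2062 [3,1,2,0] [[0,1,3,2,4],[0,1,2,3],[0,1,3,2],[0,1,3,2]],Ref.mk 3252 2141 [3,1,2,0] [[0,1,3,2,4],[0,1,2,3],[0,1,3,2,4],[0,1,3,2]],Ref.mk 2938 2304 [0,1,2,3] [[0,1,2,3,4],[0,1,2,3,4],[0,1,2,3],[0,1,2,3,4]]],
Node.mk [0,820,182,1542,2448,27] [(0,0),(0,1),(0,2),(0,3),(1,2),(2,1)] [Ref.mk 733 26 [0,1,2,3] [[0,1,2,3,4],[0,1,2,3],[0,1,2,3],[0,1,2,3]],Ref.mk 895 98 [0,1,2,3] [[0,1,2,3,4],[0,1,2,3],[0,1,2,3],[0,1,2,3]],Ref.mk 247 326 [0,1,2,3] [[0,1,2,3,4],[0,1,2,3],[0,1,2,3],[0,1,2,3]],Ref.mk 976 1741 [0,1,2,3] [[0,1,2,3,4],[0,1,2,3],[0,1,2,3],[0,1,2,3]],Ref.mk 1057 2021 [0,1,2,3]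 [[0,1,2,3,4],[0,1,2,3],[0,1,2,3,4],[0,1,2,3]],Ref.mk 1471 2043 [0,1,2,3] [[0,1,2,3,4],[0,1,2,3],[0,1,2,3],[0,1,2,3]],Ref.mk 1633 2062 [0,1,2,3] [[0,1,2,3,4],[0,1,2,3],[0,1,2,3],[0,1,2,3]],Ref.mk 256 2087 [0,1,2,3] [[0,1,2,3,4],[0,1,2,3],[0,1,2,3],[0,1,2,3]],Ref.mk 1714 2134 [0,1,2,3] [[0,1,2,3,4],[0,1,2,3],[0,1,2,3],[0,1,2,3]],Ref.mk 1795 2141 [0,1,2,3] [[0,1,2,3,4],[0,1,2,3],[0,1,2,3,4],[0,1,2,3]],Ref.mk 274 2263 [0,1,2,3] [[0,1,2,3,4],[0,1,2,3],[0,1,2,3],[0,1,2,3]],Ref.mk 283 2305 [0,1,2,3] [[0,1,2,3,4],[0,1,2,3,4],[0,1,2,3],[0,1,2,3]]],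
Node.mk [0,820,182,1542,2448,351,2513,246,1620,1471,360,2522] [(0,0),(0,1),(1,0),(1,1),(1,2),(2,1)] [],
Node.mk [0,820,182,1542,2448,351,2513,246,1620,1471,360,1075] [(0,4),(1,0),(1,1),(1,2),(2,4),(3,1)] [],
Node.mk [0,820,182,1542,2448,351,2513,246,1620,1471,360] [(0,0),(0,3),(1,0),(2,1),(3,0),(3,2)] [Ref.mk 2522 2307 [0,1,2,3] [[0,1,2,3,4],[0,1,2,3,4],[0,1,2,3,4],[0,1,2,3]],Ref.mk 1075 2308 [0,1,2,3] [[0,1,2,3,4],[0,1,2,3,4],[0,1,2,3,4],[0,1,2,3]]],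
Node.mk [0,820,182,1542,2448,351,2513,246,1620,1471,768,1001] [(0,0),(0,2),(0,3),(2,0),(2,3),(3,1)] [],
Node.mk [0,820,182,1542,2448,351,2513,246,1620,1471,768] [(0,0),(0,3),(1,0),(1,2),(2,1),(3,2)] [Ref.mk 1001 2310 [0,1,2,3] [[0,1,2,3,4],[0,1,2,3,4],[0,1,2,3,4],[0,1,2,3]]],
Node.mk [0,820,182,1542,2448,351,2513,246,1620,1471] [(0,1),(1,0),(1,1),(1,2),(1,3),(2,1)] [Ref.mk 360 2309 [0,1,2,3] [[0,1,2,3,4],[0,1,2,3,4],[0,1,2,3,4],[0,1,2,3]],Ref.mk 768 2311 [0,1,2,3] [[0,1,2,3,4],[0,1,2,3,4],[0,1,2,3,4],[0,1,2,3]]],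
Node.mk [0,820,182,1542,2448,351,2513,246,1620,1633,1075] [(0,4),(1,0),(1,1),(1,2),(2,4),(3,1)] [],
Node.mk [0,820,182,1542,2448,351,2513,246,1620,1633] [(0,0),(0,1),(1,0),(1,1),(2,1),(2,2)] [Ref.mk 1075 2313 [0,1,2,3] [[0,1,2,3,4],[0,1,2,3],[0,1,2,3,4],[0,1,2,3]]],
Node.mk [0,820,182,1542,2448,351,2513,246,1620,256] [(1,0),(1,1),(1,2),(2,1),(2,3),(2,4)] [],
Node.mk [0,820,182,1542,2448,351,2513,246,1620,1714,360,2522] [(0,0),(0,1),(0,2),(0,4),(1,0),(1,1)] [],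
Node.mk [0,820,182,1542,2448,351,2513,246,1620,1714,360,1075] [(0,0),(0,3),(1,0),(1,2),(2,1),(3,2)] [Ref.mk 2522 2316 [0,1,2,3] [[0,1,2,3,4],[0,1,2,3,4],[0,1,2,3,4],[0,1,2,3]],Ref.mk 256 2315 [0,1,2,3] [[0,1,2,3,4],[0,1,2,3],[0,1,2,3,4],[0,1,2,3]]],
Node.mk [0,820,182,1542,2448,351,2513,246,1620,1714,360] [(0,0),(0,3),(1,0),(2,1),(3,0),(3,2)] [Ref.mk 2522 2316 [0,1,2,3] [[0,1,2,3,4],[0,1,2,3,4],[0,1,2,3,4],[0,1,2,3]],Ref.mk 1075 2317 [0,1,2,3] [[0,1,2,3,4],[0,1,2,3,4],[0,1,2,3,4],[0,1,2,3]]],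
Node.mk [0,820,182,1542,2448,351,2513,246,1620,1714,1011,3037] [(0,0),(1,0),(1,1),(1,2),(1,4),(2,1)] [],
Node.mk [0,820,182,1542,2448,351,2513,246,1620,1714,1011] [(0,3),(1,0),(3,0),(3,1),(3,2),(3,3)] [Ref.mk 3037 2319 [0,1,2,3] [[0,1,2,3,4],[0,1,2,3,4],[0,1,2,3,4],[0,1,2,3,4]]],
Node.mk [0,820,182,1542,2448,351,2513,246,1620,1714] [(0,1),(1,0),(1,1),(1,2),(1,3),(2,1)] [Ref.mk 360 2318 [0,1,2,3] [[0,1,2,3,4],[0,1,2,3,4],[0,1,2,3,4],[0,1,2,3]],Ref.mk 1011 2320 [0,1,2,3] [[0,1,2,3,4],[0,1,2,3,4],[0,1,2,3,4],[0,1,2,3]]],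
Node.mk [0,820,182,1542,2448,351,2513,246,1620,1795] [(0,1),(1,0),(1,1),(1,2),(2,1),(2,4)] [],
Node.mk [0,820,182,1542,2448,351,2513,246,1620,1876,1164] [(0,0),(0,3),(1,0),(1,2),(2,1),(3,2)] [],
Node.mk [0,820,182,1542,2448,351,2513,246,1620,1876,1173] [(0,0),(0,3),(1,0),(1,2),(2,1),(3,2)] [],
Node.mk [0,820,182,1542,2448,351,2513,246,1620,1876] [(0,0),(0,1),(1,0),(1,1),(1,2),(2,1)] [Ref.mk 1164 2323 [0,1,2,3] [[0,1,2,3,4],[0,1,2,3],[0,1,2,3,4,5],[0,1,2,3]],Ref.mk 1173 2324 [0,1,2,3] [[0,1,2,3,4],[0,1,2,3,4],[0,1,2,3,4,5],[0,1,2,3]]],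
Node.mk [0,820,182,1542,2448,351,2513,246,1620,1075] [(1,0),(1,1),(1,2),(2,1),(2,4),(3,1)] [],
Node.mk [0,820,182,1542,2448,351,2513,246,1620] [(0,0),(0,1),(0,2),(0,3),(1,0),(2,1)] [Ref.mk 1471 2312 [0,1,2,3] [[0,1,2,3,4],[0,1,2,3],[0,1,2,3,4],[0,1,2,3]],Ref.mk 1633 2314 [0,1,2,3] [[0,1,2,3,4],[0,1,2,3],[0,1,2,3,4],[0,1,2,3]],Ref.mk 256 2315 [0,1,2,3] [[0,1,2,3,4],[0,1,2,3],[0,1,2,3,4],[0,1,2,3]],Ref.mk 1714 2321 [0,1,2,3] [[0,1,2,3,4],[0,1,2,3],[0,1,2,3,4],[0,1,2,3]],Ref.mk 1795 2322 [0,1,2,3] [[0,1,2,3,4],[0,1,2,3],[0,1,2,3,4],[0,1,2,3]],Ref.mk 1876 2325 [0,1,2,3] [[0,1,2,3,4],[0,1,2,3],[0,1,2,3,4,5],[0,1,2,3]],Ref.mk 1075 2326 [0,1,2,3] [[0,1,2,3,4],[0,1,2,3],[0,1,2,3,4],[0,1,2,3]]],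
Node.mk [0,820,182,1542,2448,351,2513,246,3078,1471,759] [(0,0),(0,3),(1,0),(1,2),(2,1),(3,2)] [],
Node.mk [0,820,182,1542,2448,351,2513,246,3078,1471,768] [(0,0),(0,3),(1,0),(1,2),(2,1),(3,2)] [],
Node.mk [0,820,182,1542,2448,351,2513,246,3078,1471] [(0,0),(0,1),(1,0),(1,1),(1,2),(2,1)] [Ref.mk 759 2328 [0,1,2,3] [[0,1,2,3,4],[0,1,2,3],[0,1,2,3,4],[0,1,2,3,4]],Ref.mk 768 2329 [0,1,2,3] [[0,1,2,3,4],[0,1,2,3,4],[0,1,2,3,4],[0,1,2,3,4]]],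
Node.mk [0,820,182,1542,2448,351,2513,246,3078,1633,1075] [(0,4),(1,0),(1,1),(1,2),(2,4),(3,1)] [],
Node.mk [0,820,182,1542,2448,351,2513,246,3078,1633] [(0,0),(0,1),(1,0),(1,1),(2,1),(2,2)] [Ref.mk 1075 2331 [0,1,2,3] [[0,1,2,3,4],[0,1,2,3],[0,1,2,3,4],[0,1,2,3,4]]],
Node.mk [0,820,182,1542,2448,351,2513,246,3078,256] [(0,0),(1,0),(1,1),(1,2),(2,1),(2,3)] [],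
Node.mk [0,820,182,1542,2448,351,2513,246,3078,1714,360,2522] [(0,0),(0,1),(0,2),(0,4),(1,0),(1,1)] [],
Node.mk [0,820,182,1542,2448,351,2513,246,3078,1714,360,1075] [(0,0),(0,3),(1,0),(1,2),(2,1),(3,2)] [Ref.mk 2522 2334 [0,1,2,3] [[0,1,2,3,4],[0,1,2,3,4],[0,1,2,3,4],[0,1,2,3,4]],Ref.mk 256 2333 [0,1,2,3] [[0,1,2,3,4],[0,1,2,3],[0,1,2,3,4],[0,1,2,3,4]]],
Node.mk [0,820,182,1542,2448,351,2513,246,3078,1714,360] [(0,0),(0,3),(1,0),(2,1),(3,0),(3,2)] [Ref.mk 2522 2334 [0,1,2,3] [[0,1,2,3,4],[0,1,2,3,4],[0,1,2,3,4],[0,1,2,3,4]],Ref.mk 1075 2335 [0,1,2,3] [[0,1,2,3,4],[0,1,2,3,4],[0,1,2,3,4],[0,1,2,3,4]]],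
Node.mk [0,820,182,1542,2448,351,2513,246,3078,1714,1011,1001] [(0,0),(0,2),(0,3),(2,3),(3,0),(3,1)] [],
Node.mk [0,820,182,1542,2448,351,2513,246,3078,1714,1011,1075] [(0,0),(0,3),(1,0),(1,2),(2,1),(3,2)] [Ref.mk 1001 2337 [0,1,2,3] [[0,1,2,3,4],[0,1,2,3,4],[0,1,2,3,4],[0,1,2,3,4]],Ref.mk 256 2333 [0,1,2,3] [[0,1,2,3,4],[0,1,2,3],[0,1,2,3,4],[0,1,2,3,4]]],
Node.mk [0,820,182,1542,2448,351,2513,246,3078,1714,1011] [(0,0),(0,3),(1,0),(2,1),(3,0),(3,2)] [Ref.mk 1001 2337 [0,1,2,3] [[0,1,2,3,4],[0,1,2,3,4],[0,1,2,3,4],[0,1,2,3,4]],Ref.mk 1075 2338 [0,1,2,3] [[0,1,2,3,4],[0,1,2,3,4],[0,1,2,3,4],[0,1,2,3,4]]],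
Node.mk [0,820,182,1542,2448,351,2513,246,3078,1714] [(0,1),(1,0),(1,1),(1,2),(1,3),(2,1)] [Ref.mk 360 2336 [0,1,2,3] [[0,1,2,3,4],[0,1,2,3,4],[0,1,2,3,4],[0,1,2,3,4]],Ref.mk 1011 2339 [0,1,2,3] [[0,1,2,3,4],[0,1,2,3,4],[0,1,2,3,4],[0,1,2,3,4]]],
Node.mk [0,820,182,1542,2448,351,2513,246,3078,1795] [(0,1),(1,0),(1,1),(1,2),(2,1),(2,4)] [],
Node.mk [0,820,182,1542,2448,351,2513,246,3078,1876,1164] [(0,0),(0,3),(1,0),(1,2),(2,1),(3,2)] [],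
Node.mk [0,820,182,1542,2448,351,2513,246,3078,1876,1173] [(0,0),(0,3),(1,0),(1,2),(2,1),(3,2)] [],
Node.mk [0,820,182,1542,2448,351,2513,246,3078,1876] [(0,0),(0,1),(1,0),(1,1),(1,2),(2,1)] [Ref.mk 1164 2342 [0,1,2,3] [[0,1,2,3,4],[0,1,2,3],[0,1,2,3,4,5],[0,1,2,3,4]],Ref.mk 1173 2343 [0,1,2,3] [[0,1,2,3,4],[0,1,2,3,4],[0,1,2,3,4,5],[0,1,2,3,4]]],
Node.mk [0,820,182,1542,2448,351,2513,246,3078,1075] [(1,0),(1,1),(1,2),(2,1),(2,4),(3,1)] [],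
Node.mk [0,820,182,1542,2448,351,2513,246,3078] [(0,0),(0,1),(0,2),(0,3),(1,0),(2,1)] [Ref.mk 1471 2330 [0,1,2,3] [[0,1,2,3,4],[0,1,2,3],[0,1,2,3,4],[0,1,2,3,4]],Ref.mk 1633 2332 [0,1,2,3] [[0,1,2,3,4],[0,1,2,3],[0,1,2,3,4],[0,1,2,3,4]],Ref.mk 256 2333 [0,1,2,3] [[0,1,2,3,4],[0,1,2,3],[0,1,2,3,4],[0,1,2,3,4]],Ref.mk 1714 2340 [0,1,2,3] [[0,1,2,3,4],[0,1,2,3],[0,1,2,3,4],[0,1,2,3,4]],Ref.mk 1795 2341 [0,1,2,3] [[0,1,2,3,4],[0,1,2,3],[0,1,2,3,4],[0,1,2,3,4]],Ref.mk 1876 2344 [0,1,2,3] [[0,1,2,3,4],[0,1,2,3],[0,1,2,3,4,5],[0,1,2,3,4]],Ref.mk 1075 2345 [0,1,2,3] [[0,1,2,3,4],[0,1,2,3],[0,1,2,3,4],[0,1,2,3,4]]],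
Node.mk [0,820,182,1542,2448,351,2513,246] [(0,1),(1,1),(2,1),(3,0),(3,1),(3,3)] [Ref.mk 1620 2327 [0,1,2,3] [[0,1,2,3],[0,1,2,3],[0,1,2,3,4],[0,1,2,3]],Ref.mk 3078 2346 [0,1,2,3] [[0,1,2,3],[0,1,2,3],[0,1,2,3,4],[0,1,2,3,4]]],
Node.mk [0,820,182,1542,2448,351,2513,345,1800,733,2522,1001] [(0,0),(0,1),(0,2),(0,3),(0,4),(3,1)] [],
Node.mk [0,820,182,1542,2448,351,2513,345,1800,733,2522] [(1,0),(1,1),(1,2),(2,0),(2,1),(2,4)] [Ref.mk 1001 2348 [0,1,2,3] [[0,1,2,3,4],[0,1,2,3],[0,1,2,3,4],[0,1,2,3]]],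
Node.mk [0,820,182,1542,2448,351,2513,345,1800,733] [(0,0),(0,4),(1,0),(1,2),(2,0),(3,1)] [Ref.mk 2522 2349 [0,1,2,3] [[0,1,2,3,4],[0,1,2,3],[0,1,2,3,4],[0,1,2,3]]],
Node.mk [0,820,182,1542,2448,351,2513,345,1800,895,2522] [(1,0),(1,1),(1,2),(3,0),(3,1),(3,3)] [],
Node.mk [0,820,182,1542,2448,351,2513,345,1800,895,2523] [(1,0),(1,1),(1,2),(3,0),(3,1),(3,3)] [],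
Node.mk [0,820,182,1542,2448,351,2513,345,1800,895] [(0,0),(0,4),(1,0),(1,2),(2,2),(3,1)] [Ref.mk 2522 2351 [0,1,2,3] [[0,1,2,3,4],[0,1,2,3],[0,1,2,3,4],[0,1,2,3]],Ref.mk 2523 2352 [0,1,2,3] [[0,1,2,3,4],[0,1,2,3],[0,1,2,3,4],[0,1,2,3]]],
Node.mk [0,820,182,1542,2448,351,2513,345,1800,976,3258,2522] [(0,0),(0,3),(1,0),(1,1),(1,2),(2,1)] [],
Node.mk [0,820,182,1542,2448,351,2513,345,1800,976,3258] [(0,0),(0,3),(1,0),(1,2),(2,1),(3,2)] [Ref.mk 2522 2354 [0,1,2,3] [[0,1,2,3,4],[0,1,2,3],[0,1,2,3,4],[0,1,2,3,4]]],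
Node.mk [0,820,182,1542,2448,351,2513,345,1800,976,3171,3028] [(0,0),(0,4),(1,0),(1,2),(2,3),(3,1)] [],
Node.mk [0,820,182,1542,2448,351,2513,345,1800,976,3171,3037] [(0,0),(0,4),(1,0),(1,2),(2,3),(3,1)] [],
Node.mk [0,820,182,1542,2448,351,2513,345,1800,976,3171] [(0,0),(0,1),(1,0),(1,1),(1,2),(3,1)] [Ref.mk 3028 2356 [0,1,2,3] [[0,1,2,3,4],[0,1,2,3],[0,1,2,3,4],[0,1,2,3,4]],Ref.mk 3037 2357 [0,1,2,3] [[0,1,2,3,4],[0,1,2,3,4],[0,1,2,3,4],[0,1,2,3,4]]],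
Node.mk [0,820,182,1542,2448,351,2513,345,1800,976] [(0,1),(2,1),(3,0),(3,1),(3,2),(3,3)] [Ref.mk 3258 2355 [0,1,2,3] [[0,1,2,3,4],[0,1,2,3],[0,1,2,3,4],[0,1,2,3,4]],Ref.mk 3171 2358 [0,1,2,3] [[0,1,2,3,4],[0,1,2,3],[0,1,2,3,4],[0,1,2,3,4]]],
Node.mk [0,820,182,1542,2448,351,2513,345,1800,1057,3087] [(0,0),(1,0),(1,1),(2,1),(2,2),(2,4)] [],
Node.mk [0,820,182,1542,2448,351,2513,345,1800,1057,3322,1876] [(0,4),(1,0),(1,1),(1,2),(2,4),(3,1)] [],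
Node.mk [0,820,182,1542,2448,351,2513,345,1800,1057,3322] [(0,0),(0,1),(0,2),(2,1),(2,4),(3,1)] [Ref.mk 1876 2361 [0,1,2,3] [[0,1,2,3,4],[0,1,2,3],[0,1,2,3,4,5],[0,1,2,3,4]]],
Node.mk [0,820,182,1542,2448,351,2513,345,1800,1057] [(2,1),(2,4),(3,0),(3,1),(3,2),(3,3)] [Ref.mk 3087 2360 [0,1,2,3] [[0,1,2,3,4],[0,1,2,3],[0,1,2,3,4],[0,1,2,3,4]],Ref.mk 2917 2350 [3,1,2,0] [[0,1,3,2,4],[0,1,2,3],[0,1,3,2,4],[0,1,3,2]],Ref.mk 3079 2359 [3,1,2,0] [[0,1,3,2,4],[0,1,2,3],[0,1,3,2,4],[0,1,3,2]],Ref.mk 3160 2353 [3,1,2,0] [[0,1,3,2,4],[0,1,2,3],[0,1,3,2,4],[0,1,3,2]],Ref.mk 3322 2362 [0,1,2,3] [[0,1,2,3,4],[0,1,2,3],[0,1,2,3,4,5],[0,1,2,3,4]]],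
Node.mk [0,820,182,1542,2448,351,2513,345,1800,1138,2522] [(0,0),(0,4),(1,0),(1,1),(1,2),(3,1)] [],
Node.mk [0,820,182,1542,2448,351,2513,345,1800,1138] [(0,0),(0,4),(1,0),(1,2),(2,5),(3,1)] [Ref.mk 2522 2364 [0,1,2,3] [[0,1,2,3,4],[0,1,2,3],[0,1,2,3,4,5],[0,1,2,3]]],
Node.mk [0,820,182,1542,2448,351,2513,345,1800,346,2522] [(1,0),(1,1),(1,2),(2,0),(2,1),(2,4)] [],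
Node.mk [0,820,182,1542,2448,351,2513,345,1800,346] [(0,3),(1,0),(1,2),(2,1),(3,0),(3,2)] [Ref.mk 2522 2366 [0,1,2,3] [[0,1,2,3,4],[0,1,2,3],[0,1,2,3,4],[0,1,2,3]]]]

/-- nodes -/
noncomputable def c37 : List Node := [
Node.mk [0,820,182,1542,2448,351,2513,345,1800,1075,3259] [(1,0),(1,1),(1,2),(2,0),(2,1),(2,4)] [],
Node.mk [0,820,182,1542,2448,351,2513,345,1800,1075] [(0,3),(2,1),(3,0),(3,1),(3,2),(3,3)] [Ref.mk 3258 2367 [3,1,2,0] [[0,1,3,2,4],[0,1,2,3],[0,1,3,2,4],[0,1,3,2]],Ref.mk 2917 2350 [3,1,2,0] [[0,1,3,2,4],[0,1,2,3],[0,1,3,2,4],[0,1,3,2]],Ref.mk 3079 2359 [3,1,2,0] [[0,1,3,2,4],[0,1,2,3],[0,1,3,2,4],[0,1,3,2]],Ref.mk 3160 2353 [3,1,2,0] [[0,1,3,2,4],[0,1,2,3],[0,1,3,2,4],[0,1,3,2]],Ref.mk 3241 2363 [3,1,2,0]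 [[0,1,3,2,4],[0,1,2,3],[0,1,3,2,4],[0,1,3,2]],Ref.mk 3322 2365 [3,1,2,0] [[0,1,3,2,4],[0,1,2,3],[0,1,3,2,4,5],[0,1,3,2]],Ref.mk 3259 2368 [0,1,2,3] [[0,1,2,3,4],[0,1,2,3],[0,1,2,3,4],[0,1,2,3,4]]],
Node.mk [0,820,182,1542,2448,351,2513,345,1800] [(0,0),(0,1),(0,2),(0,3),(1,1),(2,1)] [Ref.mk 733 2350 [0,1,2,3] [[0,1,2,3,4],[0,1,2,3],[0,1,2,3,4],[0,1,2,3]],Ref.mk 895 2353 [0,1,2,3] [[0,1,2,3,4],[0,1,2,3],[0,1,2,3,4],[0,1,2,3]],Ref.mk 976 2359 [0,1,2,3] [[0,1,2,3,4],[0,1,2,3],[0,1,2,3,4],[0,1,2,3]],Ref.mk 1057 2363 [0,1,2,3] [[0,1,2,3,4],[0,1,2,3],[0,1,2,3,4],[0,1,2,3]],Ref.mk 1138 2365 [0,1,2,3] [[0,1,2,3,4],[0,1,2,3],[0,1,2,3,4,5],[0,1,2,3]],Ref.mk 346 2367 [0,1,2,3] [[0,1,2,3,4],[0,1,2,3],[0,1,2,3,4],[0,1,2,3]],Ref.mk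 1075 2369 [0,1,2,3] [[0,1,2,3,4],[0,1,2,3],[0,1,2,3,4],[0,1,2,3]]],
Node.mk [0,820,182,1542,2448,351,2513,345,3258,2522] [(1,0),(1,1),(1,2),(2,0),(2,1),(2,4)] [],
Node.mk [0,820,182,1542,2448,351,2513,345,3258] [(0,0),(0,3),(1,0),(1,2),(2,1),(3,2)] [Ref.mk 2522 2371 [0,1,2,3] [[0,1,2,3],[0,1,2,3],[0,1,2,3,4],[0,1,2,3,4]]],
Node.mk [0,820,182,1542,2448,351,2513,345] [(0,1),(1,1),(2,1),(3,0),(3,1),(3,3)] [Ref.mk 1800 2370 [0,1,2,3] [[0,1,2,3],[0,1,2,3],[0,1,2,3,4],[0,1,2,3]],Ref.mk 3258 2372 [0,1,2,3] [[0,1,2,3],[0,1,2,3],[0,1,2,3,4],[0,1,2,3,4]]],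
Node.mk [0,820,182,1542,2448,351,2513,247,3078,927,2377,1001] [(0,0),(0,1),(0,2),(0,3),(1,0),(1,3)] [],
Node.mk [0,820,182,1542,2448,351,2513,247,3078,927,2377] [(0,0),(0,1),(0,3),(1,0),(2,1),(2,2)] [Ref.mk 1001 2374 [0,1,2,3] [[0,1,2,3,4],[0,1,2,3,4],[0,1,2,3,4],[0,1,2,3,4]]],
Node.mk [0,820,182,1542,2448,351,2513,247,3078,927,280] [(0,0),(0,1),(0,2),(0,3),(1,0),(1,4)] [],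
Node.mk [0,820,182,1542,2448,351,2513,247,3078,927,1001] [(0,0),(1,0),(2,1),(2,2),(2,3),(3,1)] [],
Node.mk [0,820,182,1542,2448,351,2513,247,3078,927] [(0,0),(0,3),(1,0),(1,2),(2,1),(3,2)] [Ref.mk 2377 2375 [0,1,2,3] [[0,1,2,3,4],[0,1,2,3,4],[0,1,2,3,4],[0,1,2,3,4]],Ref.mk 280 2376 [0,1,2,3] [[0,1,2,3,4],[0,1,2,3,4],[0,1,2,3,4],[0,1,2,3,4]],Ref.mk 1001 2377 [0,1,2,3] [[0,1,2,3,4],[0,1,2,3,4],[0,1,2,3,4],[0,1,2,3,4]]],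
Node.mk [0,820,182,1542,2448,351,2513,247,3078,360,253] [(0,1),(1,0),(1,1),(2,1),(2,3),(3,0)] [],
Node.mk [0,820,182,1542,2448,351,2513,247,3078,360,254,1073] [(0,0),(0,2),(0,3),(1,0),(1,1),(1,2)] [],
Node.mk [0,820,182,1542,2448,351,2513,247,3078,360,254] [(1,0),(1,1),(2,1),(2,2),(2,3),(3,0)] [Ref.mk 1073 2380 [0,1,2,3] [[0,1,2,3,4],[0,1,2,3,4],[0,1,2,3,4],[0,1,2,3,4]]],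
Node.mk [0,820,182,1542,2448,351,2513,247,3078,360,2522] [(0,0),(0,2),(1,0),(1,1),(2,1),(2,4)] [],
Node.mk [0,820,182,1542,2448,351,2513,247,3078,360,256] [(0,0),(1,0),(1,1),(1,2),(2,1),(2,3)] [],
Node.mk [0,820,182,1542,2448,351,2513,247,3078,360,257] [(0,0),(1,0),(1,1),(1,2),(2,1),(2,3)] [],
Node.mk [0,820,182,1542,2448,351,2513,247,3078,360] [(0,0),(0,3),(1,0),(1,2),(2,1),(3,2)] [Ref.mk 253 2379 [0,1,2,3] [[0,1,2,3,4],[0,1,2,3,4],[0,1,2,3,4],[0,1,2,3,4]],Ref.mk 271 2378 [3,1,2,0] [[0,1,3,2,4],[0,1,2,4,3],[0,1,3,2,4],[0,1,3,2,4]],Ref.mk 280 2378 [3,1,2,0] [[0,1,3,2,4],[0,1,2,3,4],[0,1,3,2,4],[0,1,3,2,4]],Ref.mk 289 2378 [3,1,2,0] [[0,1,3,2,4],[0,1,2,4,5],[0,1,3,2,4],[0,1,3,2,4]],Ref.mk 254 2381 [0,1,2,3] [[0,1,2,3,4],[0,1,2,3,4],[0,1,2,3,4],[0,1,2,3,4]],Ref.mk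 2522 2382 [0,1,2,3] [[0,1,2,3,4],[0,1,2,3,4],[0,1,2,3,4],[0,1,2,3,4]],Ref.mk 256 2383 [0,1,2,3] [[0,1,2,3,4],[0,1,2,3,4],[0,1,2,3,4],[0,1,2,3,4]],Ref.mk 257 2384 [0,1,2,3] [[0,1,2,3,4,5],[0,1,2,3,4],[0,1,2,3,4],[0,1,2,3,4]]],
Node.mk [0,820,182,1542,2448,351,2513,247,3078,768,1001] [(0,0),(0,1),(0,2),(0,3),(1,0),(3,1)] [],
Node.mk [0,820,182,1542,2448,351,2513,247,3078,768] [(0,0),(0,3),(1,0),(1,2),(2,1),(3,2)] [Ref.mk 280 2378 [3,1,2,0] [[0,1,3,2,4],[0,1,2,3,4],[0,1,3,2,4],[0,1,3,2,4]],Ref.mk 1001 2386 [0,1,2,3] [[0,1,2,3,4],[0,1,2,3,4],[0,1,2,3,4],[0,1,2,3,4]]],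
Node.mk [0,820,182,1542,2448,351,2513,247,3078,930,2377] [(0,1),(1,0),(1,3),(2,2),(3,0),(3,3)] [],
Node.mk [0,820,182,1542,2448,351,2513,247,3078,930,254] [(0,3),(1,4),(2,2),(3,0),(3,1),(3,3)] [],
Node.mk [0,820,182,1542,2448,351,2513,247,3078,930,1001] [(0,0),(0,1),(0,2),(0,3),(1,0),(3,1)] [],
Node.mk [0,820,182,1542,2448,351,2513,247,3078,930] [(0,0),(0,3),(1,0),(1,2),(2,1),(3,2)] [Ref.mk 2377 2388 [0,1,2,3] [[0,1,2,3,4],[0,1,2,3,4],[0,1,2,3,4],[0,1,2,3,4]],Ref.mk 280 2378 [3,1,2,0] [[0,1,3,2,4],[0,1,2,3,4],[0,1,3,2,4],[0,1,3,2,4]],Ref.mk 254 2389 [0,1,2,3] [[0,1,2,3,4],[0,1,2,3,4],[0,1,2,3,4],[0,1,2,3,4]],Ref.mk 1001 2390 [0,1,2,3] [[0,1,2,3,4],[0,1,2,3,4],[0,1,2,3,4],[0,1,2,3,4]]],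
Node.mk [0,820,182,1542,2448,351,2513,247,3078,1011,2358] [(0,0),(0,3),(1,0),(2,1),(2,2),(2,3)] [],
Node.mk [0,820,182,1542,2448,351,2513,247,3078,1011,2286] [(0,0),(0,2),(0,3),(2,1),(2,3),(3,1)] [],
Node.mk [0,820,182,1542,2448,351,2513,247,3078,1011] [(0,3),(1,0),(1,4),(2,3),(3,0),(3,1)] [Ref.mk 2358 2392 [0,1,2,3] [[0,1,2,3,4],[0,1,2,3,4],[0,1,2,3,4],[0,1,2,3,4]],Ref.mk 2286 2393 [0,1,2,3] [[0,1,2,3,4],[0,1,2,3,4],[0,1,2,3,4],[0,1,2,3,4]]],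
Node.mk [0,820,182,1542,2448,351,2513,247,3078,1092,1900,280] [(0,0),(0,1),(0,2),(0,3),(1,0),(1,4)] [],
Node.mk [0,820,182,1542,2448,351,2513,247,3078,1092,1900] [(0,0),(0,3),(1,0),(1,2),(2,1),(3,2)] [Ref.mk 280 2395 [0,1,2,3] [[0,1,2,3,4],[0,1,2,3,4],[0,1,2,3,4,5],[0,1,2,3,4]]],
Node.mk [0,820,182,1542,2448,351,2513,247,3078,1092] [(1,0),(1,1),(1,2),(2,1),(2,4),(3,1)] [Ref.mk 1495 2387 [3,1,2,0] [[0,1,3,2,4],[0,1,2,3,4],[0,1,3,2,4],[0,1,3,2,4]],Ref.mk 1657 2394 [3,1,2,0] [[0,1,3,2,4],[0,1,2,3,4],[0,1,3,2,4],[0,1,3,2,4]],Ref.mk 280 2378 [3,1,2,0] [[0,1,3,2,4],[0,1,2,3,4],[0,1,3,2,4],[0,1,3,2,4]],Ref.mk 1738 2391 [3,1,2,0] [[0,1,3,2,4],[0,1,2,3,4],[0,1,3,2,4],[0,1,3,2,4]],Ref.mk 1900 2396 [0,1,2,3] [[0,1,2,3,4],[0,1,2,3,4],[0,1,2,3,4,5],[0,1,2,3,4]]],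
Node.mk [0,820,182,1542,2448,351,2513,247,3078,1173,1001] [(0,0),(0,1),(0,2),(0,3),(1,0),(3,1)] [],
Node.mk [0,820,182,1542,2448,351,2513,247,3078,1173] [(0,0),(0,3),(1,0),(1,2),(2,1),(3,2)] [Ref.mk 280 2378 [3,1,2,0] [[0,1,3,2,4],[0,1,2,3,4],[0,1,3,2,4],[0,1,3,2,4]],Ref.mk 1001 2398 [0,1,2,3] [[0,1,2,3,4],[0,1,2,3,4],[0,1,2,3,4,5],[0,1,2,3,4]]],
Node.mk [0,820,182,1542,2448,351,2513,247,3078] [(0,1),(1,0),(1,1),(1,2),(1,3),(2,1)] [Ref.mk 927 2378 [0,1,2,3] [[0,1,2,3,4],[0,1,2,3,4],[0,1,2,3,4],[0,1,2,3,4]],Ref.mk 360 2385 [0,1,2,3] [[0,1,2,3,4],[0,1,2,3,4],[0,1,2,3,4],[0,1,2,3,4]],Ref.mk 768 2387 [0,1,2,3] [[0,1,2,3,4],[0,1,2,3,4],[0,1,2,3,4],[0,1,2,3,4]],Ref.mk 930 2391 [0,1,2,3] [[0,1,2,3,4],[0,1,2,3,4],[0,1,2,3,4],[0,1,2,3,4]],Ref.mk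 1011 2394 [0,1,2,3] [[0,1,2,3,4],[0,1,2,3,4],[0,1,2,3,4],[0,1,2,3,4]],Ref.mk 1092 2397 [0,1,2,3] [[0,1,2,3,4],[0,1,2,3,4],[0,1,2,3,4],[0,1,2,3,4]],Ref.mk 1173 2399 [0,1,2,3] [[0,1,2,3,4],[0,1,2,3,4],[0,1,2,3,4,5],[0,1,2,3,4]]],
Node.mk [0,820,182,1542,2448,351,2513,247] [(0,1),(1,1),(2,1),(3,0),(3,1),(3,3)] [Ref.mk 1620 2346 [3,1,2,0] [[0,1,3,2],[0,1,2,3],[0,1,3,2,4],[0,1,3,2,4]],Ref.mk 3078 2400 [0,1,2,3] [[0,1,2,3,4],[0,1,2,3],[0,1,2,3,4],[0,1,2,3,4]]],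
Node.mk [0,820,182,1542,2448,351,2513,346,3258,2522] [(1,0),(1,1),(1,2),(2,0),(2,1),(2,4)] [],
Node.mk [0,820,182,1542,2448,351,2513,346,3258] [(0,0),(0,3),(1,0),(1,2),(2,1),(3,2)] [Ref.mk 2522 2402 [0,1,2,3] [[0,1,2,3,4],[0,1,2,3],[0,1,2,3,4],[0,1,2,3,4]]],
Node.mk [0,820,182,1542,2448,351,2513,346] [(0,1),(1,1),(2,1),(3,0),(3,1),(3,3)] [Ref.mk 1800 2372 [3,1,2,0] [[0,1,3,2],[0,1,2,3],[0,1,3,2,4],[0,1,3,2,4]],Ref.mk 3258 2403 [0,1,2,3] [[0,1,2,3,4],[0,1,2,3],[0,1,2,3,4],[0,1,2,3,4]]],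
Node.mk [0,820,182,1542,2448,351,2513] [(0,0),(0,1),(0,2),(1,1),(2,1),(3,1)] [Ref.mk 246 2347 [0,1,2,3] [[0,1,2,3],[0,1,2,3],[0,1,2,3,4],[0,1,2,3]],Ref.mk 345 2373 [0,1,2,3] [[0,1,2,3],[0,1,2,3],[0,1,2,3,4],[0,1,2,3]],Ref.mk 247 2401 [0,1,2,3] [[0,1,2,3,4],[0,1,2,3],[0,1,2,3,4],[0,1,2,3]],Ref.mk 346 2404 [0,1,2,3] [[0,1,2,3,4],[0,1,2,3],[0,1,2,3,4],[0,1,2,3]]],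
Node.mk [0,820,182,1542,2448,351,2216,21,1476,9,19,747,768,1471,244] [(0,0),(0,1),(0,3),(0,4),(1,2),(2,0)] [],
Node.mk [0,820,182,1542,2448,351,2216,21,1476,9,19,747,768,1471,2297] [(0,0),(0,1),(0,2),(0,3),(2,0),(2,1)] [],
Node.mk [0,820,182,1542,2448,351,2216,21,1476,9,19,747,768,1471] [(0,0),(0,3),(1,2),(1,4),(2,0),(3,1)] [Ref.mk 244 2406 [0,1,2,3] [[0,1,2,3,4],[0,1,2,3,4],[0,1,2,3,4],[0,1,2,3]],Ref.mk 2297 2407 [0,1,2,3] [[0,1,2,3,4],[0,1,2,3,4],[0,1,2,3,4],[0,1,2,3]]],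
Node.mk [0,820,182,1542,2448,351,2216,21,1476,9,19,747,768,22,2934,244] [(0,0),(0,1),(0,2),(0,3),(1,0),(3,0)] [Ref.mk 1471 2406 [0,1,2,3] [[0,1,2,3,4],[0,1,2,3,4],[0,1,2,3,4],[0,1,2,3]],Ref.mk 1472 2406 [0,1,2,3] [[0,1,2,3,5],[0,1,2,3,4],[0,1,2,3,4],[0,1,2,3]]],
Node.mk [0,820,182,1542,2448,351,2216,21,1476,9,19,747,768,22,2934,2297] [(0,0),(0,1),(0,2),(0,3),(2,0),(2,1)] [],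
Node.mk [0,820,182,1542,2448,351,2216,21,1476,9,19,747,768,22,2934] [(0,0),(0,3),(1,2),(1,4),(2,0),(3,1)] [Ref.mk 244 2409 [0,1,2,3] [[0,1,2,3,4],[0,1,2,3,4],[0,1,2,3,4],[0,1,2,3,4]],Ref.mk 2297 2410 [0,1,2,3] [[0,1,2,3,4],[0,1,2,3,4],[0,1,2,3,4],[0,1,2,3,4]]],
Node.mk [0,820,182,1542,2448,351,2216,21,1476,9,19,747,768,22] [(0,3),(2,1),(3,0),(3,1),(3,2),(3,3)] [Ref.mk 2934 2411 [0,1,2,3] [[0,1,2,3,4],[0,1,2,3,4],[0,1,2,3,4],[0,1,2,3,4]],Ref.mk 2917 2408 [1,3,2,0] [[2,1,3,0,4],[2,1,0,3,4],[0,1,4,2,3],[0,1,3,2]]],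
Node.mk [0,820,182,1542,2448,351,2216,21,1476,9,19,747,768] [(0,0),(0,1),(0,2),(0,3),(1,0),(2,1)] [Ref.mk 1471 2408 [0,1,2,3] [[0,1,2,3,4],[0,1,2,3,4],[0,1,2,3,4],[0,1,2,3]],Ref.mk 22 2412 [0,1,2,3] [[0,1,2,3,4],[0,1,2,3,4],[0,1,2,3,4],[0,1,2,3]]],
Node.mk [0,820,182,1542,2448,351,2216,21,1476,9,19,747,930,1633,3079] [(1,0),(1,1),(1,2),(1,3),(1,4),(2,2)] [Ref.mk 45 2306 [0,1,2,3] [[0,1,2,3],[0,1,2,5],[0,1,2,3],[0,1,2,3]]],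
Node.mk [0,820,182,1542,2448,351,2216,21,1476,9,19,747,930,1633,3037] [(1,0),(1,1),(1,2),(1,3),(1,4),(2,1)] [Ref.mk 45 2306 [0,1,2,3] [[0,1,2,3],[0,1,2,5],[0,1,2,3],[0,1,2,3]]],
Node.mk [0,820,182,1542,2448,351,2216,21,1476,9,19,747,930,1633] [(0,0),(0,3),(3,0),(3,1),(3,2),(3,3)] [Ref.mk 3079 2414 [0,1,2,3] [[0,1,2,3,4],[0,1,2,3,4],[0,1,2,3,4],[0,1,2,3,4]],Ref.mk 3037 2415 [0,1,2,3] [[0,1,2,3,4],[0,1,2,3,4],[0,1,2,3,4],[0,1,2,3,4]]],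
Node.mk [0,820,182,1542,2448,351,2216,21,1476,9,19,747,930,22,2934,101,896] [(0,0),(0,2),(1,2),(2,1),(2,2),(3,1)] [],
Node.mk [0,820,182,1542,2448,351,2216,21,1476,9,19,747,930,22,2934,101,977] [(1,0),(1,1),(1,2),(1,3),(1,4),(3,1)] [Ref.mk 45 2306 [0,1,2,3] [[0,1,2,3],[0,1,2,5],[0,1,2,3],[0,1,2,3]]],
Node.mk [0,820,182,1542,2448,351,2216,21,1476,9,19,747,930,22,2934,101,1058] [(1,0),(1,1),(1,2),(1,3),(1,4),(3,1)] [Ref.mk 45 2306 [0,1,2,3] [[0,1,2,3],[0,1,2,5],[0,1,2,3],[0,1,2,3]]],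
Node.mk [0,820,182,1542,2448,351,2216,21,1476,9,19,747,930,22,2934,101,1139] [(1,0),(1,1),(1,2),(1,3),(1,4),(3,1)] [Ref.mk 45 2306 [0,1,2,3] [[0,1,2,3],[0,1,2,5],[0,1,2,3],[0,1,2,3]]],
Node.mk [0,820,182,1542,2448,351,2216,21,1476,9,19,747,930,22,2934,101,23] [(0,0),(0,1),(0,2),(0,3),(1,2),(2,1)] [Ref.mk 733 2413 [1,0,2,3] [[2,1,3,0],[3,1,0,2,4],[0,1,4,3,2],[0,1,2,3]],Ref.mk 895 2417 [0,1,2,3] [[0,1,2,3,5,4],[0,1,2,3,4],[0,1,2,3,4],[0,1,2,3,4]],Ref.mk 976 2418 [0,1,2,3] [[0,1,2,3,5,4],[0,1,2,3,4],[0,1,2,3,4],[0,1,2,3,4]],Ref.mk 1057 2419 [0,1,2,3] [[0,1,2,3,5,4],[0,1,2,3,4],[0,1,2,3,4],[0,1,2,3,4]],Ref.mk 1138 2420 [0,1,2,3] [[0,1,2,3,5,4],[0,1,2,3,4],[0,1,2,3,4,5],[0,1,2,3,4]],Ref.mk 1633 2416 [0,1,2,3] [[0,1,2,3,4],[0,1,2,3,4],[0,1,2,3,4],[0,1,2,3]],Ref.mk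 734 2413 [1,0,2,3] [[2,1,3,0],[3,1,0,2,5],[0,1,4,3,2],[0,1,2,3]],Ref.mk 896 2417 [0,1,2,3] [[0,1,2,3,4,5],[0,1,2,3,4],[0,1,2,3,4],[0,1,2,3,4]],Ref.mk 977 2418 [0,1,2,3] [[0,1,2,3,4,5],[0,1,2,3,4],[0,1,2,3,4],[0,1,2,3,4]],Ref.mk 1058 2419 [0,1,2,3] [[0,1,2,3,4,5],[0,1,2,3,4],[0,1,2,3,4],[0,1,2,3,4]],Ref.mk 1139 2420 [0,1,2,3] [[0,1,2,3,4,5],[0,1,2,3,4],[0,1,2,3,4,5],[0,1,2,3,4]],Ref.mk 1634 2416 [0,1,2,3] [[0,1,2,3,5],[0,1,2,3,4],[0,1,2,3,4],[0,1,2,3]],Ref.mk 735 2413 [1,0,2,3] [[2,1,3,0],[3,1,0,2,6],[0,1,4,3,2],[0,1,2,3]],Ref.mk 897 2417 [0,1,2,3] [[0,1,2,3,5,6],[0,1,2,3,4],[0,1,2,3,4],[0,1,2,3,4]],Ref.mk 978 2418 [0,1,2,3] [[0,1,2,3,5,6],[0,1,2,3,4],[0,1,2,3,4],[0,1,2,3,4]],Ref.mk 1059 2419 [0,1,2,3] [[0,1,2,3,5,6],[0,1,2,3,4],[0,1,2,3,4],[0,1,2,3,4]],Ref.mk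 1140 2420 [0,1,2,3] [[0,1,2,3,5,6],[0,1,2,3,4],[0,1,2,3,4,5],[0,1,2,3,4]],Ref.mk 1635 2416 [0,1,2,3] [[0,1,2,3,6],[0,1,2,3,4],[0,1,2,3,4],[0,1,2,3]]],
Node.mk [0,820,182,1542,2448,351,2216,21,1476,9,19,747,930,22,2934,101] [(0,0),(0,1),(0,2),(0,3),(0,4),(2,1)] [Ref.mk 734 2413 [1,0,2,3] [[2,1,3,0],[3,1,0,2,5],[0,1,4,3,2],[0,1,2,3]],Ref.mk 896 2417 [0,1,2,3] [[0,1,2,3,4,5],[0,1,2,3,4],[0,1,2,3,4],[0,1,2,3,4]],Ref.mk 977 2418 [0,1,2,3] [[0,1,2,3,4,5],[0,1,2,3,4],[0,1,2,3,4],[0,1,2,3,4]],Ref.mk 1058 2419 [0,1,2,3] [[0,1,2,3,4,5],[0,1,2,3,4],[0,1,2,3,4],[0,1,2,3,4]],Ref.mk 1139 2420 [0,1,2,3] [[0,1,2,3,4,5],[0,1,2,3,4],[0,1,2,3,4,5],[0,1,2,3,4]],Ref.mk 1634 2416 [0,1,2,3] [[0,1,2,3,5],[0,1,2,3,4],[0,1,2,3,4],[0,1,2,3]],Ref.mk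 23 2421 [0,1,2,3] [[0,1,2,3,4,5],[0,1,2,3,4],[0,1,2,3,4],[0,1,2,3,4]]],
Node.mk [0,820,182,1542,2448,351,2216,21,1476,9,19,747,930,22,2934,263,896] [(0,0),(0,2),(1,2),(2,1),(2,2),(3,1)] [],
Node.mk [0,820,182,1542,2448,351,2216,21,1476,9,19,747,930,22,2934,263,977] [(1,0),(1,1),(1,2),(1,3),(1,4),(3,1)] [Ref.mk 45 2306 [0,1,2,3] [[0,1,2,3],[0,1,2,5],[0,1,2,3],[0,1,2,3]]],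
Node.mk [0,820,182,1542,2448,351,2216,21,1476,9,19,747,930,22,2934,263,1058] [(1,0),(1,1),(1,2),(1,3),(1,4),(3,1)] [Ref.mk 45 2306 [0,1,2,3] [[0,1,2,3],[0,1,2,5],[0,1,2,3],[0,1,2,3]]],
Node.mk [0,820,182,1542,2448,351,2216,21,1476,9,19,747,930,22,2934,263,1139] [(1,0),(1,1),(1,2),(1,3),(1,4),(3,1)] [Ref.mk 45 2306 [0,1,2,3] [[0,1,2,3],[0,1,2,5],[0,1,2,3],[0,1,2,3]]],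
Node.mk [0,820,182,1542,2448,351,2216,21,1476,9,19,747,930,22,2934,263,23] [(0,0),(0,1),(0,2),(0,3),(1,2),(2,1)] [Ref.mk 733 2413 [1,0,2,3] [[2,1,3,0],[3,1,0,2,4],[0,1,4,3,2],[0,1,2,3]],Ref.mk 895 2423 [0,1,2,3] [[0,1,2,3,5,4],[0,1,2,3,4],[0,1,2,3,4],[0,1,2,3,4]],Ref.mk 976 2424 [0,1,2,3] [[0,1,2,3,5,4],[0,1,2,3,4],[0,1,2,3,4],[0,1,2,3,4]],Ref.mk 1057 2425 [0,1,2,3] [[0,1,2,3,5,4],[0,1,2,3,4],[0,1,2,3,4],[0,1,2,3,4]],Ref.mk 1138 2426 [0,1,2,3] [[0,1,2,3,5,4],[0,1,2,3,4],[0,1,2,3,4,5],[0,1,2,3,4]],Ref.mk 1633 2416 [0,1,2,3] [[0,1,2,3,4],[0,1,2,3,4],[0,1,2,3,4],[0,1,2,3]],Ref.mk 734 2413 [1,0,2,3] [[2,1,3,0],[3,1,0,2,5],[0,1,4,3,2],[0,1,2,3]],Ref.mk 896 2423 [0,1,2,3] [[0,1,2,3,4,5],[0,1,2,3,4],[0,1,2,3,4],[0,1,2,3,4]],Ref.mk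 977 2424 [0,1,2,3] [[0,1,2,3,4,5],[0,1,2,3,4],[0,1,2,3,4],[0,1,2,3,4]],Ref.mk 1058 2425 [0,1,2,3] [[0,1,2,3,4,5],[0,1,2,3,4],[0,1,2,3,4],[0,1,2,3,4]],Ref.mk 1139 2426 [0,1,2,3] [[0,1,2,3,4,5],[0,1,2,3,4],[0,1,2,3,4,5],[0,1,2,3,4]],Ref.mk 1634 2416 [0,1,2,3] [[0,1,2,3,5],[0,1,2,3,4],[0,1,2,3,4],[0,1,2,3]],Ref.mk 735 2413 [1,0,2,3] [[2,1,3,0],[3,1,0,2,6],[0,1,4,3,2],[0,1,2,3]],Ref.mk 897 2423 [0,1,2,3] [[0,1,2,3,5,6],[0,1,2,3,4],[0,1,2,3,4],[0,1,2,3,4]],Ref.mk 978 2424 [0,1,2,3] [[0,1,2,3,5,6],[0,1,2,3,4],[0,1,2,3,4],[0,1,2,3,4]],Ref.mk 1059 2425 [0,1,2,3] [[0,1,2,3,5,6],[0,1,2,3,4],[0,1,2,3,4],[0,1,2,3,4]],Ref.mk 1140 2426 [0,1,2,3] [[0,1,2,3,5,6],[0,1,2,3,4],[0,1,2,3,4,5],[0,1,2,3,4]],Ref.mk 1635 2416 [0,1,2,3] [[0,1,2,3,6],[0,1,2,3,4],[0,1,2,3,4],[0,1,2,3]]],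
Node.mk [0,820,182,1542,2448,351,2216,21,1476,9,19,747,930,22,2934,263] [(0,0),(0,1),(0,2),(0,3),(0,4),(2,1)] [Ref.mk 734 2413 [1,0,2,3] [[2,1,3,0],[3,1,0,2,5],[0,1,4,3,2],[0,1,2,3]],Ref.mk 896 2423 [0,1,2,3] [[0,1,2,3,4,5],[0,1,2,3,4],[0,1,2,3,4],[0,1,2,3,4]],Ref.mk 977 2424 [0,1,2,3] [[0,1,2,3,4,5],[0,1,2,3,4],[0,1,2,3,4],[0,1,2,3,4]],Ref.mk 1058 2425 [0,1,2,3] [[0,1,2,3,4,5],[0,1,2,3,4],[0,1,2,3,4],[0,1,2,3,4]],Ref.mk 1139 2426 [0,1,2,3] [[0,1,2,3,4,5],[0,1,2,3,4],[0,1,2,3,4,5],[0,1,2,3,4]],Ref.mk 1634 2416 [0,1,2,3] [[0,1,2,3,5],[0,1,2,3,4],[0,1,2,3,4],[0,1,2,3]],Ref.mk 23 2427 [0,1,2,3] [[0,1,2,3,4,5],[0,1,2,3,4],[0,1,2,3,4],[0,1,2,3,4]]],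
Node.mk [0,820,182,1542,2448,351,2216,21,1476,9,19,747,930,22,2934,344,896] [(0,0),(0,2),(1,2),(2,1),(2,2),(3,1)] [],
Node.mk [0,820,182,1542,2448,351,2216,21,1476,9,19,747,930,22,2934,344,977] [(1,0),(1,1),(1,2),(1,3),(1,4),(3,1)] [Ref.mk 45 2306 [0,1,2,3] [[0,1,2,3],[0,1,2,5],[0,1,2,3],[0,1,2,3]]],
Node.mk [0,820,182,1542,2448,351,2216,21,1476,9,19,747,930,22,2934,344,1058] [(1,0),(1,1),(1,2),(1,3),(1,4),(3,1)] [Ref.mk 45 2306 [0,1,2,3] [[0,1,2,3],[0,1,2,5],[0,1,2,3],[0,1,2,3]]]]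

/-- nodes -/
noncomputable def c38 : List Node := [
Node.mk [0,820,182,1542,2448,351,2216,21,1476,9,19,747,930,22,2934,344,1139] [(1,0),(1,1),(1,2),(1,3),(1,4),(3,1)] [Ref.mk 45 2306 [0,1,2,3] [[0,1,2,3],[0,1,2,5],[0,1,2,3],[0,1,2,3]]],
Node.mk [0,820,182,1542,2448,351,2216,21,1476,9,19,747,930,22,2934,344,23] [(0,0),(0,1),(0,2),(0,3),(1,2),(2,1)] [Ref.mk 733 2413 [1,0,2,3] [[2,1,3,0],[3,1,0,2,4],[0,1,4,3,2],[0,1,2,3]],Ref.mk 895 2429 [0,1,2,3] [[0,1,2,3,5,4],[0,1,2,3,4],[0,1,2,3,4],[0,1,2,3,4]],Ref.mk 976 2430 [0,1,2,3] [[0,1,2,3,5,4],[0,1,2,3,4],[0,1,2,3,4],[0,1,2,3,4]],Ref.mk 1057 2431 [0,1,2,3] [[0,1,2,3,5,4],[0,1,2,3,4],[0,1,2,3,4],[0,1,2,3,4]],Ref.mk 1138 2432 [0,1,2,3] [[0,1,2,3,5,4],[0,1,2,3,4],[0,1,2,3,4,5],[0,1,2,3,4]],Ref.mk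 1633 2416 [0,1,2,3] [[0,1,2,3,4],[0,1,2,3,4],[0,1,2,3,4],[0,1,2,3]],Ref.mk 734 2413 [1,0,2,3] [[2,1,3,0],[3,1,0,2,5],[0,1,4,3,2],[0,1,2,3]],Ref.mk 896 2429 [0,1,2,3] [[0,1,2,3,4,5],[0,1,2,3,4],[0,1,2,3,4],[0,1,2,3,4]],Ref.mk 977 2430 [0,1,2,3] [[0,1,2,3,4,5],[0,1,2,3,4],[0,1,2,3,4],[0,1,2,3,4]],Ref.mk 1058 2431 [0,1,2,3] [[0,1,2,3,4,5],[0,1,2,3,4],[0,1,2,3,4],[0,1,2,3,4]],Ref.mk 1139 2432 [0,1,2,3] [[0,1,2,3,4,5],[0,1,2,3,4],[0,1,2,3,4,5],[0,1,2,3,4]],Ref.mk 1634 2416 [0,1,2,3] [[0,1,2,3,5],[0,1,2,3,4],[0,1,2,3,4],[0,1,2,3]],Ref.mk 735 2413 [1,0,2,3] [[2,1,3,0],[3,1,0,2,6],[0,1,4,3,2],[0,1,2,3]],Ref.mk 897 2429 [0,1,2,3] [[0,1,2,3,5,6],[0,1,2,3,4],[0,1,2,3,4],[0,1,2,3,4]],Ref.mk 978 2430 [0,1,2,3] [[0,1,2,3,5,6],[0,1,2,3,4],[0,1,2,3,4],[0,1,2,3,4]],Ref.mk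 1059 2431 [0,1,2,3] [[0,1,2,3,5,6],[0,1,2,3,4],[0,1,2,3,4],[0,1,2,3,4]],Ref.mk 1140 2432 [0,1,2,3] [[0,1,2,3,5,6],[0,1,2,3,4],[0,1,2,3,4,5],[0,1,2,3,4]],Ref.mk 1635 2416 [0,1,2,3] [[0,1,2,3,6],[0,1,2,3,4],[0,1,2,3,4],[0,1,2,3]]],
Node.mk [0,820,182,1542,2448,351,2216,21,1476,9,19,747,930,22,2934,344] [(0,0),(0,1),(0,2),(0,3),(0,4),(2,1)] [Ref.mk 734 2413 [1,0,2,3] [[2,1,3,0],[3,1,0,2,5],[0,1,4,3,2],[0,1,2,3]],Ref.mk 896 2429 [0,1,2,3] [[0,1,2,3,4,5],[0,1,2,3,4],[0,1,2,3,4],[0,1,2,3,4]],Ref.mk 977 2430 [0,1,2,3] [[0,1,2,3,4,5],[0,1,2,3,4],[0,1,2,3,4],[0,1,2,3,4]],Ref.mk 1058 2431 [0,1,2,3] [[0,1,2,3,4,5],[0,1,2,3,4],[0,1,2,3,4],[0,1,2,3,4]],Ref.mk 1139 2432 [0,1,2,3] [[0,1,2,3,4,5],[0,1,2,3,4],[0,1,2,3,4,5],[0,1,2,3,4]],Ref.mk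 1634 2416 [0,1,2,3] [[0,1,2,3,5],[0,1,2,3,4],[0,1,2,3,4],[0,1,2,3]],Ref.mk 23 2433 [0,1,2,3] [[0,1,2,3,4,5],[0,1,2,3,4],[0,1,2,3,4],[0,1,2,3,4]]],
Node.mk [0,820,182,1542,2448,351,2216,21,1476,9,19,747,930,22,2934,425,896] [(0,0),(0,2),(1,2),(2,1),(2,2),(3,1)] [],
Node.mk [0,820,182,1542,2448,351,2216,21,1476,9,19,747,930,22,2934,425,977] [(1,0),(1,1),(1,2),(1,3),(1,4),(3,1)] [Ref.mk 45 2306 [0,1,2,3] [[0,1,2,3],[0,1,2,5],[0,1,2,3],[0,1,2,3]]],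
Node.mk [0,820,182,1542,2448,351,2216,21,1476,9,19,747,930,22,2934,425,1058] [(1,0),(1,1),(1,2),(1,3),(1,4),(3,1)] [Ref.mk 45 2306 [0,1,2,3] [[0,1,2,3],[0,1,2,5],[0,1,2,3],[0,1,2,3]]],
Node.mk [0,820,182,1542,2448,351,2216,21,1476,9,19,747,930,22,2934,425,1139] [(1,0),(1,1),(1,2),(1,3),(1,4),(3,1)] [Ref.mk 45 2306 [0,1,2,3] [[0,1,2,3],[0,1,2,5],[0,1,2,3],[0,1,2,3]]],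
Node.mk [0,820,182,1542,2448,351,2216,21,1476,9,19,747,930,22,2934,425,1220] [(1,0),(1,1),(1,2),(1,3),(1,4),(3,1)] [Ref.mk 45 2306 [0,1,2,3] [[0,1,2,3],[0,1,2,5],[0,1,2,3],[0,1,2,3]]],
Node.mk [0,820,182,1542,2448,351,2216,21,1476,9,19,747,930,22,2934,425,23] [(0,0),(0,1),(0,2),(0,3),(1,2),(2,1)] [Ref.mk 733 2413 [1,0,2,3] [[2,1,3,0],[3,1,0,2,4],[0,1,4,3,2],[0,1,2,3]],Ref.mk 895 2435 [0,1,2,3] [[0,1,2,3,5,4],[0,1,2,3,4],[0,1,2,3,4,5],[0,1,2,3,4]],Ref.mk 976 2436 [0,1,2,3] [[0,1,2,3,5,4],[0,1,2,3,4],[0,1,2,3,4,5],[0,1,2,3,4]],Ref.mk 1057 2437 [0,1,2,3] [[0,1,2,3,5,4],[0,1,2,3,4],[0,1,2,3,4,5],[0,1,2,3,4]],Ref.mk 1138 2438 [0,1,2,3] [[0,1,2,3,5,4],[0,1,2,3,4],[0,1,2,3,4,5],[0,1,2,3,4]],Ref.mk 1219 2439 [0,1,2,3] [[0,1,2,3,5,4],[0,1,2,3,4],[0,1,2,3,4,5,6],[0,1,2,3,4]],Ref.mk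 1633 2416 [0,1,2,3] [[0,1,2,3,4],[0,1,2,3,4],[0,1,2,3,4],[0,1,2,3]],Ref.mk 734 2413 [1,0,2,3] [[2,1,3,0],[3,1,0,2,5],[0,1,4,3,2],[0,1,2,3]],Ref.mk 896 2435 [0,1,2,3] [[0,1,2,3,4,5],[0,1,2,3,4],[0,1,2,3,4,5],[0,1,2,3,4]],Ref.mk 977 2436 [0,1,2,3] [[0,1,2,3,4,5],[0,1,2,3,4],[0,1,2,3,4,5],[0,1,2,3,4]],Ref.mk 1058 2437 [0,1,2,3] [[0,1,2,3,4,5],[0,1,2,3,4],[0,1,2,3,4,5],[0,1,2,3,4]],Ref.mk 1139 2438 [0,1,2,3] [[0,1,2,3,4,5],[0,1,2,3,4],[0,1,2,3,4,5],[0,1,2,3,4]],Ref.mk 1220 2439 [0,1,2,3] [[0,1,2,3,4,5],[0,1,2,3,4],[0,1,2,3,4,5,6],[0,1,2,3,4]],Ref.mk 1634 2416 [0,1,2,3] [[0,1,2,3,5],[0,1,2,3,4],[0,1,2,3,4],[0,1,2,3]],Ref.mk 735 2413 [1,0,2,3] [[2,1,3,0],[3,1,0,2,6],[0,1,4,3,2],[0,1,2,3]],Ref.mk 897 2435 [0,1,2,3] [[0,1,2,3,5,6],[0,1,2,3,4],[0,1,2,3,4,5],[0,1,2,3,4]],Ref.mk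 978 2436 [0,1,2,3] [[0,1,2,3,5,6],[0,1,2,3,4],[0,1,2,3,4,5],[0,1,2,3,4]],Ref.mk 1059 2437 [0,1,2,3] [[0,1,2,3,5,6],[0,1,2,3,4],[0,1,2,3,4,5],[0,1,2,3,4]],Ref.mk 1140 2438 [0,1,2,3] [[0,1,2,3,5,6],[0,1,2,3,4],[0,1,2,3,4,5],[0,1,2,3,4]],Ref.mk 1221 2439 [0,1,2,3] [[0,1,2,3,5,6],[0,1,2,3,4],[0,1,2,3,4,5,6],[0,1,2,3,4]],Ref.mk 1635 2416 [0,1,2,3] [[0,1,2,3,6],[0,1,2,3,4],[0,1,2,3,4],[0,1,2,3]]],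
Node.mk [0,820,182,1542,2448,351,2216,21,1476,9,19,747,930,22,2934,425] [(0,0),(0,1),(0,2),(0,3),(0,4),(2,1)] [Ref.mk 734 2413 [1,0,2,3] [[2,1,3,0],[3,1,0,2,5],[0,1,4,3,2],[0,1,2,3]],Ref.mk 896 2435 [0,1,2,3] [[0,1,2,3,4,5],[0,1,2,3,4],[0,1,2,3,4,5],[0,1,2,3,4]],Ref.mk 977 2436 [0,1,2,3] [[0,1,2,3,4,5],[0,1,2,3,4],[0,1,2,3,4,5],[0,1,2,3,4]],Ref.mk 1058 2437 [0,1,2,3] [[0,1,2,3,4,5],[0,1,2,3,4],[0,1,2,3,4,5],[0,1,2,3,4]],Ref.mk 1139 2438 [0,1,2,3] [[0,1,2,3,4,5],[0,1,2,3,4],[0,1,2,3,4,5],[0,1,2,3,4]],Ref.mk 1220 2439 [0,1,2,3] [[0,1,2,3,4,5],[0,1,2,3,4],[0,1,2,3,4,5,6],[0,1,2,3,4]],Ref.mk 1634 2416 [0,1,2,3] [[0,1,2,3,5],[0,1,2,3,4],[0,1,2,3,4],[0,1,2,3]],Ref.mk 23 2440 [0,1,2,3] [[0,1,2,3,4,5],[0,1,2,3,4],[0,1,2,3,4,5],[0,1,2,3,4]]],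
Node.mk [0,820,182,1542,2448,351,2216,21,1476,9,19,747,930,22,2934] [(0,0),(0,3),(1,4),(2,0),(2,2),(3,1)] [Ref.mk 101 2422 [0,1,2,3] [[0,1,2,3,4],[0,1,2,3,4],[0,1,2,3,4],[0,1,2,3,4]],Ref.mk 263 2428 [0,1,2,3] [[0,1,2,3,4],[0,1,2,3,4],[0,1,2,3,4],[0,1,2,3,4]],Ref.mk 344 2434 [0,1,2,3] [[0,1,2,3,4],[0,1,2,3,4],[0,1,2,3,4],[0,1,2,3,4]],Ref.mk 425 2441 [0,1,2,3] [[0,1,2,3,4],[0,1,2,3,4],[0,1,2,3,4,5],[0,1,2,3,4]]],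
Node.mk [0,820,182,1542,2448,351,2216,21,1476,9,19,747,930,22,3079,23,3045] [(0,0),(0,1),(0,2),(0,3),(1,2),(2,1)] [],
Node.mk [0,820,182,1542,2448,351,2216,21,1476,9,19,747,930,22,3079,23,939] [(0,0),(0,1),(0,2),(0,3),(1,0),(1,2)] [Ref.mk 1633 2416 [0,1,2,3] [[0,1,2,3,4],[0,1,2,3,4],[0,1,2,3,4],[0,1,2,3]],Ref.mk 1634 2416 [0,1,2,3] [[0,1,2,3,5],[0,1,2,3,4],[0,1,2,3,4],[0,1,2,3]],Ref.mk 1635 2416 [0,1,2,3] [[0,1,2,3,6],[0,1,2,3,4],[0,1,2,3,4],[0,1,2,3]]],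
Node.mk [0,820,182,1542,2448,351,2216,21,1476,9,19,747,930,22,3079,23] [(0,1),(1,0),(1,1),(1,2),(1,3),(1,4)] [Ref.mk 45 2442 [0,3,2,1] [[0,3,2,1,5],[1,2,0,3,4],[0,1,2,4,3],[2,0,1,3,5]],Ref.mk 3045 2443 [0,1,2,3] [[0,1,2,3,4,5],[0,1,2,3,4,5],[0,1,2,3,4],[0,1,2,3,4]],Ref.mk 939 2444 [0,1,2,3] [[0,1,2,3,4,5],[0,1,2,3,4,5],[0,1,2,3,4],[0,1,2,3,4]]],
Node.mk [0,820,182,1542,2448,351,2216,21,1476,9,19,747,930,22,3079,3038] [(1,0),(1,1),(1,2),(1,3),(1,4),(2,1)] [Ref.mk 45 2442 [0,3,2,1] [[0,3,2,1,4],[1,2,0,3,4],[0,1,2,4,3],[2,0,1,3,5]]],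
Node.mk [0,820,182,1542,2448,351,2216,21,1476,9,19,747,930,22,3079] [(0,0),(0,1),(0,2),(0,3),(0,4),(1,0)] [Ref.mk 1634 2414 [0,1,2,3] [[0,1,2,3,5],[0,1,2,3,4],[0,1,2,3,4],[0,1,2,3,4]],Ref.mk 23 2445 [0,1,2,3] [[0,1,2,3,4,5],[0,1,2,3,4],[0,1,2,3,4],[0,1,2,3,4]],Ref.mk 3038 2446 [0,1,2,3] [[0,1,2,3,4,5],[0,1,2,3,4],[0,1,2,3,4],[0,1,2,3,4]]],
Node.mk [0,820,182,1542,2448,351,2216,21,1476,9,19,747,930,22] [(0,3),(1,4),(3,0),(3,1),(3,2),(3,3)] [Ref.mk 2934 2442 [0,1,2,3] [[0,1,2,3,4],[0,1,2,3,4],[0,1,2,3,4],[0,1,2,3,4]],Ref.mk 3079 2447 [0,1,2,3] [[0,1,2,3,4],[0,1,2,3,4],[0,1,2,3,4],[0,1,2,3,4]]],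
Node.mk [0,820,182,1542,2448,351,2216,21,1476,9,19,747,930] [(0,0),(0,1),(0,2),(0,3),(1,0),(2,1)] [Ref.mk 1633 2416 [0,1,2,3] [[0,1,2,3,4],[0,1,2,3,4],[0,1,2,3,4],[0,1,2,3]],Ref.mk 22 2448 [0,1,2,3] [[0,1,2,3,4],[0,1,2,3,4],[0,1,2,3,4],[0,1,2,3]]],
Node.mk [0,820,182,1542,2448,351,2216,21,1476,9,19,747,1092,22,2934,896] [(0,0),(0,2),(0,3),(1,0),(1,2),(2,1)] [Ref.mk 1657 2442 [0,1,2,3] [[0,3,2,1,4],[1,0,2,3,4],[0,1,2,3,4],[0,2,1,3,4]],Ref.mk 1796 2416 [1,0,2,3] [[2,0,3,1,4],[1,3,0,2,5],[0,1,4,3,2],[0,2,1,3]]],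
Node.mk [0,820,182,1542,2448,351,2216,21,1476,9,19,747,1092,22,2934,1139] [(1,0),(1,1),(1,2),(1,3),(1,4),(3,1)] [Ref.mk 45 2306 [0,1,2,3] [[0,1,2,3],[0,1,2,5],[0,1,2,3],[0,1,2,3]]],
Node.mk [0,820,182,1542,2448,351,2216,21,1476,9,19,747,1092,22,2934,23] [(0,0),(0,1),(0,2),(0,3),(1,2),(2,1)] [Ref.mk 733 2413 [1,0,2,3] [[2,1,3,0],[3,1,0,2,4],[0,1,4,3,2],[0,1,2,3]],Ref.mk 895 2450 [0,1,2,3] [[0,1,2,3,5,4],[0,1,2,3,4],[0,1,2,3,4],[0,1,2,3,4]],Ref.mk 976 2449 [3,0,2,1] [[0,2,3,1],[1,3,0,2,4],[0,1,3,4,2],[2,0,1,3]],Ref.mk 1057 2449 [1,0,2,3] [[2,1,3,0],[3,1,0,2,4],[0,1,4,3,2],[0,1,2,3]],Ref.mk 1138 2451 [0,1,2,3] [[0,1,2,3,5,4],[0,1,2,3,4],[0,1,2,3,4,5],[0,1,2,3,4]],Ref.mk 1795 2416 [1,0,2,3] [[2,0,3,1,4],[1,3,0,2,4],[0,1,4,3,2],[0,2,1,3]],Ref.mk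 734 2413 [1,0,2,3] [[2,1,3,0],[3,1,0,2,5],[0,1,4,3,2],[0,1,2,3]],Ref.mk 896 2450 [0,1,2,3] [[0,1,2,3,4,5],[0,1,2,3,4],[0,1,2,3,4],[0,1,2,3,4]],Ref.mk 977 2449 [3,0,2,1] [[0,2,3,1],[1,3,0,2,5],[0,1,3,4,2],[2,0,1,3]],Ref.mk 1058 2449 [1,0,2,3] [[2,1,3,0],[3,1,0,2,5],[0,1,4,3,2],[0,1,2,3]],Ref.mk 1139 2451 [0,1,2,3] [[0,1,2,3,4,5],[0,1,2,3,4],[0,1,2,3,4,5],[0,1,2,3,4]],Ref.mk 1796 2416 [1,0,2,3] [[2,0,3,1,4],[1,3,0,2,5],[0,1,4,3,2],[0,2,1,3]],Ref.mk 735 2413 [1,0,2,3] [[2,1,3,0],[3,1,0,2,6],[0,1,4,3,2],[0,1,2,3]],Ref.mk 897 2450 [0,1,2,3] [[0,1,2,3,5,6],[0,1,2,3,4],[0,1,2,3,4],[0,1,2,3,4]],Ref.mk 978 2449 [3,0,2,1] [[0,2,3,1],[1,3,0,2,6],[0,1,3,4,2],[2,0,1,3]],Ref.mk 1059 2449 [1,0,2,3] [[2,1,3,0],[3,1,0,2,6],[0,1,4,3,2],[0,1,2,3]],Ref.mk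 1140 2451 [0,1,2,3] [[0,1,2,3,5,6],[0,1,2,3,4],[0,1,2,3,4,5],[0,1,2,3,4]],Ref.mk 1797 2416 [1,0,2,3] [[2,0,3,1,4],[1,3,0,2,6],[0,1,4,3,2],[0,2,1,3]]],
Node.mk [0,820,182,1542,2448,351,2216,21,1476,9,19,747,1092,22,2934] [(0,0),(0,1),(0,2),(0,3),(0,4),(2,1)] [Ref.mk 734 2412 [3,0,2,1] [[0,2,3,1,4],[1,3,0,2,5],[0,1,3,4,2],[2,0,1,3]],Ref.mk 896 2450 [0,1,2,3] [[0,1,2,3,4,5],[0,1,2,3,4],[0,1,2,3,4],[0,1,2,3,4]],Ref.mk 977 2448 [3,0,2,1] [[0,2,3,1,4],[1,3,0,2,5],[0,1,3,4,2],[2,0,1,3]],Ref.mk 1058 2449 [1,0,2,3] [[2,1,3,0],[3,1,0,2,5],[0,1,4,3,2],[0,1,2,3]],Ref.mk 1139 2451 [0,1,2,3] [[0,1,2,3,4,5],[0,1,2,3,4],[0,1,2,3,4,5],[0,1,2,3,4]],Ref.mk 1796 2416 [1,0,2,3] [[2,0,3,1,4],[1,3,0,2,5],[0,1,4,3,2],[0,2,1,3]],Ref.mk 23 2452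 [0,1,2,3] [[0,1,2,3,4,5],[0,1,2,3,4],[0,1,2,3,4],[0,1,2,3,4]]],
Node.mk [0,820,182,1542,2448,351,2216,21,1476,9,19,747,1092,22] [(0,3),(1,4),(3,0),(3,1),(3,2),(3,3)] [Ref.mk 2934 2453 [0,1,2,3] [[0,1,2,3,4],[0,1,2,3,4],[0,1,2,3,4],[0,1,2,3,4]],Ref.mk 3241 2416 [1,3,2,0] [[2,1,3,0,4],[2,1,0,3,4],[0,1,4,2,3],[0,1,3,2]]],
Node.mk [0,820,182,1542,2448,351,2216,21,1476,9,19,747,1092] [(0,0),(0,1),(0,2),(0,3),(1,0),(2,1)] [Ref.mk 1795 2416 [1,0,2,3] [[2,0,3,1,4],[1,3,0,2,4],[0,1,4,3,2],[0,2,1,3]],Ref.mk 22 2454 [0,1,2,3] [[0,1,2,3,4],[0,1,2,3,4],[0,1,2,3,4],[0,1,2,3]]],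
Node.mk [0,820,182,1542,2448,351,2216,21,1476,9,19,747,1173,1876,3322] [(1,0),(1,1),(1,2),(1,3),(1,4),(2,5)] [Ref.mk 45 2306 [0,1,2,3] [[0,1,2,3],[0,1,2,5],[0,1,2,3],[0,1,2,3]]],
Node.mk [0,820,182,1542,2448,351,2216,21,1476,9,19,747,1173,1876,3037] [(1,0),(1,1),(1,2),(1,3),(1,4),(2,1)] [Ref.mk 45 2306 [0,1,2,3] [[0,1,2,3],[0,1,2,5],[0,1,2,3],[0,1,2,3]]],
Node.mk [0,820,182,1542,2448,351,2216,21,1476,9,19,747,1173,1876] [(0,0),(0,3),(3,0),(3,1),(3,2),(3,3)] [Ref.mk 3322 2456 [0,1,2,3] [[0,1,2,3,4],[0,1,2,3,4],[0,1,2,3,4,5],[0,1,2,3,4]],Ref.mk 3037 2457 [0,1,2,3] [[0,1,2,3,4],[0,1,2,3,4],[0,1,2,3,4,5],[0,1,2,3,4]]],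
Node.mk [0,820,182,1542,2448,351,2216,21,1476,9,19,747,1173,22,2934,1900,1139] [(0,0),(0,2),(1,2),(2,1),(2,5),(3,1)] [],
Node.mk [0,820,182,1542,2448,351,2216,21,1476,9,19,747,1173,22,2934,1900,23] [(0,0),(0,1),(0,2),(0,3),(1,2),(1,4)] [Ref.mk 1138 2459 [0,1,2,3] [[0,1,2,3,5,4],[0,1,2,3,4],[0,1,2,3,4,5],[0,1,2,3,4]],Ref.mk 1876 2459 [0,1,2,3] [[0,3,2,1,5,4],[1,0,2,3,4],[0,1,2,3,4,5],[0,2,1,3,4]],Ref.mk 1139 2459 [0,1,2,3] [[0,1,2,3,4,5],[0,1,2,3,4],[0,1,2,3,4,5],[0,1,2,3,4]],Ref.mk 1877 2459 [0,1,2,3] [[0,3,2,1,4,5],[1,0,2,3,4],[0,1,2,3,4,5],[0,2,1,3,4]],Ref.mk 1140 2459 [0,1,2,3] [[0,1,2,3,5,6],[0,1,2,3,4],[0,1,2,3,4,5],[0,1,2,3,4]],Ref.mk 1878 2459 [0,1,2,3] [[0,3,2,1,5,6],[1,0,2,3,4],[0,1,2,3,4,5],[0,2,1,3,4]]],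
Node.mk [0,820,182,1542,2448,351,2216,21,1476,9,19,747,1173,22,2934,1900] [(0,0),(0,1),(0,2),(0,3),(0,4),(1,4)] [Ref.mk 1139 2459 [0,1,2,3] [[0,1,2,3,4,5],[0,1,2,3,4],[0,1,2,3,4,5],[0,1,2,3,4]],Ref.mk 1877 2459 [0,1,2,3] [[0,3,2,1,4,5],[1,0,2,3,4],[0,1,2,3,4,5],[0,2,1,3,4]],Ref.mk 23 2460 [0,1,2,3] [[0,1,2,3,4,5],[0,1,2,3,4],[0,1,2,3,4,5],[0,1,2,3,4]]],
Node.mk [0,820,182,1542,2448,351,2216,21,1476,9,19,747,1173,22,2934,1981,1220] [(1,0),(1,1),(1,2),(1,3),(1,4),(3,1)] [Ref.mk 45 2306 [0,1,2,3] [[0,1,2,3],[0,1,2,5],[0,1,2,3],[0,1,2,3]]],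
Node.mk [0,820,182,1542,2448,351,2216,21,1476,9,19,747,1173,22,2934,1981,23] [(0,0),(0,1),(0,2),(0,3),(1,2),(1,4)] [Ref.mk 1219 2462 [0,1,2,3] [[0,1,2,3,5,4],[0,1,2,3,4],[0,1,2,3,4,5,6],[0,1,2,3,4]],Ref.mk 1876 2462 [0,1,2,3] [[0,3,2,1,5,4],[1,0,2,3,4],[0,1,2,3,4,6,5],[0,2,1,3,4]],Ref.mk 1220 2462 [0,1,2,3] [[0,1,2,3,4,5],[0,1,2,3,4],[0,1,2,3,4,5,6],[0,1,2,3,4]],Ref.mk 1877 2462 [0,1,2,3] [[0,3,2,1,4,5],[1,0,2,3,4],[0,1,2,3,4,6,5],[0,2,1,3,4]],Ref.mk 1221 2462 [0,1,2,3] [[0,1,2,3,5,6],[0,1,2,3,4],[0,1,2,3,4,5,6],[0,1,2,3,4]],Ref.mk 1878 2462 [0,1,2,3] [[0,3,2,1,5,6],[1,0,2,3,4],[0,1,2,3,4,6,5],[0,2,1,3,4]]],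
Node.mk [0,820,182,1542,2448,351,2216,21,1476,9,19,747,1173,22,2934,1981] [(0,0),(0,1),(0,2),(0,3),(0,4),(1,4)] [Ref.mk 1220 2462 [0,1,2,3] [[0,1,2,3,4,5],[0,1,2,3,4],[0,1,2,3,4,5,6],[0,1,2,3,4]],Ref.mk 1877 2462 [0,1,2,3] [[0,3,2,1,4,5],[1,0,2,3,4],[0,1,2,3,4,6,5],[0,2,1,3,4]],Ref.mk 23 2463 [0,1,2,3] [[0,1,2,3,4,5],[0,1,2,3,4],[0,1,2,3,4,5,6],[0,1,2,3,4]]],
Node.mk [0,820,182,1542,2448,351,2216,21,1476,9,19,747,1173,22,2934,1909] [(1,0),(1,1),(1,2),(1,3),(2,1),(2,5)] [Ref.mk 36 2306 [0,1,2,3] [[0,1,2,3],[0,1,2,4],[0,1,2,3],[0,1,2,3]],Ref.mk 45 2306 [0,1,2,3] [[0,1,2,3],[0,1,2,5],[0,1,2,3],[0,1,2,3]],Ref.mk 54 2306 [0,1,2,3] [[0,1,2,3],[0,1,2,6],[0,1,2,3],[0,1,2,3]],Ref.mk 1495 2411 [0,1,2,3] [[0,3,2,1,4],[1,0,2,3,4],[0,1,2,3,4],[0,2,1,3,4]],Ref.mk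 1657 2442 [0,1,2,3] [[0,3,2,1,4],[1,0,2,3,4],[0,1,2,3,4],[0,2,1,3,4]],Ref.mk 1738 2442 [3,1,2,0] [[0,1,3,2,4],[0,1,2,3,4],[0,1,3,2,4],[0,1,3,2,4]],Ref.mk 1819 2453 [0,1,2,3] [[0,3,2,1,4],[1,0,2,3,4],[0,1,2,3,4],[0,2,1,3,4]],Ref.mk 1981 2464 [0,1,2,3] [[0,1,2,3,4],[0,1,2,3,4],[0,1,2,3,4,5,6],[0,1,2,3,4]],Ref.mk 777 2411 [0,1,2,3] [[0,1,2,3,4],[0,1,2,3,5],[0,1,2,3,4],[0,1,2,3,4]],Ref.mk 939 2442 [0,1,2,3] [[0,1,2,3,4],[0,1,2,3,5],[0,1,2,3,4],[0,1,2,3,4]],Ref.mk 1020 2442 [3,1,2,0] [[0,2,3,1,4],[1,0,2,3,5],[0,1,3,2,4],[0,3,1,2,4]],Ref.mk 1101 2453 [0,1,2,3] [[0,1,2,3,4],[0,1,2,3,5],[0,1,2,3,4],[0,1,2,3,4]],Ref.mk 1263 2464 [0,1,2,3] [[0,3,2,1,4],[1,0,2,3,5],[0,1,2,3,4,5,6],[0,2,1,3,4]]],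
Node.mk [0,820,182,1542,2448,351,2216,21,1476,9,19,747,1173,22,2934] [(0,3),(1,0),(1,1),(1,2),(1,3),(2,1)] [Ref.mk 36 2306 [0,1,2,3] [[0,1,2,3],[0,1,2,4],[0,1,2,3],[0,1,2,3]],Ref.mk 45 2306 [0,1,2,3] [[0,1,2,3],[0,1,2,5],[0,1,2,3],[0,1,2,3]],Ref.mk 1495 2411 [0,1,2,3] [[0,3,2,1,4],[1,0,2,3,4],[0,1,2,3,4],[0,2,1,3,4]],Ref.mk 1657 2442 [0,1,2,3] [[0,3,2,1,4],[1,0,2,3,4],[0,1,2,3,4],[0,2,1,3,4]],Ref.mk 1738 2442 [3,1,2,0] [[0,1,3,2,4],[0,1,2,3,4],[0,1,3,2,4],[0,1,3,2,4]],Ref.mk 1819 2453 [0,1,2,3] [[0,3,2,1,4],[1,0,2,3,4],[0,1,2,3,4],[0,2,1,3,4]],Ref.mk 1900 2461 [0,1,2,3] [[0,1,2,3,4],[0,1,2,3,4],[0,1,2,3,4,5],[0,1,2,3,4]],Ref.mk 1981 2464 [0,1,2,3] [[0,1,2,3,4],[0,1,2,3,4],[0,1,2,3,4,5,6],[0,1,2,3,4]],Ref.mk 1909 2465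 [0,1,2,3] [[0,1,2,3,4],[0,1,2,3,4,5],[0,1,2,3,4,5],[0,1,2,3,4]]],
Node.mk [0,820,182,1542,2448,351,2216,21,1476,9,19,747,1173,22] [(0,3),(1,4),(3,0),(3,1),(3,2),(3,3)] [Ref.mk 2934 2466 [0,1,2,3] [[0,1,2,3,4],[0,1,2,3,4],[0,1,2,3,4,5],[0,1,2,3,4]],Ref.mk 3322 2458 [1,3,2,0] [[2,1,3,0,4],[2,1,0,3,4],[0,1,4,2,3,5],[0,1,3,2]]],
Node.mk [0,820,182,1542,2448,351,2216,21,1476,9,19,747,1173] [(0,0),(0,1),(0,2),(0,3),(1,0),(2,1)] [Ref.mk 1876 2458 [0,1,2,3] [[0,1,2,3,4],[0,1,2,3,4],[0,1,2,3,4,5],[0,1,2,3]],Ref.mk 22 2467 [0,1,2,3] [[0,1,2,3,4],[0,1,2,3,4],[0,1,2,3,4,5],[0,1,2,3]]],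
Node.mk [0,820,182,1542,2448,351,2216,21,1476,9,19,747] [(0,1),(1,0),(1,1),(1,2),(1,3),(2,1)] [Ref.mk 36 2306 [0,1,2,3] [[0,1,2,3],[0,1,2,4],[0,1,2,3],[0,1,2,3]],Ref.mk 768 2413 [0,1,2,3] [[0,1,2,3],[0,1,2,3,4],[0,1,2,3,4],[0,1,2,3]],Ref.mk 930 2449 [0,1,2,3] [[0,1,2,3],[0,1,2,3,4],[0,1,2,3,4],[0,1,2,3]],Ref.mk 1011 2449 [3,1,2,0] [[0,2,3,1],[1,0,2,3,4],[0,1,3,2,4],[0,3,1,2]],Ref.mk 1092 2455 [0,1,2,3] [[0,1,2,3],[0,1,2,3,4],[0,1,2,3,4],[0,1,2,3]],Ref.mk 1173 2468 [0,1,2,3] [[0,1,2,3],[0,1,2,3,4],[0,1,2,3,4,5],[0,1,2,3]]],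
Node.mk [0,820,182,1542,2448,351,2216,21,1476,9,19,2934,768,1471,244] [(0,0),(0,1),(0,3),(0,4),(1,2),(2,0)] [],
Node.mk [0,820,182,1542,2448,351,2216,21,1476,9,19,2934,768,1471,2297] [(0,0),(0,1),(0,2),(0,3),(2,0),(2,1)] [],
Node.mk [0,820,182,1542,2448,351,2216,21,1476,9,19,2934,768,1471] [(0,0),(0,3),(1,2),(1,4),(2,0),(3,1)] [Ref.mk 244 2470 [0,1,2,3] [[0,1,2,3,4],[0,1,2,3,4],[0,1,2,3,4],[0,1,2,3,4]],Ref.mk 2297 2471 [0,1,2,3] [[0,1,2,3,4],[0,1,2,3,4],[0,1,2,3,4],[0,1,2,3,4]]],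
Node.mk [0,820,182,1542,2448,351,2216,21,1476,9,19,2934,768,22,244] [(0,0),(0,1),(0,2),(0,3),(1,0),(3,0)] [Ref.mk 1471 2470 [0,1,2,3] [[0,1,2,3,4],[0,1,2,3,4],[0,1,2,3,4],[0,1,2,3,4]],Ref.mk 1472 2470 [0,1,2,3] [[0,1,2,3,5],[0,1,2,3,4],[0,1,2,3,4],[0,1,2,3,4]]],
Node.mk [0,820,182,1542,2448,351,2216,21,1476,9,19,2934,768,22,2297] [(0,0),(0,1),(0,2),(0,3),(2,0),(2,1)] [],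
Node.mk [0,820,182,1542,2448,351,2216,21,1476,9,19,2934,768,22] [(0,0),(0,3),(1,2),(1,4),(2,0),(3,1)] [Ref.mk 244 2473 [0,1,2,3] [[0,1,2,3,4],[0,1,2,3,4],[0,1,2,3,4],[0,1,2,3,4]],Ref.mk 2297 2474 [0,1,2,3] [[0,1,2,3,4],[0,1,2,3,4],[0,1,2,3,4],[0,1,2,3,4]]],
Node.mk [0,820,182,1542,2448,351,2216,21,1476,9,19,2934,768] [(0,0),(0,1),(0,2),(0,3),(1,0),(2,1)] [Ref.mk 1471 2472 [0,1,2,3] [[0,1,2,3,4],[0,1,2,3,4],[0,1,2,3,4],[0,1,2,3,4]],Ref.mk 22 2475 [0,1,2,3] [[0,1,2,3,4],[0,1,2,3,4],[0,1,2,3,4],[0,1,2,3,4]]],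
Node.mk [0,820,182,1542,2448,351,2216,21,1476,9,19,2934,930,1633,1666] [(0,0),(0,2),(1,2),(2,1),(2,2),(3,2)] [],
Node.mk [0,820,182,1542,2448,351,2216,21,1476,9,19,2934,930,1633,859] [(0,0),(0,2),(0,4),(1,2),(2,1),(3,1)] [Ref.mk 1666 2477 [0,1,2,3] [[0,1,2,3,4],[0,1,2,3,4,5],[0,1,2,3,4],[0,1,2,3,4]]],
Node.mk [0,820,182,1542,2448,351,2216,21,1476,9,19,2934,930,1633] [(0,3),(1,0),(1,1),(1,2),(1,3),(1,4)] [Ref.mk 45 2306 [0,1,2,3] [[0,1,2,3],[0,1,2,5],[0,1,2,3],[0,1,2,3]],Ref.mk 1666 2477 [0,1,2,3] [[0,1,2,3,4],[0,1,2,3,4,5],[0,1,2,3,4],[0,1,2,3,4]],Ref.mk 859 2478 [0,1,2,3] [[0,1,2,3,4],[0,1,2,3,4,5],[0,1,2,3,4],[0,1,2,3,4]]],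
Node.mk [0,820,182,1542,2448,351,2216,21,1476,9,19,2934,930,22,101,1666,896] [(0,0),(0,2),(1,2),(2,1),(2,2),(3,1)] [],
Node.mk [0,820,182,1542,2448,351,2216,21,1476,9,19,2934,930,22,101,1666,23] [(0,0),(0,1),(0,2),(0,3),(1,2),(2,1)] [Ref.mk 895 2480 [0,1,2,3] [[0,1,2,3,5,4],[0,1,2,3,4,5],[0,1,2,3,4],[0,1,2,3,4]],Ref.mk 1633 2479 [0,1,2,3] [[0,1,2,3,4],[0,1,2,3,4],[0,1,2,3,4],[0,1,2,3,4]],Ref.mk 896 2480 [0,1,2,3] [[0,1,2,3,4,5],[0,1,2,3,4,5],[0,1,2,3,4],[0,1,2,3,4]],Ref.mk 1634 2479 [0,1,2,3] [[0,1,2,3,5],[0,1,2,3,4],[0,1,2,3,4],[0,1,2,3,4]],Ref.mk 897 2480 [0,1,2,3] [[0,1,2,3,5,6],[0,1,2,3,4,5],[0,1,2,3,4],[0,1,2,3,4]],Ref.mk 1635 2479 [0,1,2,3] [[0,1,2,3,6],[0,1,2,3,4],[0,1,2,3,4],[0,1,2,3,4]]],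
Node.mk [0,820,182,1542,2448,351,2216,21,1476,9,19,2934,930,22,101,1666] [(0,0),(0,1),(0,2),(0,3),(0,4),(2,1)] [Ref.mk 896 2480 [0,1,2,3] [[0,1,2,3,4,5],[0,1,2,3,4,5],[0,1,2,3,4],[0,1,2,3,4]],Ref.mk 1634 2477 [0,1,2,3] [[0,1,2,3,5],[0,1,2,3,4,5],[0,1,2,3,4],[0,1,2,3,4]],Ref.mk 23 2481 [0,1,2,3] [[0,1,2,3,4,5],[0,1,2,3,4,5],[0,1,2,3,4],[0,1,2,3,4]]],
Node.mk [0,820,182,1542,2448,351,2216,21,1476,9,19,2934,930,22,101,939] [(0,0),(0,1),(0,2),(0,3),(1,2),(3,1)] [Ref.mk 1633 2479 [0,1,2,3] [[0,1,2,3,4],[0,1,2,3,4],[0,1,2,3,4],[0,1,2,3,4]],Ref.mk 1634 2479 [0,1,2,3] [[0,1,2,3,5],[0,1,2,3,4],[0,1,2,3,4],[0,1,2,3,4]]],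
Node.mk [0,820,182,1542,2448,351,2216,21,1476,9,19,2934,930,22,101,1020] [(0,0),(0,1),(0,2),(0,3),(1,2),(3,1)] [],
Node.mk [0,820,182,1542,2448,351,2216,21,1476,9,19,2934,930,22,101,1101] [(0,0),(0,1),(0,2),(0,3),(1,2),(3,1)] [],
Node.mk [0,820,182,1542,2448,351,2216,21,1476,9,19,2934,930,22,101,1182] [(0,0),(0,1),(0,2),(0,3),(1,2),(3,1)] [],
Node.mk [0,820,182,1542,2448,351,2216,21,1476,9,19,2934,930,22,101] [(1,0),(1,1),(1,2),(1,3),(1,4),(2,1)] [Ref.mk 45 2306 [0,1,2,3] [[0,1,2,3],[0,1,2,5],[0,1,2,3],[0,1,2,3]],Ref.mk 1666 2482 [0,1,2,3] [[0,1,2,3,4],[0,1,2,3,4,5],[0,1,2,3,4],[0,1,2,3,4]],Ref.mk 777 2475 [0,1,2,3] [[0,1,2,3,4],[0,1,2,3,5],[0,1,2,3,4],[0,1,2,3,4]],Ref.mk 939 2483 [0,1,2,3] [[0,1,2,3,4],[0,1,2,3,4,5],[0,1,2,3,4],[0,1,2,3,4]],Ref.mk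 1020 2484 [0,1,2,3] [[0,1,2,3,4],[0,1,2,3,4,5],[0,1,2,3,4],[0,1,2,3,4]],Ref.mk 1101 2485 [0,1,2,3] [[0,1,2,3,4],[0,1,2,3,4,5],[0,1,2,3,4],[0,1,2,3,4]],Ref.mk 1182 2486 [0,1,2,3] [[0,1,2,3,4],[0,1,2,3,4,5],[0,1,2,3,4,5],[0,1,2,3,4]]],
Node.mk [0,820,182,1542,2448,351,2216,21,1476,9,19,2934,930,22,263,1666,896] [(0,0),(0,2),(1,2),(2,1),(2,2),(3,1)] [],
Node.mk [0,820,182,1542,2448,351,2216,21,1476,9,19,2934,930,22,263,1666,23] [(0,0),(0,1),(0,2),(0,3),(1,2),(2,1)] [Ref.mk 895 2488 [0,1,2,3] [[0,1,2,3,5,4],[0,1,2,3,4,5],[0,1,2,3,4],[0,1,2,3,4]],Ref.mk 1633 2479 [0,1,2,3] [[0,1,2,3,4],[0,1,2,3,4],[0,1,2,3,4],[0,1,2,3,4]],Ref.mk 896 2488 [0,1,2,3] [[0,1,2,3,4,5],[0,1,2,3,4,5],[0,1,2,3,4],[0,1,2,3,4]],Ref.mk 1634 2479 [0,1,2,3]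 [[0,1,2,3,5],[0,1,2,3,4],[0,1,2,3,4],[0,1,2,3,4]],Ref.mk 897 2488 [0,1,2,3] [[0,1,2,3,5,6],[0,1,2,3,4,5],[0,1,2,3,4],[0,1,2,3,4]],Ref.mk 1635 2479 [0,1,2,3] [[0,1,2,3,6],[0,1,2,3,4],[0,1,2,3,4],[0,1,2,3,4]]],
Node.mk [0,820,182,1542,2448,351,2216,21,1476,9,19,2934,930,22,263,1666] [(0,0),(0,1),(0,2),(0,3),(0,4),(2,1)] [Ref.mk 896 2488 [0,1,2,3] [[0,1,2,3,4,5],[0,1,2,3,4,5],[0,1,2,3,4],[0,1,2,3,4]],Ref.mk 1634 2477 [0,1,2,3] [[0,1,2,3,5],[0,1,2,3,4,5],[0,1,2,3,4],[0,1,2,3,4]],Ref.mk 23 2489 [0,1,2,3] [[0,1,2,3,4,5],[0,1,2,3,4,5],[0,1,2,3,4],[0,1,2,3,4]]],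
Node.mk [0,820,182,1542,2448,351,2216,21,1476,9,19,2934,930,22,263,939] [(0,0),(0,1),(0,2),(0,3),(1,2),(3,1)] [Ref.mk 1633 2479 [0,1,2,3] [[0,1,2,3,4],[0,1,2,3,4],[0,1,2,3,4],[0,1,2,3,4]],Ref.mk 1634 2479 [0,1,2,3] [[0,1,2,3,5],[0,1,2,3,4],[0,1,2,3,4],[0,1,2,3,4]]],
Node.mk [0,820,182,1542,2448,351,2216,21,1476,9,19,2934,930,22,263,1020] [(0,0),(0,1),(0,2),(0,3),(1,2),(3,1)] [],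
Node.mk [0,820,182,1542,2448,351,2216,21,1476,9,19,2934,930,22,263,1101] [(0,0),(0,1),(0,2),(0,3),(1,2),(3,1)] [],
Node.mk [0,820,182,1542,2448,351,2216,21,1476,9,19,2934,930,22,263,1182] [(0,0),(0,1),(0,2),(0,3),(1,2),(3,1)] [],
Node.mk [0,820,182,1542,2448,351,2216,21,1476,9,19,2934,930,22,263] [(1,0),(1,1),(1,2),(1,3),(1,4),(2,1)] [Ref.mk 45 2306 [0,1,2,3] [[0,1,2,3],[0,1,2,5],[0,1,2,3],[0,1,2,3]],Ref.mk 1666 2490 [0,1,2,3] [[0,1,2,3,4],[0,1,2,3,4,5],[0,1,2,3,4],[0,1,2,3,4]],Ref.mk 777 2475 [0,1,2,3] [[0,1,2,3,4],[0,1,2,3,5],[0,1,2,3,4],[0,1,2,3,4]],Ref.mk 939 2491 [0,1,2,3] [[0,1,2,3,4],[0,1,2,3,4,5],[0,1,2,3,4],[0,1,2,3,4]],Ref.mk 1020 2492 [0,1,2,3] [[0,1,2,3,4],[0,1,2,3,4,5],[0,1,2,3,4],[0,1,2,3,4]],Ref.mk 1101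 2493 [0,1,2,3] [[0,1,2,3,4],[0,1,2,3,4,5],[0,1,2,3,4],[0,1,2,3,4]],Ref.mk 1182 2494 [0,1,2,3] [[0,1,2,3,4],[0,1,2,3,4,5],[0,1,2,3,4,5],[0,1,2,3,4]]]]

/-- nodes -/
noncomputable def c39 : List Node := [
Node.mk [0,820,182,1542,2448,351,2216,21,1476,9,19,2934,930,22,344,1666,896] [(0,0),(0,2),(1,2),(2,1),(2,2),(3,1)] [],
Node.mk [0,820,182,1542,2448,351,2216,21,1476,9,19,2934,930,22,344,1666,23] [(0,0),(0,1),(0,2),(0,3),(1,2),(2,1)] [Ref.mk 895 2496 [0,1,2,3] [[0,1,2,3,5,4],[0,1,2,3,4,5],[0,1,2,3,4],[0,1,2,3,4]],Ref.mk 1633 2479 [0,1,2,3] [[0,1,2,3,4],[0,1,2,3,4],[0,1,2,3,4],[0,1,2,3,4]],Ref.mk 896 2496 [0,1,2,3] [[0,1,2,3,4,5],[0,1,2,3,4,5],[0,1,2,3,4],[0,1,2,3,4]],Ref.mk 1634 2479 [0,1,2,3] [[0,1,2,3,5],[0,1,2,3,4],[0,1,2,3,4],[0,1,2,3,4]],Ref.mk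 897 2496 [0,1,2,3] [[0,1,2,3,5,6],[0,1,2,3,4,5],[0,1,2,3,4],[0,1,2,3,4]],Ref.mk 1635 2479 [0,1,2,3] [[0,1,2,3,6],[0,1,2,3,4],[0,1,2,3,4],[0,1,2,3,4]]],
Node.mk [0,820,182,1542,2448,351,2216,21,1476,9,19,2934,930,22,344,1666] [(0,0),(0,1),(0,2),(0,3),(0,4),(2,1)] [Ref.mk 896 2496 [0,1,2,3] [[0,1,2,3,4,5],[0,1,2,3,4,5],[0,1,2,3,4],[0,1,2,3,4]],Ref.mk 1634 2477 [0,1,2,3] [[0,1,2,3,5],[0,1,2,3,4,5],[0,1,2,3,4],[0,1,2,3,4]],Ref.mk 23 2497 [0,1,2,3] [[0,1,2,3,4,5],[0,1,2,3,4,5],[0,1,2,3,4],[0,1,2,3,4]]],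
Node.mk [0,820,182,1542,2448,351,2216,21,1476,9,19,2934,930,22,344,939] [(0,0),(0,1),(0,2),(0,3),(1,2),(3,1)] [Ref.mk 1633 2479 [0,1,2,3] [[0,1,2,3,4],[0,1,2,3,4],[0,1,2,3,4],[0,1,2,3,4]],Ref.mk 1634 2479 [0,1,2,3] [[0,1,2,3,5],[0,1,2,3,4],[0,1,2,3,4],[0,1,2,3,4]]],
Node.mk [0,820,182,1542,2448,351,2216,21,1476,9,19,2934,930,22,344,1020] [(0,0),(0,1),(0,2),(0,3),(1,2),(3,1)] [],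
Node.mk [0,820,182,1542,2448,351,2216,21,1476,9,19,2934,930,22,344,1101] [(0,0),(0,1),(0,2),(0,3),(1,2),(3,1)] [],
Node.mk [0,820,182,1542,2448,351,2216,21,1476,9,19,2934,930,22,344,1182] [(0,0),(0,1),(0,2),(0,3),(1,2),(3,1)] [],
Node.mk [0,820,182,1542,2448,351,2216,21,1476,9,19,2934,930,22,344] [(1,0),(1,1),(1,2),(1,3),(1,4),(2,1)] [Ref.mk 45 2306 [0,1,2,3] [[0,1,2,3],[0,1,2,5],[0,1,2,3],[0,1,2,3]],Ref.mk 1666 2498 [0,1,2,3] [[0,1,2,3,4],[0,1,2,3,4,5],[0,1,2,3,4],[0,1,2,3,4]],Ref.mk 777 2475 [0,1,2,3] [[0,1,2,3,4],[0,1,2,3,5],[0,1,2,3,4],[0,1,2,3,4]],Ref.mk 939 2499 [0,1,2,3] [[0,1,2,3,4],[0,1,2,3,4,5],[0,1,2,3,4],[0,1,2,3,4]],Ref.mk 1020 2500 [0,1,2,3] [[0,1,2,3,4],[0,1,2,3,4,5],[0,1,2,3,4],[0,1,2,3,4]],Ref.mk 1101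 2501 [0,1,2,3] [[0,1,2,3,4],[0,1,2,3,4,5],[0,1,2,3,4],[0,1,2,3,4]],Ref.mk 1182 2502 [0,1,2,3] [[0,1,2,3,4],[0,1,2,3,4,5],[0,1,2,3,4,5],[0,1,2,3,4]]],
Node.mk [0,820,182,1542,2448,351,2216,21,1476,9,19,2934,930,22,425,855] [(0,0),(0,1),(0,2),(2,0),(2,1),(3,1)] [],
Node.mk [0,820,182,1542,2448,351,2216,21,1476,9,19,2934,930,22,425,856] [(0,0),(0,1),(0,2),(1,2),(2,1),(3,1)] [],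
Node.mk [0,820,182,1542,2448,351,2216,21,1476,9,19,2934,930,22,425,1666,896] [(0,0),(0,2),(1,2),(2,1),(2,2),(3,1)] [],
Node.mk [0,820,182,1542,2448,351,2216,21,1476,9,19,2934,930,22,425,1666,23] [(0,0),(0,1),(0,2),(0,3),(1,2),(2,1)] [Ref.mk 895 2506 [0,1,2,3] [[0,1,2,3,5,4],[0,1,2,3,4,5],[0,1,2,3,4,5],[0,1,2,3,4]],Ref.mk 1633 2479 [0,1,2,3] [[0,1,2,3,4],[0,1,2,3,4],[0,1,2,3,4],[0,1,2,3,4]],Ref.mk 896 2506 [0,1,2,3] [[0,1,2,3,4,5],[0,1,2,3,4,5],[0,1,2,3,4,5],[0,1,2,3,4]],Ref.mk 1634 2479 [0,1,2,3] [[0,1,2,3,5],[0,1,2,3,4],[0,1,2,3,4],[0,1,2,3,4]],Ref.mk 897 2506 [0,1,2,3] [[0,1,2,3,5,6],[0,1,2,3,4,5],[0,1,2,3,4,5],[0,1,2,3,4]],Ref.mk 1635 2479 [0,1,2,3] [[0,1,2,3,6],[0,1,2,3,4],[0,1,2,3,4],[0,1,2,3,4]]],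
Node.mk [0,820,182,1542,2448,351,2216,21,1476,9,19,2934,930,22,425,1666] [(0,0),(0,1),(0,2),(0,3),(0,4),(2,1)] [Ref.mk 896 2506 [0,1,2,3] [[0,1,2,3,4,5],[0,1,2,3,4,5],[0,1,2,3,4,5],[0,1,2,3,4]],Ref.mk 1634 2477 [0,1,2,3] [[0,1,2,3,5],[0,1,2,3,4,5],[0,1,2,3,4],[0,1,2,3,4]],Ref.mk 23 2507 [0,1,2,3] [[0,1,2,3,4,5],[0,1,2,3,4,5],[0,1,2,3,4,5],[0,1,2,3,4]]],
Node.mk [0,820,182,1542,2448,351,2216,21,1476,9,19,2934,930,22,425,857] [(0,0),(0,1),(0,2),(1,2),(2,1),(3,1)] [],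
Node.mk [0,820,182,1542,2448,351,2216,21,1476,9,19,2934,930,22,425,859] [(0,0),(0,1),(0,2),(1,2),(2,1),(3,1)] [Ref.mk 1633 2478 [0,1,2,3] [[0,1,2,3,4],[0,1,2,3,4,5],[0,1,2,3,4],[0,1,2,3,4]]],
Node.mk [0,820,182,1542,2448,351,2216,21,1476,9,19,2934,930,22,425,860] [(0,0),(0,1),(0,2),(1,2),(2,1),(3,1)] [Ref.mk 1634 2478 [0,1,2,3] [[0,1,2,3,5],[0,1,2,3,4,5],[0,1,2,3,4],[0,1,2,3,4]]],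
Node.mk [0,820,182,1542,2448,351,2216,21,1476,9,19,2934,930,22,425] [(0,3),(1,0),(1,1),(1,2),(1,3),(1,4)] [Ref.mk 45 2306 [0,1,2,3] [[0,1,2,3],[0,1,2,5],[0,1,2,3],[0,1,2,3]],Ref.mk 855 2504 [0,1,2,3] [[0,1,2,3,4],[0,1,2,3,4,5],[0,1,2,3,4,5],[0,1,2,3,4]],Ref.mk 856 2505 [0,1,2,3] [[0,1,2,3,4],[0,1,2,3,4,5],[0,1,2,3,4,5],[0,1,2,3,4]],Ref.mk 1666 2508 [0,1,2,3] [[0,1,2,3,4],[0,1,2,3,4,5],[0,1,2,3,4,5],[0,1,2,3,4]],Ref.mk 857 2509 [0,1,2,3] [[0,1,2,3,4],[0,1,2,3,4,5],[0,1,2,3,4,5],[0,1,2,3,4]],Ref.mk 859 2510 [0,1,2,3] [[0,1,2,3,4],[0,1,2,3,4,5],[0,1,2,3,4,5],[0,1,2,3,4]],Ref.mk 860 2511 [0,1,2,3] [[0,1,2,3,4,5],[0,1,2,3,4,5],[0,1,2,3,4,5],[0,1,2,3,4]]],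
Node.mk [0,820,182,1542,2448,351,2216,21,1476,9,19,2934,930,22] [(0,0),(0,3),(1,4),(2,0),(2,2),(3,1)] [Ref.mk 101 2487 [0,1,2,3] [[0,1,2,3,4],[0,1,2,3,4],[0,1,2,3,4],[0,1,2,3,4]],Ref.mk 263 2495 [0,1,2,3] [[0,1,2,3,4],[0,1,2,3,4],[0,1,2,3,4],[0,1,2,3,4]],Ref.mk 344 2503 [0,1,2,3] [[0,1,2,3,4],[0,1,2,3,4],[0,1,2,3,4],[0,1,2,3,4]],Ref.mk 425 2512 [0,1,2,3] [[0,1,2,3,4],[0,1,2,3,4],[0,1,2,3,4,5],[0,1,2,3,4]]],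
Node.mk [0,820,182,1542,2448,351,2216,21,1476,9,19,2934,930] [(0,0),(0,1),(0,2),(0,3),(1,0),(2,1)] [Ref.mk 1633 2479 [0,1,2,3] [[0,1,2,3,4],[0,1,2,3,4],[0,1,2,3,4],[0,1,2,3,4]],Ref.mk 22 2513 [0,1,2,3] [[0,1,2,3,4],[0,1,2,3,4],[0,1,2,3,4],[0,1,2,3,4]]],
Node.mk [0,820,182,1542,2448,351,2216,21,1476,9,19,2934,1011,1714,1747] [(0,0),(0,2),(2,0),(2,1),(2,3),(3,2)] [],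
Node.mk [0,820,182,1542,2448,351,2216,21,1476,9,19,2934,1011,1714,859] [(0,0),(0,2),(0,4),(1,2),(2,1),(3,1)] [Ref.mk 1747 2515 [0,1,2,3] [[0,1,2,3,4],[0,1,2,3,4,5],[0,1,2,3,4],[0,1,2,3,4]]],
Node.mk [0,820,182,1542,2448,351,2216,21,1476,9,19,2934,1011,1714] [(0,3),(1,0),(1,1),(1,2),(1,3),(1,4)] [Ref.mk 45 2306 [0,1,2,3] [[0,1,2,3],[0,1,2,5],[0,1,2,3],[0,1,2,3]],Ref.mk 1747 2515 [0,1,2,3] [[0,1,2,3,4],[0,1,2,3,4,5],[0,1,2,3,4],[0,1,2,3,4]],Ref.mk 859 2516 [0,1,2,3] [[0,1,2,3,4],[0,1,2,3,4,5],[0,1,2,3,4],[0,1,2,3,4]]],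
Node.mk [0,820,182,1542,2448,351,2216,21,1476,9,19,2934,1011,22,2286,1747,977] [(0,0),(0,2),(1,2),(2,1),(2,3),(3,1)] [],
Node.mk [0,820,182,1542,2448,351,2216,21,1476,9,19,2934,1011,22,2286,1747,23] [(0,0),(0,1),(0,2),(0,3),(1,2),(2,1)] [Ref.mk 976 2518 [0,1,2,3] [[0,1,2,3,5,4],[0,1,2,3,4,5],[0,1,2,3,4],[0,1,2,3,4]],Ref.mk 1714 2517 [0,1,2,3] [[0,1,2,3,4],[0,1,2,3,4],[0,1,2,3,4],[0,1,2,3,4]],Ref.mk 977 2518 [0,1,2,3] [[0,1,2,3,4,5],[0,1,2,3,4,5],[0,1,2,3,4],[0,1,2,3,4]],Ref.mk 1715 2517 [0,1,2,3] [[0,1,2,3,5],[0,1,2,3,4],[0,1,2,3,4],[0,1,2,3,4]],Ref.mk 978 2518 [0,1,2,3] [[0,1,2,3,5,6],[0,1,2,3,4,5],[0,1,2,3,4],[0,1,2,3,4]],Ref.mk 1716 2517 [0,1,2,3] [[0,1,2,3,6],[0,1,2,3,4],[0,1,2,3,4],[0,1,2,3,4]]],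
Node.mk [0,820,182,1542,2448,351,2216,21,1476,9,19,2934,1011,22,2286,1747] [(0,0),(0,1),(0,2),(0,3),(0,4),(2,1)] [Ref.mk 977 2518 [0,1,2,3] [[0,1,2,3,4,5],[0,1,2,3,4,5],[0,1,2,3,4],[0,1,2,3,4]],Ref.mk 1715 2515 [0,1,2,3] [[0,1,2,3,5],[0,1,2,3,4,5],[0,1,2,3,4],[0,1,2,3,4]],Ref.mk 23 2519 [0,1,2,3] [[0,1,2,3,4,5],[0,1,2,3,4,5],[0,1,2,3,4],[0,1,2,3,4]]],
Node.mk [0,820,182,1542,2448,351,2216,21,1476,9,19,2934,1011,22,2286,1020] [(0,0),(0,1),(0,2),(0,3),(1,2),(3,1)] [Ref.mk 1714 2517 [0,1,2,3] [[0,1,2,3,4],[0,1,2,3,4],[0,1,2,3,4],[0,1,2,3,4]],Ref.mk 1715 2517 [0,1,2,3] [[0,1,2,3,5],[0,1,2,3,4],[0,1,2,3,4],[0,1,2,3,4]]],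
Node.mk [0,820,182,1542,2448,351,2216,21,1476,9,19,2934,1011,22,2286,1101] [(0,0),(0,1),(0,2),(0,3),(1,2),(3,1)] [],
Node.mk [0,820,182,1542,2448,351,2216,21,1476,9,19,2934,1011,22,2286,1182] [(0,0),(0,1),(0,2),(0,3),(1,2),(3,1)] [],
Node.mk [0,820,182,1542,2448,351,2216,21,1476,9,19,2934,1011,22,2286] [(1,0),(1,1),(1,2),(1,3),(1,4),(2,1)] [Ref.mk 45 2306 [0,1,2,3] [[0,1,2,3],[0,1,2,5],[0,1,2,3],[0,1,2,3]],Ref.mk 1747 2520 [0,1,2,3] [[0,1,2,3,4],[0,1,2,3,4,5],[0,1,2,3,4],[0,1,2,3,4]],Ref.mk 777 2475 [0,1,2,3] [[0,1,2,3,4],[0,1,2,3,5],[0,1,2,3,4],[0,1,2,3,4]],Ref.mk 939 2513 [0,1,2,3] [[0,1,2,3,4],[0,1,2,3,5],[0,1,2,3,4],[0,1,2,3,4]],Ref.mk 1020 2521 [0,1,2,3] [[0,1,2,3,4],[0,1,2,3,4,5],[0,1,2,3,4],[0,1,2,3,4]],Ref.mk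 1101 2522 [0,1,2,3] [[0,1,2,3,4],[0,1,2,3,4,5],[0,1,2,3,4],[0,1,2,3,4]],Ref.mk 1182 2523 [0,1,2,3] [[0,1,2,3,4],[0,1,2,3,4,5],[0,1,2,3,4,5],[0,1,2,3,4]]],
Node.mk [0,820,182,1542,2448,351,2216,21,1476,9,19,2934,1011,22,2367,1747,977] [(0,0),(0,2),(1,2),(2,1),(2,3),(3,1)] [],
Node.mk [0,820,182,1542,2448,351,2216,21,1476,9,19,2934,1011,22,2367,1747,23] [(0,0),(0,1),(0,2),(0,3),(1,2),(2,1)] [Ref.mk 976 2525 [0,1,2,3] [[0,1,2,3,5,4],[0,1,2,3,4,5],[0,1,2,3,4],[0,1,2,3,4]],Ref.mk 1714 2517 [0,1,2,3] [[0,1,2,3,4],[0,1,2,3,4],[0,1,2,3,4],[0,1,2,3,4]],Ref.mk 977 2525 [0,1,2,3] [[0,1,2,3,4,5],[0,1,2,3,4,5],[0,1,2,3,4],[0,1,2,3,4]],Ref.mk 1715 2517 [0,1,2,3] [[0,1,2,3,5],[0,1,2,3,4],[0,1,2,3,4],[0,1,2,3,4]],Ref.mk 978 2525 [0,1,2,3]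 [[0,1,2,3,5,6],[0,1,2,3,4,5],[0,1,2,3,4],[0,1,2,3,4]],Ref.mk 1716 2517 [0,1,2,3] [[0,1,2,3,6],[0,1,2,3,4],[0,1,2,3,4],[0,1,2,3,4]]],
Node.mk [0,820,182,1542,2448,351,2216,21,1476,9,19,2934,1011,22,2367,1747] [(0,0),(0,1),(0,2),(0,3),(0,4),(2,1)] [Ref.mk 977 2525 [0,1,2,3] [[0,1,2,3,4,5],[0,1,2,3,4,5],[0,1,2,3,4],[0,1,2,3,4]],Ref.mk 1715 2515 [0,1,2,3] [[0,1,2,3,5],[0,1,2,3,4,5],[0,1,2,3,4],[0,1,2,3,4]],Ref.mk 23 2526 [0,1,2,3] [[0,1,2,3,4,5],[0,1,2,3,4,5],[0,1,2,3,4],[0,1,2,3,4]]],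
Node.mk [0,820,182,1542,2448,351,2216,21,1476,9,19,2934,1011,22,2367,1020] [(0,0),(0,1),(0,2),(0,3),(1,2),(3,1)] [Ref.mk 1714 2517 [0,1,2,3] [[0,1,2,3,4],[0,1,2,3,4],[0,1,2,3,4],[0,1,2,3,4]],Ref.mk 1715 2517 [0,1,2,3] [[0,1,2,3,5],[0,1,2,3,4],[0,1,2,3,4],[0,1,2,3,4]]],
Node.mk [0,820,182,1542,2448,351,2216,21,1476,9,19,2934,1011,22,2367,1101] [(0,0),(0,1),(0,2),(0,3),(1,2),(3,1)] [],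
Node.mk [0,820,182,1542,2448,351,2216,21,1476,9,19,2934,1011,22,2367,1182] [(0,0),(0,1),(0,2),(0,3),(1,2),(3,1)] [],
Node.mk [0,820,182,1542,2448,351,2216,21,1476,9,19,2934,1011,22,2367] [(1,0),(1,1),(1,2),(1,3),(1,4),(2,1)] [Ref.mk 45 2306 [0,1,2,3] [[0,1,2,3],[0,1,2,5],[0,1,2,3],[0,1,2,3]],Ref.mk 1747 2527 [0,1,2,3] [[0,1,2,3,4],[0,1,2,3,4,5],[0,1,2,3,4],[0,1,2,3,4]],Ref.mk 777 2475 [0,1,2,3] [[0,1,2,3,4],[0,1,2,3,5],[0,1,2,3,4],[0,1,2,3,4]],Ref.mk 939 2513 [0,1,2,3] [[0,1,2,3,4],[0,1,2,3,5],[0,1,2,3,4],[0,1,2,3,4]],Ref.mk 1020 2528 [0,1,2,3] [[0,1,2,3,4],[0,1,2,3,4,5],[0,1,2,3,4],[0,1,2,3,4]],Ref.mk 1101 2529 [0,1,2,3] [[0,1,2,3,4],[0,1,2,3,4,5],[0,1,2,3,4],[0,1,2,3,4]],Ref.mk 1182 2530 [0,1,2,3] [[0,1,2,3,4],[0,1,2,3,4,5],[0,1,2,3,4,5],[0,1,2,3,4]]],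
Node.mk [0,820,182,1542,2448,351,2216,21,1476,9,19,2934,1011,22,2529,1747,977] [(0,0),(0,2),(1,2),(2,1),(2,3),(3,1)] [],
Node.mk [0,820,182,1542,2448,351,2216,21,1476,9,19,2934,1011,22,2529,1747,23] [(0,0),(0,1),(0,2),(0,3),(1,2),(2,1)] [Ref.mk 976 2532 [0,1,2,3] [[0,1,2,3,5,4],[0,1,2,3,4,5],[0,1,2,3,4],[0,1,2,3,4]],Ref.mk 1714 2517 [0,1,2,3] [[0,1,2,3,4],[0,1,2,3,4],[0,1,2,3,4],[0,1,2,3,4]],Ref.mk 977 2532 [0,1,2,3] [[0,1,2,3,4,5],[0,1,2,3,4,5],[0,1,2,3,4],[0,1,2,3,4]],Ref.mk 1715 2517 [0,1,2,3] [[0,1,2,3,5],[0,1,2,3,4],[0,1,2,3,4],[0,1,2,3,4]],Ref.mk 978 2532 [0,1,2,3] [[0,1,2,3,5,6],[0,1,2,3,4,5],[0,1,2,3,4],[0,1,2,3,4]],Ref.mk 1716 2517 [0,1,2,3] [[0,1,2,3,6],[0,1,2,3,4],[0,1,2,3,4],[0,1,2,3,4]]],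
Node.mk [0,820,182,1542,2448,351,2216,21,1476,9,19,2934,1011,22,2529,1747] [(0,0),(0,1),(0,2),(0,3),(0,4),(2,1)] [Ref.mk 977 2532 [0,1,2,3] [[0,1,2,3,4,5],[0,1,2,3,4,5],[0,1,2,3,4],[0,1,2,3,4]],Ref.mk 1715 2515 [0,1,2,3] [[0,1,2,3,5],[0,1,2,3,4,5],[0,1,2,3,4],[0,1,2,3,4]],Ref.mk 23 2533 [0,1,2,3] [[0,1,2,3,4,5],[0,1,2,3,4,5],[0,1,2,3,4],[0,1,2,3,4]]],
Node.mk [0,820,182,1542,2448,351,2216,21,1476,9,19,2934,1011,22,2529,1020] [(0,0),(0,1),(0,2),(0,3),(1,2),(3,1)] [Ref.mk 1714 2517 [0,1,2,3] [[0,1,2,3,4],[0,1,2,3,4],[0,1,2,3,4],[0,1,2,3,4]],Ref.mk 1715 2517 [0,1,2,3] [[0,1,2,3,5],[0,1,2,3,4],[0,1,2,3,4],[0,1,2,3,4]]],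
Node.mk [0,820,182,1542,2448,351,2216,21,1476,9,19,2934,1011,22,2529,1101] [(0,0),(0,1),(0,2),(0,3),(1,2),(3,1)] [],
Node.mk [0,820,182,1542,2448,351,2216,21,1476,9,19,2934,1011,22,2529,1182] [(0,0),(0,1),(0,2),(0,3),(1,2),(3,1)] [],
Node.mk [0,820,182,1542,2448,351,2216,21,1476,9,19,2934,1011,22,2529] [(1,0),(1,1),(1,2),(1,3),(1,4),(2,1)] [Ref.mk 45 2306 [0,1,2,3] [[0,1,2,3],[0,1,2,5],[0,1,2,3],[0,1,2,3]],Ref.mk 1747 2534 [0,1,2,3] [[0,1,2,3,4],[0,1,2,3,4,5],[0,1,2,3,4],[0,1,2,3,4]],Ref.mk 777 2475 [0,1,2,3] [[0,1,2,3,4],[0,1,2,3,5],[0,1,2,3,4],[0,1,2,3,4]],Ref.mk 939 2513 [0,1,2,3] [[0,1,2,3,4],[0,1,2,3,5],[0,1,2,3,4],[0,1,2,3,4]],Ref.mk 1020 2535 [0,1,2,3] [[0,1,2,3,4],[0,1,2,3,4,5],[0,1,2,3,4],[0,1,2,3,4]],Ref.mk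 1101 2536 [0,1,2,3] [[0,1,2,3,4],[0,1,2,3,4,5],[0,1,2,3,4],[0,1,2,3,4]],Ref.mk 1182 2537 [0,1,2,3] [[0,1,2,3,4],[0,1,2,3,4,5],[0,1,2,3,4,5],[0,1,2,3,4]]],
Node.mk [0,820,182,1542,2448,351,2216,21,1476,9,19,2934,1011,22,2610,1747,977] [(0,0),(0,2),(1,2),(2,1),(2,3),(3,1)] [],
Node.mk [0,820,182,1542,2448,351,2216,21,1476,9,19,2934,1011,22,2610,1747,23] [(0,0),(0,1),(0,2),(0,3),(1,2),(2,1)] [Ref.mk 976 2539 [0,1,2,3] [[0,1,2,3,5,4],[0,1,2,3,4,5],[0,1,2,3,4,5],[0,1,2,3,4]],Ref.mk 1714 2517 [0,1,2,3] [[0,1,2,3,4],[0,1,2,3,4],[0,1,2,3,4],[0,1,2,3,4]],Ref.mk 977 2539 [0,1,2,3] [[0,1,2,3,4,5],[0,1,2,3,4,5],[0,1,2,3,4,5],[0,1,2,3,4]],Ref.mk 1715 2517 [0,1,2,3] [[0,1,2,3,5],[0,1,2,3,4],[0,1,2,3,4],[0,1,2,3,4]],Ref.mk 978 2539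 [0,1,2,3] [[0,1,2,3,5,6],[0,1,2,3,4,5],[0,1,2,3,4,5],[0,1,2,3,4]],Ref.mk 1716 2517 [0,1,2,3] [[0,1,2,3,6],[0,1,2,3,4],[0,1,2,3,4],[0,1,2,3,4]]],
Node.mk [0,820,182,1542,2448,351,2216,21,1476,9,19,2934,1011,22,2610,1747] [(0,0),(0,1),(0,2),(0,3),(0,4),(2,1)] [Ref.mk 977 2539 [0,1,2,3] [[0,1,2,3,4,5],[0,1,2,3,4,5],[0,1,2,3,4,5],[0,1,2,3,4]],Ref.mk 1715 2515 [0,1,2,3] [[0,1,2,3,5],[0,1,2,3,4,5],[0,1,2,3,4],[0,1,2,3,4]],Ref.mk 23 2540 [0,1,2,3] [[0,1,2,3,4,5],[0,1,2,3,4,5],[0,1,2,3,4,5],[0,1,2,3,4]]],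
Node.mk [0,820,182,1542,2448,351,2216,21,1476,9,19,2934,1011,22,2610,1020] [(0,0),(0,1),(0,2),(0,3),(1,2),(3,1)] [Ref.mk 1714 2517 [0,1,2,3] [[0,1,2,3,4],[0,1,2,3,4],[0,1,2,3,4],[0,1,2,3,4]],Ref.mk 1715 2517 [0,1,2,3] [[0,1,2,3,5],[0,1,2,3,4],[0,1,2,3,4],[0,1,2,3,4]]],
Node.mk [0,820,182,1542,2448,351,2216,21,1476,9,19,2934,1011,22,2610,1101] [(0,0),(0,1),(0,2),(0,3),(1,2),(3,1)] [],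
Node.mk [0,820,182,1542,2448,351,2216,21,1476,9,19,2934,1011,22,2610,1182] [(0,0),(0,1),(0,2),(0,3),(1,2),(3,1)] [],
Node.mk [0,820,182,1542,2448,351,2216,21,1476,9,19,2934,1011,22,2610,1263] [(0,0),(0,1),(0,2),(0,3),(1,2),(3,1)] [],
Node.mk [0,820,182,1542,2448,351,2216,21,1476,9,19,2934,1011,22,2610] [(1,0),(1,1),(1,2),(1,3),(1,4),(2,1)] [Ref.mk 45 2306 [0,1,2,3] [[0,1,2,3],[0,1,2,5],[0,1,2,3],[0,1,2,3]],Ref.mk 1747 2541 [0,1,2,3] [[0,1,2,3,4],[0,1,2,3,4,5],[0,1,2,3,4,5],[0,1,2,3,4]],Ref.mk 777 2475 [0,1,2,3] [[0,1,2,3,4],[0,1,2,3,5],[0,1,2,5,4],[0,1,2,3,4]],Ref.mk 939 2513 [0,1,2,3] [[0,1,2,3,4],[0,1,2,3,5],[0,1,2,5,4],[0,1,2,3,4]],Ref.mk 1020 2542 [0,1,2,3] [[0,1,2,3,4],[0,1,2,3,4,5],[0,1,2,3,4,5],[0,1,2,3,4]],Ref.mk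 1101 2543 [0,1,2,3] [[0,1,2,3,4],[0,1,2,3,4,5],[0,1,2,3,4,5],[0,1,2,3,4]],Ref.mk 1182 2544 [0,1,2,3] [[0,1,2,3,4],[0,1,2,3,4,5],[0,1,2,3,4,5],[0,1,2,3,4]],Ref.mk 1263 2545 [0,1,2,3] [[0,1,2,3,4],[0,1,2,3,4,5],[0,1,2,3,4,5,6],[0,1,2,3,4]]],
Node.mk [0,820,182,1542,2448,351,2216,21,1476,9,19,2934,1011,22] [(0,3),(1,4),(2,0),(2,3),(3,0),(3,1)] [Ref.mk 2286 2524 [0,1,2,3] [[0,1,2,3,4],[0,1,2,3,4],[0,1,2,3,4],[0,1,2,3,4]],Ref.mk 2367 2531 [0,1,2,3] [[0,1,2,3,4],[0,1,2,3,4],[0,1,2,3,4],[0,1,2,3,4]],Ref.mk 2529 2538 [0,1,2,3] [[0,1,2,3,4],[0,1,2,3,4],[0,1,2,3,4],[0,1,2,3,4]],Ref.mk 2610 2546 [0,1,2,3] [[0,1,2,3,4],[0,1,2,3,4],[0,1,2,3,4,5],[0,1,2,3,4]]],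
Node.mk [0,820,182,1542,2448,351,2216,21,1476,9,19,2934,1011] [(0,0),(0,1),(0,2),(0,3),(1,0),(2,1)] [Ref.mk 1714 2517 [0,1,2,3] [[0,1,2,3,4],[0,1,2,3,4],[0,1,2,3,4],[0,1,2,3,4]],Ref.mk 22 2547 [0,1,2,3] [[0,1,2,3,4],[0,1,2,3,4],[0,1,2,3,4],[0,1,2,3,4]]],
Node.mk [0,820,182,1542,2448,351,2216,21,1476,9,19,2934,1092,1795,1828] [(0,0),(0,2),(1,2),(2,1),(2,4),(3,2)] [],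
Node.mk [0,820,182,1542,2448,351,2216,21,1476,9,19,2934,1092,1795,859] [(0,0),(0,2),(0,4),(1,2),(2,1),(3,1)] [Ref.mk 1828 2549 [0,1,2,3] [[0,1,2,3,4],[0,1,2,3,4,5],[0,1,2,3,4],[0,1,2,3,4]]],
Node.mk [0,820,182,1542,2448,351,2216,21,1476,9,19,2934,1092,1795] [(0,3),(1,0),(1,1),(1,2),(1,3),(1,4)] [Ref.mk 45 2306 [0,1,2,3] [[0,1,2,3],[0,1,2,5],[0,1,2,3],[0,1,2,3]],Ref.mk 1828 2549 [0,1,2,3] [[0,1,2,3,4],[0,1,2,3,4,5],[0,1,2,3,4],[0,1,2,3,4]],Ref.mk 859 2550 [0,1,2,3] [[0,1,2,3,4],[0,1,2,3,4,5],[0,1,2,3,4],[0,1,2,3,4]]],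
Node.mk [0,820,182,1542,2448,351,2216,21,1476,9,19,2934,1092,22,1828] [(0,0),(0,1),(0,2),(0,3),(1,2),(2,1)] [Ref.mk 1057 2479 [1,0,2,3] [[2,1,3,0,5],[3,1,0,2,4],[0,1,4,3,2],[0,1,2,3,4]],Ref.mk 1795 2549 [0,1,2,3] [[0,1,2,3,4],[0,1,2,3,4,5],[0,1,2,3,4],[0,1,2,3,4]],Ref.mk 1058 2479 [1,0,2,3] [[2,1,3,0,5],[3,1,0,2,5],[0,1,4,3,2],[0,1,2,3,4]],Ref.mk 1796 2549 [0,1,2,3] [[0,1,2,3,5],[0,1,2,3,4,5],[0,1,2,3,4],[0,1,2,3,4]]],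
Node.mk [0,820,182,1542,2448,351,2216,21,1476,9,19,2934,1092,22,1101] [(0,0),(0,2),(0,3),(1,2),(2,4),(3,1)] [],
Node.mk [0,820,182,1542,2448,351,2216,21,1476,9,19,2934,1092,22,1182] [(0,0),(0,1),(0,2),(0,3),(1,2),(3,1)] [],
Node.mk [0,820,182,1542,2448,351,2216,21,1476,9,19,2934,1092,22] [(1,0),(1,1),(1,2),(1,3),(1,4),(2,1)] [Ref.mk 45 2306 [0,1,2,3] [[0,1,2,3],[0,1,2,5],[0,1,2,3],[0,1,2,3]],Ref.mk 1828 2552 [0,1,2,3] [[0,1,2,3,4],[0,1,2,3,4,5],[0,1,2,3,4],[0,1,2,3,4]],Ref.mk 777 2475 [0,1,2,3] [[0,1,2,3,4],[0,1,2,3,5],[0,1,2,3,4],[0,1,2,3,4]],Ref.mk 939 2513 [0,1,2,3] [[0,1,2,3,4],[0,1,2,3,5],[0,1,2,3,4],[0,1,2,3,4]],Ref.mk 1020 2547 [0,1,2,3] [[0,1,2,3,4],[0,1,2,3,5],[0,1,2,3,4],[0,1,2,3,4]],Ref.mk 1101 2553 [0,1,2,3]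 [[0,1,2,3,4],[0,1,2,3,4,5],[0,1,2,3,4],[0,1,2,3,4]],Ref.mk 1182 2554 [0,1,2,3] [[0,1,2,3,4],[0,1,2,3,4,5],[0,1,2,3,4,5],[0,1,2,3,4]]],
Node.mk [0,820,182,1542,2448,351,2216,21,1476,9,19,2934,1092] [(0,0),(0,1),(0,2),(0,3),(1,0),(2,1)] [Ref.mk 1795 2551 [0,1,2,3] [[0,1,2,3,4],[0,1,2,3,4],[0,1,2,3,4],[0,1,2,3,4]],Ref.mk 22 2555 [0,1,2,3] [[0,1,2,3,4],[0,1,2,3,4],[0,1,2,3,4],[0,1,2,3,4]]],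
Node.mk [0,820,182,1542,2448,351,2216,21,1476,9,19,2934,1173,1876,1909] [(0,0),(0,2),(1,2),(2,1),(2,5),(3,2)] [],
Node.mk [0,820,182,1542,2448,351,2216,21,1476,9,19,2934,1173,1876,859] [(0,0),(0,2),(0,4),(1,2),(2,1),(3,1)] [Ref.mk 1909 2557 [0,1,2,3] [[0,1,2,3,4],[0,1,2,3,4,5],[0,1,2,3,4,5],[0,1,2,3,4]]],
Node.mk [0,820,182,1542,2448,351,2216,21,1476,9,19,2934,1173,1876] [(0,3),(1,0),(1,1),(1,2),(1,3),(1,4)] [Ref.mk 45 2306 [0,1,2,3] [[0,1,2,3],[0,1,2,5],[0,1,2,3],[0,1,2,3]],Ref.mk 1909 2557 [0,1,2,3] [[0,1,2,3,4],[0,1,2,3,4,5],[0,1,2,3,4,5],[0,1,2,3,4]],Ref.mk 859 2558 [0,1,2,3] [[0,1,2,3,4],[0,1,2,3,4,5],[0,1,2,3,4,5],[0,1,2,3,4]]]]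

end Vale.Agent.P045.R4N2
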