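import Vale.Agent.P045.Check

/-! Certificate data. -/

namespace Vale.Agent.P045.R4N2

open Vale.Agent.P045

/-- nodes -/
noncomputable def c40 : List Node := [
Node.mk [0,820,182,1542,2448,351,2216,21,1476,9,19,2934,1173,22,1909,1139] [(0,0),(0,2),(1,2),(2,1),(2,5),(3,1)] [],
Node.mk [0,820,182,1542,2448,351,2216,21,1476,9,19,2934,1173,22,1909,23] [(0,0),(0,1),(0,2),(0,3),(1,2),(2,1)] [Ref.mk 1138 2560 [0,1,2,3] [[0,1,2,3,5,4],[0,1,2,3,4,5],[0,1,2,3,4,5],[0,1,2,3,4]],Ref.mk 1876 2557 [0,1,2,3] [[0,1,2,3,4],[0,1,2,3,4,5],[0,1,2,3,4,5],[0,1,2,3,4]],Ref.mk 1139 2560 [0,1,2,3] [[0,1,2,3,4,5],[0,1,2,3,4,5],[0,1,2,3,4,5],[0,1,2,3,4]],Ref.mk 1877 2557 [0,1,2,3] [[0,1,2,3,5],[0,1,2,3,4,5],[0,1,2,3,4,5],[0,1,2,3,4]],Ref.mk 1140 2560 [0,1,2,3]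 [[0,1,2,3,5,6],[0,1,2,3,4,5],[0,1,2,3,4,5],[0,1,2,3,4]],Ref.mk 1878 2557 [0,1,2,3] [[0,1,2,3,6],[0,1,2,3,4,5],[0,1,2,3,4,5],[0,1,2,3,4]]],
Node.mk [0,820,182,1542,2448,351,2216,21,1476,9,19,2934,1173,22,1909] [(0,0),(0,1),(0,2),(0,3),(0,4),(2,1)] [Ref.mk 1139 2560 [0,1,2,3] [[0,1,2,3,4,5],[0,1,2,3,4,5],[0,1,2,3,4,5],[0,1,2,3,4]],Ref.mk 1877 2557 [0,1,2,3] [[0,1,2,3,5],[0,1,2,3,4,5],[0,1,2,3,4,5],[0,1,2,3,4]],Ref.mk 23 2561 [0,1,2,3] [[0,1,2,3,4,5],[0,1,2,3,4,5],[0,1,2,3,4,5],[0,1,2,3,4]]],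
Node.mk [0,820,182,1542,2448,351,2216,21,1476,9,19,2934,1173,22,1182] [(0,0),(0,2),(0,3),(1,2),(2,5),(3,1)] [],
Node.mk [0,820,182,1542,2448,351,2216,21,1476,9,19,2934,1173,22,1263] [(0,0),(0,1),(0,2),(0,3),(1,2),(3,1)] [],
Node.mk [0,820,182,1542,2448,351,2216,21,1476,9,19,2934,1173,22] [(1,0),(1,1),(1,2),(1,3),(1,4),(2,1)] [Ref.mk 45 2306 [0,1,2,3] [[0,1,2,3],[0,1,2,5],[0,1,2,3],[0,1,2,3]],Ref.mk 1909 2562 [0,1,2,3] [[0,1,2,3,4],[0,1,2,3,4,5],[0,1,2,3,4,5],[0,1,2,3,4]],Ref.mk 777 2475 [0,1,2,3] [[0,1,2,3,4],[0,1,2,3,5],[0,1,2,3,4],[0,1,2,3,4]],Ref.mk 939 2513 [0,1,2,3] [[0,1,2,3,4],[0,1,2,3,5],[0,1,2,3,4],[0,1,2,3,4]],Ref.mk 1020 2547 [0,1,2,3] [[0,1,2,3,4],[0,1,2,3,5],[0,1,2,3,4],[0,1,2,3,4]],Ref.mk 1101 2554 [0,1,2,3] [[0,1,2,3,4],[0,1,2,3,5,4],[0,1,2,3,4,5],[0,1,2,3,4]],Ref.mk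 1182 2563 [0,1,2,3] [[0,1,2,3,4],[0,1,2,3,4,5],[0,1,2,3,4,5],[0,1,2,3,4]],Ref.mk 1263 2564 [0,1,2,3] [[0,1,2,3,4],[0,1,2,3,4,5],[0,1,2,3,4,5,6],[0,1,2,3,4]]],
Node.mk [0,820,182,1542,2448,351,2216,21,1476,9,19,2934,1173] [(0,0),(0,1),(0,2),(0,3),(1,0),(2,1)] [Ref.mk 1876 2559 [0,1,2,3] [[0,1,2,3,4],[0,1,2,3,4],[0,1,2,3,4,5],[0,1,2,3,4]],Ref.mk 22 2565 [0,1,2,3] [[0,1,2,3,4],[0,1,2,3,4],[0,1,2,3,4,5],[0,1,2,3,4]]],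
Node.mk [0,820,182,1542,2448,351,2216,21,1476,9,19,2934] [(0,1),(1,0),(1,1),(1,2),(1,3),(2,1)] [Ref.mk 36 2306 [0,1,2,3] [[0,1,2,3],[0,1,2,4],[0,1,2,3],[0,1,2,3]],Ref.mk 768 2476 [0,1,2,3] [[0,1,2,3],[0,1,2,3,4],[0,1,2,3,4],[0,1,2,3,4]],Ref.mk 930 2514 [0,1,2,3] [[0,1,2,3],[0,1,2,3,4],[0,1,2,3,4],[0,1,2,3,4]],Ref.mk 1011 2548 [0,1,2,3] [[0,1,2,3],[0,1,2,3,4],[0,1,2,3,4],[0,1,2,3,4]],Ref.mk 1092 2556 [0,1,2,3] [[0,1,2,3],[0,1,2,3,4],[0,1,2,3,4],[0,1,2,3,4]],Ref.mk 1173 2566 [0,1,2,3] [[0,1,2,3],[0,1,2,3,4],[0,1,2,3,4,5],[0,1,2,3,4]]],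
Node.mk [0,820,182,1542,2448,351,2216,21,1476,9,19] [(0,3),(1,0),(2,1),(3,0),(3,2),(3,3)] [Ref.mk 747 2469 [0,1,2,3] [[0,1,2,3],[0,1,2,3],[0,1,2,3,4],[0,1,2,3]],Ref.mk 2934 2567 [0,1,2,3] [[0,1,2,3],[0,1,2,3],[0,1,2,3,4],[0,1,2,3,4]]],
Node.mk [0,820,182,1542,2448,351,2216,21,1476,9,271,918,1471] [(0,0),(2,0),(2,1),(2,3),(3,0),(3,2)] [],
Node.mk [0,820,182,1542,2448,351,2216,21,1476,9,271,918,1633] [(0,1),(1,0),(1,1),(1,2),(1,3),(2,1)] [Ref.mk 36 2306 [0,1,2,3] [[0,1,2,3],[0,1,2,4],[0,1,2,3],[0,1,2,3]]],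
Node.mk [0,820,182,1542,2448,351,2216,21,1476,9,271,918] [(0,0),(0,1),(0,2),(0,3),(1,0),(2,1)] [Ref.mk 1471 2569 [0,1,2,3] [[0,1,2,3,4],[0,1,2,3],[0,1,2,3,4],[0,1,2,3]],Ref.mk 1633 2570 [0,1,2,3] [[0,1,2,3,4],[0,1,2,3],[0,1,2,3,4],[0,1,2,3]]],
Node.mk [0,820,182,1542,2448,351,2216,21,1476,9,271] [(0,3),(1,0),(2,1),(3,0),(3,2),(3,3)] [Ref.mk 918 2571 [0,1,2,3] [[0,1,2,3],[0,1,2,3],[0,1,2,3,4],[0,1,2,3]]],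
Node.mk [0,820,182,1542,2448,351,2216,21,1476,9,22,2934,768,244] [(0,0),(0,1),(0,3),(2,0),(3,0),(3,1)] [],
Node.mk [0,820,182,1542,2448,351,2216,21,1476,9,22,2934,768,2297] [(0,0),(0,1),(0,2),(0,3),(2,0),(2,1)] [],
Node.mk [0,820,182,1542,2448,351,2216,21,1476,9,22,2934,768] [(0,0),(0,3),(1,2),(1,4),(2,0),(3,1)] [Ref.mk 244 2573 [0,1,2,3] [[0,1,2,3,4],[0,1,2,3,4],[0,1,2,3,4],[0,1,2,3,4]],Ref.mk 2297 2574 [0,1,2,3] [[0,1,2,3,4],[0,1,2,3,4],[0,1,2,3,4],[0,1,2,3,4]]],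
Node.mk [0,820,182,1542,2448,351,2216,21,1476,9,22,2934,930,101,1738,1587] [(0,0),(0,2),(0,3),(1,2),(2,1),(3,2)] [],
Node.mk [0,820,182,1542,2448,351,2216,21,1476,9,22,2934,930,101,1738,1020] [(0,0),(0,1),(0,2),(0,3),(1,2),(3,1)] [],
Node.mk [0,820,182,1542,2448,351,2216,21,1476,9,22,2934,930,101,1738] [(0,1),(1,0),(1,1),(1,2),(1,3),(1,4)] [Ref.mk 45 2306 [0,1,2,3] [[0,1,2,3],[0,1,2,5],[0,1,2,3],[0,1,2,3]],Ref.mk 1587 2576 [0,1,2,3] [[0,1,2,3,4],[0,1,2,3,4,5],[0,1,2,3,4],[0,1,2,3,4]],Ref.mk 1020 2577 [0,1,2,3] [[0,1,2,3,4],[0,1,2,3,4,5],[0,1,2,3,4],[0,1,2,3,4]]],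
Node.mk [0,820,182,1542,2448,351,2216,21,1476,9,22,2934,930,101,1819,1587] [(0,0),(0,2),(0,3),(1,2),(2,1),(3,2)] [],
Node.mk [0,820,182,1542,2448,351,2216,21,1476,9,22,2934,930,101,1819,1101] [(0,0),(0,1),(0,2),(0,3),(1,2),(3,1)] [],
Node.mk [0,820,182,1542,2448,351,2216,21,1476,9,22,2934,930,101,1819] [(0,1),(1,0),(1,1),(1,2),(1,3),(1,4)] [Ref.mk 45 2306 [0,1,2,3] [[0,1,2,3],[0,1,2,5],[0,1,2,3],[0,1,2,3]],Ref.mk 1587 2579 [0,1,2,3] [[0,1,2,3,4],[0,1,2,3,4,5],[0,1,2,3,4],[0,1,2,3,4]],Ref.mk 1101 2580 [0,1,2,3] [[0,1,2,3,4],[0,1,2,3,4,5],[0,1,2,3,4],[0,1,2,3,4]]],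
Node.mk [0,820,182,1542,2448,351,2216,21,1476,9,22,2934,930,101,1900,1587] [(0,0),(0,2),(0,3),(1,2),(2,1),(3,2)] [],
Node.mk [0,820,182,1542,2448,351,2216,21,1476,9,22,2934,930,101,1900,1182] [(0,0),(0,1),(0,2),(0,3),(1,2),(3,1)] [],
Node.mk [0,820,182,1542,2448,351,2216,21,1476,9,22,2934,930,101,1900] [(0,1),(1,0),(1,1),(1,2),(1,3),(1,4)] [Ref.mk 45 2306 [0,1,2,3] [[0,1,2,3],[0,1,2,5],[0,1,2,3],[0,1,2,3]],Ref.mk 1587 2582 [0,1,2,3] [[0,1,2,3,4],[0,1,2,3,4,5],[0,1,2,3,4,5],[0,1,2,3,4]],Ref.mk 1182 2583 [0,1,2,3] [[0,1,2,3,4],[0,1,2,3,4,5],[0,1,2,3,4,5],[0,1,2,3,4]]],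
Node.mk [0,820,182,1542,2448,351,2216,21,1476,9,22,2934,930,101,263,1657,1587] [(0,0),(0,2),(0,3),(1,2),(2,1),(2,2)] [Ref.mk 1495 2575 [3,1,2,0] [[0,1,3,2,4],[0,1,2,3,4],[0,1,3,2,4],[0,1,3,2,4]],Ref.mk 1738 2576 [0,1,2,3] [[0,1,2,3,4],[0,1,2,3,4,5],[0,1,2,3,4],[0,1,2,3,4]],Ref.mk 1819 2579 [0,1,2,3] [[0,1,2,3,4],[0,1,2,3,4,5],[0,1,2,3,4],[0,1,2,3,4]],Ref.mk 1900 2582 [0,1,2,3] [[0,1,2,3,4],[0,1,2,3,4,5],[0,1,2,3,4,5],[0,1,2,3,4]]],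
Node.mk [0,820,182,1542,2448,351,2216,21,1476,9,22,2934,930,101,263,1657,939] [(0,0),(0,2),(0,3),(1,2),(2,2),(3,1)] [],
Node.mk [0,820,182,1542,2448,351,2216,21,1476,9,22,2934,930,101,263,1657] [(0,1),(1,0),(1,1),(1,2),(1,3),(1,4)] [Ref.mk 45 2306 [0,1,2,3] [[0,1,2,3],[0,1,2,5],[0,1,2,3],[0,1,2,3]],Ref.mk 1587 2585 [0,1,2,3] [[0,1,2,3,4],[0,1,2,3,4,5],[0,1,2,3,4],[0,1,2,3,4]],Ref.mk 939 2586 [0,1,2,3] [[0,1,2,3,4],[0,1,2,3,4,5],[0,1,2,3,4],[0,1,2,3,4]]],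
Node.mk [0,820,182,1542,2448,351,2216,21,1476,9,22,2934,930,101,263,1666,896] [(0,0),(0,2),(1,2),(2,1),(2,2),(3,1)] [],
Node.mk [0,820,182,1542,2448,351,2216,21,1476,9,22,2934,930,101,263,1666,1634] [(0,0),(0,2),(0,3),(1,2),(2,1),(2,2)] [Ref.mk 1495 2575 [3,1,2,0] [[0,1,3,2,4],[0,1,2,3,4],[0,1,3,2,4],[0,1,3,2,4]],Ref.mk 1738 2578 [0,1,2,3] [[0,1,2,3,4],[0,1,2,3,4],[0,1,2,3,4],[0,1,2,3,4]],Ref.mk 1819 2581 [0,1,2,3] [[0,1,2,3,4],[0,1,2,3,4],[0,1,2,3,4],[0,1,2,3,4]],Ref.mk 1900 2584 [0,1,2,3] [[0,1,2,3,4],[0,1,2,3,4],[0,1,2,3,4,5],[0,1,2,3,4]]],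
Node.mk [0,820,182,1542,2448,351,2216,21,1476,9,22,2934,930,101,263,1666,23] [(0,0),(0,1),(0,2),(0,3),(1,2),(2,1)] [Ref.mk 895 2588 [0,1,2,3] [[0,1,2,3,5,4],[0,1,2,3,4,5],[0,1,2,3,4],[0,1,2,3,4]],Ref.mk 1633 2589 [0,1,2,3] [[0,1,2,3,5,4],[0,1,2,3,4,5],[0,1,2,3,4],[0,1,2,3,4]],Ref.mk 896 2588 [0,1,2,3] [[0,1,2,3,4,5],[0,1,2,3,4,5],[0,1,2,3,4],[0,1,2,3,4]],Ref.mk 1634 2589 [0,1,2,3] [[0,1,2,3,4,5],[0,1,2,3,4,5],[0,1,2,3,4],[0,1,2,3,4]],Ref.mk 897 2588 [0,1,2,3] [[0,1,2,3,5,6],[0,1,2,3,4,5],[0,1,2,3,4],[0,1,2,3,4]],Ref.mk 1635 2589 [0,1,2,3] [[0,1,2,3,5,6],[0,1,2,3,4,5],[0,1,2,3,4],[0,1,2,3,4]]],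
Node.mk [0,820,182,1542,2448,351,2216,21,1476,9,22,2934,930,101,263,1666] [(0,0),(0,1),(0,2),(0,3),(0,4),(2,1)] [Ref.mk 896 2588 [0,1,2,3] [[0,1,2,3,4,5],[0,1,2,3,4,5],[0,1,2,3,4],[0,1,2,3,4]],Ref.mk 1634 2589 [0,1,2,3] [[0,1,2,3,4,5],[0,1,2,3,4,5],[0,1,2,3,4],[0,1,2,3,4]],Ref.mk 23 2590 [0,1,2,3] [[0,1,2,3,4,5],[0,1,2,3,4,5],[0,1,2,3,4],[0,1,2,3,4]]],
Node.mk [0,820,182,1542,2448,351,2216,21,1476,9,22,2934,930,101,263] [(0,3),(1,0),(1,1),(1,2),(1,3),(2,1)] [Ref.mk 36 2306 [0,1,2,3] [[0,1,2,3],[0,1,2,4],[0,1,2,3],[0,1,2,3]],Ref.mk 45 2306 [0,1,2,3] [[0,1,2,3],[0,1,2,5],[0,1,2,3],[0,1,2,3]],Ref.mk 1495 2575 [3,1,2,0] [[0,1,3,2,4],[0,1,2,3,4],[0,1,3,2,4],[0,1,3,2,4]],Ref.mk 1657 2587 [0,1,2,3] [[0,1,2,3,4],[0,1,2,3,4],[0,1,2,3,4],[0,1,2,3,4]],Ref.mk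 1738 2578 [0,1,2,3] [[0,1,2,3,4],[0,1,2,3,4],[0,1,2,3,4],[0,1,2,3,4]],Ref.mk 1819 2581 [0,1,2,3] [[0,1,2,3,4],[0,1,2,3,4],[0,1,2,3,4],[0,1,2,3,4]],Ref.mk 1900 2584 [0,1,2,3] [[0,1,2,3,4],[0,1,2,3,4],[0,1,2,3,4,5],[0,1,2,3,4]],Ref.mk 1666 2591 [0,1,2,3] [[0,1,2,3,4],[0,1,2,3,4,5],[0,1,2,3,4],[0,1,2,3,4]]],
Node.mk [0,820,182,1542,2448,351,2216,21,1476,9,22,2934,930,101,344,1657,1587] [(0,0),(0,2),(0,3),(1,2),(2,1),(2,2)] [Ref.mk 1495 2575 [3,1,2,0] [[0,1,3,2,4],[0,1,2,3,4],[0,1,3,2,4],[0,1,3,2,4]],Ref.mk 1738 2576 [0,1,2,3] [[0,1,2,3,4],[0,1,2,3,4,5],[0,1,2,3,4],[0,1,2,3,4]],Ref.mk 1819 2579 [0,1,2,3] [[0,1,2,3,4],[0,1,2,3,4,5],[0,1,2,3,4],[0,1,2,3,4]],Ref.mk 1900 2582 [0,1,2,3] [[0,1,2,3,4],[0,1,2,3,4,5],[0,1,2,3,4,5],[0,1,2,3,4]]],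
Node.mk [0,820,182,1542,2448,351,2216,21,1476,9,22,2934,930,101,344,1657,939] [(0,0),(0,2),(0,3),(1,2),(2,2),(3,1)] [],
Node.mk [0,820,182,1542,2448,351,2216,21,1476,9,22,2934,930,101,344,1657] [(0,1),(1,0),(1,1),(1,2),(1,3),(1,4)] [Ref.mk 45 2306 [0,1,2,3] [[0,1,2,3],[0,1,2,5],[0,1,2,3],[0,1,2,3]],Ref.mk 1587 2593 [0,1,2,3] [[0,1,2,3,4],[0,1,2,3,4,5],[0,1,2,3,4],[0,1,2,3,4]],Ref.mk 939 2594 [0,1,2,3] [[0,1,2,3,4],[0,1,2,3,4,5],[0,1,2,3,4],[0,1,2,3,4]]],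
Node.mk [0,820,182,1542,2448,351,2216,21,1476,9,22,2934,930,101,344,1666,896] [(0,0),(0,2),(1,2),(2,1),(2,2),(3,1)] [],
Node.mk [0,820,182,1542,2448,351,2216,21,1476,9,22,2934,930,101,344,1666,1634] [(0,0),(0,2),(0,3),(1,2),(2,1),(2,2)] [Ref.mk 1495 2575 [3,1,2,0] [[0,1,3,2,4],[0,1,2,3,4],[0,1,3,2,4],[0,1,3,2,4]],Ref.mk 1738 2578 [0,1,2,3] [[0,1,2,3,4],[0,1,2,3,4],[0,1,2,3,4],[0,1,2,3,4]],Ref.mk 1819 2581 [0,1,2,3] [[0,1,2,3,4],[0,1,2,3,4],[0,1,2,3,4],[0,1,2,3,4]],Ref.mk 1900 2584 [0,1,2,3] [[0,1,2,3,4],[0,1,2,3,4],[0,1,2,3,4,5],[0,1,2,3,4]]],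
Node.mk [0,820,182,1542,2448,351,2216,21,1476,9,22,2934,930,101,344,1666,23] [(0,0),(0,1),(0,2),(0,3),(1,2),(2,1)] [Ref.mk 895 2596 [0,1,2,3] [[0,1,2,3,5,4],[0,1,2,3,4,5],[0,1,2,3,4],[0,1,2,3,4]],Ref.mk 1633 2597 [0,1,2,3] [[0,1,2,3,5,4],[0,1,2,3,4,5],[0,1,2,3,4],[0,1,2,3,4]],Ref.mk 896 2596 [0,1,2,3] [[0,1,2,3,4,5],[0,1,2,3,4,5],[0,1,2,3,4],[0,1,2,3,4]],Ref.mk 1634 2597 [0,1,2,3] [[0,1,2,3,4,5],[0,1,2,3,4,5],[0,1,2,3,4],[0,1,2,3,4]],Ref.mk 897 2596 [0,1,2,3] [[0,1,2,3,5,6],[0,1,2,3,4,5],[0,1,2,3,4],[0,1,2,3,4]],Ref.mk 1635 2597 [0,1,2,3] [[0,1,2,3,5,6],[0,1,2,3,4,5],[0,1,2,3,4],[0,1,2,3,4]]],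
Node.mk [0,820,182,1542,2448,351,2216,21,1476,9,22,2934,930,101,344,1666] [(0,0),(0,1),(0,2),(0,3),(0,4),(2,1)] [Ref.mk 896 2596 [0,1,2,3] [[0,1,2,3,4,5],[0,1,2,3,4,5],[0,1,2,3,4],[0,1,2,3,4]],Ref.mk 1634 2597 [0,1,2,3] [[0,1,2,3,4,5],[0,1,2,3,4,5],[0,1,2,3,4],[0,1,2,3,4]],Ref.mk 23 2598 [0,1,2,3] [[0,1,2,3,4,5],[0,1,2,3,4,5],[0,1,2,3,4],[0,1,2,3,4]]],
Node.mk [0,820,182,1542,2448,351,2216,21,1476,9,22,2934,930,101,344] [(0,3),(1,0),(1,1),(1,2),(1,3),(2,1)] [Ref.mk 36 2306 [0,1,2,3] [[0,1,2,3],[0,1,2,4],[0,1,2,3],[0,1,2,3]],Ref.mk 45 2306 [0,1,2,3] [[0,1,2,3],[0,1,2,5],[0,1,2,3],[0,1,2,3]],Ref.mk 1495 2575 [3,1,2,0] [[0,1,3,2,4],[0,1,2,3,4],[0,1,3,2,4],[0,1,3,2,4]],Ref.mk 1657 2595 [0,1,2,3] [[0,1,2,3,4],[0,1,2,3,4],[0,1,2,3,4],[0,1,2,3,4]],Ref.mk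 1738 2578 [0,1,2,3] [[0,1,2,3,4],[0,1,2,3,4],[0,1,2,3,4],[0,1,2,3,4]],Ref.mk 1819 2581 [0,1,2,3] [[0,1,2,3,4],[0,1,2,3,4],[0,1,2,3,4],[0,1,2,3,4]],Ref.mk 1900 2584 [0,1,2,3] [[0,1,2,3,4],[0,1,2,3,4],[0,1,2,3,4,5],[0,1,2,3,4]],Ref.mk 1666 2599 [0,1,2,3] [[0,1,2,3,4],[0,1,2,3,4,5],[0,1,2,3,4],[0,1,2,3,4]]],
Node.mk [0,820,182,1542,2448,351,2216,21,1476,9,22,2934,930,101,425,1657,1587] [(0,0),(0,2),(0,3),(1,2),(2,1),(2,2)] [Ref.mk 1495 2575 [3,1,2,0] [[0,1,3,2,4],[0,1,2,3,4],[0,1,3,2,4],[0,1,3,2,4]],Ref.mk 1738 2576 [0,1,2,3] [[0,1,2,3,4],[0,1,2,3,4,5],[0,1,2,3,4],[0,1,2,3,4]],Ref.mk 1819 2579 [0,1,2,3] [[0,1,2,3,4],[0,1,2,3,4,5],[0,1,2,3,4],[0,1,2,3,4]],Ref.mk 1900 2582 [0,1,2,3] [[0,1,2,3,4],[0,1,2,3,4,5],[0,1,2,3,4,5],[0,1,2,3,4]],Ref.mk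 1981 2582 [0,1,2,3] [[0,1,2,3,4],[0,1,2,3,4,5],[0,1,2,3,4,6],[0,1,2,3,4]]],
Node.mk [0,820,182,1542,2448,351,2216,21,1476,9,22,2934,930,101,425,1657,939] [(0,0),(0,2),(0,3),(1,2),(2,2),(3,1)] [],
Node.mk [0,820,182,1542,2448,351,2216,21,1476,9,22,2934,930,101,425,1657] [(0,1),(1,0),(1,1),(1,2),(1,3),(1,4)] [Ref.mk 45 2306 [0,1,2,3] [[0,1,2,3],[0,1,2,5],[0,1,2,3],[0,1,2,3]],Ref.mk 1587 2601 [0,1,2,3] [[0,1,2,3,4],[0,1,2,3,4,5],[0,1,2,3,4,5],[0,1,2,3,4]],Ref.mk 939 2602 [0,1,2,3] [[0,1,2,3,4],[0,1,2,3,4,5],[0,1,2,3,4,5],[0,1,2,3,4]]],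
Node.mk [0,820,182,1542,2448,351,2216,21,1476,9,22,2934,930,101,425,1666,896] [(0,0),(0,2),(1,2),(2,1),(2,2),(3,1)] [],
Node.mk [0,820,182,1542,2448,351,2216,21,1476,9,22,2934,930,101,425,1666,1634] [(0,0),(0,2),(0,3),(1,2),(2,1),(2,2)] [Ref.mk 1495 2575 [3,1,2,0] [[0,1,3,2,4],[0,1,2,3,4],[0,1,3,2,4],[0,1,3,2,4]],Ref.mk 1738 2578 [0,1,2,3] [[0,1,2,3,4],[0,1,2,3,4],[0,1,2,3,4],[0,1,2,3,4]],Ref.mk 1819 2581 [0,1,2,3] [[0,1,2,3,4],[0,1,2,3,4],[0,1,2,3,4],[0,1,2,3,4]],Ref.mk 1900 2584 [0,1,2,3] [[0,1,2,3,4],[0,1,2,3,4],[0,1,2,3,4,5],[0,1,2,3,4]],Ref.mk 1981 2584 [0,1,2,3] [[0,1,2,3,4],[0,1,2,3,4],[0,1,2,3,4,6],[0,1,2,3,4]]],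
Node.mk [0,820,182,1542,2448,351,2216,21,1476,9,22,2934,930,101,425,1666,23] [(0,0),(0,1),(0,2),(0,3),(1,2),(2,1)] [Ref.mk 895 2604 [0,1,2,3] [[0,1,2,3,5,4],[0,1,2,3,4,5],[0,1,2,3,4,5],[0,1,2,3,4]],Ref.mk 1633 2605 [0,1,2,3] [[0,1,2,3,5,4],[0,1,2,3,4,5],[0,1,2,3,4,5],[0,1,2,3,4]],Ref.mk 896 2604 [0,1,2,3] [[0,1,2,3,4,5],[0,1,2,3,4,5],[0,1,2,3,4,5],[0,1,2,3,4]],Ref.mk 1634 2605 [0,1,2,3] [[0,1,2,3,4,5],[0,1,2,3,4,5],[0,1,2,3,4,5],[0,1,2,3,4]],Ref.mk 897 2604 [0,1,2,3] [[0,1,2,3,5,6],[0,1,2,3,4,5],[0,1,2,3,4,5],[0,1,2,3,4]],Ref.mk 1635 2605 [0,1,2,3] [[0,1,2,3,5,6],[0,1,2,3,4,5],[0,1,2,3,4,5],[0,1,2,3,4]]],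
Node.mk [0,820,182,1542,2448,351,2216,21,1476,9,22,2934,930,101,425,1666] [(0,0),(0,1),(0,2),(0,3),(0,4),(2,1)] [Ref.mk 896 2604 [0,1,2,3] [[0,1,2,3,4,5],[0,1,2,3,4,5],[0,1,2,3,4,5],[0,1,2,3,4]],Ref.mk 1634 2605 [0,1,2,3] [[0,1,2,3,4,5],[0,1,2,3,4,5],[0,1,2,3,4,5],[0,1,2,3,4]],Ref.mk 23 2606 [0,1,2,3] [[0,1,2,3,4,5],[0,1,2,3,4,5],[0,1,2,3,4,5],[0,1,2,3,4]]],
Node.mk [0,820,182,1542,2448,351,2216,21,1476,9,22,2934,930,101,425] [(0,3),(1,0),(1,1),(1,2),(1,3),(2,1)] [Ref.mk 36 2306 [0,1,2,3] [[0,1,2,3],[0,1,2,4],[0,1,2,3],[0,1,2,3]],Ref.mk 45 2306 [0,1,2,3] [[0,1,2,3],[0,1,2,5],[0,1,2,3],[0,1,2,3]],Ref.mk 1495 2575 [3,1,2,0] [[0,1,3,2,4],[0,1,2,3,4],[0,1,3,2,4],[0,1,3,2,4]],Ref.mk 1657 2603 [0,1,2,3] [[0,1,2,3,4],[0,1,2,3,4],[0,1,2,3,4,5],[0,1,2,3,4]],Ref.mk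 1738 2578 [0,1,2,3] [[0,1,2,3,4],[0,1,2,3,4],[0,1,2,3,4],[0,1,2,3,4]],Ref.mk 1819 2581 [0,1,2,3] [[0,1,2,3,4],[0,1,2,3,4],[0,1,2,3,4],[0,1,2,3,4]],Ref.mk 1900 2584 [0,1,2,3] [[0,1,2,3,4],[0,1,2,3,4],[0,1,2,3,4,5],[0,1,2,3,4]],Ref.mk 1981 2584 [0,1,2,3] [[0,1,2,3,4],[0,1,2,3,4],[0,1,2,3,4,6],[0,1,2,3,4]],Ref.mk 1666 2607 [0,1,2,3] [[0,1,2,3,4],[0,1,2,3,4,5],[0,1,2,3,4,5],[0,1,2,3,4]]],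
Node.mk [0,820,182,1542,2448,351,2216,21,1476,9,22,2934,930,101] [(0,0),(0,3),(2,0),(2,1),(2,2),(3,1)] [Ref.mk 1738 2578 [0,1,2,3] [[0,1,2,3,4],[0,1,2,3,4],[0,1,2,3,4],[0,1,2,3,4]],Ref.mk 1819 2581 [0,1,2,3] [[0,1,2,3,4],[0,1,2,3,4],[0,1,2,3,4],[0,1,2,3,4]],Ref.mk 1900 2584 [0,1,2,3] [[0,1,2,3,4],[0,1,2,3,4],[0,1,2,3,4,5],[0,1,2,3,4]],Ref.mk 263 2592 [0,1,2,3] [[0,1,2,3,4],[0,1,2,3,4],[0,1,2,3,4],[0,1,2,3,4]],Ref.mk 344 2600 [0,1,2,3] [[0,1,2,3,4],[0,1,2,3,4],[0,1,2,3,4],[0,1,2,3,4]],Ref.mk 425 2608 [0,1,2,3] [[0,1,2,3,4],[0,1,2,3,4],[0,1,2,3,4,5],[0,1,2,3,4]]],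
Node.mk [0,820,182,1542,2448,351,2216,21,1476,9,22,2934,930,263,855] [(0,0),(0,1),(0,2),(2,0),(2,1),(3,1)] [],
Node.mk [0,820,182,1542,2448,351,2216,21,1476,9,22,2934,930,263,856] [(0,0),(0,1),(0,2),(1,2),(2,1),(3,1)] [],
Node.mk [0,820,182,1542,2448,351,2216,21,1476,9,22,2934,930,263,1666,896] [(0,0),(0,2),(1,2),(2,1),(2,2),(3,1)] [],
Node.mk [0,820,182,1542,2448,351,2216,21,1476,9,22,2934,930,263,1666,1634] [(0,0),(0,2),(1,2),(2,1),(2,2),(3,2)] [],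
Node.mk [0,820,182,1542,2448,351,2216,21,1476,9,22,2934,930,263,1666,23] [(0,0),(0,1),(0,2),(0,3),(1,2),(2,1)] [Ref.mk 895 2612 [0,1,2,3] [[0,1,2,3,5,4],[0,1,2,3,4,5],[0,1,2,3,4],[0,1,2,3,4]],Ref.mk 1633 2613 [0,1,2,3] [[0,1,2,3,5,4],[0,1,2,3,4,5],[0,1,2,3,4],[0,1,2,3,4]],Ref.mk 896 2612 [0,1,2,3] [[0,1,2,3,4,5],[0,1,2,3,4,5],[0,1,2,3,4],[0,1,2,3,4]],Ref.mk 1634 2613 [0,1,2,3] [[0,1,2,3,4,5],[0,1,2,3,4,5],[0,1,2,3,4],[0,1,2,3,4]],Ref.mk 897 2612 [0,1,2,3] [[0,1,2,3,5,6],[0,1,2,3,4,5],[0,1,2,3,4],[0,1,2,3,4]],Ref.mk 1635 2613 [0,1,2,3] [[0,1,2,3,5,6],[0,1,2,3,4,5],[0,1,2,3,4],[0,1,2,3,4]]],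
Node.mk [0,820,182,1542,2448,351,2216,21,1476,9,22,2934,930,263,1666] [(0,0),(0,1),(0,2),(0,3),(0,4),(2,1)] [Ref.mk 896 2612 [0,1,2,3] [[0,1,2,3,4,5],[0,1,2,3,4,5],[0,1,2,3,4],[0,1,2,3,4]],Ref.mk 1634 2613 [0,1,2,3] [[0,1,2,3,4,5],[0,1,2,3,4,5],[0,1,2,3,4],[0,1,2,3,4]],Ref.mk 23 2614 [0,1,2,3] [[0,1,2,3,4,5],[0,1,2,3,4,5],[0,1,2,3,4],[0,1,2,3,4]]],
Node.mk [0,820,182,1542,2448,351,2216,21,1476,9,22,2934,930,263,857] [(0,0),(0,1),(0,2),(1,2),(2,1),(3,1)] [],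
Node.mk [0,820,182,1542,2448,351,2216,21,1476,9,22,2934,930,263,859] [(0,0),(0,2),(1,1),(1,2),(2,1),(3,1)] [Ref.mk 1666 2615 [0,1,2,3] [[0,1,2,3,4],[0,1,2,3,4,5],[0,1,2,3,4],[0,1,2,3,4]]],
Node.mk [0,820,182,1542,2448,351,2216,21,1476,9,22,2934,930,263,860] [(0,0),(0,2),(1,1),(1,2),(2,1),(3,1)] [Ref.mk 1666 2615 [0,1,2,3] [[0,1,2,3,4],[0,1,2,3,4,5],[0,1,2,3,4],[0,1,2,3,4]]],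
Node.mk [0,820,182,1542,2448,351,2216,21,1476,9,22,2934,930,263] [(0,3),(1,0),(1,1),(1,2),(1,3),(1,4)] [Ref.mk 45 2306 [0,1,2,3] [[0,1,2,3],[0,1,2,5],[0,1,2,3],[0,1,2,3]],Ref.mk 855 2610 [0,1,2,3] [[0,1,2,3,4],[0,1,2,3,4,5],[0,1,2,3,4],[0,1,2,3,4]],Ref.mk 856 2611 [0,1,2,3] [[0,1,2,3,4],[0,1,2,3,4,5],[0,1,2,3,4],[0,1,2,3,4]],Ref.mk 1666 2615 [0,1,2,3] [[0,1,2,3,4],[0,1,2,3,4,5],[0,1,2,3,4],[0,1,2,3,4]],Ref.mk 857 2616 [0,1,2,3] [[0,1,2,3,4],[0,1,2,3,4,5],[0,1,2,3,4],[0,1,2,3,4]],Ref.mk 859 2617 [0,1,2,3] [[0,1,2,3,4],[0,1,2,3,4,5],[0,1,2,3,4],[0,1,2,3,4]],Ref.mk 860 2618 [0,1,2,3] [[0,1,2,3,4,5],[0,1,2,3,4,5],[0,1,2,3,4],[0,1,2,3,4]]],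
Node.mk [0,820,182,1542,2448,351,2216,21,1476,9,22,2934,930,344,1634,1666] [(0,0),(0,2),(1,2),(2,1),(2,2),(3,2)] [],
Node.mk [0,820,182,1542,2448,351,2216,21,1476,9,22,2934,930,344,1634,860] [(0,0),(0,2),(0,5),(1,2),(2,1),(3,1)] [Ref.mk 1666 2620 [0,1,2,3] [[0,1,2,3,4,5],[0,1,2,3,4,5],[0,1,2,3,4],[0,1,2,3,4]]],
Node.mk [0,820,182,1542,2448,351,2216,21,1476,9,22,2934,930,344,1634] [(0,3),(1,0),(1,1),(1,2),(1,3),(1,4)] [Ref.mk 45 2306 [0,1,2,3] [[0,1,2,3],[0,1,2,5],[0,1,2,3],[0,1,2,3]],Ref.mk 1666 2620 [0,1,2,3] [[0,1,2,3,4,5],[0,1,2,3,4,5],[0,1,2,3,4],[0,1,2,3,4]],Ref.mk 860 2621 [0,1,2,3] [[0,1,2,3,4,5],[0,1,2,3,4,5],[0,1,2,3,4],[0,1,2,3,4]]],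
Node.mk [0,820,182,1542,2448,351,2216,21,1476,9,22,2934,930,344,23,1657,1587] [(0,0),(0,2),(0,3),(1,2),(2,1),(3,2)] []]

/-- nodes -/
noncomputable def c41 : List Node := [
Node.mk [0,820,182,1542,2448,351,2216,21,1476,9,22,2934,930,344,23,1657,939] [(0,0),(0,2),(0,3),(1,2),(2,2),(3,1)] [],
Node.mk [0,820,182,1542,2448,351,2216,21,1476,9,22,2934,930,344,23,1657] [(0,1),(1,0),(1,1),(1,2),(1,3),(1,4)] [Ref.mk 45 2306 [0,1,2,3] [[0,1,2,3],[0,1,2,5],[0,1,2,3],[0,1,2,3]],Ref.mk 1587 2623 [0,1,2,3] [[0,1,2,3,4,5],[0,1,2,3,4,5],[0,1,2,3,4],[0,1,2,3,4]],Ref.mk 939 2624 [0,1,2,3] [[0,1,2,3,4,5],[0,1,2,3,4,5],[0,1,2,3,4],[0,1,2,3,4]]],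
Node.mk [0,820,182,1542,2448,351,2216,21,1476,9,22,2934,930,344,23,1738,1587] [(0,0),(0,2),(0,3),(1,2),(2,1),(3,2)] [],
Node.mk [0,820,182,1542,2448,351,2216,21,1476,9,22,2934,930,344,23,1738,1020] [(0,0),(0,1),(0,2),(0,3),(1,2),(3,1)] [],
Node.mk [0,820,182,1542,2448,351,2216,21,1476,9,22,2934,930,344,23,1738] [(0,1),(1,0),(1,1),(1,2),(1,3),(1,4)] [Ref.mk 45 2306 [0,1,2,3] [[0,1,2,3],[0,1,2,5],[0,1,2,3],[0,1,2,3]],Ref.mk 1587 2626 [0,1,2,3] [[0,1,2,3,4,5],[0,1,2,3,4,5],[0,1,2,3,4],[0,1,2,3,4]],Ref.mk 1020 2627 [0,1,2,3] [[0,1,2,3,4,5],[0,1,2,3,4,5],[0,1,2,3,4],[0,1,2,3,4]]],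
Node.mk [0,820,182,1542,2448,351,2216,21,1476,9,22,2934,930,344,23,1819,1587] [(0,0),(0,2),(0,3),(1,2),(2,1),(3,2)] [],
Node.mk [0,820,182,1542,2448,351,2216,21,1476,9,22,2934,930,344,23,1819,1101] [(0,0),(0,1),(0,2),(0,3),(1,2),(3,1)] [],
Node.mk [0,820,182,1542,2448,351,2216,21,1476,9,22,2934,930,344,23,1819] [(0,1),(1,0),(1,1),(1,2),(1,3),(1,4)] [Ref.mk 45 2306 [0,1,2,3] [[0,1,2,3],[0,1,2,5],[0,1,2,3],[0,1,2,3]],Ref.mk 1587 2629 [0,1,2,3] [[0,1,2,3,4,5],[0,1,2,3,4,5],[0,1,2,3,4],[0,1,2,3,4]],Ref.mk 1101 2630 [0,1,2,3] [[0,1,2,3,4,5],[0,1,2,3,4,5],[0,1,2,3,4],[0,1,2,3,4]]],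
Node.mk [0,820,182,1542,2448,351,2216,21,1476,9,22,2934,930,344,23,1900,1587] [(0,0),(0,2),(0,3),(1,2),(2,1),(3,2)] [],
Node.mk [0,820,182,1542,2448,351,2216,21,1476,9,22,2934,930,344,23,1900,1182] [(0,0),(0,1),(0,2),(0,3),(1,2),(3,1)] [],
Node.mk [0,820,182,1542,2448,351,2216,21,1476,9,22,2934,930,344,23,1900] [(0,1),(1,0),(1,1),(1,2),(1,3),(1,4)] [Ref.mk 45 2306 [0,1,2,3] [[0,1,2,3],[0,1,2,5],[0,1,2,3],[0,1,2,3]],Ref.mk 1587 2632 [0,1,2,3] [[0,1,2,3,4,5],[0,1,2,3,4,5],[0,1,2,3,4,5],[0,1,2,3,4]],Ref.mk 1182 2633 [0,1,2,3] [[0,1,2,3,4,5],[0,1,2,3,4,5],[0,1,2,3,4,5],[0,1,2,3,4]]],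
Node.mk [0,820,182,1542,2448,351,2216,21,1476,9,22,2934,930,344,23,1666,895] [(0,0),(0,2),(1,2),(2,1),(2,2),(3,1)] [],
Node.mk [0,820,182,1542,2448,351,2216,21,1476,9,22,2934,930,344,23,1666,897] [(0,0),(0,2),(1,2),(2,1),(2,2),(3,1)] [],
Node.mk [0,820,182,1542,2448,351,2216,21,1476,9,22,2934,930,344,23,1666] [(0,0),(0,1),(0,2),(0,3),(1,2),(2,1)] [Ref.mk 895 2635 [0,1,2,3] [[0,1,2,3,4,5],[0,1,2,3,4,5],[0,1,2,3,4],[0,1,2,3,4]],Ref.mk 1633 2620 [0,1,2,3] [[0,1,2,3,5,4],[0,1,2,3,4,5],[0,1,2,3,4],[0,1,2,3,4]],Ref.mk 896 2635 [0,1,2,3] [[0,1,2,3,5,4],[0,1,2,3,4,5],[0,1,2,3,4],[0,1,2,3,4]],Ref.mk 1634 2620 [0,1,2,3] [[0,1,2,3,4,5],[0,1,2,3,4,5],[0,1,2,3,4],[0,1,2,3,4]],Ref.mk 897 2636 [0,1,2,3] [[0,1,2,3,4,5,6],[0,1,2,3,4,5],[0,1,2,3,4],[0,1,2,3,4]],Ref.mk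 1635 2620 [0,1,2,3] [[0,1,2,3,5,6],[0,1,2,3,4,5],[0,1,2,3,4],[0,1,2,3,4]]],
Node.mk [0,820,182,1542,2448,351,2216,21,1476,9,22,2934,930,344,23] [(0,3),(1,0),(1,1),(1,2),(1,3),(2,1)] [Ref.mk 36 2306 [0,1,2,3] [[0,1,2,3],[0,1,2,4],[0,1,2,3],[0,1,2,3]],Ref.mk 45 2306 [0,1,2,3] [[0,1,2,3],[0,1,2,5],[0,1,2,3],[0,1,2,3]],Ref.mk 1495 2575 [3,1,2,0] [[0,1,3,2,4],[0,1,2,3,4],[0,1,3,2,4],[0,1,3,2,4]],Ref.mk 1657 2625 [0,1,2,3] [[0,1,2,3,4,5],[0,1,2,3,4],[0,1,2,3,4],[0,1,2,3,4]],Ref.mk 1738 2628 [0,1,2,3] [[0,1,2,3,4,5],[0,1,2,3,4],[0,1,2,3,4],[0,1,2,3,4]],Ref.mk 1819 2631 [0,1,2,3] [[0,1,2,3,4,5],[0,1,2,3,4],[0,1,2,3,4],[0,1,2,3,4]],Ref.mk 1900 2634 [0,1,2,3] [[0,1,2,3,4,5],[0,1,2,3,4],[0,1,2,3,4,5],[0,1,2,3,4]],Ref.mk 1666 2637 [0,1,2,3]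 [[0,1,2,3,4,5],[0,1,2,3,4,5],[0,1,2,3,4],[0,1,2,3,4]]],
Node.mk [0,820,182,1542,2448,351,2216,21,1476,9,22,2934,930,344,122] [(0,0),(0,1),(2,0),(2,1),(3,0),(3,1)] [Ref.mk 1634 2622 [0,1,2,3] [[0,1,2,3,4,5],[0,1,2,3,4],[0,1,2,3,4],[0,1,2,3,4]]],
Node.mk [0,820,182,1542,2448,351,2216,21,1476,9,22,2934,930,344,1580] [(0,0),(0,2),(1,2),(2,1),(3,1),(3,2)] [],
Node.mk [0,820,182,1542,2448,351,2216,21,1476,9,22,2934,930,344,2309] [(0,0),(0,1),(2,1),(3,0),(3,1),(3,3)] [Ref.mk 1634 2622 [0,1,2,3] [[0,1,2,3,4,5],[0,1,2,3,4],[0,1,2,3,4],[0,1,2,3,4]]],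
Node.mk [0,820,182,1542,2448,351,2216,21,1476,9,22,2934,930,344,3767] [(1,0),(1,1),(1,2),(1,3),(1,4),(2,1)] [Ref.mk 45 2306 [0,1,2,3] [[0,1,2,3],[0,1,2,5],[0,1,2,3],[0,1,2,3]]],
Node.mk [0,820,182,1542,2448,351,2216,21,1476,9,22,2934,930,344] [(0,0),(0,1),(0,2),(0,3),(0,4),(3,1)] [Ref.mk 1634 2622 [0,1,2,3] [[0,1,2,3,4,5],[0,1,2,3,4],[0,1,2,3,4],[0,1,2,3,4]],Ref.mk 23 2638 [0,1,2,3] [[0,1,2,3,4,5],[0,1,2,3,4],[0,1,2,3,4],[0,1,2,3,4]],Ref.mk 122 2639 [0,1,2,3] [[0,1,2,3,4,5],[0,1,2,3,4],[0,1,2,3,4],[0,1,2,3,4]],Ref.mk 1580 2640 [0,1,2,3] [[0,1,2,3,4,5],[0,1,2,3,4],[0,1,2,3,4],[0,1,2,3,4]],Ref.mk 2309 2641 [0,1,2,3] [[0,1,2,3,4,5],[0,1,2,3,4],[0,1,2,3,4],[0,1,2,3,4]],Ref.mk 3038 2619 [0,3,2,1] [[0,5,2,3,4],[2,4,0,3,1],[0,1,2,4,3],[2,4,0,3,1]],Ref.mk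 3767 2642 [0,1,2,3] [[0,1,2,3,4,5],[0,1,2,3,4],[0,1,2,3,4],[0,1,2,3,4,5]]],
Node.mk [0,820,182,1542,2448,351,2216,21,1476,9,22,2934,930,425,855] [(0,0),(0,1),(0,2),(2,0),(2,1),(3,1)] [],
Node.mk [0,820,182,1542,2448,351,2216,21,1476,9,22,2934,930,425,856] [(0,0),(0,1),(0,2),(1,2),(2,1),(3,1)] [],
Node.mk [0,820,182,1542,2448,351,2216,21,1476,9,22,2934,930,425,1666,896] [(0,0),(0,2),(1,2),(2,1),(2,2),(3,1)] [],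
Node.mk [0,820,182,1542,2448,351,2216,21,1476,9,22,2934,930,425,1666,1634] [(0,0),(0,2),(1,2),(2,1),(2,2),(3,2)] [],
Node.mk [0,820,182,1542,2448,351,2216,21,1476,9,22,2934,930,425,1666,23] [(0,0),(0,1),(0,2),(0,3),(1,2),(2,1)] [Ref.mk 895 2646 [0,1,2,3] [[0,1,2,3,5,4],[0,1,2,3,4,5],[0,1,2,3,4,5],[0,1,2,3,4]],Ref.mk 1633 2647 [0,1,2,3] [[0,1,2,3,5,4],[0,1,2,3,4,5],[0,1,2,3,4,5],[0,1,2,3,4]],Ref.mk 896 2646 [0,1,2,3] [[0,1,2,3,4,5],[0,1,2,3,4,5],[0,1,2,3,4,5],[0,1,2,3,4]],Ref.mk 1634 2647 [0,1,2,3] [[0,1,2,3,4,5],[0,1,2,3,4,5],[0,1,2,3,4,5],[0,1,2,3,4]],Ref.mk 897 2646 [0,1,2,3] [[0,1,2,3,5,6],[0,1,2,3,4,5],[0,1,2,3,4,5],[0,1,2,3,4]],Ref.mk 1635 2647 [0,1,2,3] [[0,1,2,3,5,6],[0,1,2,3,4,5],[0,1,2,3,4,5],[0,1,2,3,4]]],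
Node.mk [0,820,182,1542,2448,351,2216,21,1476,9,22,2934,930,425,1666] [(0,0),(0,1),(0,2),(0,3),(0,4),(2,1)] [Ref.mk 896 2646 [0,1,2,3] [[0,1,2,3,4,5],[0,1,2,3,4,5],[0,1,2,3,4,5],[0,1,2,3,4]],Ref.mk 1634 2647 [0,1,2,3] [[0,1,2,3,4,5],[0,1,2,3,4,5],[0,1,2,3,4,5],[0,1,2,3,4]],Ref.mk 23 2648 [0,1,2,3] [[0,1,2,3,4,5],[0,1,2,3,4,5],[0,1,2,3,4,5],[0,1,2,3,4]]],
Node.mk [0,820,182,1542,2448,351,2216,21,1476,9,22,2934,930,425,857] [(0,0),(0,1),(0,2),(1,2),(2,1),(3,1)] [],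
Node.mk [0,820,182,1542,2448,351,2216,21,1476,9,22,2934,930,425,859] [(0,0),(0,2),(1,1),(1,2),(2,1),(3,1)] [Ref.mk 1666 2649 [0,1,2,3] [[0,1,2,3,4],[0,1,2,3,4,5],[0,1,2,3,4,5],[0,1,2,3,4]]],
Node.mk [0,820,182,1542,2448,351,2216,21,1476,9,22,2934,930,425,860] [(0,0),(0,2),(1,1),(1,2),(2,1),(3,1)] [Ref.mk 1666 2649 [0,1,2,3] [[0,1,2,3,4],[0,1,2,3,4,5],[0,1,2,3,4,5],[0,1,2,3,4]]],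
Node.mk [0,820,182,1542,2448,351,2216,21,1476,9,22,2934,930,425] [(0,3),(1,0),(1,1),(1,2),(1,3),(1,4)] [Ref.mk 45 2306 [0,1,2,3] [[0,1,2,3],[0,1,2,5],[0,1,2,3],[0,1,2,3]],Ref.mk 855 2644 [0,1,2,3] [[0,1,2,3,4],[0,1,2,3,4,5],[0,1,2,3,4,5],[0,1,2,3,4]],Ref.mk 856 2645 [0,1,2,3] [[0,1,2,3,4],[0,1,2,3,4,5],[0,1,2,3,4,5],[0,1,2,3,4]],Ref.mk 1666 2649 [0,1,2,3] [[0,1,2,3,4],[0,1,2,3,4,5],[0,1,2,3,4,5],[0,1,2,3,4]],Ref.mk 857 2650 [0,1,2,3] [[0,1,2,3,4],[0,1,2,3,4,5],[0,1,2,3,4,5],[0,1,2,3,4]],Ref.mk 859 2651 [0,1,2,3] [[0,1,2,3,4],[0,1,2,3,4,5],[0,1,2,3,4,5],[0,1,2,3,4]],Ref.mk 860 2652 [0,1,2,3] [[0,1,2,3,4,5],[0,1,2,3,4,5],[0,1,2,3,4,5],[0,1,2,3,4]]],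
Node.mk [0,820,182,1542,2448,351,2216,21,1476,9,22,2934,930] [(0,0),(0,3),(1,4),(2,0),(2,2),(3,1)] [Ref.mk 101 2609 [0,1,2,3] [[0,1,2,3,4],[0,1,2,3,4],[0,1,2,3,4],[0,1,2,3,4]],Ref.mk 263 2619 [0,1,2,3] [[0,1,2,3,4],[0,1,2,3,4],[0,1,2,3,4],[0,1,2,3,4]],Ref.mk 344 2643 [0,1,2,3] [[0,1,2,3,4],[0,1,2,3,4],[0,1,2,3,4],[0,1,2,3,4]],Ref.mk 425 2653 [0,1,2,3] [[0,1,2,3,4],[0,1,2,3,4],[0,1,2,3,4,5],[0,1,2,3,4]]],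
Node.mk [0,820,182,1542,2448,351,2216,21,1476,9,22,2934,1011,1657,1587] [(0,0),(0,2),(0,3),(1,2),(2,1),(3,2)] [],
Node.mk [0,820,182,1542,2448,351,2216,21,1476,9,22,2934,1011,1657,939] [(0,0),(0,1),(0,2),(0,3),(1,2),(3,1)] [],
Node.mk [0,820,182,1542,2448,351,2216,21,1476,9,22,2934,1011,1657] [(0,1),(1,0),(1,1),(1,2),(1,3),(1,4)] [Ref.mk 45 2306 [0,1,2,3] [[0,1,2,3],[0,1,2,5],[0,1,2,3],[0,1,2,3]],Ref.mk 1587 2655 [0,1,2,3] [[0,1,2,3,4],[0,1,2,3,4,5],[0,1,2,3,4],[0,1,2,3,4]],Ref.mk 939 2656 [0,1,2,3] [[0,1,2,3,4],[0,1,2,3,4,5],[0,1,2,3,4],[0,1,2,3,4]]],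
Node.mk [0,820,182,1542,2448,351,2216,21,1476,9,22,2934,1011,1819,1587] [(0,0),(0,2),(0,3),(1,2),(2,1),(3,2)] [],
Node.mk [0,820,182,1542,2448,351,2216,21,1476,9,22,2934,1011,1819,1101] [(0,0),(0,1),(0,2),(0,3),(1,2),(3,1)] [],
Node.mk [0,820,182,1542,2448,351,2216,21,1476,9,22,2934,1011,1819] [(0,1),(1,0),(1,1),(1,2),(1,3),(1,4)] [Ref.mk 45 2306 [0,1,2,3] [[0,1,2,3],[0,1,2,5],[0,1,2,3],[0,1,2,3]],Ref.mk 1587 2658 [0,1,2,3] [[0,1,2,3,4],[0,1,2,3,4,5],[0,1,2,3,4],[0,1,2,3,4]],Ref.mk 1101 2659 [0,1,2,3] [[0,1,2,3,4],[0,1,2,3,4,5],[0,1,2,3,4],[0,1,2,3,4]]],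
Node.mk [0,820,182,1542,2448,351,2216,21,1476,9,22,2934,1011,1900,1587] [(0,0),(0,2),(0,3),(1,2),(2,1),(3,2)] [],
Node.mk [0,820,182,1542,2448,351,2216,21,1476,9,22,2934,1011,1900,1182] [(0,0),(0,1),(0,2),(0,3),(1,2),(3,1)] [],
Node.mk [0,820,182,1542,2448,351,2216,21,1476,9,22,2934,1011,1900] [(0,1),(1,0),(1,1),(1,2),(1,3),(1,4)] [Ref.mk 45 2306 [0,1,2,3] [[0,1,2,3],[0,1,2,5],[0,1,2,3],[0,1,2,3]],Ref.mk 1587 2661 [0,1,2,3] [[0,1,2,3,4],[0,1,2,3,4,5],[0,1,2,3,4,5],[0,1,2,3,4]],Ref.mk 1182 2662 [0,1,2,3] [[0,1,2,3,4],[0,1,2,3,4,5],[0,1,2,3,4,5],[0,1,2,3,4]]],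
Node.mk [0,820,182,1542,2448,351,2216,21,1476,9,22,2934,1011] [(0,3),(1,0),(1,1),(1,2),(1,3),(2,1)] [Ref.mk 36 2306 [0,1,2,3] [[0,1,2,3],[0,1,2,4],[0,1,2,3],[0,1,2,3]],Ref.mk 45 2306 [0,1,2,3] [[0,1,2,3],[0,1,2,5],[0,1,2,3],[0,1,2,3]],Ref.mk 1495 2575 [3,1,2,0] [[0,1,3,2,4],[0,1,2,3,4],[0,1,3,2,4],[0,1,3,2,4]],Ref.mk 1657 2657 [0,1,2,3] [[0,1,2,3,4],[0,1,2,3,4],[0,1,2,3,4],[0,1,2,3,4]],Ref.mk 1738 2654 [3,1,2,0] [[0,1,3,2,4],[0,1,2,3,4],[0,1,3,2,4],[0,1,3,2,4]],Ref.mk 1819 2660 [0,1,2,3] [[0,1,2,3,4],[0,1,2,3,4],[0,1,2,3,4],[0,1,2,3,4]],Ref.mk 1900 2663 [0,1,2,3] [[0,1,2,3,4],[0,1,2,3,4],[0,1,2,3,4,5],[0,1,2,3,4]],Ref.mk 1747 2654 [3,1,2,0] [[0,1,3,2,4],[0,1,2,3,5],[0,1,3,2,4],[0,1,3,2,4]]],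
Node.mk [0,820,182,1542,2448,351,2216,21,1476,9,22,2934,1092,1819,1587] [(0,0),(0,2),(0,3),(1,2),(2,1),(3,2)] [],
Node.mk [0,820,182,1542,2448,351,2216,21,1476,9,22,2934,1092,1819,1101] [(0,0),(0,2),(0,3),(1,2),(2,4),(3,1)] [],
Node.mk [0,820,182,1542,2448,351,2216,21,1476,9,22,2934,1092,1819] [(0,1),(1,0),(1,1),(1,2),(1,3),(1,4)] [Ref.mk 45 2306 [0,1,2,3] [[0,1,2,3],[0,1,2,5],[0,1,2,3],[0,1,2,3]],Ref.mk 1587 2665 [0,1,2,3] [[0,1,2,3,4],[0,1,2,3,4,5],[0,1,2,3,4],[0,1,2,3,4]],Ref.mk 1101 2666 [0,1,2,3] [[0,1,2,3,4],[0,1,2,3,4,5],[0,1,2,3,4],[0,1,2,3,4]]],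
Node.mk [0,820,182,1542,2448,351,2216,21,1476,9,22,2934,1092,1900,1587] [(0,0),(0,2),(0,3),(1,2),(2,1),(3,2)] [],
Node.mk [0,820,182,1542,2448,351,2216,21,1476,9,22,2934,1092,1900,1182] [(0,0),(0,1),(0,2),(0,3),(1,2),(3,1)] [],
Node.mk [0,820,182,1542,2448,351,2216,21,1476,9,22,2934,1092,1900] [(0,1),(1,0),(1,1),(1,2),(1,3),(1,4)] [Ref.mk 45 2306 [0,1,2,3] [[0,1,2,3],[0,1,2,5],[0,1,2,3],[0,1,2,3]],Ref.mk 1587 2668 [0,1,2,3] [[0,1,2,3,4],[0,1,2,3,4,5],[0,1,2,3,4,5],[0,1,2,3,4]],Ref.mk 1182 2669 [0,1,2,3] [[0,1,2,3,4],[0,1,2,3,4,5],[0,1,2,3,4,5],[0,1,2,3,4]]],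
Node.mk [0,820,182,1542,2448,351,2216,21,1476,9,22,2934,1092,1828,1058] [(0,0),(0,2),(1,2),(2,1),(2,4),(3,1)] [],
Node.mk [0,820,182,1542,2448,351,2216,21,1476,9,22,2934,1092,1828,1796] [(0,0),(0,2),(1,2),(2,1),(2,4),(3,2)] [],
Node.mk [0,820,182,1542,2448,351,2216,21,1476,9,22,2934,1092,1828,23] [(0,0),(0,1),(0,2),(0,3),(1,2),(2,1)] [Ref.mk 1057 2671 [0,1,2,3] [[0,1,2,3,5,4],[0,1,2,3,4,5],[0,1,2,3,4],[0,1,2,3,4]],Ref.mk 1795 2672 [0,1,2,3] [[0,1,2,3,5,4],[0,1,2,3,4,5],[0,1,2,3,4],[0,1,2,3,4]],Ref.mk 1058 2671 [0,1,2,3] [[0,1,2,3,4,5],[0,1,2,3,4,5],[0,1,2,3,4],[0,1,2,3,4]],Ref.mk 1796 2672 [0,1,2,3] [[0,1,2,3,4,5],[0,1,2,3,4,5],[0,1,2,3,4],[0,1,2,3,4]],Ref.mk 1059 2671 [0,1,2,3] [[0,1,2,3,5,6],[0,1,2,3,4,5],[0,1,2,3,4],[0,1,2,3,4]],Ref.mk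 1797 2672 [0,1,2,3] [[0,1,2,3,5,6],[0,1,2,3,4,5],[0,1,2,3,4],[0,1,2,3,4]]],
Node.mk [0,820,182,1542,2448,351,2216,21,1476,9,22,2934,1092,1828] [(0,0),(0,1),(0,2),(0,3),(0,4),(2,1)] [Ref.mk 1058 2671 [0,1,2,3] [[0,1,2,3,4,5],[0,1,2,3,4,5],[0,1,2,3,4],[0,1,2,3,4]],Ref.mk 1796 2672 [0,1,2,3] [[0,1,2,3,4,5],[0,1,2,3,4,5],[0,1,2,3,4],[0,1,2,3,4]],Ref.mk 23 2673 [0,1,2,3] [[0,1,2,3,4,5],[0,1,2,3,4,5],[0,1,2,3,4],[0,1,2,3,4]]],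
Node.mk [0,820,182,1542,2448,351,2216,21,1476,9,22,2934,1092] [(0,3),(1,0),(1,1),(1,2),(1,3),(2,1)] [Ref.mk 36 2306 [0,1,2,3] [[0,1,2,3],[0,1,2,4],[0,1,2,3],[0,1,2,3]],Ref.mk 45 2306 [0,1,2,3] [[0,1,2,3],[0,1,2,5],[0,1,2,3],[0,1,2,3]],Ref.mk 1495 2575 [3,1,2,0] [[0,1,3,2,4],[0,1,2,3,4],[0,1,3,2,4],[0,1,3,2,4]],Ref.mk 1657 2660 [3,1,2,0] [[0,1,3,2,4],[0,1,2,3,4],[0,1,3,2,4],[0,1,3,2,4]],Ref.mk 1738 2654 [3,1,2,0] [[0,1,3,2,4],[0,1,2,3,4],[0,1,3,2,4],[0,1,3,2,4]],Ref.mk 1819 2667 [0,1,2,3] [[0,1,2,3,4],[0,1,2,3,4],[0,1,2,3,4],[0,1,2,3,4]],Ref.mk 1900 2670 [0,1,2,3] [[0,1,2,3,4],[0,1,2,3,4],[0,1,2,3,4,5],[0,1,2,3,4]],Ref.mk 1828 2674 [0,1,2,3] [[0,1,2,3,4],[0,1,2,3,4,5],[0,1,2,3,4],[0,1,2,3,4]]],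
Node.mk [0,820,182,1542,2448,351,2216,21,1476,9,22,2934,1173,1900,1587] [(0,0),(0,2),(0,3),(1,2),(2,1),(3,2)] [],
Node.mk [0,820,182,1542,2448,351,2216,21,1476,9,22,2934,1173,1900,1182] [(0,0),(0,2),(0,3),(1,2),(2,5),(3,1)] [],
Node.mk [0,820,182,1542,2448,351,2216,21,1476,9,22,2934,1173,1900] [(0,1),(1,0),(1,1),(1,2),(1,3),(1,4)] [Ref.mk 45 2306 [0,1,2,3] [[0,1,2,3],[0,1,2,5],[0,1,2,3],[0,1,2,3]],Ref.mk 1587 2676 [0,1,2,3] [[0,1,2,3,4],[0,1,2,3,4,5],[0,1,2,3,4,5],[0,1,2,3,4]],Ref.mk 1182 2677 [0,1,2,3] [[0,1,2,3,4],[0,1,2,3,4,5],[0,1,2,3,4,5],[0,1,2,3,4]]],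
Node.mk [0,820,182,1542,2448,351,2216,21,1476,9,22,2934,1173,1981,1587] [(0,0),(0,2),(0,3),(1,2),(2,1),(3,2)] [],
Node.mk [0,820,182,1542,2448,351,2216,21,1476,9,22,2934,1173,1981,1263] [(0,0),(0,1),(0,2),(0,3),(1,2),(3,1)] [],
Node.mk [0,820,182,1542,2448,351,2216,21,1476,9,22,2934,1173,1981] [(0,1),(1,0),(1,1),(1,2),(1,3),(1,4)] [Ref.mk 45 2306 [0,1,2,3] [[0,1,2,3],[0,1,2,5],[0,1,2,3],[0,1,2,3]],Ref.mk 1587 2679 [0,1,2,3] [[0,1,2,3,4],[0,1,2,3,4,5],[0,1,2,3,4,5,6],[0,1,2,3,4]],Ref.mk 1263 2680 [0,1,2,3] [[0,1,2,3,4],[0,1,2,3,4,5],[0,1,2,3,4,5,6],[0,1,2,3,4]]],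
Node.mk [0,820,182,1542,2448,351,2216,21,1476,9,22,2934,1173,1909,1139] [(0,0),(0,1),(0,2),(1,2),(2,1),(2,5)] [Ref.mk 777 2575 [0,1,2,3] [[0,1,2,3,4],[0,1,2,3,5],[0,1,2,3,4],[0,1,2,3,4]],Ref.mk 939 2654 [0,1,2,3] [[0,1,2,3,4],[0,1,2,3,5],[0,1,2,3,4],[0,1,2,3,4]],Ref.mk 1020 2662 [0,1,2,3] [[0,1,2,3,4],[0,1,2,3,5,4],[0,1,2,3,4,5],[0,1,2,3,4]],Ref.mk 1101 2669 [0,1,2,3] [[0,1,2,3,4],[0,1,2,3,5,4],[0,1,2,3,4,5],[0,1,2,3,4]],Ref.mk 1263 2680 [0,1,2,3] [[0,1,2,3,4],[0,1,2,3,5,4],[0,1,2,3,4,6,5],[0,1,2,3,4]]],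
Node.mk [0,820,182,1542,2448,351,2216,21,1476,9,22,2934,1173,1909,1877] [(0,0),(0,2),(0,3),(1,2),(2,1),(2,5)] [Ref.mk 1495 2575 [3,1,2,0] [[0,1,3,2,4],[0,1,2,3,4],[0,1,3,2,4],[0,1,3,2,4]],Ref.mk 1657 2662 [3,1,2,0] [[0,1,3,2,4],[0,1,2,3,4,5],[0,1,3,2,4,5],[0,1,3,2,4]],Ref.mk 1738 2654 [3,1,2,0] [[0,1,3,2,4],[0,1,2,3,4],[0,1,3,2,4],[0,1,3,2,4]],Ref.mk 1819 2669 [3,1,2,0] [[0,1,3,2,4],[0,1,2,3,4,5],[0,1,3,2,4,5],[0,1,3,2,4]],Ref.mk 1981 2680 [3,1,2,0] [[0,1,3,2,4],[0,1,2,3,4,5],[0,1,3,2,4,6,5],[0,1,3,2,4]]],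
Node.mk [0,820,182,1542,2448,351,2216,21,1476,9,22,2934,1173,1909,23] [(0,0),(0,1),(0,2),(0,3),(1,2),(2,1)] [Ref.mk 1138 2682 [0,1,2,3] [[0,1,2,3,5,4],[0,1,2,3,4,5],[0,1,2,3,4,5],[0,1,2,3,4]],Ref.mk 1876 2683 [0,1,2,3] [[0,1,2,3,5,4],[0,1,2,3,4,5],[0,1,2,3,4,5],[0,1,2,3,4]],Ref.mk 1139 2682 [0,1,2,3] [[0,1,2,3,4,5],[0,1,2,3,4,5],[0,1,2,3,4,5],[0,1,2,3,4]],Ref.mk 1877 2683 [0,1,2,3] [[0,1,2,3,4,5],[0,1,2,3,4,5],[0,1,2,3,4,5],[0,1,2,3,4]],Ref.mk 1140 2682 [0,1,2,3] [[0,1,2,3,5,6],[0,1,2,3,4,5],[0,1,2,3,4,5],[0,1,2,3,4]],Ref.mk 1878 2683 [0,1,2,3] [[0,1,2,3,5,6],[0,1,2,3,4,5],[0,1,2,3,4,5],[0,1,2,3,4]]],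
Node.mk [0,820,182,1542,2448,351,2216,21,1476,9,22,2934,1173,1909] [(0,0),(0,1),(0,2),(0,3),(0,4),(2,1)] [Ref.mk 1139 2682 [0,1,2,3] [[0,1,2,3,4,5],[0,1,2,3,4,5],[0,1,2,3,4,5],[0,1,2,3,4]],Ref.mk 1877 2683 [0,1,2,3] [[0,1,2,3,4,5],[0,1,2,3,4,5],[0,1,2,3,4,5],[0,1,2,3,4]],Ref.mk 23 2684 [0,1,2,3] [[0,1,2,3,4,5],[0,1,2,3,4,5],[0,1,2,3,4,5],[0,1,2,3,4]]],
Node.mk [0,820,182,1542,2448,351,2216,21,1476,9,22,2934,1173] [(0,3),(1,0),(1,1),(1,2),(1,3),(2,1)] [Ref.mk 36 2306 [0,1,2,3] [[0,1,2,3],[0,1,2,4],[0,1,2,3],[0,1,2,3]],Ref.mk 45 2306 [0,1,2,3] [[0,1,2,3],[0,1,2,5],[0,1,2,3],[0,1,2,3]],Ref.mk 1495 2575 [3,1,2,0] [[0,1,3,2,4],[0,1,2,3,4],[0,1,3,2,4],[0,1,3,2,4]],Ref.mk 1657 2663 [3,1,2,0] [[0,1,3,2,4],[0,1,2,3,4],[0,1,3,2,4,5],[0,1,3,2,4]],Ref.mk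 1738 2654 [3,1,2,0] [[0,1,3,2,4],[0,1,2,3,4],[0,1,3,2,4],[0,1,3,2,4]],Ref.mk 1819 2670 [3,1,2,0] [[0,1,3,2,4],[0,1,2,3,4],[0,1,3,2,4,5],[0,1,3,2,4]],Ref.mk 1900 2678 [0,1,2,3] [[0,1,2,3,4],[0,1,2,3,4],[0,1,2,3,4,5],[0,1,2,3,4]],Ref.mk 1981 2681 [0,1,2,3] [[0,1,2,3,4],[0,1,2,3,4],[0,1,2,3,4,5,6],[0,1,2,3,4]],Ref.mk 1909 2685 [0,1,2,3] [[0,1,2,3,4],[0,1,2,3,4,5],[0,1,2,3,4,5],[0,1,2,3,4]]],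
Node.mk [0,820,182,1542,2448,351,2216,21,1476,9,22,2934] [(0,1),(1,0),(1,1),(1,2),(1,3),(2,1)] [Ref.mk 36 2306 [0,1,2,3] [[0,1,2,3],[0,1,2,4],[0,1,2,3],[0,1,2,3]],Ref.mk 768 2575 [0,1,2,3] [[0,1,2,3,4],[0,1,2,3,4],[0,1,2,3,4],[0,1,2,3,4]],Ref.mk 930 2654 [0,1,2,3] [[0,1,2,3,4],[0,1,2,3,4],[0,1,2,3,4],[0,1,2,3,4]],Ref.mk 1011 2664 [0,1,2,3] [[0,1,2,3,4],[0,1,2,3,4],[0,1,2,3,4],[0,1,2,3,4]],Ref.mk 1092 2675 [0,1,2,3] [[0,1,2,3,4],[0,1,2,3,4],[0,1,2,3,4],[0,1,2,3,4]],Ref.mk 1173 2686 [0,1,2,3] [[0,1,2,3,4],[0,1,2,3,4],[0,1,2,3,4,5],[0,1,2,3,4]]]]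

/-- nodes -/
noncomputable def c42 : List Node := [
Node.mk [0,820,182,1542,2448,351,2216,21,1476,9,22] [(0,3),(1,0),(2,1),(3,0),(3,2),(3,3)] [Ref.mk 747 2567 [1,3,2,0] [[2,1,3,0],[2,1,0,3],[0,1,4,2,3],[0,1,3,2,4]],Ref.mk 2934 2687 [0,1,2,3] [[0,1,2,3,4],[0,1,2,3],[0,1,2,3,4],[0,1,2,3,4]]],
Node.mk [0,820,182,1542,2448,351,2216,21,1476,9] [(0,0),(0,2),(0,3),(1,0),(2,1),(3,2)] [Ref.mk 19 2568 [0,1,2,3] [[0,1,2,3],[0,1,2,3],[0,1,2,3,4],[0,1,2,3]],Ref.mk 271 2572 [0,1,2,3] [[0,1,2,3],[0,1,2,3],[0,1,2,3,4],[0,1,2,3]],Ref.mk 22 2688 [0,1,2,3] [[0,1,2,3,4],[0,1,2,3],[0,1,2,3,4],[0,1,2,3]]],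
Node.mk [0,820,182,1542,2448,351,2216,21,1476,2358,733,1495] [(0,0),(0,1),(0,2),(0,3),(0,4),(2,0)] [],
Node.mk [0,820,182,1542,2448,351,2216,21,1476,2358,733] [(0,3),(1,0),(1,1),(1,2),(1,3),(2,1)] [Ref.mk 36 2306 [0,1,2,3] [[0,1,2,3],[0,1,2,4],[0,1,2,3],[0,1,2,3]],Ref.mk 1495 2690 [0,1,2,3] [[0,1,2,3,4],[0,1,2,3,4],[0,1,2,3,4],[0,1,2,3]]],
Node.mk [0,820,182,1542,2448,351,2216,21,1476,2358,895,1657] [(0,0),(0,1),(0,2),(0,3),(0,4),(2,2)] [],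
Node.mk [0,820,182,1542,2448,351,2216,21,1476,2358,895] [(0,3),(1,0),(1,1),(1,2),(1,3),(2,1)] [Ref.mk 36 2306 [0,1,2,3] [[0,1,2,3],[0,1,2,4],[0,1,2,3],[0,1,2,3]],Ref.mk 1657 2692 [0,1,2,3] [[0,1,2,3,4],[0,1,2,3,4],[0,1,2,3,4],[0,1,2,3]]],
Node.mk [0,820,182,1542,2448,351,2216,21,1476,2358] [(0,0),(0,1),(0,2),(0,3),(1,1),(2,1)] [Ref.mk 733 2691 [0,1,2,3] [[0,1,2,3,4],[0,1,2,3],[0,1,2,3,4],[0,1,2,3]],Ref.mk 895 2693 [0,1,2,3] [[0,1,2,3,4],[0,1,2,3],[0,1,2,3,4],[0,1,2,3]]],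
Node.mk [0,820,182,1542,2448,351,2216,21,1476,2522] [(0,2),(1,1),(2,0),(2,1),(2,4),(3,3)] [],
Node.mk [0,820,182,1542,2448,351,2216,21,1476] [(0,3),(1,0),(1,2),(1,3),(2,1),(3,2)] [Ref.mk 9 2689 [0,1,2,3] [[0,1,2,3],[0,1,2,3],[0,1,2,3,4],[0,1,2,3]],Ref.mk 2358 2694 [0,1,2,3] [[0,1,2,3],[0,1,2,3],[0,1,2,3,4],[0,1,2,3]],Ref.mk 36 2306 [0,1,2,3] [[0,1,2,3],[0,1,2,4],[0,1,2,3],[0,1,2,3]],Ref.mk 254 2694 [3,1,2,0] [[0,1,3,2],[0,1,2,3],[0,1,3,2,4],[0,1,3,2]],Ref.mk 2522 2695 [0,1,2,3] [[0,1,2,3],[0,1,2,3],[0,1,2,3,4],[0,1,2,3]]],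
Node.mk [0,820,182,1542,2448,351,2216,21,2934,9,19,768,1471,244] [(0,0),(0,1),(0,3),(0,4),(1,2),(2,0)] [],
Node.mk [0,820,182,1542,2448,351,2216,21,2934,9,19,768,1471,2297] [(0,0),(0,1),(0,2),(0,3),(2,0),(2,1)] [],
Node.mk [0,820,182,1542,2448,351,2216,21,2934,9,19,768,1471] [(0,0),(0,3),(1,2),(1,4),(2,0),(3,1)] [Ref.mk 244 2697 [0,1,2,3] [[0,1,2,3,4],[0,1,2,3,4],[0,1,2,3,4],[0,1,2,3,4]],Ref.mk 2297 2698 [0,1,2,3] [[0,1,2,3,4],[0,1,2,3,4],[0,1,2,3,4],[0,1,2,3,4]]],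
Node.mk [0,820,182,1542,2448,351,2216,21,2934,9,19,768,22,244] [(0,0),(0,1),(0,2),(0,3),(1,0),(3,0)] [Ref.mk 1471 2697 [0,1,2,3] [[0,1,2,3,4],[0,1,2,3,4],[0,1,2,3,4],[0,1,2,3,4]],Ref.mk 1472 2697 [0,1,2,3] [[0,1,2,3,5],[0,1,2,3,4],[0,1,2,3,4],[0,1,2,3,4]]],
Node.mk [0,820,182,1542,2448,351,2216,21,2934,9,19,768,22,2297] [(0,0),(0,1),(0,2),(0,3),(2,0),(2,1)] [],
Node.mk [0,820,182,1542,2448,351,2216,21,2934,9,19,768,22] [(0,0),(0,3),(1,2),(1,4),(2,0),(3,1)] [Ref.mk 244 2700 [0,1,2,3] [[0,1,2,3,4],[0,1,2,3,4],[0,1,2,3,4],[0,1,2,3,4]],Ref.mk 2297 2701 [0,1,2,3] [[0,1,2,3,4],[0,1,2,3,4],[0,1,2,3,4],[0,1,2,3,4]]],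
Node.mk [0,820,182,1542,2448,351,2216,21,2934,9,19,768] [(0,0),(0,1),(0,2),(0,3),(1,0),(2,1)] [Ref.mk 1471 2699 [0,1,2,3] [[0,1,2,3,4],[0,1,2,3,4],[0,1,2,3,4],[0,1,2,3,4]],Ref.mk 22 2702 [0,1,2,3] [[0,1,2,3,4],[0,1,2,3,4],[0,1,2,3,4],[0,1,2,3,4]]],
Node.mk [0,820,182,1542,2448,351,2216,21,2934,9,19,930,1633,1666] [(0,0),(0,2),(1,2),(2,1),(2,2),(3,2)] [],
Node.mk [0,820,182,1542,2448,351,2216,21,2934,9,19,930,1633,859] [(0,0),(0,2),(0,4),(1,2),(2,1),(3,1)] [Ref.mk 1666 2704 [0,1,2,3] [[0,1,2,3,4],[0,1,2,3,4,5],[0,1,2,3,4],[0,1,2,3,4]]],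
Node.mk [0,820,182,1542,2448,351,2216,21,2934,9,19,930,1633] [(0,3),(1,0),(1,1),(1,2),(1,3),(1,4)] [Ref.mk 45 2306 [0,1,2,3] [[0,1,2,3],[0,1,2,5],[0,1,2,3],[0,1,2,3]],Ref.mk 1666 2704 [0,1,2,3] [[0,1,2,3,4],[0,1,2,3,4,5],[0,1,2,3,4],[0,1,2,3,4]],Ref.mk 859 2705 [0,1,2,3] [[0,1,2,3,4],[0,1,2,3,4,5],[0,1,2,3,4],[0,1,2,3,4]]],
Node.mk [0,820,182,1542,2448,351,2216,21,2934,9,19,930,22,101,1657,896] [(0,0),(0,2),(1,2),(2,1),(2,2),(3,1)] [],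
Node.mk [0,820,182,1542,2448,351,2216,21,2934,9,19,930,22,101,1657,23] [(0,0),(0,1),(0,2),(0,3),(1,2),(1,4)] [Ref.mk 895 2707 [0,1,2,3] [[0,1,2,3,5,4],[0,1,2,3,4],[0,1,2,3,4],[0,1,2,3,4]],Ref.mk 1633 2707 [0,1,2,3] [[0,3,2,1,5,4],[1,0,2,3,4],[0,1,2,3,4],[0,2,1,3,4]],Ref.mk 896 2707 [0,1,2,3] [[0,1,2,3,4,5],[0,1,2,3,4],[0,1,2,3,4],[0,1,2,3,4]],Ref.mk 1634 2707 [0,1,2,3] [[0,3,2,1,4,5],[1,0,2,3,4],[0,1,2,3,4],[0,2,1,3,4]],Ref.mk 897 2707 [0,1,2,3] [[0,1,2,3,5,6],[0,1,2,3,4],[0,1,2,3,4],[0,1,2,3,4]],Ref.mk 1635 2707 [0,1,2,3] [[0,3,2,1,5,6],[1,0,2,3,4],[0,1,2,3,4],[0,2,1,3,4]]],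
Node.mk [0,820,182,1542,2448,351,2216,21,2934,9,19,930,22,101,1657] [(0,0),(0,1),(0,2),(0,3),(0,4),(1,4)] [Ref.mk 896 2707 [0,1,2,3] [[0,1,2,3,4,5],[0,1,2,3,4],[0,1,2,3,4],[0,1,2,3,4]],Ref.mk 1634 2707 [0,1,2,3] [[0,3,2,1,4,5],[1,0,2,3,4],[0,1,2,3,4],[0,2,1,3,4]],Ref.mk 23 2708 [0,1,2,3] [[0,1,2,3,4,5],[0,1,2,3,4],[0,1,2,3,4],[0,1,2,3,4]]],
Node.mk [0,820,182,1542,2448,351,2216,21,2934,9,19,930,22,101,1738,977] [(1,0),(1,1),(1,2),(1,3),(1,4),(3,1)] [Ref.mk 45 2306 [0,1,2,3] [[0,1,2,3],[0,1,2,5],[0,1,2,3],[0,1,2,3]]],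
Node.mk [0,820,182,1542,2448,351,2216,21,2934,9,19,930,22,101,1738,23] [(0,0),(0,1),(0,2),(0,3),(1,2),(1,4)] [Ref.mk 976 2710 [0,1,2,3] [[0,1,2,3,5,4],[0,1,2,3,4],[0,1,2,3,4],[0,1,2,3,4]],Ref.mk 1633 2706 [0,1,2,3] [[0,1,2,3,4],[0,1,2,3,4],[0,1,2,3,4],[0,1,2,3,4]],Ref.mk 977 2710 [0,1,2,3] [[0,1,2,3,4,5],[0,1,2,3,4],[0,1,2,3,4],[0,1,2,3,4]],Ref.mk 1634 2706 [0,1,2,3] [[0,1,2,3,5],[0,1,2,3,4],[0,1,2,3,4],[0,1,2,3,4]],Ref.mk 978 2710 [0,1,2,3] [[0,1,2,3,5,6],[0,1,2,3,4],[0,1,2,3,4],[0,1,2,3,4]],Ref.mk 1635 2706 [0,1,2,3] [[0,1,2,3,6],[0,1,2,3,4],[0,1,2,3,4],[0,1,2,3,4]]],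
Node.mk [0,820,182,1542,2448,351,2216,21,2934,9,19,930,22,101,1738] [(0,0),(0,1),(0,2),(0,3),(0,4),(1,4)] [Ref.mk 977 2710 [0,1,2,3] [[0,1,2,3,4,5],[0,1,2,3,4],[0,1,2,3,4],[0,1,2,3,4]],Ref.mk 1634 2706 [0,1,2,3] [[0,1,2,3,5],[0,1,2,3,4],[0,1,2,3,4],[0,1,2,3,4]],Ref.mk 23 2711 [0,1,2,3] [[0,1,2,3,4,5],[0,1,2,3,4],[0,1,2,3,4],[0,1,2,3,4]]],
Node.mk [0,820,182,1542,2448,351,2216,21,2934,9,19,930,22,101,1819,1058] [(1,0),(1,1),(1,2),(1,3),(1,4),(3,1)] [Ref.mk 45 2306 [0,1,2,3] [[0,1,2,3],[0,1,2,5],[0,1,2,3],[0,1,2,3]]],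
Node.mk [0,820,182,1542,2448,351,2216,21,2934,9,19,930,22,101,1819,23] [(0,0),(0,1),(0,2),(0,3),(1,2),(1,4)] [Ref.mk 1057 2713 [0,1,2,3] [[0,1,2,3,5,4],[0,1,2,3,4],[0,1,2,3,4],[0,1,2,3,4]],Ref.mk 1633 2706 [0,1,2,3] [[0,1,2,3,4],[0,1,2,3,4],[0,1,2,3,4],[0,1,2,3,4]],Ref.mk 1058 2713 [0,1,2,3] [[0,1,2,3,4,5],[0,1,2,3,4],[0,1,2,3,4],[0,1,2,3,4]],Ref.mk 1634 2706 [0,1,2,3] [[0,1,2,3,5],[0,1,2,3,4],[0,1,2,3,4],[0,1,2,3,4]],Ref.mk 1059 2713 [0,1,2,3] [[0,1,2,3,5,6],[0,1,2,3,4],[0,1,2,3,4],[0,1,2,3,4]],Ref.mk 1635 2706 [0,1,2,3] [[0,1,2,3,6],[0,1,2,3,4],[0,1,2,3,4],[0,1,2,3,4]]],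
Node.mk [0,820,182,1542,2448,351,2216,21,2934,9,19,930,22,101,1819] [(0,0),(0,1),(0,2),(0,3),(0,4),(1,4)] [Ref.mk 1058 2713 [0,1,2,3] [[0,1,2,3,4,5],[0,1,2,3,4],[0,1,2,3,4],[0,1,2,3,4]],Ref.mk 1634 2706 [0,1,2,3] [[0,1,2,3,5],[0,1,2,3,4],[0,1,2,3,4],[0,1,2,3,4]],Ref.mk 23 2714 [0,1,2,3] [[0,1,2,3,4,5],[0,1,2,3,4],[0,1,2,3,4],[0,1,2,3,4]]],
Node.mk [0,820,182,1542,2448,351,2216,21,2934,9,19,930,22,101,1900,1139] [(1,0),(1,1),(1,2),(1,3),(1,4),(3,1)] [Ref.mk 45 2306 [0,1,2,3] [[0,1,2,3],[0,1,2,5],[0,1,2,3],[0,1,2,3]]],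
Node.mk [0,820,182,1542,2448,351,2216,21,2934,9,19,930,22,101,1900,23] [(0,0),(0,1),(0,2),(0,3),(1,2),(1,4)] [Ref.mk 1138 2716 [0,1,2,3] [[0,1,2,3,5,4],[0,1,2,3,4],[0,1,2,3,4,5],[0,1,2,3,4]],Ref.mk 1633 2706 [0,1,2,3] [[0,1,2,3,4],[0,1,2,3,4],[0,1,2,3,4],[0,1,2,3,4]],Ref.mk 1139 2716 [0,1,2,3] [[0,1,2,3,4,5],[0,1,2,3,4],[0,1,2,3,4,5],[0,1,2,3,4]],Ref.mk 1634 2706 [0,1,2,3] [[0,1,2,3,5],[0,1,2,3,4],[0,1,2,3,4],[0,1,2,3,4]],Ref.mk 1140 2716 [0,1,2,3] [[0,1,2,3,5,6],[0,1,2,3,4],[0,1,2,3,4,5],[0,1,2,3,4]],Ref.mk 1635 2706 [0,1,2,3] [[0,1,2,3,6],[0,1,2,3,4],[0,1,2,3,4],[0,1,2,3,4]]],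
Node.mk [0,820,182,1542,2448,351,2216,21,2934,9,19,930,22,101,1900] [(0,0),(0,1),(0,2),(0,3),(0,4),(1,4)] [Ref.mk 1139 2716 [0,1,2,3] [[0,1,2,3,4,5],[0,1,2,3,4],[0,1,2,3,4,5],[0,1,2,3,4]],Ref.mk 1634 2706 [0,1,2,3] [[0,1,2,3,5],[0,1,2,3,4],[0,1,2,3,4],[0,1,2,3,4]],Ref.mk 23 2717 [0,1,2,3] [[0,1,2,3,4,5],[0,1,2,3,4],[0,1,2,3,4,5],[0,1,2,3,4]]],
Node.mk [0,820,182,1542,2448,351,2216,21,2934,9,19,930,22,101,1666] [(1,0),(1,1),(1,2),(1,3),(2,1),(2,2)] [Ref.mk 36 2306 [0,1,2,3] [[0,1,2,3],[0,1,2,4],[0,1,2,3],[0,1,2,3]],Ref.mk 45 2306 [0,1,2,3] [[0,1,2,3],[0,1,2,5],[0,1,2,3],[0,1,2,3]],Ref.mk 54 2306 [0,1,2,3] [[0,1,2,3],[0,1,2,6],[0,1,2,3],[0,1,2,3]],Ref.mk 1495 2703 [0,1,2,3] [[0,3,2,1],[1,0,2,3,4],[0,1,2,3,4],[0,2,1,3,4]],Ref.mk 1738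 2712 [0,1,2,3] [[0,1,2,3,4],[0,1,2,3,4],[0,1,2,3,4],[0,1,2,3,4]],Ref.mk 1819 2715 [0,1,2,3] [[0,1,2,3,4],[0,1,2,3,4],[0,1,2,3,4],[0,1,2,3,4]],Ref.mk 1900 2718 [0,1,2,3] [[0,1,2,3,4],[0,1,2,3,4],[0,1,2,3,4,5],[0,1,2,3,4]],Ref.mk 777 2703 [0,1,2,3] [[0,1,2,3],[0,1,2,3,5],[0,1,2,3,4],[0,1,2,3,4]],Ref.mk 1020 2712 [0,1,2,3] [[0,3,2,1,4],[1,0,2,3,5],[0,1,2,3,4],[0,2,1,3,4]],Ref.mk 1101 2715 [0,1,2,3] [[0,3,2,1,4],[1,0,2,3,5],[0,1,2,3,4],[0,2,1,3,4]],Ref.mk 1182 2718 [0,1,2,3] [[0,3,2,1,4],[1,0,2,3,5],[0,1,2,3,4,5],[0,2,1,3,4]]],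
Node.mk [0,820,182,1542,2448,351,2216,21,2934,9,19,930,22,101] [(0,3),(1,0),(1,1),(1,2),(1,3),(2,1)] [Ref.mk 36 2306 [0,1,2,3] [[0,1,2,3],[0,1,2,4],[0,1,2,3],[0,1,2,3]],Ref.mk 45 2306 [0,1,2,3] [[0,1,2,3],[0,1,2,5],[0,1,2,3],[0,1,2,3]],Ref.mk 1495 2702 [0,1,2,3] [[0,3,2,1,4],[1,0,2,3,4],[0,1,2,3,4],[0,2,1,3,4]],Ref.mk 1657 2709 [0,1,2,3] [[0,1,2,3,4],[0,1,2,3,4],[0,1,2,3,4],[0,1,2,3,4]],Ref.mk 1738 2712 [0,1,2,3] [[0,1,2,3,4],[0,1,2,3,4],[0,1,2,3,4],[0,1,2,3,4]],Ref.mk 1819 2715 [0,1,2,3] [[0,1,2,3,4],[0,1,2,3,4],[0,1,2,3,4],[0,1,2,3,4]],Ref.mk 1900 2718 [0,1,2,3] [[0,1,2,3,4],[0,1,2,3,4],[0,1,2,3,4,5],[0,1,2,3,4]],Ref.mk 1666 2719 [0,1,2,3] [[0,1,2,3,4],[0,1,2,3,4,5],[0,1,2,3,4],[0,1,2,3,4]]],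
Node.mk [0,820,182,1542,2448,351,2216,21,2934,9,19,930,22,263,1657,896] [(0,0),(0,2),(1,2),(2,1),(2,2),(3,1)] [],
Node.mk [0,820,182,1542,2448,351,2216,21,2934,9,19,930,22,263,1657,23] [(0,0),(0,1),(0,2),(0,3),(1,2),(1,4)] [Ref.mk 895 2721 [0,1,2,3] [[0,1,2,3,5,4],[0,1,2,3,4],[0,1,2,3,4],[0,1,2,3,4]],Ref.mk 1633 2721 [0,1,2,3] [[0,3,2,1,5,4],[1,0,2,3,4],[0,1,2,3,4],[0,2,1,3,4]],Ref.mk 896 2721 [0,1,2,3] [[0,1,2,3,4,5],[0,1,2,3,4],[0,1,2,3,4],[0,1,2,3,4]],Ref.mk 1634 2721 [0,1,2,3] [[0,3,2,1,4,5],[1,0,2,3,4],[0,1,2,3,4],[0,2,1,3,4]],Ref.mk 897 2721 [0,1,2,3] [[0,1,2,3,5,6],[0,1,2,3,4],[0,1,2,3,4],[0,1,2,3,4]],Ref.mk 1635 2721 [0,1,2,3] [[0,3,2,1,5,6],[1,0,2,3,4],[0,1,2,3,4],[0,2,1,3,4]]],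
Node.mk [0,820,182,1542,2448,351,2216,21,2934,9,19,930,22,263,1657] [(0,0),(0,1),(0,2),(0,3),(0,4),(1,4)] [Ref.mk 896 2721 [0,1,2,3] [[0,1,2,3,4,5],[0,1,2,3,4],[0,1,2,3,4],[0,1,2,3,4]],Ref.mk 1634 2721 [0,1,2,3] [[0,3,2,1,4,5],[1,0,2,3,4],[0,1,2,3,4],[0,2,1,3,4]],Ref.mk 23 2722 [0,1,2,3] [[0,1,2,3,4,5],[0,1,2,3,4],[0,1,2,3,4],[0,1,2,3,4]]],
Node.mk [0,820,182,1542,2448,351,2216,21,2934,9,19,930,22,263,1738,977] [(1,0),(1,1),(1,2),(1,3),(1,4),(3,1)] [Ref.mk 45 2306 [0,1,2,3] [[0,1,2,3],[0,1,2,5],[0,1,2,3],[0,1,2,3]]],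
Node.mk [0,820,182,1542,2448,351,2216,21,2934,9,19,930,22,263,1738,23] [(0,0),(0,1),(0,2),(0,3),(1,2),(1,4)] [Ref.mk 976 2724 [0,1,2,3] [[0,1,2,3,5,4],[0,1,2,3,4],[0,1,2,3,4],[0,1,2,3,4]],Ref.mk 1633 2706 [0,1,2,3] [[0,1,2,3,4],[0,1,2,3,4],[0,1,2,3,4],[0,1,2,3,4]],Ref.mk 977 2724 [0,1,2,3] [[0,1,2,3,4,5],[0,1,2,3,4],[0,1,2,3,4],[0,1,2,3,4]],Ref.mk 1634 2706 [0,1,2,3] [[0,1,2,3,5],[0,1,2,3,4],[0,1,2,3,4],[0,1,2,3,4]],Ref.mk 978 2724 [0,1,2,3] [[0,1,2,3,5,6],[0,1,2,3,4],[0,1,2,3,4],[0,1,2,3,4]],Ref.mk 1635 2706 [0,1,2,3] [[0,1,2,3,6],[0,1,2,3,4],[0,1,2,3,4],[0,1,2,3,4]]],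
Node.mk [0,820,182,1542,2448,351,2216,21,2934,9,19,930,22,263,1738] [(0,0),(0,1),(0,2),(0,3),(0,4),(1,4)] [Ref.mk 977 2724 [0,1,2,3] [[0,1,2,3,4,5],[0,1,2,3,4],[0,1,2,3,4],[0,1,2,3,4]],Ref.mk 1634 2706 [0,1,2,3] [[0,1,2,3,5],[0,1,2,3,4],[0,1,2,3,4],[0,1,2,3,4]],Ref.mk 23 2725 [0,1,2,3] [[0,1,2,3,4,5],[0,1,2,3,4],[0,1,2,3,4],[0,1,2,3,4]]],
Node.mk [0,820,182,1542,2448,351,2216,21,2934,9,19,930,22,263,1819,1058] [(1,0),(1,1),(1,2),(1,3),(1,4),(3,1)] [Ref.mk 45 2306 [0,1,2,3] [[0,1,2,3],[0,1,2,5],[0,1,2,3],[0,1,2,3]]],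
Node.mk [0,820,182,1542,2448,351,2216,21,2934,9,19,930,22,263,1819,23] [(0,0),(0,1),(0,2),(0,3),(1,2),(1,4)] [Ref.mk 1057 2727 [0,1,2,3] [[0,1,2,3,5,4],[0,1,2,3,4],[0,1,2,3,4],[0,1,2,3,4]],Ref.mk 1633 2706 [0,1,2,3] [[0,1,2,3,4],[0,1,2,3,4],[0,1,2,3,4],[0,1,2,3,4]],Ref.mk 1058 2727 [0,1,2,3] [[0,1,2,3,4,5],[0,1,2,3,4],[0,1,2,3,4],[0,1,2,3,4]],Ref.mk 1634 2706 [0,1,2,3] [[0,1,2,3,5],[0,1,2,3,4],[0,1,2,3,4],[0,1,2,3,4]],Ref.mk 1059 2727 [0,1,2,3] [[0,1,2,3,5,6],[0,1,2,3,4],[0,1,2,3,4],[0,1,2,3,4]],Ref.mk 1635 2706 [0,1,2,3] [[0,1,2,3,6],[0,1,2,3,4],[0,1,2,3,4],[0,1,2,3,4]]],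
Node.mk [0,820,182,1542,2448,351,2216,21,2934,9,19,930,22,263,1819] [(0,0),(0,1),(0,2),(0,3),(0,4),(1,4)] [Ref.mk 1058 2727 [0,1,2,3] [[0,1,2,3,4,5],[0,1,2,3,4],[0,1,2,3,4],[0,1,2,3,4]],Ref.mk 1634 2706 [0,1,2,3] [[0,1,2,3,5],[0,1,2,3,4],[0,1,2,3,4],[0,1,2,3,4]],Ref.mk 23 2728 [0,1,2,3] [[0,1,2,3,4,5],[0,1,2,3,4],[0,1,2,3,4],[0,1,2,3,4]]],
Node.mk [0,820,182,1542,2448,351,2216,21,2934,9,19,930,22,263,1900,1139] [(1,0),(1,1),(1,2),(1,3),(1,4),(3,1)] [Ref.mk 45 2306 [0,1,2,3] [[0,1,2,3],[0,1,2,5],[0,1,2,3],[0,1,2,3]]],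
Node.mk [0,820,182,1542,2448,351,2216,21,2934,9,19,930,22,263,1900,23] [(0,0),(0,1),(0,2),(0,3),(1,2),(1,4)] [Ref.mk 1138 2730 [0,1,2,3] [[0,1,2,3,5,4],[0,1,2,3,4],[0,1,2,3,4,5],[0,1,2,3,4]],Ref.mk 1633 2706 [0,1,2,3] [[0,1,2,3,4],[0,1,2,3,4],[0,1,2,3,4],[0,1,2,3,4]],Ref.mk 1139 2730 [0,1,2,3] [[0,1,2,3,4,5],[0,1,2,3,4],[0,1,2,3,4,5],[0,1,2,3,4]],Ref.mk 1634 2706 [0,1,2,3] [[0,1,2,3,5],[0,1,2,3,4],[0,1,2,3,4],[0,1,2,3,4]],Ref.mk 1140 2730 [0,1,2,3] [[0,1,2,3,5,6],[0,1,2,3,4],[0,1,2,3,4,5],[0,1,2,3,4]],Ref.mk 1635 2706 [0,1,2,3] [[0,1,2,3,6],[0,1,2,3,4],[0,1,2,3,4],[0,1,2,3,4]]],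
Node.mk [0,820,182,1542,2448,351,2216,21,2934,9,19,930,22,263,1900] [(0,0),(0,1),(0,2),(0,3),(0,4),(1,4)] [Ref.mk 1139 2730 [0,1,2,3] [[0,1,2,3,4,5],[0,1,2,3,4],[0,1,2,3,4,5],[0,1,2,3,4]],Ref.mk 1634 2706 [0,1,2,3] [[0,1,2,3,5],[0,1,2,3,4],[0,1,2,3,4],[0,1,2,3,4]],Ref.mk 23 2731 [0,1,2,3] [[0,1,2,3,4,5],[0,1,2,3,4],[0,1,2,3,4,5],[0,1,2,3,4]]],
Node.mk [0,820,182,1542,2448,351,2216,21,2934,9,19,930,22,263,1666] [(1,0),(1,1),(1,2),(1,3),(2,1),(2,2)] [Ref.mk 36 2306 [0,1,2,3] [[0,1,2,3],[0,1,2,4],[0,1,2,3],[0,1,2,3]],Ref.mk 45 2306 [0,1,2,3] [[0,1,2,3],[0,1,2,5],[0,1,2,3],[0,1,2,3]],Ref.mk 54 2306 [0,1,2,3] [[0,1,2,3],[0,1,2,6],[0,1,2,3],[0,1,2,3]],Ref.mk 1495 2703 [0,1,2,3] [[0,3,2,1],[1,0,2,3,4],[0,1,2,3,4],[0,2,1,3,4]],Ref.mk 1738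 2726 [0,1,2,3] [[0,1,2,3,4],[0,1,2,3,4],[0,1,2,3,4],[0,1,2,3,4]],Ref.mk 1819 2729 [0,1,2,3] [[0,1,2,3,4],[0,1,2,3,4],[0,1,2,3,4],[0,1,2,3,4]],Ref.mk 1900 2732 [0,1,2,3] [[0,1,2,3,4],[0,1,2,3,4],[0,1,2,3,4,5],[0,1,2,3,4]],Ref.mk 777 2703 [0,1,2,3] [[0,1,2,3],[0,1,2,3,5],[0,1,2,3,4],[0,1,2,3,4]],Ref.mk 1020 2726 [0,1,2,3] [[0,3,2,1,4],[1,0,2,3,5],[0,1,2,3,4],[0,2,1,3,4]],Ref.mk 1101 2729 [0,1,2,3] [[0,3,2,1,4],[1,0,2,3,5],[0,1,2,3,4],[0,2,1,3,4]],Ref.mk 1182 2732 [0,1,2,3] [[0,3,2,1,4],[1,0,2,3,5],[0,1,2,3,4,5],[0,2,1,3,4]]],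
Node.mk [0,820,182,1542,2448,351,2216,21,2934,9,19,930,22,263] [(0,3),(1,0),(1,1),(1,2),(1,3),(2,1)] [Ref.mk 36 2306 [0,1,2,3] [[0,1,2,3],[0,1,2,4],[0,1,2,3],[0,1,2,3]],Ref.mk 45 2306 [0,1,2,3] [[0,1,2,3],[0,1,2,5],[0,1,2,3],[0,1,2,3]],Ref.mk 1495 2702 [0,1,2,3] [[0,3,2,1,4],[1,0,2,3,4],[0,1,2,3,4],[0,2,1,3,4]],Ref.mk 1657 2723 [0,1,2,3] [[0,1,2,3,4],[0,1,2,3,4],[0,1,2,3,4],[0,1,2,3,4]],Ref.mk 1738 2726 [0,1,2,3] [[0,1,2,3,4],[0,1,2,3,4],[0,1,2,3,4],[0,1,2,3,4]],Ref.mk 1819 2729 [0,1,2,3] [[0,1,2,3,4],[0,1,2,3,4],[0,1,2,3,4],[0,1,2,3,4]],Ref.mk 1900 2732 [0,1,2,3] [[0,1,2,3,4],[0,1,2,3,4],[0,1,2,3,4,5],[0,1,2,3,4]],Ref.mk 1666 2733 [0,1,2,3] [[0,1,2,3,4],[0,1,2,3,4,5],[0,1,2,3,4],[0,1,2,3,4]]],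
Node.mk [0,820,182,1542,2448,351,2216,21,2934,9,19,930,22,344,1657,896] [(0,0),(0,2),(1,2),(2,1),(2,2),(3,1)] [],
Node.mk [0,820,182,1542,2448,351,2216,21,2934,9,19,930,22,344,1657,23] [(0,0),(0,1),(0,2),(0,3),(1,2),(1,4)] [Ref.mk 895 2735 [0,1,2,3] [[0,1,2,3,5,4],[0,1,2,3,4],[0,1,2,3,4],[0,1,2,3,4]],Ref.mk 1633 2735 [0,1,2,3] [[0,3,2,1,5,4],[1,0,2,3,4],[0,1,2,3,4],[0,2,1,3,4]],Ref.mk 896 2735 [0,1,2,3] [[0,1,2,3,4,5],[0,1,2,3,4],[0,1,2,3,4],[0,1,2,3,4]],Ref.mk 1634 2735 [0,1,2,3] [[0,3,2,1,4,5],[1,0,2,3,4],[0,1,2,3,4],[0,2,1,3,4]],Ref.mk 897 2735 [0,1,2,3] [[0,1,2,3,5,6],[0,1,2,3,4],[0,1,2,3,4],[0,1,2,3,4]],Ref.mk 1635 2735 [0,1,2,3] [[0,3,2,1,5,6],[1,0,2,3,4],[0,1,2,3,4],[0,2,1,3,4]]],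
Node.mk [0,820,182,1542,2448,351,2216,21,2934,9,19,930,22,344,1657] [(0,0),(0,1),(0,2),(0,3),(0,4),(1,4)] [Ref.mk 896 2735 [0,1,2,3] [[0,1,2,3,4,5],[0,1,2,3,4],[0,1,2,3,4],[0,1,2,3,4]],Ref.mk 1634 2735 [0,1,2,3] [[0,3,2,1,4,5],[1,0,2,3,4],[0,1,2,3,4],[0,2,1,3,4]],Ref.mk 23 2736 [0,1,2,3] [[0,1,2,3,4,5],[0,1,2,3,4],[0,1,2,3,4],[0,1,2,3,4]]],
Node.mk [0,820,182,1542,2448,351,2216,21,2934,9,19,930,22,344,1738,977] [(1,0),(1,1),(1,2),(1,3),(1,4),(3,1)] [Ref.mk 45 2306 [0,1,2,3] [[0,1,2,3],[0,1,2,5],[0,1,2,3],[0,1,2,3]]],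
Node.mk [0,820,182,1542,2448,351,2216,21,2934,9,19,930,22,344,1738,23] [(0,0),(0,1),(0,2),(0,3),(1,2),(1,4)] [Ref.mk 976 2738 [0,1,2,3] [[0,1,2,3,5,4],[0,1,2,3,4],[0,1,2,3,4],[0,1,2,3,4]],Ref.mk 1633 2706 [0,1,2,3] [[0,1,2,3,4],[0,1,2,3,4],[0,1,2,3,4],[0,1,2,3,4]],Ref.mk 977 2738 [0,1,2,3] [[0,1,2,3,4,5],[0,1,2,3,4],[0,1,2,3,4],[0,1,2,3,4]],Ref.mk 1634 2706 [0,1,2,3] [[0,1,2,3,5],[0,1,2,3,4],[0,1,2,3,4],[0,1,2,3,4]],Ref.mk 978 2738 [0,1,2,3] [[0,1,2,3,5,6],[0,1,2,3,4],[0,1,2,3,4],[0,1,2,3,4]],Ref.mk 1635 2706 [0,1,2,3] [[0,1,2,3,6],[0,1,2,3,4],[0,1,2,3,4],[0,1,2,3,4]]],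
Node.mk [0,820,182,1542,2448,351,2216,21,2934,9,19,930,22,344,1738] [(0,0),(0,1),(0,2),(0,3),(0,4),(1,4)] [Ref.mk 977 2738 [0,1,2,3] [[0,1,2,3,4,5],[0,1,2,3,4],[0,1,2,3,4],[0,1,2,3,4]],Ref.mk 1634 2706 [0,1,2,3] [[0,1,2,3,5],[0,1,2,3,4],[0,1,2,3,4],[0,1,2,3,4]],Ref.mk 23 2739 [0,1,2,3] [[0,1,2,3,4,5],[0,1,2,3,4],[0,1,2,3,4],[0,1,2,3,4]]],
Node.mk [0,820,182,1542,2448,351,2216,21,2934,9,19,930,22,344,1819,1058] [(1,0),(1,1),(1,2),(1,3),(1,4),(3,1)] [Ref.mk 45 2306 [0,1,2,3] [[0,1,2,3],[0,1,2,5],[0,1,2,3],[0,1,2,3]]],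
Node.mk [0,820,182,1542,2448,351,2216,21,2934,9,19,930,22,344,1819,23] [(0,0),(0,1),(0,2),(0,3),(1,2),(1,4)] [Ref.mk 1057 2741 [0,1,2,3] [[0,1,2,3,5,4],[0,1,2,3,4],[0,1,2,3,4],[0,1,2,3,4]],Ref.mk 1633 2706 [0,1,2,3] [[0,1,2,3,4],[0,1,2,3,4],[0,1,2,3,4],[0,1,2,3,4]],Ref.mk 1058 2741 [0,1,2,3] [[0,1,2,3,4,5],[0,1,2,3,4],[0,1,2,3,4],[0,1,2,3,4]],Ref.mk 1634 2706 [0,1,2,3] [[0,1,2,3,5],[0,1,2,3,4],[0,1,2,3,4],[0,1,2,3,4]],Ref.mk 1059 2741 [0,1,2,3] [[0,1,2,3,5,6],[0,1,2,3,4],[0,1,2,3,4],[0,1,2,3,4]],Ref.mk 1635 2706 [0,1,2,3] [[0,1,2,3,6],[0,1,2,3,4],[0,1,2,3,4],[0,1,2,3,4]]],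
Node.mk [0,820,182,1542,2448,351,2216,21,2934,9,19,930,22,344,1819] [(0,0),(0,1),(0,2),(0,3),(0,4),(1,4)] [Ref.mk 1058 2741 [0,1,2,3] [[0,1,2,3,4,5],[0,1,2,3,4],[0,1,2,3,4],[0,1,2,3,4]],Ref.mk 1634 2706 [0,1,2,3] [[0,1,2,3,5],[0,1,2,3,4],[0,1,2,3,4],[0,1,2,3,4]],Ref.mk 23 2742 [0,1,2,3] [[0,1,2,3,4,5],[0,1,2,3,4],[0,1,2,3,4],[0,1,2,3,4]]],
Node.mk [0,820,182,1542,2448,351,2216,21,2934,9,19,930,22,344,1900,1139] [(1,0),(1,1),(1,2),(1,3),(1,4),(3,1)] [Ref.mk 45 2306 [0,1,2,3] [[0,1,2,3],[0,1,2,5],[0,1,2,3],[0,1,2,3]]],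
Node.mk [0,820,182,1542,2448,351,2216,21,2934,9,19,930,22,344,1900,23] [(0,0),(0,1),(0,2),(0,3),(1,2),(1,4)] [Ref.mk 1138 2744 [0,1,2,3] [[0,1,2,3,5,4],[0,1,2,3,4],[0,1,2,3,4,5],[0,1,2,3,4]],Ref.mk 1633 2706 [0,1,2,3] [[0,1,2,3,4],[0,1,2,3,4],[0,1,2,3,4],[0,1,2,3,4]],Ref.mk 1139 2744 [0,1,2,3] [[0,1,2,3,4,5],[0,1,2,3,4],[0,1,2,3,4,5],[0,1,2,3,4]],Ref.mk 1634 2706 [0,1,2,3] [[0,1,2,3,5],[0,1,2,3,4],[0,1,2,3,4],[0,1,2,3,4]],Ref.mk 1140 2744 [0,1,2,3] [[0,1,2,3,5,6],[0,1,2,3,4],[0,1,2,3,4,5],[0,1,2,3,4]],Ref.mk 1635 2706 [0,1,2,3] [[0,1,2,3,6],[0,1,2,3,4],[0,1,2,3,4],[0,1,2,3,4]]],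
Node.mk [0,820,182,1542,2448,351,2216,21,2934,9,19,930,22,344,1900] [(0,0),(0,1),(0,2),(0,3),(0,4),(1,4)] [Ref.mk 1139 2744 [0,1,2,3] [[0,1,2,3,4,5],[0,1,2,3,4],[0,1,2,3,4,5],[0,1,2,3,4]],Ref.mk 1634 2706 [0,1,2,3] [[0,1,2,3,5],[0,1,2,3,4],[0,1,2,3,4],[0,1,2,3,4]],Ref.mk 23 2745 [0,1,2,3] [[0,1,2,3,4,5],[0,1,2,3,4],[0,1,2,3,4,5],[0,1,2,3,4]]],
Node.mk [0,820,182,1542,2448,351,2216,21,2934,9,19,930,22,344,1666] [(1,0),(1,1),(1,2),(1,3),(2,1),(2,2)] [Ref.mk 36 2306 [0,1,2,3] [[0,1,2,3],[0,1,2,4],[0,1,2,3],[0,1,2,3]],Ref.mk 45 2306 [0,1,2,3] [[0,1,2,3],[0,1,2,5],[0,1,2,3],[0,1,2,3]],Ref.mk 54 2306 [0,1,2,3] [[0,1,2,3],[0,1,2,6],[0,1,2,3],[0,1,2,3]],Ref.mk 1495 2703 [0,1,2,3] [[0,3,2,1],[1,0,2,3,4],[0,1,2,3,4],[0,2,1,3,4]],Ref.mk 1738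 2740 [0,1,2,3] [[0,1,2,3,4],[0,1,2,3,4],[0,1,2,3,4],[0,1,2,3,4]],Ref.mk 1819 2743 [0,1,2,3] [[0,1,2,3,4],[0,1,2,3,4],[0,1,2,3,4],[0,1,2,3,4]],Ref.mk 1900 2746 [0,1,2,3] [[0,1,2,3,4],[0,1,2,3,4],[0,1,2,3,4,5],[0,1,2,3,4]],Ref.mk 777 2703 [0,1,2,3] [[0,1,2,3],[0,1,2,3,5],[0,1,2,3,4],[0,1,2,3,4]],Ref.mk 1020 2740 [0,1,2,3] [[0,3,2,1,4],[1,0,2,3,5],[0,1,2,3,4],[0,2,1,3,4]],Ref.mk 1101 2743 [0,1,2,3] [[0,3,2,1,4],[1,0,2,3,5],[0,1,2,3,4],[0,2,1,3,4]],Ref.mk 1182 2746 [0,1,2,3] [[0,3,2,1,4],[1,0,2,3,5],[0,1,2,3,4,5],[0,2,1,3,4]]],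
Node.mk [0,820,182,1542,2448,351,2216,21,2934,9,19,930,22,344] [(0,3),(1,0),(1,1),(1,2),(1,3),(2,1)] [Ref.mk 36 2306 [0,1,2,3] [[0,1,2,3],[0,1,2,4],[0,1,2,3],[0,1,2,3]],Ref.mk 45 2306 [0,1,2,3] [[0,1,2,3],[0,1,2,5],[0,1,2,3],[0,1,2,3]],Ref.mk 1495 2702 [0,1,2,3] [[0,3,2,1,4],[1,0,2,3,4],[0,1,2,3,4],[0,2,1,3,4]],Ref.mk 1657 2737 [0,1,2,3] [[0,1,2,3,4],[0,1,2,3,4],[0,1,2,3,4],[0,1,2,3,4]],Ref.mk 1738 2740 [0,1,2,3] [[0,1,2,3,4],[0,1,2,3,4],[0,1,2,3,4],[0,1,2,3,4]],Ref.mk 1819 2743 [0,1,2,3] [[0,1,2,3,4],[0,1,2,3,4],[0,1,2,3,4],[0,1,2,3,4]],Ref.mk 1900 2746 [0,1,2,3] [[0,1,2,3,4],[0,1,2,3,4],[0,1,2,3,4,5],[0,1,2,3,4]],Ref.mk 1666 2747 [0,1,2,3] [[0,1,2,3,4],[0,1,2,3,4,5],[0,1,2,3,4],[0,1,2,3,4]]],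
Node.mk [0,820,182,1542,2448,351,2216,21,2934,9,19,930,22,425,855] [(0,0),(0,1),(0,2),(2,0),(2,1),(3,1)] [],
Node.mk [0,820,182,1542,2448,351,2216,21,2934,9,19,930,22,425,856] [(0,0),(0,1),(0,2),(1,2),(2,1),(3,1)] [],
Node.mk [0,820,182,1542,2448,351,2216,21,2934,9,19,930,22,425,1666,896] [(0,0),(0,2),(1,2),(2,1),(2,2),(3,1)] []]

/-- nodes -/
noncomputable def c43 : List Node := [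
Node.mk [0,820,182,1542,2448,351,2216,21,2934,9,19,930,22,425,1666,23] [(0,0),(0,1),(0,2),(0,3),(1,2),(2,1)] [Ref.mk 895 2751 [0,1,2,3] [[0,1,2,3,5,4],[0,1,2,3,4,5],[0,1,2,3,4,5],[0,1,2,3,4]],Ref.mk 1633 2751 [0,1,2,3] [[0,3,2,1,5,4],[1,0,2,3,5,4],[0,1,2,3,4,5],[0,2,1,3,4]],Ref.mk 896 2751 [0,1,2,3] [[0,1,2,3,4,5],[0,1,2,3,4,5],[0,1,2,3,4,5],[0,1,2,3,4]],Ref.mk 1634 2751 [0,1,2,3] [[0,3,2,1,4,5],[1,0,2,3,5,4],[0,1,2,3,4,5],[0,2,1,3,4]],Ref.mk 897 2751 [0,1,2,3] [[0,1,2,3,5,6],[0,1,2,3,4,5],[0,1,2,3,4,5],[0,1,2,3,4]],Ref.mk 1635 2751 [0,1,2,3] [[0,3,2,1,5,6],[1,0,2,3,5,4],[0,1,2,3,4,5],[0,2,1,3,4]]],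
Node.mk [0,820,182,1542,2448,351,2216,21,2934,9,19,930,22,425,1666] [(0,0),(0,1),(0,2),(0,3),(0,4),(2,1)] [Ref.mk 896 2751 [0,1,2,3] [[0,1,2,3,4,5],[0,1,2,3,4,5],[0,1,2,3,4,5],[0,1,2,3,4]],Ref.mk 1634 2751 [0,1,2,3] [[0,3,2,1,4,5],[1,0,2,3,5,4],[0,1,2,3,4,5],[0,2,1,3,4]],Ref.mk 23 2752 [0,1,2,3] [[0,1,2,3,4,5],[0,1,2,3,4,5],[0,1,2,3,4,5],[0,1,2,3,4]]],
Node.mk [0,820,182,1542,2448,351,2216,21,2934,9,19,930,22,425,857] [(0,0),(0,1),(0,2),(1,2),(2,1),(3,1)] [],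
Node.mk [0,820,182,1542,2448,351,2216,21,2934,9,19,930,22,425,859] [(0,0),(0,1),(0,2),(1,2),(2,1),(3,1)] [Ref.mk 1633 2705 [0,1,2,3] [[0,1,2,3,4],[0,1,2,3,4,5],[0,1,2,3,4],[0,1,2,3,4]]],
Node.mk [0,820,182,1542,2448,351,2216,21,2934,9,19,930,22,425,860] [(0,0),(0,1),(0,2),(1,2),(2,1),(3,1)] [Ref.mk 1634 2705 [0,1,2,3] [[0,1,2,3,5],[0,1,2,3,4,5],[0,1,2,3,4],[0,1,2,3,4]]],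
Node.mk [0,820,182,1542,2448,351,2216,21,2934,9,19,930,22,425] [(0,3),(1,0),(1,1),(1,2),(1,3),(1,4)] [Ref.mk 45 2306 [0,1,2,3] [[0,1,2,3],[0,1,2,5],[0,1,2,3],[0,1,2,3]],Ref.mk 855 2749 [0,1,2,3] [[0,1,2,3,4],[0,1,2,3,4,5],[0,1,2,3,4,5],[0,1,2,3,4]],Ref.mk 856 2750 [0,1,2,3] [[0,1,2,3,4],[0,1,2,3,4,5],[0,1,2,3,4,5],[0,1,2,3,4]],Ref.mk 1666 2753 [0,1,2,3] [[0,1,2,3,4],[0,1,2,3,4,5],[0,1,2,3,4,5],[0,1,2,3,4]],Ref.mk 857 2754 [0,1,2,3] [[0,1,2,3,4],[0,1,2,3,4,5],[0,1,2,3,4,5],[0,1,2,3,4]],Ref.mk 859 2755 [0,1,2,3] [[0,1,2,3,4],[0,1,2,3,4,5],[0,1,2,3,4,5],[0,1,2,3,4]],Ref.mk 860 2756 [0,1,2,3] [[0,1,2,3,4,5],[0,1,2,3,4,5],[0,1,2,3,4,5],[0,1,2,3,4]]],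
Node.mk [0,820,182,1542,2448,351,2216,21,2934,9,19,930,22] [(0,0),(0,3),(1,4),(2,0),(2,2),(3,1)] [Ref.mk 101 2720 [0,1,2,3] [[0,1,2,3,4],[0,1,2,3,4],[0,1,2,3,4],[0,1,2,3,4]],Ref.mk 263 2734 [0,1,2,3] [[0,1,2,3,4],[0,1,2,3,4],[0,1,2,3,4],[0,1,2,3,4]],Ref.mk 344 2748 [0,1,2,3] [[0,1,2,3,4],[0,1,2,3,4],[0,1,2,3,4],[0,1,2,3,4]],Ref.mk 425 2757 [0,1,2,3] [[0,1,2,3,4],[0,1,2,3,4],[0,1,2,3,4,5],[0,1,2,3,4]]],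
Node.mk [0,820,182,1542,2448,351,2216,21,2934,9,19,930] [(0,0),(0,1),(0,2),(0,3),(1,0),(2,1)] [Ref.mk 1633 2706 [0,1,2,3] [[0,1,2,3,4],[0,1,2,3,4],[0,1,2,3,4],[0,1,2,3,4]],Ref.mk 22 2758 [0,1,2,3] [[0,1,2,3,4],[0,1,2,3,4],[0,1,2,3,4],[0,1,2,3,4]]],
Node.mk [0,820,182,1542,2448,351,2216,21,2934,9,19,1011,1714,1747] [(0,0),(0,2),(2,0),(2,1),(2,3),(3,2)] [],
Node.mk [0,820,182,1542,2448,351,2216,21,2934,9,19,1011,1714,859] [(0,0),(0,2),(0,4),(1,2),(2,1),(3,1)] [Ref.mk 1747 2760 [0,1,2,3] [[0,1,2,3,4],[0,1,2,3,4,5],[0,1,2,3,4],[0,1,2,3,4]]],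
Node.mk [0,820,182,1542,2448,351,2216,21,2934,9,19,1011,1714] [(0,3),(1,0),(1,1),(1,2),(1,3),(1,4)] [Ref.mk 45 2306 [0,1,2,3] [[0,1,2,3],[0,1,2,5],[0,1,2,3],[0,1,2,3]],Ref.mk 1747 2760 [0,1,2,3] [[0,1,2,3,4],[0,1,2,3,4,5],[0,1,2,3,4],[0,1,2,3,4]],Ref.mk 859 2761 [0,1,2,3] [[0,1,2,3,4],[0,1,2,3,4,5],[0,1,2,3,4],[0,1,2,3,4]]],
Node.mk [0,820,182,1542,2448,351,2216,21,2934,9,19,1011,22,1738,1587] [(0,0),(0,1),(0,2),(0,3),(1,2),(1,4)] [Ref.mk 1714 2762 [0,1,2,3] [[0,1,2,3,4],[0,1,2,3,4],[0,1,2,3,4],[0,1,2,3,4]],Ref.mk 1715 2762 [0,1,2,3] [[0,1,2,3,5],[0,1,2,3,4],[0,1,2,3,4],[0,1,2,3,4]]],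
Node.mk [0,820,182,1542,2448,351,2216,21,2934,9,19,1011,22,1738,1020] [(0,0),(0,1),(0,2),(0,3),(1,2),(3,1)] [Ref.mk 1714 2760 [0,1,2,3] [[0,1,2,3,4],[0,1,2,3,5,4],[0,1,2,3,4],[0,1,2,3,4]],Ref.mk 1715 2760 [0,1,2,3] [[0,1,2,3,5],[0,1,2,3,5,4],[0,1,2,3,4],[0,1,2,3,4]]],
Node.mk [0,820,182,1542,2448,351,2216,21,2934,9,19,1011,22,1738] [(0,1),(1,0),(1,1),(1,2),(1,3),(1,4)] [Ref.mk 45 2306 [0,1,2,3] [[0,1,2,3],[0,1,2,5],[0,1,2,3],[0,1,2,3]],Ref.mk 1587 2763 [0,1,2,3] [[0,1,2,3,4],[0,1,2,3,4,5],[0,1,2,3,4],[0,1,2,3,4]],Ref.mk 1020 2764 [0,1,2,3] [[0,1,2,3,4],[0,1,2,3,4,5],[0,1,2,3,4],[0,1,2,3,4]]],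
Node.mk [0,820,182,1542,2448,351,2216,21,2934,9,19,1011,22,1819,1715] [(1,0),(1,1),(1,2),(1,3),(1,4),(3,2)] [Ref.mk 45 2306 [0,1,2,3] [[0,1,2,3],[0,1,2,5],[0,1,2,3],[0,1,2,3]]],
Node.mk [0,820,182,1542,2448,351,2216,21,2934,9,19,1011,22,1819,23] [(0,0),(0,1),(0,2),(0,3),(1,2),(1,4)] [Ref.mk 1057 2759 [1,0,2,3] [[2,1,3,0],[3,1,0,2,4],[0,1,4,3,2],[0,1,2,3,4]],Ref.mk 1714 2766 [0,1,2,3] [[0,1,2,3,5,4],[0,1,2,3,4],[0,1,2,3,4],[0,1,2,3,4]],Ref.mk 1058 2759 [1,0,2,3] [[2,1,3,0],[3,1,0,2,5],[0,1,4,3,2],[0,1,2,3,4]],Ref.mk 1715 2766 [0,1,2,3] [[0,1,2,3,4,5],[0,1,2,3,4],[0,1,2,3,4],[0,1,2,3,4]],Ref.mk 1059 2759 [1,0,2,3] [[2,1,3,0],[3,1,0,2,6],[0,1,4,3,2],[0,1,2,3,4]],Ref.mk 1716 2766 [0,1,2,3] [[0,1,2,3,5,6],[0,1,2,3,4],[0,1,2,3,4],[0,1,2,3,4]]],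
Node.mk [0,820,182,1542,2448,351,2216,21,2934,9,19,1011,22,1819] [(0,0),(0,1),(0,2),(0,3),(0,4),(1,4)] [Ref.mk 1058 2706 [1,0,2,3] [[2,1,3,0,4],[3,1,0,2,5],[0,1,4,3,2],[0,1,2,3,4]],Ref.mk 1715 2766 [0,1,2,3] [[0,1,2,3,4,5],[0,1,2,3,4],[0,1,2,3,4],[0,1,2,3,4]],Ref.mk 23 2767 [0,1,2,3] [[0,1,2,3,4,5],[0,1,2,3,4],[0,1,2,3,4],[0,1,2,3,4]]],
Node.mk [0,820,182,1542,2448,351,2216,21,2934,9,19,1011,22,1900,1587] [(0,0),(0,1),(0,2),(0,3),(1,2),(1,4)] [Ref.mk 1714 2762 [0,1,2,3] [[0,1,2,3,4],[0,1,2,3,4],[0,1,2,3,4],[0,1,2,3,4]],Ref.mk 1715 2762 [0,1,2,3] [[0,1,2,3,5],[0,1,2,3,4],[0,1,2,3,4],[0,1,2,3,4]]],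
Node.mk [0,820,182,1542,2448,351,2216,21,2934,9,19,1011,22,1900,1182] [(0,0),(0,1),(0,2),(0,3),(1,2),(3,1)] [],
Node.mk [0,820,182,1542,2448,351,2216,21,2934,9,19,1011,22,1900] [(0,1),(1,0),(1,1),(1,2),(1,3),(1,4)] [Ref.mk 45 2306 [0,1,2,3] [[0,1,2,3],[0,1,2,5],[0,1,2,3],[0,1,2,3]],Ref.mk 1587 2769 [0,1,2,3] [[0,1,2,3,4],[0,1,2,3,4,5],[0,1,2,3,4,5],[0,1,2,3,4]],Ref.mk 1182 2770 [0,1,2,3] [[0,1,2,3,4],[0,1,2,3,4,5],[0,1,2,3,4,5],[0,1,2,3,4]]],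
Node.mk [0,820,182,1542,2448,351,2216,21,2934,9,19,1011,22,1747] [(0,0),(0,1),(0,2),(0,3),(1,2),(2,1)] [Ref.mk 976 2760 [0,1,2,3] [[0,3,2,1,4],[1,0,2,3,5,4],[0,1,2,3,4],[0,2,1,3,4]],Ref.mk 1714 2760 [0,1,2,3] [[0,1,2,3,4],[0,1,2,3,4,5],[0,1,2,3,4],[0,1,2,3,4]],Ref.mk 977 2760 [0,1,2,3] [[0,3,2,1,5],[1,0,2,3,5,4],[0,1,2,3,4],[0,2,1,3,4]],Ref.mk 1715 2760 [0,1,2,3] [[0,1,2,3,5],[0,1,2,3,4,5],[0,1,2,3,4],[0,1,2,3,4]]],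
Node.mk [0,820,182,1542,2448,351,2216,21,2934,9,19,1011,22] [(0,3),(1,0),(1,1),(1,2),(1,3),(2,1)] [Ref.mk 36 2306 [0,1,2,3] [[0,1,2,3],[0,1,2,4],[0,1,2,3],[0,1,2,3]],Ref.mk 45 2306 [0,1,2,3] [[0,1,2,3],[0,1,2,5],[0,1,2,3],[0,1,2,3]],Ref.mk 1495 2702 [0,1,2,3] [[0,3,2,1,4],[1,0,2,3,4],[0,1,2,3,4],[0,2,1,3,4]],Ref.mk 1657 2758 [0,1,2,3] [[0,3,2,1,4],[1,0,2,3,4],[0,1,2,3,4],[0,2,1,3,4]],Ref.mk 1738 2765 [0,1,2,3] [[0,1,2,3,4],[0,1,2,3,4],[0,1,2,3,4],[0,1,2,3,4]],Ref.mk 1819 2768 [0,1,2,3] [[0,1,2,3,4],[0,1,2,3,4],[0,1,2,3,4],[0,1,2,3,4]],Ref.mk 1900 2771 [0,1,2,3] [[0,1,2,3,4],[0,1,2,3,4],[0,1,2,3,4,5],[0,1,2,3,4]],Ref.mk 1747 2772 [0,1,2,3] [[0,1,2,3,4],[0,1,2,3,4,5],[0,1,2,3,4],[0,1,2,3,4]]],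
Node.mk [0,820,182,1542,2448,351,2216,21,2934,9,19,1011] [(0,0),(0,1),(0,2),(0,3),(1,0),(2,1)] [Ref.mk 1714 2762 [0,1,2,3] [[0,1,2,3,4],[0,1,2,3,4],[0,1,2,3,4],[0,1,2,3,4]],Ref.mk 22 2773 [0,1,2,3] [[0,1,2,3,4],[0,1,2,3,4],[0,1,2,3,4],[0,1,2,3,4]]],
Node.mk [0,820,182,1542,2448,351,2216,21,2934,9,19,1092,22,1819] [(0,0),(0,1),(0,2),(0,3),(1,2),(1,4)] [Ref.mk 1057 2706 [1,0,2,3] [[2,1,3,0,4],[3,1,0,2,4],[0,1,4,3,2],[0,1,2,3,4]],Ref.mk 1795 2706 [1,0,2,3] [[2,0,3,1,4],[1,3,0,2,4],[0,1,4,3,2],[0,2,1,3,4]],Ref.mk 1058 2706 [1,0,2,3] [[2,1,3,0,4],[3,1,0,2,5],[0,1,4,3,2],[0,1,2,3,4]],Ref.mk 1796 2706 [1,0,2,3] [[2,0,3,1,4],[1,3,0,2,5],[0,1,4,3,2],[0,2,1,3,4]]],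
Node.mk [0,820,182,1542,2448,351,2216,21,2934,9,19,1092,22,1900,1139] [(1,0),(1,1),(1,2),(1,3),(1,4),(3,1)] [Ref.mk 45 2306 [0,1,2,3] [[0,1,2,3],[0,1,2,5],[0,1,2,3],[0,1,2,3]]],
Node.mk [0,820,182,1542,2448,351,2216,21,2934,9,19,1092,22,1900,23] [(0,0),(0,1),(0,2),(0,3),(1,2),(1,4)] [Ref.mk 1138 2776 [0,1,2,3] [[0,1,2,3,5,4],[0,1,2,3,4],[0,1,2,3,4,5],[0,1,2,3,4]],Ref.mk 1795 2706 [1,0,2,3] [[2,0,3,1,4],[1,3,0,2,4],[0,1,4,3,2],[0,2,1,3,4]],Ref.mk 1139 2776 [0,1,2,3] [[0,1,2,3,4,5],[0,1,2,3,4],[0,1,2,3,4,5],[0,1,2,3,4]],Ref.mk 1796 2706 [1,0,2,3] [[2,0,3,1,4],[1,3,0,2,5],[0,1,4,3,2],[0,2,1,3,4]],Ref.mk 1140 2776 [0,1,2,3] [[0,1,2,3,5,6],[0,1,2,3,4],[0,1,2,3,4,5],[0,1,2,3,4]],Ref.mk 1797 2706 [1,0,2,3] [[2,0,3,1,4],[1,3,0,2,6],[0,1,4,3,2],[0,2,1,3,4]]],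
Node.mk [0,820,182,1542,2448,351,2216,21,2934,9,19,1092,22,1900] [(0,0),(0,1),(0,2),(0,3),(0,4),(1,4)] [Ref.mk 1139 2776 [0,1,2,3] [[0,1,2,3,4,5],[0,1,2,3,4],[0,1,2,3,4,5],[0,1,2,3,4]],Ref.mk 1796 2706 [1,0,2,3] [[2,0,3,1,4],[1,3,0,2,5],[0,1,4,3,2],[0,2,1,3,4]],Ref.mk 23 2777 [0,1,2,3] [[0,1,2,3,4,5],[0,1,2,3,4],[0,1,2,3,4,5],[0,1,2,3,4]]],
Node.mk [0,820,182,1542,2448,351,2216,21,2934,9,19,1092,22,1828] [(0,0),(0,1),(0,2),(0,3),(1,2),(2,1)] [Ref.mk 1057 2706 [1,0,2,3] [[2,1,3,0,5],[3,1,0,2,4],[0,1,4,3,2],[0,1,2,3,4]],Ref.mk 1795 2706 [1,0,2,3] [[2,0,3,1,4],[1,3,0,2,4],[0,1,4,3,2],[0,2,1,3,4]],Ref.mk 1058 2706 [1,0,2,3] [[2,1,3,0,5],[3,1,0,2,5],[0,1,4,3,2],[0,1,2,3,4]],Ref.mk 1796 2706 [1,0,2,3] [[2,0,3,1,4],[1,3,0,2,5],[0,1,4,3,2],[0,2,1,3,4]]],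
Node.mk [0,820,182,1542,2448,351,2216,21,2934,9,19,1092,22] [(0,3),(1,0),(1,1),(1,2),(1,3),(2,1)] [Ref.mk 36 2306 [0,1,2,3] [[0,1,2,3],[0,1,2,4],[0,1,2,3],[0,1,2,3]],Ref.mk 45 2306 [0,1,2,3] [[0,1,2,3],[0,1,2,5],[0,1,2,3],[0,1,2,3]],Ref.mk 1495 2702 [0,1,2,3] [[0,3,2,1,4],[1,0,2,3,4],[0,1,2,3,4],[0,2,1,3,4]],Ref.mk 1657 2758 [0,1,2,3] [[0,3,2,1,4],[1,0,2,3,4],[0,1,2,3,4],[0,2,1,3,4]],Ref.mk 1738 2768 [0,1,2,3] [[0,3,2,1,4],[1,0,2,3,4],[0,1,2,3,4],[0,2,1,3,4]],Ref.mk 1819 2775 [0,1,2,3] [[0,1,2,3,4],[0,1,2,3,4],[0,1,2,3,4],[0,1,2,3,4]],Ref.mk 1900 2778 [0,1,2,3] [[0,1,2,3,4],[0,1,2,3,4],[0,1,2,3,4,5],[0,1,2,3,4]],Ref.mk 1828 2779 [0,1,2,3] [[0,1,2,3,4],[0,1,2,3,4,5],[0,1,2,3,4],[0,1,2,3,4]]],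
Node.mk [0,820,182,1542,2448,351,2216,21,2934,9,19,1092] [(0,0),(0,1),(0,2),(0,3),(1,0),(2,1)] [Ref.mk 1795 2706 [1,0,2,3] [[2,0,3,1,4],[1,3,0,2,4],[0,1,4,3,2],[0,2,1,3,4]],Ref.mk 22 2780 [0,1,2,3] [[0,1,2,3,4],[0,1,2,3,4],[0,1,2,3,4],[0,1,2,3,4]]],
Node.mk [0,820,182,1542,2448,351,2216,21,2934,9,19,1173,1876,1909] [(0,0),(0,2),(1,2),(2,1),(2,5),(3,2)] [],
Node.mk [0,820,182,1542,2448,351,2216,21,2934,9,19,1173,1876,859] [(0,0),(0,2),(0,4),(1,2),(2,1),(3,1)] [Ref.mk 1909 2782 [0,1,2,3] [[0,1,2,3,4],[0,1,2,3,4,5],[0,1,2,3,4,5],[0,1,2,3,4]]],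
Node.mk [0,820,182,1542,2448,351,2216,21,2934,9,19,1173,1876] [(0,3),(1,0),(1,1),(1,2),(1,3),(1,4)] [Ref.mk 45 2306 [0,1,2,3] [[0,1,2,3],[0,1,2,5],[0,1,2,3],[0,1,2,3]],Ref.mk 1909 2782 [0,1,2,3] [[0,1,2,3,4],[0,1,2,3,4,5],[0,1,2,3,4,5],[0,1,2,3,4]],Ref.mk 859 2783 [0,1,2,3] [[0,1,2,3,4],[0,1,2,3,4,5],[0,1,2,3,4,5],[0,1,2,3,4]]],
Node.mk [0,820,182,1542,2448,351,2216,21,2934,9,19,1173,22,1900,1587] [(0,0),(0,1),(0,2),(0,3),(1,2),(1,4)] [Ref.mk 1876 2784 [0,1,2,3] [[0,1,2,3,4],[0,1,2,3,4],[0,1,2,3,4,5],[0,1,2,3,4]],Ref.mk 1877 2784 [0,1,2,3] [[0,1,2,3,5],[0,1,2,3,4],[0,1,2,3,4,5],[0,1,2,3,4]]],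
Node.mk [0,820,182,1542,2448,351,2216,21,2934,9,19,1173,22,1900,1182] [(0,0),(0,1),(0,2),(0,3),(1,2),(3,1)] [Ref.mk 1876 2782 [0,1,2,3] [[0,1,2,3,4],[0,1,2,3,5,4],[0,1,2,3,4,5],[0,1,2,3,4]],Ref.mk 1877 2782 [0,1,2,3] [[0,1,2,3,5],[0,1,2,3,5,4],[0,1,2,3,4,5],[0,1,2,3,4]]],
Node.mk [0,820,182,1542,2448,351,2216,21,2934,9,19,1173,22,1900] [(0,1),(1,0),(1,1),(1,2),(1,3),(1,4)] [Ref.mk 45 2306 [0,1,2,3] [[0,1,2,3],[0,1,2,5],[0,1,2,3],[0,1,2,3]],Ref.mk 1587 2785 [0,1,2,3] [[0,1,2,3,4],[0,1,2,3,4,5],[0,1,2,3,4,5],[0,1,2,3,4]],Ref.mk 1182 2786 [0,1,2,3] [[0,1,2,3,4],[0,1,2,3,4,5],[0,1,2,3,4,5],[0,1,2,3,4]]],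
Node.mk [0,820,182,1542,2448,351,2216,21,2934,9,19,1173,22,1981,1587] [(0,0),(0,1),(0,2),(0,3),(1,2),(1,4)] [Ref.mk 1876 2784 [0,1,2,3] [[0,1,2,3,4],[0,1,2,3,4],[0,1,2,3,4,5],[0,1,2,3,4]],Ref.mk 1877 2784 [0,1,2,3] [[0,1,2,3,5],[0,1,2,3,4],[0,1,2,3,4,5],[0,1,2,3,4]]],
Node.mk [0,820,182,1542,2448,351,2216,21,2934,9,19,1173,22,1981,1263] [(0,0),(0,1),(0,2),(0,3),(1,2),(3,1)] [],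
Node.mk [0,820,182,1542,2448,351,2216,21,2934,9,19,1173,22,1981] [(0,1),(1,0),(1,1),(1,2),(1,3),(1,4)] [Ref.mk 45 2306 [0,1,2,3] [[0,1,2,3],[0,1,2,5],[0,1,2,3],[0,1,2,3]],Ref.mk 1587 2788 [0,1,2,3] [[0,1,2,3,4],[0,1,2,3,4,5],[0,1,2,3,4,5,6],[0,1,2,3,4]],Ref.mk 1263 2789 [0,1,2,3] [[0,1,2,3,4],[0,1,2,3,4,5],[0,1,2,3,4,5,6],[0,1,2,3,4]]],
Node.mk [0,820,182,1542,2448,351,2216,21,2934,9,19,1173,22,1909] [(0,0),(0,1),(0,2),(0,3),(1,2),(2,1)] [Ref.mk 1138 2782 [0,1,2,3] [[0,3,2,1,4],[1,0,2,3,5,4],[0,1,2,3,4,5],[0,2,1,3,4]],Ref.mk 1876 2782 [0,1,2,3] [[0,1,2,3,4],[0,1,2,3,4,5],[0,1,2,3,4,5],[0,1,2,3,4]],Ref.mk 1139 2782 [0,1,2,3] [[0,3,2,1,5],[1,0,2,3,5,4],[0,1,2,3,4,5],[0,2,1,3,4]],Ref.mk 1877 2782 [0,1,2,3] [[0,1,2,3,5],[0,1,2,3,4,5],[0,1,2,3,4,5],[0,1,2,3,4]]],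
Node.mk [0,820,182,1542,2448,351,2216,21,2934,9,19,1173,22] [(0,3),(1,0),(1,1),(1,2),(1,3),(2,1)] [Ref.mk 36 2306 [0,1,2,3] [[0,1,2,3],[0,1,2,4],[0,1,2,3],[0,1,2,3]],Ref.mk 45 2306 [0,1,2,3] [[0,1,2,3],[0,1,2,5],[0,1,2,3],[0,1,2,3]],Ref.mk 1495 2702 [0,1,2,3] [[0,3,2,1,4],[1,0,2,3,4],[0,1,2,3,4],[0,2,1,3,4]],Ref.mk 1657 2758 [0,1,2,3] [[0,3,2,1,4],[1,0,2,3,4],[0,1,2,3,4],[0,2,1,3,4]],Ref.mk 1738 2771 [0,1,2,3] [[0,3,2,1,4],[1,0,2,3,4],[0,1,2,3,4,5],[0,2,1,3,4]],Ref.mk 1819 2778 [0,1,2,3] [[0,3,2,1,4],[1,0,2,3,4],[0,1,2,3,4,5],[0,2,1,3,4]],Ref.mk 1900 2787 [0,1,2,3] [[0,1,2,3,4],[0,1,2,3,4],[0,1,2,3,4,5],[0,1,2,3,4]],Ref.mk 1981 2790 [0,1,2,3] [[0,1,2,3,4],[0,1,2,3,4],[0,1,2,3,4,5,6],[0,1,2,3,4]],Ref.mk 1909 2791 [0,1,2,3] [[0,1,2,3,4],[0,1,2,3,4,5],[0,1,2,3,4,5],[0,1,2,3,4]]],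
Node.mk [0,820,182,1542,2448,351,2216,21,2934,9,19,1173] [(0,0),(0,1),(0,2),(0,3),(1,0),(2,1)] [Ref.mk 1876 2784 [0,1,2,3] [[0,1,2,3,4],[0,1,2,3,4],[0,1,2,3,4,5],[0,1,2,3,4]],Ref.mk 22 2792 [0,1,2,3] [[0,1,2,3,4],[0,1,2,3,4],[0,1,2,3,4,5],[0,1,2,3,4]]],
Node.mk [0,820,182,1542,2448,351,2216,21,2934,9,19] [(0,1),(1,0),(1,1),(1,2),(1,3),(2,1)] [Ref.mk 36 2306 [0,1,2,3] [[0,1,2,3],[0,1,2,4],[0,1,2,3],[0,1,2,3]],Ref.mk 768 2703 [0,1,2,3] [[0,1,2,3],[0,1,2,3,4],[0,1,2,3,4],[0,1,2,3,4]],Ref.mk 930 2759 [0,1,2,3] [[0,1,2,3],[0,1,2,3,4],[0,1,2,3,4],[0,1,2,3,4]],Ref.mk 1011 2774 [0,1,2,3] [[0,1,2,3],[0,1,2,3,4],[0,1,2,3,4],[0,1,2,3,4]],Ref.mk 1092 2781 [0,1,2,3] [[0,1,2,3],[0,1,2,3,4],[0,1,2,3,4],[0,1,2,3,4]],Ref.mk 1173 2793 [0,1,2,3] [[0,1,2,3],[0,1,2,3,4],[0,1,2,3,4,5],[0,1,2,3,4]]],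
Node.mk [0,820,182,1542,2448,351,2216,21,2934,9,22,768,244] [(0,1),(1,0),(2,0),(2,1),(2,3),(3,0)] [],
Node.mk [0,820,182,1542,2448,351,2216,21,2934,9,22,768,2297] [(0,0),(0,1),(0,2),(0,3),(2,0),(2,1)] [],
Node.mk [0,820,182,1542,2448,351,2216,21,2934,9,22,768] [(0,0),(0,3),(1,2),(1,4),(2,0),(3,1)] [Ref.mk 244 2795 [0,1,2,3] [[0,1,2,3,4],[0,1,2,3,4],[0,1,2,3,4],[0,1,2,3,4]],Ref.mk 2297 2796 [0,1,2,3] [[0,1,2,3,4],[0,1,2,3,4],[0,1,2,3,4],[0,1,2,3,4]]],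
Node.mk [0,820,182,1542,2448,351,2216,21,2934,9,22,930,101,1738,1587] [(0,0),(0,2),(0,3),(1,2),(2,1),(3,2)] [],
Node.mk [0,820,182,1542,2448,351,2216,21,2934,9,22,930,101,1738,1020] [(0,0),(0,1),(0,2),(0,3),(1,2),(3,1)] [],
Node.mk [0,820,182,1542,2448,351,2216,21,2934,9,22,930,101,1738] [(0,1),(1,0),(1,1),(1,2),(1,3),(1,4)] [Ref.mk 45 2306 [0,1,2,3] [[0,1,2,3],[0,1,2,5],[0,1,2,3],[0,1,2,3]],Ref.mk 1587 2798 [0,1,2,3] [[0,1,2,3,4],[0,1,2,3,4,5],[0,1,2,3,4],[0,1,2,3,4]],Ref.mk 1020 2799 [0,1,2,3] [[0,1,2,3,4],[0,1,2,3,4,5],[0,1,2,3,4],[0,1,2,3,4]]],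
Node.mk [0,820,182,1542,2448,351,2216,21,2934,9,22,930,101,1819,1587] [(0,0),(0,2),(0,3),(1,2),(2,1),(3,2)] [],
Node.mk [0,820,182,1542,2448,351,2216,21,2934,9,22,930,101,1819,1101] [(0,0),(0,1),(0,2),(0,3),(1,2),(3,1)] [],
Node.mk [0,820,182,1542,2448,351,2216,21,2934,9,22,930,101,1819] [(0,1),(1,0),(1,1),(1,2),(1,3),(1,4)] [Ref.mk 45 2306 [0,1,2,3] [[0,1,2,3],[0,1,2,5],[0,1,2,3],[0,1,2,3]],Ref.mk 1587 2801 [0,1,2,3] [[0,1,2,3,4],[0,1,2,3,4,5],[0,1,2,3,4],[0,1,2,3,4]],Ref.mk 1101 2802 [0,1,2,3] [[0,1,2,3,4],[0,1,2,3,4,5],[0,1,2,3,4],[0,1,2,3,4]]],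
Node.mk [0,820,182,1542,2448,351,2216,21,2934,9,22,930,101,1900,1587] [(0,0),(0,2),(0,3),(1,2),(2,1),(3,2)] [],
Node.mk [0,820,182,1542,2448,351,2216,21,2934,9,22,930,101,1900,1182] [(0,0),(0,1),(0,2),(0,3),(1,2),(3,1)] [],
Node.mk [0,820,182,1542,2448,351,2216,21,2934,9,22,930,101,1900] [(0,1),(1,0),(1,1),(1,2),(1,3),(1,4)] [Ref.mk 45 2306 [0,1,2,3] [[0,1,2,3],[0,1,2,5],[0,1,2,3],[0,1,2,3]],Ref.mk 1587 2804 [0,1,2,3] [[0,1,2,3,4],[0,1,2,3,4,5],[0,1,2,3,4,5],[0,1,2,3,4]],Ref.mk 1182 2805 [0,1,2,3] [[0,1,2,3,4],[0,1,2,3,4,5],[0,1,2,3,4,5],[0,1,2,3,4]]],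
Node.mk [0,820,182,1542,2448,351,2216,21,2934,9,22,930,101,263,1495] [(0,1),(1,2),(1,4),(2,0),(3,0),(3,2)] [],
Node.mk [0,820,182,1542,2448,351,2216,21,2934,9,22,930,101,263,1657,1587] [(0,0),(0,2),(0,3),(1,2),(2,1),(3,2)] [],
Node.mk [0,820,182,1542,2448,351,2216,21,2934,9,22,930,101,263,1657,939] [(0,0),(0,2),(0,3),(1,2),(2,2),(3,1)] [],
Node.mk [0,820,182,1542,2448,351,2216,21,2934,9,22,930,101,263,1657] [(0,1),(1,0),(1,1),(1,2),(1,3),(1,4)] [Ref.mk 45 2306 [0,1,2,3] [[0,1,2,3],[0,1,2,5],[0,1,2,3],[0,1,2,3]],Ref.mk 1587 2808 [0,1,2,3] [[0,1,2,3,4],[0,1,2,3,4,5],[0,1,2,3,4],[0,1,2,3,4]],Ref.mk 939 2809 [0,1,2,3] [[0,1,2,3,4],[0,1,2,3,4,5],[0,1,2,3,4],[0,1,2,3,4]]],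
Node.mk [0,820,182,1542,2448,351,2216,21,2934,9,22,930,101,263,1666,896] [(0,0),(0,2),(1,2),(2,1),(2,2),(3,1)] [],
Node.mk [0,820,182,1542,2448,351,2216,21,2934,9,22,930,101,263,1666,1634] [(0,0),(0,2),(0,3),(2,0),(2,1),(2,2)] [Ref.mk 1738 2800 [0,1,2,3] [[0,1,2,3,4],[0,1,2,3,4],[0,1,2,3,4],[0,1,2,3,4]],Ref.mk 1819 2803 [0,1,2,3] [[0,1,2,3,4],[0,1,2,3,4],[0,1,2,3,4],[0,1,2,3,4]],Ref.mk 1900 2806 [0,1,2,3] [[0,1,2,3,4],[0,1,2,3,4],[0,1,2,3,4,5],[0,1,2,3,4]]],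
Node.mk [0,820,182,1542,2448,351,2216,21,2934,9,22,930,101,263,1666,23] [(0,0),(0,1),(0,2),(0,3),(1,2),(2,1)] [Ref.mk 895 2811 [0,1,2,3] [[0,1,2,3,5,4],[0,1,2,3,4,5],[0,1,2,3,4],[0,1,2,3,4]],Ref.mk 1633 2812 [0,1,2,3] [[0,1,2,3,5,4],[0,1,2,3,4,5],[0,1,2,3,4],[0,1,2,3,4]],Ref.mk 896 2811 [0,1,2,3] [[0,1,2,3,4,5],[0,1,2,3,4,5],[0,1,2,3,4],[0,1,2,3,4]],Ref.mk 1634 2812 [0,1,2,3] [[0,1,2,3,4,5],[0,1,2,3,4,5],[0,1,2,3,4],[0,1,2,3,4]],Ref.mk 897 2811 [0,1,2,3] [[0,1,2,3,5,6],[0,1,2,3,4,5],[0,1,2,3,4],[0,1,2,3,4]],Ref.mk 1635 2812 [0,1,2,3] [[0,1,2,3,5,6],[0,1,2,3,4,5],[0,1,2,3,4],[0,1,2,3,4]]],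
Node.mk [0,820,182,1542,2448,351,2216,21,2934,9,22,930,101,263,1666] [(0,0),(0,1),(0,2),(0,3),(0,4),(2,1)] [Ref.mk 896 2811 [0,1,2,3] [[0,1,2,3,4,5],[0,1,2,3,4,5],[0,1,2,3,4],[0,1,2,3,4]],Ref.mk 1634 2812 [0,1,2,3] [[0,1,2,3,4,5],[0,1,2,3,4,5],[0,1,2,3,4],[0,1,2,3,4]],Ref.mk 23 2813 [0,1,2,3] [[0,1,2,3,4,5],[0,1,2,3,4,5],[0,1,2,3,4],[0,1,2,3,4]]],
Node.mk [0,820,182,1542,2448,351,2216,21,2934,9,22,930,101,263] [(0,3),(1,0),(1,1),(1,2),(1,3),(2,1)] [Ref.mk 36 2306 [0,1,2,3] [[0,1,2,3],[0,1,2,4],[0,1,2,3],[0,1,2,3]],Ref.mk 45 2306 [0,1,2,3] [[0,1,2,3],[0,1,2,5],[0,1,2,3],[0,1,2,3]],Ref.mk 1495 2807 [0,1,2,3] [[0,1,2,3,4],[0,1,2,3,4],[0,1,2,3,4],[0,1,2,3,4]],Ref.mk 1657 2810 [0,1,2,3] [[0,1,2,3,4],[0,1,2,3,4],[0,1,2,3,4],[0,1,2,3,4]],Ref.mk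 1738 2800 [0,1,2,3] [[0,1,2,3,4],[0,1,2,3,4],[0,1,2,3,4],[0,1,2,3,4]],Ref.mk 1819 2803 [0,1,2,3] [[0,1,2,3,4],[0,1,2,3,4],[0,1,2,3,4],[0,1,2,3,4]],Ref.mk 1900 2806 [0,1,2,3] [[0,1,2,3,4],[0,1,2,3,4],[0,1,2,3,4,5],[0,1,2,3,4]],Ref.mk 1666 2814 [0,1,2,3] [[0,1,2,3,4],[0,1,2,3,4,5],[0,1,2,3,4],[0,1,2,3,4]]]]

/-- nodes -/
noncomputable def c44 : List Node := [
Node.mk [0,820,182,1542,2448,351,2216,21,2934,9,22,930,101,344,1495] [(0,1),(1,2),(1,4),(2,0),(3,0),(3,2)] [],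
Node.mk [0,820,182,1542,2448,351,2216,21,2934,9,22,930,101,344,1657,1587] [(0,0),(0,2),(0,3),(1,2),(2,1),(3,2)] [],
Node.mk [0,820,182,1542,2448,351,2216,21,2934,9,22,930,101,344,1657,939] [(0,0),(0,2),(0,3),(1,2),(2,2),(3,1)] [],
Node.mk [0,820,182,1542,2448,351,2216,21,2934,9,22,930,101,344,1657] [(0,1),(1,0),(1,1),(1,2),(1,3),(1,4)] [Ref.mk 45 2306 [0,1,2,3] [[0,1,2,3],[0,1,2,5],[0,1,2,3],[0,1,2,3]],Ref.mk 1587 2817 [0,1,2,3] [[0,1,2,3,4],[0,1,2,3,4,5],[0,1,2,3,4],[0,1,2,3,4]],Ref.mk 939 2818 [0,1,2,3] [[0,1,2,3,4],[0,1,2,3,4,5],[0,1,2,3,4],[0,1,2,3,4]]],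
Node.mk [0,820,182,1542,2448,351,2216,21,2934,9,22,930,101,344,1666,896] [(0,0),(0,2),(1,2),(2,1),(2,2),(3,1)] [],
Node.mk [0,820,182,1542,2448,351,2216,21,2934,9,22,930,101,344,1666,1634] [(0,0),(0,2),(0,3),(2,0),(2,1),(2,2)] [Ref.mk 1738 2800 [0,1,2,3] [[0,1,2,3,4],[0,1,2,3,4],[0,1,2,3,4],[0,1,2,3,4]],Ref.mk 1819 2803 [0,1,2,3] [[0,1,2,3,4],[0,1,2,3,4],[0,1,2,3,4],[0,1,2,3,4]],Ref.mk 1900 2806 [0,1,2,3] [[0,1,2,3,4],[0,1,2,3,4],[0,1,2,3,4,5],[0,1,2,3,4]]],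
Node.mk [0,820,182,1542,2448,351,2216,21,2934,9,22,930,101,344,1666,23] [(0,0),(0,1),(0,2),(0,3),(1,2),(2,1)] [Ref.mk 895 2820 [0,1,2,3] [[0,1,2,3,5,4],[0,1,2,3,4,5],[0,1,2,3,4],[0,1,2,3,4]],Ref.mk 1633 2821 [0,1,2,3] [[0,1,2,3,5,4],[0,1,2,3,4,5],[0,1,2,3,4],[0,1,2,3,4]],Ref.mk 896 2820 [0,1,2,3] [[0,1,2,3,4,5],[0,1,2,3,4,5],[0,1,2,3,4],[0,1,2,3,4]],Ref.mk 1634 2821 [0,1,2,3] [[0,1,2,3,4,5],[0,1,2,3,4,5],[0,1,2,3,4],[0,1,2,3,4]],Ref.mk 897 2820 [0,1,2,3] [[0,1,2,3,5,6],[0,1,2,3,4,5],[0,1,2,3,4],[0,1,2,3,4]],Ref.mk 1635 2821 [0,1,2,3] [[0,1,2,3,5,6],[0,1,2,3,4,5],[0,1,2,3,4],[0,1,2,3,4]]],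
Node.mk [0,820,182,1542,2448,351,2216,21,2934,9,22,930,101,344,1666] [(0,0),(0,1),(0,2),(0,3),(0,4),(2,1)] [Ref.mk 896 2820 [0,1,2,3] [[0,1,2,3,4,5],[0,1,2,3,4,5],[0,1,2,3,4],[0,1,2,3,4]],Ref.mk 1634 2821 [0,1,2,3] [[0,1,2,3,4,5],[0,1,2,3,4,5],[0,1,2,3,4],[0,1,2,3,4]],Ref.mk 23 2822 [0,1,2,3] [[0,1,2,3,4,5],[0,1,2,3,4,5],[0,1,2,3,4],[0,1,2,3,4]]],
Node.mk [0,820,182,1542,2448,351,2216,21,2934,9,22,930,101,344] [(0,3),(1,0),(1,1),(1,2),(1,3),(2,1)] [Ref.mk 36 2306 [0,1,2,3] [[0,1,2,3],[0,1,2,4],[0,1,2,3],[0,1,2,3]],Ref.mk 45 2306 [0,1,2,3] [[0,1,2,3],[0,1,2,5],[0,1,2,3],[0,1,2,3]],Ref.mk 1495 2816 [0,1,2,3] [[0,1,2,3,4],[0,1,2,3,4],[0,1,2,3,4],[0,1,2,3,4]],Ref.mk 1657 2819 [0,1,2,3] [[0,1,2,3,4],[0,1,2,3,4],[0,1,2,3,4],[0,1,2,3,4]],Ref.mk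 1738 2800 [0,1,2,3] [[0,1,2,3,4],[0,1,2,3,4],[0,1,2,3,4],[0,1,2,3,4]],Ref.mk 1819 2803 [0,1,2,3] [[0,1,2,3,4],[0,1,2,3,4],[0,1,2,3,4],[0,1,2,3,4]],Ref.mk 1900 2806 [0,1,2,3] [[0,1,2,3,4],[0,1,2,3,4],[0,1,2,3,4,5],[0,1,2,3,4]],Ref.mk 1666 2823 [0,1,2,3] [[0,1,2,3,4],[0,1,2,3,4,5],[0,1,2,3,4],[0,1,2,3,4]]],
Node.mk [0,820,182,1542,2448,351,2216,21,2934,9,22,930,101,425,1495] [(0,1),(1,2),(1,4),(2,0),(3,0),(3,2)] [],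
Node.mk [0,820,182,1542,2448,351,2216,21,2934,9,22,930,101,425,1657,1587] [(0,0),(0,2),(0,3),(1,2),(2,1),(3,2)] [],
Node.mk [0,820,182,1542,2448,351,2216,21,2934,9,22,930,101,425,1657,939] [(0,0),(0,2),(0,3),(1,2),(2,2),(3,1)] [],
Node.mk [0,820,182,1542,2448,351,2216,21,2934,9,22,930,101,425,1657] [(0,1),(1,0),(1,1),(1,2),(1,3),(1,4)] [Ref.mk 45 2306 [0,1,2,3] [[0,1,2,3],[0,1,2,5],[0,1,2,3],[0,1,2,3]],Ref.mk 1587 2826 [0,1,2,3] [[0,1,2,3,4],[0,1,2,3,4,5],[0,1,2,3,4,5],[0,1,2,3,4]],Ref.mk 939 2827 [0,1,2,3] [[0,1,2,3,4],[0,1,2,3,4,5],[0,1,2,3,4,5],[0,1,2,3,4]]],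
Node.mk [0,820,182,1542,2448,351,2216,21,2934,9,22,930,101,425,1666,896] [(0,0),(0,2),(1,2),(2,1),(2,2),(3,1)] [],
Node.mk [0,820,182,1542,2448,351,2216,21,2934,9,22,930,101,425,1666,1634] [(0,0),(0,2),(0,3),(2,0),(2,1),(2,2)] [Ref.mk 1738 2800 [0,1,2,3] [[0,1,2,3,4],[0,1,2,3,4],[0,1,2,3,4],[0,1,2,3,4]],Ref.mk 1819 2803 [0,1,2,3] [[0,1,2,3,4],[0,1,2,3,4],[0,1,2,3,4],[0,1,2,3,4]],Ref.mk 1900 2806 [0,1,2,3] [[0,1,2,3,4],[0,1,2,3,4],[0,1,2,3,4,5],[0,1,2,3,4]],Ref.mk 1981 2806 [0,1,2,3] [[0,1,2,3,4],[0,1,2,3,4],[0,1,2,3,4,6],[0,1,2,3,4]]],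
Node.mk [0,820,182,1542,2448,351,2216,21,2934,9,22,930,101,425,1666,23] [(0,0),(0,1),(0,2),(0,3),(1,2),(2,1)] [Ref.mk 895 2829 [0,1,2,3] [[0,1,2,3,5,4],[0,1,2,3,4,5],[0,1,2,3,4,5],[0,1,2,3,4]],Ref.mk 1633 2830 [0,1,2,3] [[0,1,2,3,5,4],[0,1,2,3,4,5],[0,1,2,3,4,5],[0,1,2,3,4]],Ref.mk 896 2829 [0,1,2,3] [[0,1,2,3,4,5],[0,1,2,3,4,5],[0,1,2,3,4,5],[0,1,2,3,4]],Ref.mk 1634 2830 [0,1,2,3] [[0,1,2,3,4,5],[0,1,2,3,4,5],[0,1,2,3,4,5],[0,1,2,3,4]],Ref.mk 897 2829 [0,1,2,3] [[0,1,2,3,5,6],[0,1,2,3,4,5],[0,1,2,3,4,5],[0,1,2,3,4]],Ref.mk 1635 2830 [0,1,2,3] [[0,1,2,3,5,6],[0,1,2,3,4,5],[0,1,2,3,4,5],[0,1,2,3,4]]],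
Node.mk [0,820,182,1542,2448,351,2216,21,2934,9,22,930,101,425,1666] [(0,0),(0,1),(0,2),(0,3),(0,4),(2,1)] [Ref.mk 896 2829 [0,1,2,3] [[0,1,2,3,4,5],[0,1,2,3,4,5],[0,1,2,3,4,5],[0,1,2,3,4]],Ref.mk 1634 2830 [0,1,2,3] [[0,1,2,3,4,5],[0,1,2,3,4,5],[0,1,2,3,4,5],[0,1,2,3,4]],Ref.mk 23 2831 [0,1,2,3] [[0,1,2,3,4,5],[0,1,2,3,4,5],[0,1,2,3,4,5],[0,1,2,3,4]]],
Node.mk [0,820,182,1542,2448,351,2216,21,2934,9,22,930,101,425] [(0,3),(1,0),(1,1),(1,2),(1,3),(2,1)] [Ref.mk 36 2306 [0,1,2,3] [[0,1,2,3],[0,1,2,4],[0,1,2,3],[0,1,2,3]],Ref.mk 45 2306 [0,1,2,3] [[0,1,2,3],[0,1,2,5],[0,1,2,3],[0,1,2,3]],Ref.mk 1495 2825 [0,1,2,3] [[0,1,2,3,4],[0,1,2,3,4],[0,1,2,3,4,5],[0,1,2,3,4]],Ref.mk 1657 2828 [0,1,2,3] [[0,1,2,3,4],[0,1,2,3,4],[0,1,2,3,4,5],[0,1,2,3,4]],Ref.mk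 1738 2800 [0,1,2,3] [[0,1,2,3,4],[0,1,2,3,4],[0,1,2,3,4],[0,1,2,3,4]],Ref.mk 1819 2803 [0,1,2,3] [[0,1,2,3,4],[0,1,2,3,4],[0,1,2,3,4],[0,1,2,3,4]],Ref.mk 1900 2806 [0,1,2,3] [[0,1,2,3,4],[0,1,2,3,4],[0,1,2,3,4,5],[0,1,2,3,4]],Ref.mk 1981 2806 [0,1,2,3] [[0,1,2,3,4],[0,1,2,3,4],[0,1,2,3,4,6],[0,1,2,3,4]],Ref.mk 1666 2832 [0,1,2,3] [[0,1,2,3,4],[0,1,2,3,4,5],[0,1,2,3,4,5],[0,1,2,3,4]]],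
Node.mk [0,820,182,1542,2448,351,2216,21,2934,9,22,930,101] [(0,0),(0,3),(2,0),(2,1),(2,2),(3,1)] [Ref.mk 1738 2800 [0,1,2,3] [[0,1,2,3,4],[0,1,2,3,4],[0,1,2,3,4],[0,1,2,3,4]],Ref.mk 1819 2803 [0,1,2,3] [[0,1,2,3,4],[0,1,2,3,4],[0,1,2,3,4],[0,1,2,3,4]],Ref.mk 1900 2806 [0,1,2,3] [[0,1,2,3,4],[0,1,2,3,4],[0,1,2,3,4,5],[0,1,2,3,4]],Ref.mk 263 2815 [0,1,2,3] [[0,1,2,3,4],[0,1,2,3,4],[0,1,2,3,4],[0,1,2,3,4]],Ref.mk 344 2824 [0,1,2,3] [[0,1,2,3,4],[0,1,2,3,4],[0,1,2,3,4],[0,1,2,3,4]],Ref.mk 425 2833 [0,1,2,3] [[0,1,2,3,4],[0,1,2,3,4],[0,1,2,3,4,5],[0,1,2,3,4]]],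
Node.mk [0,820,182,1542,2448,351,2216,21,2934,9,22,930,263,855] [(0,0),(0,1),(0,2),(2,0),(2,1),(3,1)] [],
Node.mk [0,820,182,1542,2448,351,2216,21,2934,9,22,930,263,856] [(0,0),(0,1),(0,2),(1,2),(2,1),(3,1)] [],
Node.mk [0,820,182,1542,2448,351,2216,21,2934,9,22,930,263,1666,896] [(0,0),(0,2),(1,2),(2,1),(2,2),(3,1)] [],
Node.mk [0,820,182,1542,2448,351,2216,21,2934,9,22,930,263,1666,1634] [(0,0),(0,2),(1,2),(2,1),(2,2),(3,2)] [],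
Node.mk [0,820,182,1542,2448,351,2216,21,2934,9,22,930,263,1666,23] [(0,0),(0,1),(0,2),(0,3),(1,2),(2,1)] [Ref.mk 895 2837 [0,1,2,3] [[0,1,2,3,5,4],[0,1,2,3,4,5],[0,1,2,3,4],[0,1,2,3,4]],Ref.mk 1633 2838 [0,1,2,3] [[0,1,2,3,5,4],[0,1,2,3,4,5],[0,1,2,3,4],[0,1,2,3,4]],Ref.mk 896 2837 [0,1,2,3] [[0,1,2,3,4,5],[0,1,2,3,4,5],[0,1,2,3,4],[0,1,2,3,4]],Ref.mk 1634 2838 [0,1,2,3] [[0,1,2,3,4,5],[0,1,2,3,4,5],[0,1,2,3,4],[0,1,2,3,4]],Ref.mk 897 2837 [0,1,2,3] [[0,1,2,3,5,6],[0,1,2,3,4,5],[0,1,2,3,4],[0,1,2,3,4]],Ref.mk 1635 2838 [0,1,2,3] [[0,1,2,3,5,6],[0,1,2,3,4,5],[0,1,2,3,4],[0,1,2,3,4]]],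
Node.mk [0,820,182,1542,2448,351,2216,21,2934,9,22,930,263,1666] [(0,0),(0,1),(0,2),(0,3),(0,4),(2,1)] [Ref.mk 896 2837 [0,1,2,3] [[0,1,2,3,4,5],[0,1,2,3,4,5],[0,1,2,3,4],[0,1,2,3,4]],Ref.mk 1634 2838 [0,1,2,3] [[0,1,2,3,4,5],[0,1,2,3,4,5],[0,1,2,3,4],[0,1,2,3,4]],Ref.mk 23 2839 [0,1,2,3] [[0,1,2,3,4,5],[0,1,2,3,4,5],[0,1,2,3,4],[0,1,2,3,4]]],
Node.mk [0,820,182,1542,2448,351,2216,21,2934,9,22,930,263,857] [(0,0),(0,1),(0,2),(1,2),(2,1),(3,1)] [],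
Node.mk [0,820,182,1542,2448,351,2216,21,2934,9,22,930,263,859] [(0,0),(0,2),(1,1),(1,2),(2,1),(3,1)] [Ref.mk 1666 2840 [0,1,2,3] [[0,1,2,3,4],[0,1,2,3,4,5],[0,1,2,3,4],[0,1,2,3,4]]],
Node.mk [0,820,182,1542,2448,351,2216,21,2934,9,22,930,263,860] [(0,0),(0,2),(1,1),(1,2),(2,1),(3,1)] [Ref.mk 1666 2840 [0,1,2,3] [[0,1,2,3,4],[0,1,2,3,4,5],[0,1,2,3,4],[0,1,2,3,4]]],
Node.mk [0,820,182,1542,2448,351,2216,21,2934,9,22,930,263] [(0,3),(1,0),(1,1),(1,2),(1,3),(1,4)] [Ref.mk 45 2306 [0,1,2,3] [[0,1,2,3],[0,1,2,5],[0,1,2,3],[0,1,2,3]],Ref.mk 855 2835 [0,1,2,3] [[0,1,2,3,4],[0,1,2,3,4,5],[0,1,2,3,4],[0,1,2,3,4]],Ref.mk 856 2836 [0,1,2,3] [[0,1,2,3,4],[0,1,2,3,4,5],[0,1,2,3,4],[0,1,2,3,4]],Ref.mk 1666 2840 [0,1,2,3] [[0,1,2,3,4],[0,1,2,3,4,5],[0,1,2,3,4],[0,1,2,3,4]],Ref.mk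 857 2841 [0,1,2,3] [[0,1,2,3,4],[0,1,2,3,4,5],[0,1,2,3,4],[0,1,2,3,4]],Ref.mk 859 2842 [0,1,2,3] [[0,1,2,3,4],[0,1,2,3,4,5],[0,1,2,3,4],[0,1,2,3,4]],Ref.mk 860 2843 [0,1,2,3] [[0,1,2,3,4,5],[0,1,2,3,4,5],[0,1,2,3,4],[0,1,2,3,4]]],
Node.mk [0,820,182,1542,2448,351,2216,21,2934,9,22,930,344,855] [(0,0),(0,1),(0,2),(2,0),(2,1),(3,1)] [],
Node.mk [0,820,182,1542,2448,351,2216,21,2934,9,22,930,344,856] [(0,0),(0,1),(0,2),(1,2),(2,1),(3,1)] [],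
Node.mk [0,820,182,1542,2448,351,2216,21,2934,9,22,930,344,1666,896] [(0,0),(0,2),(1,2),(2,1),(2,2),(3,1)] [],
Node.mk [0,820,182,1542,2448,351,2216,21,2934,9,22,930,344,1666,1634] [(0,0),(0,2),(1,2),(2,1),(2,2),(3,2)] [],
Node.mk [0,820,182,1542,2448,351,2216,21,2934,9,22,930,344,1666,23] [(0,0),(0,1),(0,2),(0,3),(1,2),(2,1)] [Ref.mk 895 2847 [0,1,2,3] [[0,1,2,3,5,4],[0,1,2,3,4,5],[0,1,2,3,4],[0,1,2,3,4]],Ref.mk 1633 2848 [0,1,2,3] [[0,1,2,3,5,4],[0,1,2,3,4,5],[0,1,2,3,4],[0,1,2,3,4]],Ref.mk 896 2847 [0,1,2,3] [[0,1,2,3,4,5],[0,1,2,3,4,5],[0,1,2,3,4],[0,1,2,3,4]],Ref.mk 1634 2848 [0,1,2,3] [[0,1,2,3,4,5],[0,1,2,3,4,5],[0,1,2,3,4],[0,1,2,3,4]],Ref.mk 897 2847 [0,1,2,3] [[0,1,2,3,5,6],[0,1,2,3,4,5],[0,1,2,3,4],[0,1,2,3,4]],Ref.mk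 1635 2848 [0,1,2,3] [[0,1,2,3,5,6],[0,1,2,3,4,5],[0,1,2,3,4],[0,1,2,3,4]]],
Node.mk [0,820,182,1542,2448,351,2216,21,2934,9,22,930,344,1666] [(0,0),(0,1),(0,2),(0,3),(0,4),(2,1)] [Ref.mk 896 2847 [0,1,2,3] [[0,1,2,3,4,5],[0,1,2,3,4,5],[0,1,2,3,4],[0,1,2,3,4]],Ref.mk 1634 2848 [0,1,2,3] [[0,1,2,3,4,5],[0,1,2,3,4,5],[0,1,2,3,4],[0,1,2,3,4]],Ref.mk 23 2849 [0,1,2,3] [[0,1,2,3,4,5],[0,1,2,3,4,5],[0,1,2,3,4],[0,1,2,3,4]]],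
Node.mk [0,820,182,1542,2448,351,2216,21,2934,9,22,930,344,857] [(0,0),(0,1),(0,2),(1,2),(2,1),(3,1)] [],
Node.mk [0,820,182,1542,2448,351,2216,21,2934,9,22,930,344,859] [(0,0),(0,2),(1,1),(1,2),(2,1),(3,1)] [Ref.mk 1666 2850 [0,1,2,3] [[0,1,2,3,4],[0,1,2,3,4,5],[0,1,2,3,4],[0,1,2,3,4]]],
Node.mk [0,820,182,1542,2448,351,2216,21,2934,9,22,930,344,860] [(0,0),(0,2),(1,1),(1,2),(2,1),(3,1)] [Ref.mk 1666 2850 [0,1,2,3] [[0,1,2,3,4],[0,1,2,3,4,5],[0,1,2,3,4],[0,1,2,3,4]]],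
Node.mk [0,820,182,1542,2448,351,2216,21,2934,9,22,930,344] [(0,3),(1,0),(1,1),(1,2),(1,3),(1,4)] [Ref.mk 45 2306 [0,1,2,3] [[0,1,2,3],[0,1,2,5],[0,1,2,3],[0,1,2,3]],Ref.mk 855 2845 [0,1,2,3] [[0,1,2,3,4],[0,1,2,3,4,5],[0,1,2,3,4],[0,1,2,3,4]],Ref.mk 856 2846 [0,1,2,3] [[0,1,2,3,4],[0,1,2,3,4,5],[0,1,2,3,4],[0,1,2,3,4]],Ref.mk 1666 2850 [0,1,2,3] [[0,1,2,3,4],[0,1,2,3,4,5],[0,1,2,3,4],[0,1,2,3,4]],Ref.mk 857 2851 [0,1,2,3] [[0,1,2,3,4],[0,1,2,3,4,5],[0,1,2,3,4],[0,1,2,3,4]],Ref.mk 859 2852 [0,1,2,3] [[0,1,2,3,4],[0,1,2,3,4,5],[0,1,2,3,4],[0,1,2,3,4]],Ref.mk 860 2853 [0,1,2,3] [[0,1,2,3,4,5],[0,1,2,3,4,5],[0,1,2,3,4],[0,1,2,3,4]]],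
Node.mk [0,820,182,1542,2448,351,2216,21,2934,9,22,930,425,855] [(0,0),(0,1),(0,2),(2,0),(2,1),(3,1)] [],
Node.mk [0,820,182,1542,2448,351,2216,21,2934,9,22,930,425,856] [(0,0),(0,1),(0,2),(1,2),(2,1),(3,1)] [],
Node.mk [0,820,182,1542,2448,351,2216,21,2934,9,22,930,425,1666,896] [(0,0),(0,2),(1,2),(2,1),(2,2),(3,1)] [],
Node.mk [0,820,182,1542,2448,351,2216,21,2934,9,22,930,425,1666,1634] [(0,0),(0,2),(1,2),(2,1),(2,2),(3,2)] [],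
Node.mk [0,820,182,1542,2448,351,2216,21,2934,9,22,930,425,1666,23] [(0,0),(0,1),(0,2),(0,3),(1,2),(2,1)] [Ref.mk 895 2857 [0,1,2,3] [[0,1,2,3,5,4],[0,1,2,3,4,5],[0,1,2,3,4,5],[0,1,2,3,4]],Ref.mk 1633 2858 [0,1,2,3] [[0,1,2,3,5,4],[0,1,2,3,4,5],[0,1,2,3,4,5],[0,1,2,3,4]],Ref.mk 896 2857 [0,1,2,3] [[0,1,2,3,4,5],[0,1,2,3,4,5],[0,1,2,3,4,5],[0,1,2,3,4]],Ref.mk 1634 2858 [0,1,2,3] [[0,1,2,3,4,5],[0,1,2,3,4,5],[0,1,2,3,4,5],[0,1,2,3,4]],Ref.mk 897 2857 [0,1,2,3] [[0,1,2,3,5,6],[0,1,2,3,4,5],[0,1,2,3,4,5],[0,1,2,3,4]],Ref.mk 1635 2858 [0,1,2,3] [[0,1,2,3,5,6],[0,1,2,3,4,5],[0,1,2,3,4,5],[0,1,2,3,4]]],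
Node.mk [0,820,182,1542,2448,351,2216,21,2934,9,22,930,425,1666] [(0,0),(0,1),(0,2),(0,3),(0,4),(2,1)] [Ref.mk 896 2857 [0,1,2,3] [[0,1,2,3,4,5],[0,1,2,3,4,5],[0,1,2,3,4,5],[0,1,2,3,4]],Ref.mk 1634 2858 [0,1,2,3] [[0,1,2,3,4,5],[0,1,2,3,4,5],[0,1,2,3,4,5],[0,1,2,3,4]],Ref.mk 23 2859 [0,1,2,3] [[0,1,2,3,4,5],[0,1,2,3,4,5],[0,1,2,3,4,5],[0,1,2,3,4]]],
Node.mk [0,820,182,1542,2448,351,2216,21,2934,9,22,930,425,857] [(0,0),(0,1),(0,2),(1,2),(2,1),(3,1)] [],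
Node.mk [0,820,182,1542,2448,351,2216,21,2934,9,22,930,425,859] [(0,0),(0,2),(1,1),(1,2),(2,1),(3,1)] [Ref.mk 1666 2860 [0,1,2,3] [[0,1,2,3,4],[0,1,2,3,4,5],[0,1,2,3,4,5],[0,1,2,3,4]]],
Node.mk [0,820,182,1542,2448,351,2216,21,2934,9,22,930,425,860] [(0,0),(0,2),(1,1),(1,2),(2,1),(3,1)] [Ref.mk 1666 2860 [0,1,2,3] [[0,1,2,3,4],[0,1,2,3,4,5],[0,1,2,3,4,5],[0,1,2,3,4]]],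
Node.mk [0,820,182,1542,2448,351,2216,21,2934,9,22,930,425] [(0,3),(1,0),(1,1),(1,2),(1,3),(1,4)] [Ref.mk 45 2306 [0,1,2,3] [[0,1,2,3],[0,1,2,5],[0,1,2,3],[0,1,2,3]],Ref.mk 855 2855 [0,1,2,3] [[0,1,2,3,4],[0,1,2,3,4,5],[0,1,2,3,4,5],[0,1,2,3,4]],Ref.mk 856 2856 [0,1,2,3] [[0,1,2,3,4],[0,1,2,3,4,5],[0,1,2,3,4,5],[0,1,2,3,4]],Ref.mk 1666 2860 [0,1,2,3] [[0,1,2,3,4],[0,1,2,3,4,5],[0,1,2,3,4,5],[0,1,2,3,4]],Ref.mk 857 2861 [0,1,2,3] [[0,1,2,3,4],[0,1,2,3,4,5],[0,1,2,3,4,5],[0,1,2,3,4]],Ref.mk 859 2862 [0,1,2,3] [[0,1,2,3,4],[0,1,2,3,4,5],[0,1,2,3,4,5],[0,1,2,3,4]],Ref.mk 860 2863 [0,1,2,3] [[0,1,2,3,4,5],[0,1,2,3,4,5],[0,1,2,3,4,5],[0,1,2,3,4]]],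
Node.mk [0,820,182,1542,2448,351,2216,21,2934,9,22,930] [(0,0),(0,3),(1,4),(2,0),(2,2),(3,1)] [Ref.mk 101 2834 [0,1,2,3] [[0,1,2,3,4],[0,1,2,3,4],[0,1,2,3,4],[0,1,2,3,4]],Ref.mk 263 2844 [0,1,2,3] [[0,1,2,3,4],[0,1,2,3,4],[0,1,2,3,4],[0,1,2,3,4]],Ref.mk 344 2854 [0,1,2,3] [[0,1,2,3,4],[0,1,2,3,4],[0,1,2,3,4],[0,1,2,3,4]],Ref.mk 425 2864 [0,1,2,3] [[0,1,2,3,4],[0,1,2,3,4],[0,1,2,3,4,5],[0,1,2,3,4]]],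
Node.mk [0,820,182,1542,2448,351,2216,21,2934,9,22,1011,2286,855] [(0,0),(0,1),(0,2),(2,0),(2,1),(3,1)] [],
Node.mk [0,820,182,1542,2448,351,2216,21,2934,9,22,1011,2286,856] [(0,0),(0,1),(0,2),(1,2),(2,1),(3,1)] [],
Node.mk [0,820,182,1542,2448,351,2216,21,2934,9,22,1011,2286,1747,977] [(0,0),(0,2),(1,2),(2,1),(2,3),(3,1)] [],
Node.mk [0,820,182,1542,2448,351,2216,21,2934,9,22,1011,2286,1747,1715] [(0,0),(0,2),(1,2),(2,1),(2,3),(3,2)] [],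
Node.mk [0,820,182,1542,2448,351,2216,21,2934,9,22,1011,2286,1747,23] [(0,0),(0,1),(0,2),(0,3),(1,2),(2,1)] [Ref.mk 976 2868 [0,1,2,3] [[0,1,2,3,5,4],[0,1,2,3,4,5],[0,1,2,3,4],[0,1,2,3,4]],Ref.mk 1714 2869 [0,1,2,3] [[0,1,2,3,5,4],[0,1,2,3,4,5],[0,1,2,3,4],[0,1,2,3,4]],Ref.mk 977 2868 [0,1,2,3] [[0,1,2,3,4,5],[0,1,2,3,4,5],[0,1,2,3,4],[0,1,2,3,4]],Ref.mk 1715 2869 [0,1,2,3] [[0,1,2,3,4,5],[0,1,2,3,4,5],[0,1,2,3,4],[0,1,2,3,4]],Ref.mk 978 2868 [0,1,2,3] [[0,1,2,3,5,6],[0,1,2,3,4,5],[0,1,2,3,4],[0,1,2,3,4]],Ref.mk 1716 2869 [0,1,2,3] [[0,1,2,3,5,6],[0,1,2,3,4,5],[0,1,2,3,4],[0,1,2,3,4]]],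
Node.mk [0,820,182,1542,2448,351,2216,21,2934,9,22,1011,2286,1747] [(0,0),(0,1),(0,2),(0,3),(0,4),(2,1)] [Ref.mk 977 2868 [0,1,2,3] [[0,1,2,3,4,5],[0,1,2,3,4,5],[0,1,2,3,4],[0,1,2,3,4]],Ref.mk 1715 2869 [0,1,2,3] [[0,1,2,3,4,5],[0,1,2,3,4,5],[0,1,2,3,4],[0,1,2,3,4]],Ref.mk 23 2870 [0,1,2,3] [[0,1,2,3,4,5],[0,1,2,3,4,5],[0,1,2,3,4],[0,1,2,3,4]]],
Node.mk [0,820,182,1542,2448,351,2216,21,2934,9,22,1011,2286,857] [(0,0),(0,1),(0,2),(1,2),(2,1),(3,1)] [],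
Node.mk [0,820,182,1542,2448,351,2216,21,2934,9,22,1011,2286,859] [(0,0),(0,2),(1,1),(1,2),(2,1),(3,1)] [Ref.mk 1747 2871 [0,1,2,3] [[0,1,2,3,4],[0,1,2,3,4,5],[0,1,2,3,4],[0,1,2,3,4]]],
Node.mk [0,820,182,1542,2448,351,2216,21,2934,9,22,1011,2286,860] [(0,0),(0,2),(1,1),(1,2),(2,1),(3,1)] [Ref.mk 1747 2871 [0,1,2,3] [[0,1,2,3,4],[0,1,2,3,4,5],[0,1,2,3,4],[0,1,2,3,4]]],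
Node.mk [0,820,182,1542,2448,351,2216,21,2934,9,22,1011,2286] [(0,3),(1,0),(1,1),(1,2),(1,3),(1,4)] [Ref.mk 45 2306 [0,1,2,3] [[0,1,2,3],[0,1,2,5],[0,1,2,3],[0,1,2,3]],Ref.mk 855 2866 [0,1,2,3] [[0,1,2,3,4],[0,1,2,3,4,5],[0,1,2,3,4],[0,1,2,3,4]],Ref.mk 856 2867 [0,1,2,3] [[0,1,2,3,4],[0,1,2,3,4,5],[0,1,2,3,4],[0,1,2,3,4]],Ref.mk 1747 2871 [0,1,2,3] [[0,1,2,3,4],[0,1,2,3,4,5],[0,1,2,3,4],[0,1,2,3,4]],Ref.mk 857 2872 [0,1,2,3] [[0,1,2,3,4],[0,1,2,3,4,5],[0,1,2,3,4],[0,1,2,3,4]],Ref.mk 859 2873 [0,1,2,3] [[0,1,2,3,4],[0,1,2,3,4,5],[0,1,2,3,4],[0,1,2,3,4]],Ref.mk 860 2874 [0,1,2,3] [[0,1,2,3,4,5],[0,1,2,3,4,5],[0,1,2,3,4],[0,1,2,3,4]]],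
Node.mk [0,820,182,1542,2448,351,2216,21,2934,9,22,1011,2367,855] [(0,0),(0,1),(0,2),(2,0),(2,1),(3,1)] [],
Node.mk [0,820,182,1542,2448,351,2216,21,2934,9,22,1011,2367,856] [(0,0),(0,1),(0,2),(1,2),(2,1),(3,1)] [],
Node.mk [0,820,182,1542,2448,351,2216,21,2934,9,22,1011,2367,1747,977] [(0,0),(0,2),(1,2),(2,1),(2,3),(3,1)] [],
Node.mk [0,820,182,1542,2448,351,2216,21,2934,9,22,1011,2367,1747,1715] [(0,0),(0,2),(1,2),(2,1),(2,3),(3,2)] []]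

/-- nodes -/
noncomputable def c45 : List Node := [
Node.mk [0,820,182,1542,2448,351,2216,21,2934,9,22,1011,2367,1747,23] [(0,0),(0,1),(0,2),(0,3),(1,2),(2,1)] [Ref.mk 976 2878 [0,1,2,3] [[0,1,2,3,5,4],[0,1,2,3,4,5],[0,1,2,3,4],[0,1,2,3,4]],Ref.mk 1714 2879 [0,1,2,3] [[0,1,2,3,5,4],[0,1,2,3,4,5],[0,1,2,3,4],[0,1,2,3,4]],Ref.mk 977 2878 [0,1,2,3] [[0,1,2,3,4,5],[0,1,2,3,4,5],[0,1,2,3,4],[0,1,2,3,4]],Ref.mk 1715 2879 [0,1,2,3] [[0,1,2,3,4,5],[0,1,2,3,4,5],[0,1,2,3,4],[0,1,2,3,4]],Ref.mk 978 2878 [0,1,2,3] [[0,1,2,3,5,6],[0,1,2,3,4,5],[0,1,2,3,4],[0,1,2,3,4]],Ref.mk 1716 2879 [0,1,2,3] [[0,1,2,3,5,6],[0,1,2,3,4,5],[0,1,2,3,4],[0,1,2,3,4]]],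
Node.mk [0,820,182,1542,2448,351,2216,21,2934,9,22,1011,2367,1747] [(0,0),(0,1),(0,2),(0,3),(0,4),(2,1)] [Ref.mk 977 2878 [0,1,2,3] [[0,1,2,3,4,5],[0,1,2,3,4,5],[0,1,2,3,4],[0,1,2,3,4]],Ref.mk 1715 2879 [0,1,2,3] [[0,1,2,3,4,5],[0,1,2,3,4,5],[0,1,2,3,4],[0,1,2,3,4]],Ref.mk 23 2880 [0,1,2,3] [[0,1,2,3,4,5],[0,1,2,3,4,5],[0,1,2,3,4],[0,1,2,3,4]]],
Node.mk [0,820,182,1542,2448,351,2216,21,2934,9,22,1011,2367,857] [(0,0),(0,1),(0,2),(1,2),(2,1),(3,1)] [],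
Node.mk [0,820,182,1542,2448,351,2216,21,2934,9,22,1011,2367,859] [(0,0),(0,2),(1,1),(1,2),(2,1),(3,1)] [Ref.mk 1747 2881 [0,1,2,3] [[0,1,2,3,4],[0,1,2,3,4,5],[0,1,2,3,4],[0,1,2,3,4]]],
Node.mk [0,820,182,1542,2448,351,2216,21,2934,9,22,1011,2367,860] [(0,0),(0,2),(1,1),(1,2),(2,1),(3,1)] [Ref.mk 1747 2881 [0,1,2,3] [[0,1,2,3,4],[0,1,2,3,4,5],[0,1,2,3,4],[0,1,2,3,4]]],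
Node.mk [0,820,182,1542,2448,351,2216,21,2934,9,22,1011,2367] [(0,3),(1,0),(1,1),(1,2),(1,3),(1,4)] [Ref.mk 45 2306 [0,1,2,3] [[0,1,2,3],[0,1,2,5],[0,1,2,3],[0,1,2,3]],Ref.mk 855 2876 [0,1,2,3] [[0,1,2,3,4],[0,1,2,3,4,5],[0,1,2,3,4],[0,1,2,3,4]],Ref.mk 856 2877 [0,1,2,3] [[0,1,2,3,4],[0,1,2,3,4,5],[0,1,2,3,4],[0,1,2,3,4]],Ref.mk 1747 2881 [0,1,2,3] [[0,1,2,3,4],[0,1,2,3,4,5],[0,1,2,3,4],[0,1,2,3,4]],Ref.mk 857 2882 [0,1,2,3] [[0,1,2,3,4],[0,1,2,3,4,5],[0,1,2,3,4],[0,1,2,3,4]],Ref.mk 859 2883 [0,1,2,3] [[0,1,2,3,4],[0,1,2,3,4,5],[0,1,2,3,4],[0,1,2,3,4]],Ref.mk 860 2884 [0,1,2,3] [[0,1,2,3,4,5],[0,1,2,3,4,5],[0,1,2,3,4],[0,1,2,3,4]]],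
Node.mk [0,820,182,1542,2448,351,2216,21,2934,9,22,1011,2529,855] [(0,0),(0,1),(0,2),(2,0),(2,1),(3,1)] [],
Node.mk [0,820,182,1542,2448,351,2216,21,2934,9,22,1011,2529,856] [(0,0),(0,1),(0,2),(1,2),(2,1),(3,1)] [],
Node.mk [0,820,182,1542,2448,351,2216,21,2934,9,22,1011,2529,1747,977] [(0,0),(0,2),(1,2),(2,1),(2,3),(3,1)] [],
Node.mk [0,820,182,1542,2448,351,2216,21,2934,9,22,1011,2529,1747,1715] [(0,0),(0,2),(1,2),(2,1),(2,3),(3,2)] [],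
Node.mk [0,820,182,1542,2448,351,2216,21,2934,9,22,1011,2529,1747,23] [(0,0),(0,1),(0,2),(0,3),(1,2),(2,1)] [Ref.mk 976 2888 [0,1,2,3] [[0,1,2,3,5,4],[0,1,2,3,4,5],[0,1,2,3,4],[0,1,2,3,4]],Ref.mk 1714 2889 [0,1,2,3] [[0,1,2,3,5,4],[0,1,2,3,4,5],[0,1,2,3,4],[0,1,2,3,4]],Ref.mk 977 2888 [0,1,2,3] [[0,1,2,3,4,5],[0,1,2,3,4,5],[0,1,2,3,4],[0,1,2,3,4]],Ref.mk 1715 2889 [0,1,2,3] [[0,1,2,3,4,5],[0,1,2,3,4,5],[0,1,2,3,4],[0,1,2,3,4]],Ref.mk 978 2888 [0,1,2,3] [[0,1,2,3,5,6],[0,1,2,3,4,5],[0,1,2,3,4],[0,1,2,3,4]],Ref.mk 1716 2889 [0,1,2,3] [[0,1,2,3,5,6],[0,1,2,3,4,5],[0,1,2,3,4],[0,1,2,3,4]]],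
Node.mk [0,820,182,1542,2448,351,2216,21,2934,9,22,1011,2529,1747] [(0,0),(0,1),(0,2),(0,3),(0,4),(2,1)] [Ref.mk 977 2888 [0,1,2,3] [[0,1,2,3,4,5],[0,1,2,3,4,5],[0,1,2,3,4],[0,1,2,3,4]],Ref.mk 1715 2889 [0,1,2,3] [[0,1,2,3,4,5],[0,1,2,3,4,5],[0,1,2,3,4],[0,1,2,3,4]],Ref.mk 23 2890 [0,1,2,3] [[0,1,2,3,4,5],[0,1,2,3,4,5],[0,1,2,3,4],[0,1,2,3,4]]],
Node.mk [0,820,182,1542,2448,351,2216,21,2934,9,22,1011,2529,857] [(0,0),(0,1),(0,2),(1,2),(2,1),(3,1)] [],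
Node.mk [0,820,182,1542,2448,351,2216,21,2934,9,22,1011,2529,859] [(0,0),(0,2),(1,1),(1,2),(2,1),(3,1)] [Ref.mk 1747 2891 [0,1,2,3] [[0,1,2,3,4],[0,1,2,3,4,5],[0,1,2,3,4],[0,1,2,3,4]]],
Node.mk [0,820,182,1542,2448,351,2216,21,2934,9,22,1011,2529,860] [(0,0),(0,2),(1,1),(1,2),(2,1),(3,1)] [Ref.mk 1747 2891 [0,1,2,3] [[0,1,2,3,4],[0,1,2,3,4,5],[0,1,2,3,4],[0,1,2,3,4]]],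
Node.mk [0,820,182,1542,2448,351,2216,21,2934,9,22,1011,2529] [(0,3),(1,0),(1,1),(1,2),(1,3),(1,4)] [Ref.mk 45 2306 [0,1,2,3] [[0,1,2,3],[0,1,2,5],[0,1,2,3],[0,1,2,3]],Ref.mk 855 2886 [0,1,2,3] [[0,1,2,3,4],[0,1,2,3,4,5],[0,1,2,3,4],[0,1,2,3,4]],Ref.mk 856 2887 [0,1,2,3] [[0,1,2,3,4],[0,1,2,3,4,5],[0,1,2,3,4],[0,1,2,3,4]],Ref.mk 1747 2891 [0,1,2,3] [[0,1,2,3,4],[0,1,2,3,4,5],[0,1,2,3,4],[0,1,2,3,4]],Ref.mk 857 2892 [0,1,2,3] [[0,1,2,3,4],[0,1,2,3,4,5],[0,1,2,3,4],[0,1,2,3,4]],Ref.mk 859 2893 [0,1,2,3] [[0,1,2,3,4],[0,1,2,3,4,5],[0,1,2,3,4],[0,1,2,3,4]],Ref.mk 860 2894 [0,1,2,3] [[0,1,2,3,4,5],[0,1,2,3,4,5],[0,1,2,3,4],[0,1,2,3,4]]],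
Node.mk [0,820,182,1542,2448,351,2216,21,2934,9,22,1011,2610,855] [(0,0),(0,1),(0,2),(2,0),(2,1),(3,1)] [],
Node.mk [0,820,182,1542,2448,351,2216,21,2934,9,22,1011,2610,856] [(0,0),(0,1),(0,2),(1,2),(2,1),(3,1)] [],
Node.mk [0,820,182,1542,2448,351,2216,21,2934,9,22,1011,2610,1747,977] [(0,0),(0,2),(1,2),(2,1),(2,3),(3,1)] [],
Node.mk [0,820,182,1542,2448,351,2216,21,2934,9,22,1011,2610,1747,1715] [(0,0),(0,2),(1,2),(2,1),(2,3),(3,2)] [],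
Node.mk [0,820,182,1542,2448,351,2216,21,2934,9,22,1011,2610,1747,23] [(0,0),(0,1),(0,2),(0,3),(1,2),(2,1)] [Ref.mk 976 2898 [0,1,2,3] [[0,1,2,3,5,4],[0,1,2,3,4,5],[0,1,2,3,4,5],[0,1,2,3,4]],Ref.mk 1714 2899 [0,1,2,3] [[0,1,2,3,5,4],[0,1,2,3,4,5],[0,1,2,3,4,5],[0,1,2,3,4]],Ref.mk 977 2898 [0,1,2,3] [[0,1,2,3,4,5],[0,1,2,3,4,5],[0,1,2,3,4,5],[0,1,2,3,4]],Ref.mk 1715 2899 [0,1,2,3] [[0,1,2,3,4,5],[0,1,2,3,4,5],[0,1,2,3,4,5],[0,1,2,3,4]],Ref.mk 978 2898 [0,1,2,3] [[0,1,2,3,5,6],[0,1,2,3,4,5],[0,1,2,3,4,5],[0,1,2,3,4]],Ref.mk 1716 2899 [0,1,2,3] [[0,1,2,3,5,6],[0,1,2,3,4,5],[0,1,2,3,4,5],[0,1,2,3,4]]],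
Node.mk [0,820,182,1542,2448,351,2216,21,2934,9,22,1011,2610,1747] [(0,0),(0,1),(0,2),(0,3),(0,4),(2,1)] [Ref.mk 977 2898 [0,1,2,3] [[0,1,2,3,4,5],[0,1,2,3,4,5],[0,1,2,3,4,5],[0,1,2,3,4]],Ref.mk 1715 2899 [0,1,2,3] [[0,1,2,3,4,5],[0,1,2,3,4,5],[0,1,2,3,4,5],[0,1,2,3,4]],Ref.mk 23 2900 [0,1,2,3] [[0,1,2,3,4,5],[0,1,2,3,4,5],[0,1,2,3,4,5],[0,1,2,3,4]]],
Node.mk [0,820,182,1542,2448,351,2216,21,2934,9,22,1011,2610,857] [(0,0),(0,1),(0,2),(1,2),(2,1),(3,1)] [],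
Node.mk [0,820,182,1542,2448,351,2216,21,2934,9,22,1011,2610,859] [(0,0),(0,2),(1,1),(1,2),(2,1),(3,1)] [Ref.mk 1747 2901 [0,1,2,3] [[0,1,2,3,4],[0,1,2,3,4,5],[0,1,2,3,4,5],[0,1,2,3,4]]],
Node.mk [0,820,182,1542,2448,351,2216,21,2934,9,22,1011,2610,860] [(0,0),(0,2),(1,1),(1,2),(2,1),(3,1)] [Ref.mk 1747 2901 [0,1,2,3] [[0,1,2,3,4],[0,1,2,3,4,5],[0,1,2,3,4,5],[0,1,2,3,4]]],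
Node.mk [0,820,182,1542,2448,351,2216,21,2934,9,22,1011,2610] [(0,3),(1,0),(1,1),(1,2),(1,3),(1,4)] [Ref.mk 45 2306 [0,1,2,3] [[0,1,2,3],[0,1,2,5],[0,1,2,3],[0,1,2,3]],Ref.mk 855 2896 [0,1,2,3] [[0,1,2,3,4],[0,1,2,3,4,5],[0,1,2,3,4,5],[0,1,2,3,4]],Ref.mk 856 2897 [0,1,2,3] [[0,1,2,3,4],[0,1,2,3,4,5],[0,1,2,3,4,5],[0,1,2,3,4]],Ref.mk 1747 2901 [0,1,2,3] [[0,1,2,3,4],[0,1,2,3,4,5],[0,1,2,3,4,5],[0,1,2,3,4]],Ref.mk 857 2902 [0,1,2,3] [[0,1,2,3,4],[0,1,2,3,4,5],[0,1,2,3,4,5],[0,1,2,3,4]],Ref.mk 859 2903 [0,1,2,3] [[0,1,2,3,4],[0,1,2,3,4,5],[0,1,2,3,4,5],[0,1,2,3,4]],Ref.mk 860 2904 [0,1,2,3] [[0,1,2,3,4,5],[0,1,2,3,4,5],[0,1,2,3,4,5],[0,1,2,3,4]]],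
Node.mk [0,820,182,1542,2448,351,2216,21,2934,9,22,1011] [(0,3),(1,4),(2,0),(2,3),(3,0),(3,1)] [Ref.mk 2286 2875 [0,1,2,3] [[0,1,2,3,4],[0,1,2,3,4],[0,1,2,3,4],[0,1,2,3,4]],Ref.mk 2367 2885 [0,1,2,3] [[0,1,2,3,4],[0,1,2,3,4],[0,1,2,3,4],[0,1,2,3,4]],Ref.mk 2529 2895 [0,1,2,3] [[0,1,2,3,4],[0,1,2,3,4],[0,1,2,3,4],[0,1,2,3,4]],Ref.mk 2610 2905 [0,1,2,3] [[0,1,2,3,4],[0,1,2,3,4],[0,1,2,3,4,5],[0,1,2,3,4]]],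
Node.mk [0,820,182,1542,2448,351,2216,21,2934,9,22,1092,1828,1058] [(0,0),(0,2),(1,2),(2,1),(2,4),(3,1)] [],
Node.mk [0,820,182,1542,2448,351,2216,21,2934,9,22,1092,1828,1796] [(0,0),(0,2),(1,2),(2,1),(2,4),(3,2)] [],
Node.mk [0,820,182,1542,2448,351,2216,21,2934,9,22,1092,1828,23] [(0,0),(0,1),(0,2),(0,3),(1,2),(2,1)] [Ref.mk 1057 2907 [0,1,2,3] [[0,1,2,3,5,4],[0,1,2,3,4,5],[0,1,2,3,4],[0,1,2,3,4]],Ref.mk 1795 2908 [0,1,2,3] [[0,1,2,3,5,4],[0,1,2,3,4,5],[0,1,2,3,4],[0,1,2,3,4]],Ref.mk 1058 2907 [0,1,2,3] [[0,1,2,3,4,5],[0,1,2,3,4,5],[0,1,2,3,4],[0,1,2,3,4]],Ref.mk 1796 2908 [0,1,2,3] [[0,1,2,3,4,5],[0,1,2,3,4,5],[0,1,2,3,4],[0,1,2,3,4]],Ref.mk 1059 2907 [0,1,2,3] [[0,1,2,3,5,6],[0,1,2,3,4,5],[0,1,2,3,4],[0,1,2,3,4]],Ref.mk 1797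 2908 [0,1,2,3] [[0,1,2,3,5,6],[0,1,2,3,4,5],[0,1,2,3,4],[0,1,2,3,4]]],
Node.mk [0,820,182,1542,2448,351,2216,21,2934,9,22,1092,1828] [(0,0),(0,1),(0,2),(0,3),(0,4),(2,1)] [Ref.mk 1058 2907 [0,1,2,3] [[0,1,2,3,4,5],[0,1,2,3,4,5],[0,1,2,3,4],[0,1,2,3,4]],Ref.mk 1796 2908 [0,1,2,3] [[0,1,2,3,4,5],[0,1,2,3,4,5],[0,1,2,3,4],[0,1,2,3,4]],Ref.mk 23 2909 [0,1,2,3] [[0,1,2,3,4,5],[0,1,2,3,4,5],[0,1,2,3,4],[0,1,2,3,4]]],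
Node.mk [0,820,182,1542,2448,351,2216,21,2934,9,22,1092,1101] [(0,0),(0,2),(0,3),(1,2),(2,4),(3,1)] [],
Node.mk [0,820,182,1542,2448,351,2216,21,2934,9,22,1092,1182] [(0,0),(0,1),(0,2),(0,3),(1,2),(3,1)] [],
Node.mk [0,820,182,1542,2448,351,2216,21,2934,9,22,1092] [(1,0),(1,1),(1,2),(1,3),(1,4),(2,1)] [Ref.mk 45 2306 [0,1,2,3] [[0,1,2,3],[0,1,2,5],[0,1,2,3],[0,1,2,3]],Ref.mk 1828 2910 [0,1,2,3] [[0,1,2,3,4],[0,1,2,3,4,5],[0,1,2,3,4],[0,1,2,3,4]],Ref.mk 777 2797 [0,1,2,3] [[0,1,2,3,4],[0,1,2,3,5],[0,1,2,3,4],[0,1,2,3,4]],Ref.mk 939 2865 [0,1,2,3] [[0,1,2,3,4],[0,1,2,3,5],[0,1,2,3,4],[0,1,2,3,4]],Ref.mk 1020 2906 [0,1,2,3] [[0,1,2,3,4],[0,1,2,3,5],[0,1,2,3,4],[0,1,2,3,4]],Ref.mk 1101 2911 [0,1,2,3] [[0,1,2,3,4],[0,1,2,3,4,5],[0,1,2,3,4],[0,1,2,3,4]],Ref.mk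 1182 2912 [0,1,2,3] [[0,1,2,3,4],[0,1,2,3,4,5],[0,1,2,3,4,5],[0,1,2,3,4]]],
Node.mk [0,820,182,1542,2448,351,2216,21,2934,9,22,1173,1909,1139] [(0,0),(0,2),(1,2),(2,1),(2,5),(3,1)] [],
Node.mk [0,820,182,1542,2448,351,2216,21,2934,9,22,1173,1909,1877] [(0,0),(0,2),(1,2),(2,1),(2,5),(3,2)] [],
Node.mk [0,820,182,1542,2448,351,2216,21,2934,9,22,1173,1909,23] [(0,0),(0,1),(0,2),(0,3),(1,2),(2,1)] [Ref.mk 1138 2914 [0,1,2,3] [[0,1,2,3,5,4],[0,1,2,3,4,5],[0,1,2,3,4,5],[0,1,2,3,4]],Ref.mk 1876 2915 [0,1,2,3] [[0,1,2,3,5,4],[0,1,2,3,4,5],[0,1,2,3,4,5],[0,1,2,3,4]],Ref.mk 1139 2914 [0,1,2,3] [[0,1,2,3,4,5],[0,1,2,3,4,5],[0,1,2,3,4,5],[0,1,2,3,4]],Ref.mk 1877 2915 [0,1,2,3] [[0,1,2,3,4,5],[0,1,2,3,4,5],[0,1,2,3,4,5],[0,1,2,3,4]],Ref.mk 1140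 2914 [0,1,2,3] [[0,1,2,3,5,6],[0,1,2,3,4,5],[0,1,2,3,4,5],[0,1,2,3,4]],Ref.mk 1878 2915 [0,1,2,3] [[0,1,2,3,5,6],[0,1,2,3,4,5],[0,1,2,3,4,5],[0,1,2,3,4]]],
Node.mk [0,820,182,1542,2448,351,2216,21,2934,9,22,1173,1909] [(0,0),(0,1),(0,2),(0,3),(0,4),(2,1)] [Ref.mk 1139 2914 [0,1,2,3] [[0,1,2,3,4,5],[0,1,2,3,4,5],[0,1,2,3,4,5],[0,1,2,3,4]],Ref.mk 1877 2915 [0,1,2,3] [[0,1,2,3,4,5],[0,1,2,3,4,5],[0,1,2,3,4,5],[0,1,2,3,4]],Ref.mk 23 2916 [0,1,2,3] [[0,1,2,3,4,5],[0,1,2,3,4,5],[0,1,2,3,4,5],[0,1,2,3,4]]],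
Node.mk [0,820,182,1542,2448,351,2216,21,2934,9,22,1173,1182] [(0,0),(0,2),(0,3),(1,2),(2,5),(3,1)] [],
Node.mk [0,820,182,1542,2448,351,2216,21,2934,9,22,1173,1263] [(0,0),(0,1),(0,2),(0,3),(1,2),(3,1)] [],
Node.mk [0,820,182,1542,2448,351,2216,21,2934,9,22,1173] [(1,0),(1,1),(1,2),(1,3),(1,4),(2,1)] [Ref.mk 45 2306 [0,1,2,3] [[0,1,2,3],[0,1,2,5],[0,1,2,3],[0,1,2,3]],Ref.mk 1909 2917 [0,1,2,3] [[0,1,2,3,4],[0,1,2,3,4,5],[0,1,2,3,4,5],[0,1,2,3,4]],Ref.mk 777 2797 [0,1,2,3] [[0,1,2,3,4],[0,1,2,3,5],[0,1,2,3,4],[0,1,2,3,4]],Ref.mk 939 2865 [0,1,2,3] [[0,1,2,3,4],[0,1,2,3,5],[0,1,2,3,4],[0,1,2,3,4]],Ref.mk 1020 2906 [0,1,2,3] [[0,1,2,3,4],[0,1,2,3,5],[0,1,2,3,4],[0,1,2,3,4]],Ref.mk 1101 2912 [0,1,2,3] [[0,1,2,3,4],[0,1,2,3,5,4],[0,1,2,3,4,5],[0,1,2,3,4]],Ref.mk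 1182 2918 [0,1,2,3] [[0,1,2,3,4],[0,1,2,3,4,5],[0,1,2,3,4,5],[0,1,2,3,4]],Ref.mk 1263 2919 [0,1,2,3] [[0,1,2,3,4],[0,1,2,3,4,5],[0,1,2,3,4,5,6],[0,1,2,3,4]]],
Node.mk [0,820,182,1542,2448,351,2216,21,2934,9,22] [(0,1),(1,0),(1,1),(1,2),(1,3),(2,1)] [Ref.mk 36 2306 [0,1,2,3] [[0,1,2,3],[0,1,2,4],[0,1,2,3],[0,1,2,3]],Ref.mk 768 2797 [0,1,2,3] [[0,1,2,3,4],[0,1,2,3,4],[0,1,2,3,4],[0,1,2,3,4]],Ref.mk 930 2865 [0,1,2,3] [[0,1,2,3,4],[0,1,2,3,4],[0,1,2,3,4],[0,1,2,3,4]],Ref.mk 1011 2906 [0,1,2,3] [[0,1,2,3,4],[0,1,2,3,4],[0,1,2,3,4],[0,1,2,3,4]],Ref.mk 1092 2913 [0,1,2,3] [[0,1,2,3,4],[0,1,2,3,4],[0,1,2,3,4],[0,1,2,3,4]],Ref.mk 1173 2920 [0,1,2,3] [[0,1,2,3,4],[0,1,2,3,4],[0,1,2,3,4,5],[0,1,2,3,4]]],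
Node.mk [0,820,182,1542,2448,351,2216,21,2934,9] [(0,0),(0,2),(0,3),(1,0),(2,1),(3,2)] [Ref.mk 19 2794 [0,1,2,3] [[0,1,2,3],[0,1,2,3],[0,1,2,3,4],[0,1,2,3,4]],Ref.mk 22 2921 [0,1,2,3] [[0,1,2,3,4],[0,1,2,3],[0,1,2,3,4],[0,1,2,3,4]]],
Node.mk [0,820,182,1542,2448,351,2216,21,2934,2358,2530,1471] [(1,1),(1,2),(2,0),(2,1),(2,2),(3,0)] [],
Node.mk [0,820,182,1542,2448,351,2216,21,2934,2358,2530,1795] [(1,1),(1,2),(2,0),(2,1),(2,2),(2,4)] [],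
Node.mk [0,820,182,1542,2448,351,2216,21,2934,2358,2530] [(0,0),(0,1),(0,2),(0,3),(1,0),(2,1)] [Ref.mk 1471 2923 [0,1,2,3] [[0,1,2,3,4],[0,1,2,3],[0,1,2,3,4],[0,1,2,3,4]],Ref.mk 1795 2924 [0,1,2,3] [[0,1,2,3,4],[0,1,2,3],[0,1,2,3,4],[0,1,2,3,4]]],
Node.mk [0,820,182,1542,2448,351,2216,21,2934,2358] [(0,0),(0,2),(0,3),(1,0),(2,1),(3,2)] [Ref.mk 2530 2925 [0,1,2,3] [[0,1,2,3],[0,1,2,3],[0,1,2,3,4],[0,1,2,3,4]]],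
Node.mk [0,820,182,1542,2448,351,2216,21,2934] [(0,3),(1,0),(1,2),(1,3),(2,1),(3,2)] [Ref.mk 9 2922 [0,1,2,3] [[0,1,2,3],[0,1,2,3],[0,1,2,3,4],[0,1,2,3,4]],Ref.mk 2358 2926 [0,1,2,3] [[0,1,2,3],[0,1,2,3],[0,1,2,3,4],[0,1,2,3,4]],Ref.mk 36 2306 [0,1,2,3] [[0,1,2,3],[0,1,2,4],[0,1,2,3],[0,1,2,3]]],
Node.mk [0,820,182,1542,2448,351,2216,21] [(0,1),(1,1),(2,1),(3,0),(3,1),(3,3)] [Ref.mk 1476 2696 [0,1,2,3] [[0,1,2,3],[0,1,2,3],[0,1,2,3,4],[0,1,2,3]],Ref.mk 2934 2927 [0,1,2,3] [[0,1,2,3],[0,1,2,3],[0,1,2,3,4],[0,1,2,3,4]]],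
Node.mk [0,820,182,1542,2448,351,2216,273,1647,9,19] [(0,3),(1,0),(2,1),(3,0),(3,2),(3,3)] [Ref.mk 747 2571 [0,1,2,3] [[0,3,2,1],[1,0,2,3],[0,1,2,3,4],[0,2,1,3]]],
Node.mk [0,820,182,1542,2448,351,2216,273,1647,9,271,918,768,1471,2297] [(0,0),(0,1),(0,3),(2,0),(2,1),(3,0)] [],
Node.mk [0,820,182,1542,2448,351,2216,273,1647,9,271,918,768,1471] [(0,0),(0,4),(1,1),(2,0),(3,0),(3,2)] [Ref.mk 2297 2930 [0,1,2,3] [[0,1,2,3,4],[0,1,2,3,4],[0,1,2,3,4],[0,1,2,3]]],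
Node.mk [0,820,182,1542,2448,351,2216,273,1647,9,271,918,768,274,2297] [(0,0),(0,2),(0,3),(1,3),(2,0),(2,1)] [],
Node.mk [0,820,182,1542,2448,351,2216,273,1647,9,271,918,768,274] [(0,0),(0,3),(1,4),(2,0),(3,0),(3,1)] [Ref.mk 2297 2932 [0,1,2,3] [[0,1,2,3,4],[0,1,2,3,4],[0,1,2,3,4],[0,1,2,3]]],
Node.mk [0,820,182,1542,2448,351,2216,273,1647,9,271,918,768] [(0,0),(0,1),(0,2),(0,3),(1,0),(2,1)] [Ref.mk 1471 2931 [0,1,2,3] [[0,1,2,3,4],[0,1,2,3,4],[0,1,2,3,4],[0,1,2,3]],Ref.mk 274 2933 [0,1,2,3] [[0,1,2,3,4],[0,1,2,3,4],[0,1,2,3,4],[0,1,2,3]]],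
Node.mk [0,820,182,1542,2448,351,2216,273,1647,9,271,918,930,101] [(0,0),(0,2),(0,3),(1,3),(2,1),(2,2)] [],
Node.mk [0,820,182,1542,2448,351,2216,273,1647,9,271,918,930] [(0,0),(0,3),(1,3),(1,4),(2,2),(3,1)] [Ref.mk 101 2935 [0,1,2,3] [[0,1,2,3],[0,1,2,3,4],[0,1,2,3,4],[0,1,2,3]]],
Node.mk [0,820,182,1542,2448,351,2216,273,1647,9,271,918,1092,1795,3241] [(1,0),(1,1),(1,2),(1,3),(1,4),(2,4)] [Ref.mk 45 2306 [0,1,2,3] [[0,1,2,3],[0,1,2,5],[0,1,2,3],[0,1,2,3]]],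
Node.mk [0,820,182,1542,2448,351,2216,273,1647,9,271,918,1092,1795,3037] [(1,0),(1,1),(1,2),(1,3),(1,4),(2,1)] [Ref.mk 45 2306 [0,1,2,3] [[0,1,2,3],[0,1,2,5],[0,1,2,3],[0,1,2,3]]],
Node.mk [0,820,182,1542,2448,351,2216,273,1647,9,271,918,1092,1795] [(0,0),(0,3),(3,0),(3,1),(3,2),(3,3)] [Ref.mk 3241 2937 [0,1,2,3] [[0,1,2,3,4],[0,1,2,3,4],[0,1,2,3,4],[0,1,2,3,4]],Ref.mk 3037 2938 [0,1,2,3] [[0,1,2,3,4],[0,1,2,3,4],[0,1,2,3,4],[0,1,2,3,4]]],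
Node.mk [0,820,182,1542,2448,351,2216,273,1647,9,271,918,1092,274,3105,1819,1058] [(0,0),(0,2),(1,3),(2,1),(2,4),(3,1)] [],
Node.mk [0,820,182,1542,2448,351,2216,273,1647,9,271,918,1092,274,3105,1819,275] [(0,0),(0,1),(0,2),(0,3),(1,3),(1,4)] [Ref.mk 1057 2940 [0,1,2,3] [[0,1,2,3,5,4],[0,1,2,3,4],[0,1,2,3,4],[0,1,2,3,4]],Ref.mk 1795 2940 [0,1,2,3] [[0,3,2,1,5,4],[1,0,2,3,4],[0,1,2,3,4],[0,2,1,3,4]],Ref.mk 1058 2940 [0,1,2,3] [[0,1,2,3,4,5],[0,1,2,3,4],[0,1,2,3,4],[0,1,2,3,4]],Ref.mk 1796 2940 [0,1,2,3] [[0,3,2,1,4,5],[1,0,2,3,4],[0,1,2,3,4],[0,2,1,3,4]],Ref.mk 1059 2940 [0,1,2,3] [[0,1,2,3,5,6],[0,1,2,3,4],[0,1,2,3,4],[0,1,2,3,4]],Ref.mk 1797 2940 [0,1,2,3] [[0,3,2,1,5,6],[1,0,2,3,4],[0,1,2,3,4],[0,2,1,3,4]]],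
Node.mk [0,820,182,1542,2448,351,2216,273,1647,9,271,918,1092,274,3105,1819] [(0,0),(0,1),(0,2),(0,3),(0,4),(1,4)] [Ref.mk 1058 2940 [0,1,2,3] [[0,1,2,3,4,5],[0,1,2,3,4],[0,1,2,3,4],[0,1,2,3,4]],Ref.mk 1796 2940 [0,1,2,3] [[0,3,2,1,4,5],[1,0,2,3,4],[0,1,2,3,4],[0,2,1,3,4]],Ref.mk 275 2941 [0,1,2,3] [[0,1,2,3,4,5],[0,1,2,3,4],[0,1,2,3,4],[0,1,2,3,4]]],
Node.mk [0,820,182,1542,2448,351,2216,273,1647,9,271,918,1092,274,3105,1900,1139] [(1,0),(1,1),(1,2),(1,3),(1,4),(3,1)] [Ref.mk 45 1178 [0,3,1,2] [[0,1,2,3,5,4],[1,2,0,4,3],[3,4,2,0,1,5],[2,5,4,0,3,1]]]]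

/-- nodes -/
noncomputable def c46 : List Node := [
Node.mk [0,820,182,1542,2448,351,2216,273,1647,9,271,918,1092,274,3105,1900,275] [(0,0),(0,1),(0,2),(0,3),(1,3),(1,4)] [Ref.mk 1138 2943 [0,1,2,3] [[0,1,2,3,5,4],[0,1,2,3,4],[0,1,2,3,4,5],[0,1,2,3,4]],Ref.mk 1795 2939 [0,1,2,3] [[0,1,2,3,4],[0,1,2,3,4],[0,1,2,3,4],[0,1,2,3]],Ref.mk 1139 2943 [0,1,2,3] [[0,1,2,3,4,5],[0,1,2,3,4],[0,1,2,3,4,5],[0,1,2,3,4]],Ref.mk 1796 2939 [0,1,2,3] [[0,1,2,3,5],[0,1,2,3,4],[0,1,2,3,4],[0,1,2,3]],Ref.mk 1140 2943 [0,1,2,3] [[0,1,2,3,5,6],[0,1,2,3,4],[0,1,2,3,4,5],[0,1,2,3,4]],Ref.mk 1797 2939 [0,1,2,3] [[0,1,2,3,6],[0,1,2,3,4],[0,1,2,3,4],[0,1,2,3]]],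
Node.mk [0,820,182,1542,2448,351,2216,273,1647,9,271,918,1092,274,3105,1900] [(0,0),(0,1),(0,2),(0,3),(0,4),(1,4)] [Ref.mk 1139 2943 [0,1,2,3] [[0,1,2,3,4,5],[0,1,2,3,4],[0,1,2,3,4,5],[0,1,2,3,4]],Ref.mk 1796 2939 [0,1,2,3] [[0,1,2,3,5],[0,1,2,3,4],[0,1,2,3,4],[0,1,2,3]],Ref.mk 275 2944 [0,1,2,3] [[0,1,2,3,4,5],[0,1,2,3,4],[0,1,2,3,4,5],[0,1,2,3,4]]],
Node.mk [0,820,182,1542,2448,351,2216,273,1647,9,271,918,1092,274,3105,1828] [(1,0),(1,1),(1,2),(1,3),(2,1),(2,4)] [Ref.mk 36 2306 [0,1,2,3] [[0,1,2,3],[0,1,2,4],[0,1,2,3],[0,1,2,3]],Ref.mk 45 2306 [0,1,2,3] [[0,1,2,3],[0,1,2,5],[0,1,2,3],[0,1,2,3]],Ref.mk 54 2306 [0,1,2,3] [[0,1,2,3],[0,1,2,6],[0,1,2,3],[0,1,2,3]],Ref.mk 1495 2934 [0,1,2,3] [[0,3,2,1],[1,0,2,3,4],[0,1,2,3,4],[0,2,1,3]],Ref.mk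 1657 2936 [0,1,2,3] [[0,3,2,1],[1,0,2,3,4],[0,1,2,3,4],[0,2,1,3]],Ref.mk 1738 2936 [3,1,2,0] [[0,1,3,2],[0,1,2,3,4],[0,1,3,2,4],[0,1,3,2]],Ref.mk 1900 2945 [0,1,2,3] [[0,1,2,3,4],[0,1,2,3,4],[0,1,2,3,4,5],[0,1,2,3,4]],Ref.mk 777 2934 [0,1,2,3] [[0,1,2,3],[0,1,2,3,5],[0,1,2,3,4],[0,1,2,3]],Ref.mk 939 2936 [0,1,2,3] [[0,1,2,3],[0,1,2,3,5],[0,1,2,3,4],[0,1,2,3]],Ref.mk 1020 2936 [3,1,2,0] [[0,2,3,1],[1,0,2,3,5],[0,1,3,2,4],[0,3,1,2]],Ref.mk 1182 2945 [0,1,2,3] [[0,3,2,1,4],[1,0,2,3,5],[0,1,2,3,4,5],[0,2,1,3,4]]],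
Node.mk [0,820,182,1542,2448,351,2216,273,1647,9,271,918,1092,274,3105] [(0,3),(1,0),(1,1),(1,2),(1,3),(2,1)] [Ref.mk 36 2306 [0,1,2,3] [[0,1,2,3],[0,1,2,4],[0,1,2,3],[0,1,2,3]],Ref.mk 45 2306 [0,1,2,3] [[0,1,2,3],[0,1,2,5],[0,1,2,3],[0,1,2,3]],Ref.mk 1495 2933 [3,1,2,0] [[0,1,3,2,4],[0,1,2,3,4],[0,1,3,2,4],[0,1,3,2]],Ref.mk 1657 2936 [0,1,2,3] [[0,3,2,1],[1,0,2,3,4],[0,1,2,3,4],[0,2,1,3]],Ref.mk 1738 2936 [3,1,2,0] [[0,1,3,2],[0,1,2,3,4],[0,1,3,2,4],[0,1,3,2]],Ref.mk 1819 2942 [0,1,2,3] [[0,1,2,3,4],[0,1,2,3,4],[0,1,2,3,4],[0,1,2,3,4]],Ref.mk 1900 2945 [0,1,2,3] [[0,1,2,3,4],[0,1,2,3,4],[0,1,2,3,4,5],[0,1,2,3,4]],Ref.mk 1828 2946 [0,1,2,3] [[0,1,2,3,4],[0,1,2,3,4,5],[0,1,2,3,4],[0,1,2,3,4]]],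
Node.mk [0,820,182,1542,2448,351,2216,273,1647,9,271,918,1092,274] [(0,3),(1,4),(3,0),(3,1),(3,2),(3,3)] [Ref.mk 3105 2947 [0,1,2,3] [[0,1,2,3,4],[0,1,2,3,4],[0,1,2,3,4],[0,1,2,3,4]],Ref.mk 3241 2939 [1,3,2,0] [[3,1,2,0,4],[2,1,3,0,4],[2,1,3,0,4],[0,1,3,2]]],
Node.mk [0,820,182,1542,2448,351,2216,273,1647,9,271,918,1092] [(0,0),(0,1),(0,2),(0,3),(1,0),(2,1)] [Ref.mk 1795 2939 [0,1,2,3] [[0,1,2,3,4],[0,1,2,3,4],[0,1,2,3,4],[0,1,2,3]],Ref.mk 274 2948 [0,1,2,3] [[0,1,2,3,4],[0,1,2,3,4],[0,1,2,3,4],[0,1,2,3]]],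
Node.mk [0,820,182,1542,2448,351,2216,273,1647,9,271,918,1173,1876,3322] [(1,0),(1,1),(1,2),(1,3),(1,4),(2,5)] [Ref.mk 45 2306 [0,1,2,3] [[0,1,2,3],[0,1,2,5],[0,1,2,3],[0,1,2,3]]],
Node.mk [0,820,182,1542,2448,351,2216,273,1647,9,271,918,1173,1876,3037] [(1,0),(1,1),(1,2),(1,3),(1,4),(2,1)] [Ref.mk 45 1269 [1,3,0,2] [[3,4,2,1,0,5],[2,4,0,1,3],[0,4,2,3,1],[2,1,5,3,0,4]]],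
Node.mk [0,820,182,1542,2448,351,2216,273,1647,9,271,918,1173,1876] [(0,0),(0,3),(3,0),(3,1),(3,2),(3,3)] [Ref.mk 3322 2950 [0,1,2,3] [[0,1,2,3,4],[0,1,2,3,4],[0,1,2,3,4,5],[0,1,2,3,4]],Ref.mk 3037 2951 [0,1,2,3] [[0,1,2,3,4],[0,1,2,3,4],[0,1,2,3,4,5],[0,1,2,3,4]]],
Node.mk [0,820,182,1542,2448,351,2216,273,1647,9,271,918,1173,274,3105,1900,1139] [(0,0),(0,2),(1,3),(2,1),(2,5),(3,1)] [],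
Node.mk [0,820,182,1542,2448,351,2216,273,1647,9,271,918,1173,274,3105,1900,275] [(0,0),(0,1),(0,2),(0,3),(1,3),(1,4)] [Ref.mk 1138 2953 [0,1,2,3] [[0,1,2,3,5,4],[0,1,2,3,4],[0,1,2,3,4,5],[0,1,2,3,4]],Ref.mk 1876 2953 [0,1,2,3] [[0,3,2,1,5,4],[1,0,2,3,4],[0,1,2,3,4,5],[0,2,1,3,4]],Ref.mk 1139 2953 [0,1,2,3] [[0,1,2,3,4,5],[0,1,2,3,4],[0,1,2,3,4,5],[0,1,2,3,4]],Ref.mk 1877 2953 [0,1,2,3] [[0,3,2,1,4,5],[1,0,2,3,4],[0,1,2,3,4,5],[0,2,1,3,4]],Ref.mk 1140 2953 [0,1,2,3] [[0,1,2,3,5,6],[0,1,2,3,4],[0,1,2,3,4,5],[0,1,2,3,4]],Ref.mk 1878 2953 [0,1,2,3] [[0,3,2,1,5,6],[1,0,2,3,4],[0,1,2,3,4,5],[0,2,1,3,4]]],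
Node.mk [0,820,182,1542,2448,351,2216,273,1647,9,271,918,1173,274,3105,1900] [(0,0),(0,1),(0,2),(0,3),(0,4),(1,4)] [Ref.mk 1139 2953 [0,1,2,3] [[0,1,2,3,4,5],[0,1,2,3,4],[0,1,2,3,4,5],[0,1,2,3,4]],Ref.mk 1877 2953 [0,1,2,3] [[0,3,2,1,4,5],[1,0,2,3,4],[0,1,2,3,4,5],[0,2,1,3,4]],Ref.mk 275 2954 [0,1,2,3] [[0,1,2,3,4,5],[0,1,2,3,4],[0,1,2,3,4,5],[0,1,2,3,4]]],
Node.mk [0,820,182,1542,2448,351,2216,273,1647,9,271,918,1173,274,3105,1981,1220] [(1,0),(1,1),(1,2),(1,3),(1,4),(3,1)] [Ref.mk 45 1178 [0,3,1,2] [[0,1,2,3,5,4],[1,2,0,4,3],[3,4,2,0,1,5],[2,6,5,0,3,1]]],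
Node.mk [0,820,182,1542,2448,351,2216,273,1647,9,271,918,1173,274,3105,1981,275] [(0,0),(0,1),(0,2),(0,3),(1,3),(1,4)] [Ref.mk 1219 2956 [0,1,2,3] [[0,1,2,3,5,4],[0,1,2,3,4],[0,1,2,3,4,5,6],[0,1,2,3,4]],Ref.mk 1876 2956 [0,1,2,3] [[0,3,2,1,5,4],[1,0,2,3,4],[0,1,2,3,4,6,5],[0,2,1,3,4]],Ref.mk 1220 2956 [0,1,2,3] [[0,1,2,3,4,5],[0,1,2,3,4],[0,1,2,3,4,5,6],[0,1,2,3,4]],Ref.mk 1877 2956 [0,1,2,3] [[0,3,2,1,4,5],[1,0,2,3,4],[0,1,2,3,4,6,5],[0,2,1,3,4]],Ref.mk 1221 2956 [0,1,2,3] [[0,1,2,3,5,6],[0,1,2,3,4],[0,1,2,3,4,5,6],[0,1,2,3,4]],Ref.mk 1878 2956 [0,1,2,3] [[0,3,2,1,5,6],[1,0,2,3,4],[0,1,2,3,4,6,5],[0,2,1,3,4]]],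
Node.mk [0,820,182,1542,2448,351,2216,273,1647,9,271,918,1173,274,3105,1981] [(0,0),(0,1),(0,2),(0,3),(0,4),(1,4)] [Ref.mk 1220 2956 [0,1,2,3] [[0,1,2,3,4,5],[0,1,2,3,4],[0,1,2,3,4,5,6],[0,1,2,3,4]],Ref.mk 1877 2956 [0,1,2,3] [[0,3,2,1,4,5],[1,0,2,3,4],[0,1,2,3,4,6,5],[0,2,1,3,4]],Ref.mk 275 2957 [0,1,2,3] [[0,1,2,3,4,5],[0,1,2,3,4],[0,1,2,3,4,5,6],[0,1,2,3,4]]],
Node.mk [0,820,182,1542,2448,351,2216,273,1647,9,271,918,1173,274,3105,1909] [(1,0),(1,1),(1,2),(1,3),(2,1),(2,5)] [Ref.mk 36 2306 [0,1,2,3] [[0,1,2,3],[0,1,2,4],[0,1,2,3],[0,1,2,3]],Ref.mk 45 2306 [0,1,2,3] [[0,1,2,3],[0,1,2,5],[0,1,2,3],[0,1,2,3]],Ref.mk 54 2306 [0,1,2,3] [[0,1,2,3],[0,1,2,6],[0,1,2,3],[0,1,2,3]],Ref.mk 1495 2934 [0,1,2,3] [[0,3,2,1],[1,0,2,3,4],[0,1,2,3,4],[0,2,1,3]],Ref.mk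 1657 2936 [0,1,2,3] [[0,3,2,1],[1,0,2,3,4],[0,1,2,3,4],[0,2,1,3]],Ref.mk 1738 2936 [3,1,2,0] [[0,1,3,2],[0,1,2,3,4],[0,1,3,2,4],[0,1,3,2]],Ref.mk 1819 2945 [0,1,2,3] [[0,3,2,1,4],[1,0,2,3,4],[0,1,2,3,4,5],[0,2,1,3,4]],Ref.mk 1981 2958 [0,1,2,3] [[0,1,2,3,4],[0,1,2,3,4],[0,1,2,3,4,5,6],[0,1,2,3,4]],Ref.mk 777 2934 [0,1,2,3] [[0,1,2,3],[0,1,2,3,5],[0,1,2,3,4],[0,1,2,3]],Ref.mk 939 2936 [0,1,2,3] [[0,1,2,3],[0,1,2,3,5],[0,1,2,3,4],[0,1,2,3]],Ref.mk 1020 2936 [3,1,2,0] [[0,2,3,1],[1,0,2,3,5],[0,1,3,2,4],[0,3,1,2]],Ref.mk 1101 2945 [0,1,2,3] [[0,1,2,3,4],[0,1,2,3,5],[0,1,2,3,4,5],[0,1,2,3,4]],Ref.mk 1263 2958 [0,1,2,3] [[0,1,2,3,4],[0,1,2,3,5],[0,1,2,3,4,6,5],[0,1,2,3,4]]],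
Node.mk [0,820,182,1542,2448,351,2216,273,1647,9,271,918,1173,274,3105] [(0,3),(1,0),(1,1),(1,2),(1,3),(2,1)] [Ref.mk 36 2306 [0,1,2,3] [[0,1,2,3],[0,1,2,4],[0,1,2,3],[0,1,2,3]],Ref.mk 45 1464 [1,3,0,2] [[3,0,2,4,1,5],[1,2,0,4,3],[0,3,2,1,4],[2,1,5,3,0,4]],Ref.mk 1495 2933 [3,1,2,0] [[0,1,3,2,4],[0,1,2,3,4],[0,1,3,2,4],[0,1,3,2]],Ref.mk 1657 2936 [0,1,2,3] [[0,3,2,1],[1,0,2,3,4],[0,1,2,3,4],[0,2,1,3]],Ref.mk 1738 2936 [3,1,2,0] [[0,1,3,2],[0,1,2,3,4],[0,1,3,2,4],[0,1,3,2]],Ref.mk 1819 2945 [0,1,2,3] [[0,3,2,1,4],[1,0,2,3,4],[0,1,2,3,4,5],[0,2,1,3,4]],Ref.mk 1900 2955 [0,1,2,3] [[0,1,2,3,4],[0,1,2,3,4],[0,1,2,3,4,5],[0,1,2,3,4]],Ref.mk 1981 2958 [0,1,2,3] [[0,1,2,3,4],[0,1,2,3,4],[0,1,2,3,4,5,6],[0,1,2,3,4]],Ref.mk 1909 2959 [0,1,2,3]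 [[0,1,2,3,4],[0,1,2,3,4,5],[0,1,2,3,4,5],[0,1,2,3,4]]],
Node.mk [0,820,182,1542,2448,351,2216,273,1647,9,271,918,1173,274] [(0,3),(1,4),(3,0),(3,1),(3,2),(3,3)] [Ref.mk 3105 2960 [0,1,2,3] [[0,1,2,3,4],[0,1,2,3,4],[0,1,2,3,4,5],[0,1,2,3,4]],Ref.mk 3322 2952 [1,3,2,0] [[3,1,2,0,4],[2,1,3,0,4],[2,1,3,0,4,5],[0,1,3,2]]],
Node.mk [0,820,182,1542,2448,351,2216,273,1647,9,271,918,1173] [(0,0),(0,1),(0,2),(0,3),(1,0),(2,1)] [Ref.mk 1876 2952 [0,1,2,3] [[0,1,2,3,4],[0,1,2,3,4],[0,1,2,3,4,5],[0,1,2,3]],Ref.mk 274 2961 [0,1,2,3] [[0,1,2,3,4],[0,1,2,3,4],[0,1,2,3,4,5],[0,1,2,3]]],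
Node.mk [0,820,182,1542,2448,351,2216,273,1647,9,271,918] [(0,1),(1,0),(1,1),(1,2),(1,3),(2,1)] [Ref.mk 36 2306 [0,1,2,3] [[0,1,2,3],[0,1,2,4],[0,1,2,3],[0,1,2,3]],Ref.mk 768 2934 [0,1,2,3] [[0,1,2,3],[0,1,2,3,4],[0,1,2,3,4],[0,1,2,3]],Ref.mk 930 2936 [0,1,2,3] [[0,1,2,3],[0,1,2,3,4],[0,1,2,3,4],[0,1,2,3]],Ref.mk 1011 2936 [3,1,2,0] [[0,2,3,1],[1,0,2,3,4],[0,1,3,2,4],[0,3,1,2]],Ref.mk 1092 2949 [0,1,2,3] [[0,1,2,3],[0,1,2,3,4],[0,1,2,3,4],[0,1,2,3]],Ref.mk 1173 2962 [0,1,2,3] [[0,1,2,3],[0,1,2,3,4],[0,1,2,3,4,5],[0,1,2,3]]],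
Node.mk [0,820,182,1542,2448,351,2216,273,1647,9,271,3105,768,2297] [(0,0),(0,2),(0,3),(1,3),(2,0),(2,1)] [],
Node.mk [0,820,182,1542,2448,351,2216,273,1647,9,271,3105,768] [(0,0),(0,3),(1,4),(2,0),(3,0),(3,1)] [Ref.mk 2297 2964 [0,1,2,3] [[0,1,2,3],[0,1,2,3,4],[0,1,2,3,4],[0,1,2,3,4]]],
Node.mk [0,820,182,1542,2448,351,2216,273,1647,9,271,3105,930,101] [(0,0),(0,2),(0,3),(1,3),(2,1),(2,2)] [],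
Node.mk [0,820,182,1542,2448,351,2216,273,1647,9,271,3105,930] [(0,0),(0,3),(1,3),(1,4),(2,2),(3,1)] [Ref.mk 101 2966 [0,1,2,3] [[0,1,2,3],[0,1,2,3,4],[0,1,2,3,4],[0,1,2,3,4]]],
Node.mk [0,820,182,1542,2448,351,2216,273,1647,9,271,3105,1011,2286] [(0,0),(0,1),(0,2),(0,3),(2,1),(2,3)] [],
Node.mk [0,820,182,1542,2448,351,2216,273,1647,9,271,3105,1011] [(0,3),(1,3),(1,4),(2,3),(3,0),(3,1)] [Ref.mk 2286 2968 [0,1,2,3] [[0,1,2,3],[0,1,2,3,4],[0,1,2,3,4],[0,1,2,3,4]]],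
Node.mk [0,820,182,1542,2448,351,2216,273,1647,9,271,3105,1092,1795,1828] [(0,0),(0,2),(1,3),(2,1),(2,4),(3,2)] [],
Node.mk [0,820,182,1542,2448,351,2216,273,1647,9,271,3105,1092,1795,859] [(0,0),(0,2),(0,4),(1,3),(2,1),(3,1)] [Ref.mk 1828 2970 [0,1,2,3] [[0,1,2,3,4],[0,1,2,3,4,5],[0,1,2,3,4],[0,1,2,3,4]]],
Node.mk [0,820,182,1542,2448,351,2216,273,1647,9,271,3105,1092,1795] [(0,3),(1,0),(1,1),(1,2),(1,3),(1,4)] [Ref.mk 45 2306 [0,1,2,3] [[0,1,2,3],[0,1,2,5],[0,1,2,3],[0,1,2,3]],Ref.mk 1828 2970 [0,1,2,3] [[0,1,2,3,4],[0,1,2,3,4,5],[0,1,2,3,4],[0,1,2,3,4]],Ref.mk 859 2971 [0,1,2,3] [[0,1,2,3,4],[0,1,2,3,4,5],[0,1,2,3,4],[0,1,2,3,4]]],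
Node.mk [0,820,182,1542,2448,351,2216,273,1647,9,271,3105,1092,274,734] [(0,0),(0,5),(1,0),(2,0),(3,0),(3,1)] [],
Node.mk [0,820,182,1542,2448,351,2216,273,1647,9,271,3105,1092,274,896] [(0,0),(0,5),(1,0),(1,3),(2,2),(3,1)] [],
Node.mk [0,820,182,1542,2448,351,2216,273,1647,9,271,3105,1092,274,977] [(0,0),(0,2),(2,1),(2,3),(2,4),(3,1)] [],
Node.mk [0,820,182,1542,2448,351,2216,273,1647,9,271,3105,1092,274,1058] [(0,0),(0,2),(1,3),(2,1),(2,4),(3,1)] [],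
Node.mk [0,820,182,1542,2448,351,2216,273,1647,9,271,3105,1092,274,1139] [(1,0),(1,1),(1,2),(1,3),(1,4),(3,1)] [Ref.mk 45 1464 [0,1,3,2] [[0,1,2,5,3,4],[0,1,3,5,2],[0,1,3,2,4],[0,1,5,2,3,4]]],
Node.mk [0,820,182,1542,2448,351,2216,273,1647,9,271,3105,1092,274,275,1795,1828] [(0,0),(0,2),(1,3),(2,1),(2,4),(3,2)] [],
Node.mk [0,820,182,1542,2448,351,2216,273,1647,9,271,3105,1092,274,275,1795,859] [(0,0),(0,2),(0,4),(1,3),(2,1),(3,1)] [Ref.mk 1828 2978 [0,1,2,3] [[0,1,2,3,4,5],[0,1,2,3,4,5],[0,1,2,3,4],[0,1,2,3,4]]],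
Node.mk [0,820,182,1542,2448,351,2216,273,1647,9,271,3105,1092,274,275,1795] [(0,3),(1,0),(1,1),(1,2),(1,3),(1,4)] [Ref.mk 45 2306 [0,1,2,3] [[0,1,2,3],[0,1,2,5],[0,1,2,3],[0,1,2,3]],Ref.mk 1828 2978 [0,1,2,3] [[0,1,2,3,4,5],[0,1,2,3,4,5],[0,1,2,3,4],[0,1,2,3,4]],Ref.mk 859 2979 [0,1,2,3] [[0,1,2,3,4,5],[0,1,2,3,4,5],[0,1,2,3,4],[0,1,2,3,4]]],
Node.mk [0,820,182,1542,2448,351,2216,273,1647,9,271,3105,1092,274,275,1797,1828] [(0,0),(0,2),(1,3),(2,1),(2,4),(3,2)] [],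
Node.mk [0,820,182,1542,2448,351,2216,273,1647,9,271,3105,1092,274,275,1797,861] [(0,0),(0,2),(0,3),(1,3),(2,1),(2,4)] [Ref.mk 735 2973 [0,1,2,3] [[0,1,2,3,4,6],[0,1,2,3,4],[0,1,2,3,4],[0,1,2,3,4]],Ref.mk 897 2974 [0,1,2,3] [[0,1,2,3,4,6],[0,1,2,3,4],[0,1,2,3,4],[0,1,2,3,4]],Ref.mk 978 2975 [0,1,2,3] [[0,1,2,3,4,6],[0,1,2,3,4],[0,1,2,3,4],[0,1,2,3,4]],Ref.mk 1140 2977 [0,1,2,3] [[0,1,2,3,4,6],[0,1,2,3,4],[0,1,2,3,4,5],[0,1,2,3,4]]],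
Node.mk [0,820,182,1542,2448,351,2216,273,1647,9,271,3105,1092,274,275,1797] [(0,3),(1,0),(1,1),(1,2),(1,3),(1,4)] [Ref.mk 45 2306 [0,1,2,3] [[0,1,2,3],[0,1,2,5],[0,1,2,3],[0,1,2,3]],Ref.mk 1828 2981 [0,1,2,3] [[0,1,2,3,4,5,6],[0,1,2,3,4,5],[0,1,2,3,4],[0,1,2,3,4]],Ref.mk 861 2982 [0,1,2,3] [[0,1,2,3,4,5,6],[0,1,2,3,4,5],[0,1,2,3,4],[0,1,2,3,4]]],
Node.mk [0,820,182,1542,2448,351,2216,273,1647,9,271,3105,1092,274,275] [(0,0),(0,1),(0,2),(0,3),(1,3),(2,1)] [Ref.mk 733 2973 [0,1,2,3] [[0,1,2,3,5,4],[0,1,2,3,4],[0,1,2,3,4],[0,1,2,3,4]],Ref.mk 895 2974 [0,1,2,3] [[0,1,2,3,5,4],[0,1,2,3,4],[0,1,2,3,4],[0,1,2,3,4]],Ref.mk 976 2975 [0,1,2,3] [[0,1,2,3,5,4],[0,1,2,3,4],[0,1,2,3,4],[0,1,2,3,4]],Ref.mk 1057 2976 [0,1,2,3] [[0,1,2,3,5,4],[0,1,2,3,4],[0,1,2,3,4],[0,1,2,3,4]],Ref.mk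 1138 2977 [0,1,2,3] [[0,1,2,3,5,4],[0,1,2,3,4],[0,1,2,3,4,5],[0,1,2,3,4]],Ref.mk 1795 2980 [0,1,2,3] [[0,1,2,3,4,5],[0,1,2,3,4],[0,1,2,3,4],[0,1,2,3,4]],Ref.mk 734 2973 [0,1,2,3] [[0,1,2,3,4,5],[0,1,2,3,4],[0,1,2,3,4],[0,1,2,3,4]],Ref.mk 896 2974 [0,1,2,3] [[0,1,2,3,4,5],[0,1,2,3,4],[0,1,2,3,4],[0,1,2,3,4]],Ref.mk 977 2975 [0,1,2,3] [[0,1,2,3,4,5],[0,1,2,3,4],[0,1,2,3,4],[0,1,2,3,4]],Ref.mk 1058 2976 [0,1,2,3] [[0,1,2,3,4,5],[0,1,2,3,4],[0,1,2,3,4],[0,1,2,3,4]],Ref.mk 1139 2977 [0,1,2,3] [[0,1,2,3,4,5],[0,1,2,3,4],[0,1,2,3,4,5],[0,1,2,3,4]],Ref.mk 1796 2980 [0,1,2,3] [[0,1,2,3,5,4],[0,1,2,3,4],[0,1,2,3,4],[0,1,2,3,4]],Ref.mk 735 2973 [0,1,2,3] [[0,1,2,3,5,6],[0,1,2,3,4],[0,1,2,3,4],[0,1,2,3,4]],Ref.mk 897 2974 [0,1,2,3] [[0,1,2,3,5,6],[0,1,2,3,4],[0,1,2,3,4],[0,1,2,3,4]],Ref.mk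 978 2975 [0,1,2,3] [[0,1,2,3,5,6],[0,1,2,3,4],[0,1,2,3,4],[0,1,2,3,4]],Ref.mk 1059 2976 [0,1,2,3] [[0,1,2,3,5,6],[0,1,2,3,4],[0,1,2,3,4],[0,1,2,3,4]],Ref.mk 1140 2977 [0,1,2,3] [[0,1,2,3,5,6],[0,1,2,3,4],[0,1,2,3,4,5],[0,1,2,3,4]],Ref.mk 1797 2983 [0,1,2,3] [[0,1,2,3,4,5,6],[0,1,2,3,4],[0,1,2,3,4],[0,1,2,3,4]]],
Node.mk [0,820,182,1542,2448,351,2216,273,1647,9,271,3105,1092,274] [(0,0),(0,1),(0,2),(0,3),(0,4),(2,1)] [Ref.mk 734 2973 [0,1,2,3] [[0,1,2,3,4,5],[0,1,2,3,4],[0,1,2,3,4],[0,1,2,3,4]],Ref.mk 896 2974 [0,1,2,3] [[0,1,2,3,4,5],[0,1,2,3,4],[0,1,2,3,4],[0,1,2,3,4]],Ref.mk 977 2975 [0,1,2,3] [[0,1,2,3,4,5],[0,1,2,3,4],[0,1,2,3,4],[0,1,2,3,4]],Ref.mk 1058 2976 [0,1,2,3] [[0,1,2,3,4,5],[0,1,2,3,4],[0,1,2,3,4],[0,1,2,3,4]],Ref.mk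 1139 2977 [0,1,2,3] [[0,1,2,3,4,5],[0,1,2,3,4],[0,1,2,3,4,5],[0,1,2,3,4]],Ref.mk 1796 2972 [0,1,2,3] [[0,1,2,3,5],[0,1,2,3,4],[0,1,2,3,4],[0,1,2,3,4]],Ref.mk 275 2984 [0,1,2,3] [[0,1,2,3,4,5],[0,1,2,3,4],[0,1,2,3,4],[0,1,2,3,4]]],
Node.mk [0,820,182,1542,2448,351,2216,273,1647,9,271,3105,1092] [(0,0),(0,1),(0,2),(0,3),(1,0),(2,1)] [Ref.mk 1795 2972 [0,1,2,3] [[0,1,2,3,4],[0,1,2,3,4],[0,1,2,3,4],[0,1,2,3,4]],Ref.mk 274 2985 [0,1,2,3] [[0,1,2,3,4],[0,1,2,3,4],[0,1,2,3,4],[0,1,2,3,4]]],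
Node.mk [0,820,182,1542,2448,351,2216,273,1647,9,271,3105,1173,1876,1139] [(0,0),(0,2),(1,3),(2,1),(2,5),(3,1)] [],
Node.mk [0,820,182,1542,2448,351,2216,273,1647,9,271,3105,1173,1876,1580] [(0,0),(0,2),(0,3),(1,3),(2,1),(3,2)] [Ref.mk 1139 2987 [0,1,2,3] [[0,1,2,3,4,5],[0,1,2,3,4],[0,1,2,3,4,5],[0,1,2,3,4]]],
Node.mk [0,820,182,1542,2448,351,2216,273,1647,9,271,3105,1173,1876] [(0,0),(0,1),(0,2),(0,3),(0,4),(1,1)] [Ref.mk 1139 2987 [0,1,2,3] [[0,1,2,3,4,5],[0,1,2,3,4],[0,1,2,3,4,5],[0,1,2,3,4]],Ref.mk 275 1175 [0,1,3,2] [[0,3,2,1,4,5],[1,4,3,0,2],[0,1,3,2,4],[0,5,1,2,3,4]],Ref.mk 1580 2988 [0,1,2,3] [[0,1,2,3,4,5],[0,1,2,3,4],[0,1,2,3,4,5],[0,1,2,3,4]]],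
Node.mk [0,820,182,1542,2448,351,2216,273,1647,9,271,3105,1173,274,275,1909,4062] [(0,0),(0,1),(0,2),(0,3),(1,0),(1,3)] [Ref.mk 1876 2989 [0,1,2,3] [[0,1,2,3,4],[0,1,2,3,4],[0,1,2,3,4,5],[0,1,2,3,4]],Ref.mk 1877 2989 [0,1,2,3] [[0,1,2,3,5],[0,1,2,3,4],[0,1,2,3,4,5],[0,1,2,3,4]],Ref.mk 1878 2989 [0,1,2,3] [[0,1,2,3,6],[0,1,2,3,4],[0,1,2,3,4,5],[0,1,2,3,4]]],
Node.mk [0,820,182,1542,2448,351,2216,273,1647,9,271,3105,1173,274,275,1909,3774] [(0,0),(0,1),(0,2),(0,3),(1,3),(2,1)] [],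
Node.mk [0,820,182,1542,2448,351,2216,273,1647,9,271,3105,1173,274,275,1909] [(0,1),(3,0),(3,1),(3,2),(3,3),(3,4)] [Ref.mk 3834 1334 [1,0,3,2] [[3,4,2,1,5,0],[1,3,0,4,2,5],[0,1,3,2,4,5],[3,5,1,2,0,4]],Ref.mk 4062 2990 [0,1,2,3] [[0,1,2,3,4,5],[0,1,2,3,4,5],[0,1,2,3,4,5],[0,1,2,3,4,5]],Ref.mk 3774 2991 [0,1,2,3] [[0,1,2,3,4,5],[0,1,2,3,4,5],[0,1,2,3,4,5],[0,1,2,3,4,5]]],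
Node.mk [0,820,182,1542,2448,351,2216,273,1647,9,271,3105,1173,274,275,1182] [(0,0),(0,1),(0,2),(0,3),(1,3),(3,1)] [Ref.mk 1876 2989 [0,1,2,3] [[0,1,2,3,4],[0,1,2,3,4],[0,1,2,3,4,5],[0,1,2,3,4]],Ref.mk 1877 2989 [0,1,2,3] [[0,1,2,3,5],[0,1,2,3,4],[0,1,2,3,4,5],[0,1,2,3,4]],Ref.mk 1878 2989 [0,1,2,3] [[0,1,2,3,6],[0,1,2,3,4],[0,1,2,3,4,5],[0,1,2,3,4]]],
Node.mk [0,820,182,1542,2448,351,2216,273,1647,9,271,3105,1173,274,275,1263] [(0,0),(0,1),(0,2),(0,3),(1,3),(3,1)] [],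
Node.mk [0,820,182,1542,2448,351,2216,273,1647,9,271,3105,1173,274,275] [(1,0),(1,1),(1,2),(1,3),(1,4),(2,1)] [Ref.mk 45 1448 [1,0,3,2] [[3,1,2,4,0,5],[3,1,0,4,2,5],[0,1,3,2,4],[3,1,5,2,0,4]],Ref.mk 1909 2992 [0,1,2,3] [[0,1,2,3,4,5],[0,1,2,3,4,5],[0,1,2,3,4,5],[0,1,2,3,4]],Ref.mk 777 2965 [0,1,2,3] [[0,1,2,3],[0,1,2,3,5],[0,1,2,3,4],[0,1,2,3,4]],Ref.mk 939 2967 [0,1,2,3] [[0,1,2,3],[0,1,2,3,5],[0,1,2,3,4],[0,1,2,3,4]],Ref.mk 1020 2969 [0,1,2,3] [[0,1,2,3],[0,1,2,3,5],[0,1,2,3,4],[0,1,2,3,4]],Ref.mk 1101 2984 [0,1,2,3] [[0,1,2,3,4,5],[0,1,2,3,5],[0,1,2,3,4],[0,1,2,3,4]],Ref.mk 1182 2993 [0,1,2,3] [[0,1,2,3,4,5],[0,1,2,3,4,5],[0,1,2,3,4,5],[0,1,2,3,4]],Ref.mk 1263 2994 [0,1,2,3] [[0,1,2,3,4,5],[0,1,2,3,4,5],[0,1,2,3,4,5,6],[0,1,2,3,4]]],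
Node.mk [0,820,182,1542,2448,351,2216,273,1647,9,271,3105,1173,274,122] [(0,0),(2,1),(3,0),(3,1),(3,2),(3,3)] [],
Node.mk [0,820,182,1542,2448,351,2216,273,1647,9,271,3105,1173,274,1580] [(0,0),(0,2),(1,3),(2,1),(3,1),(3,2)] [],
Node.mk [0,820,182,1542,2448,351,2216,273,1647,9,271,3105,1173,274,2309] [(0,0),(0,5),(1,4),(2,1),(3,0),(3,3)] [],
Node.mk [0,820,182,1542,2448,351,2216,273,1647,9,271,3105,1173,274,3038] [(1,0),(1,1),(1,2),(1,3),(1,4),(2,1)] [Ref.mk 45 1459 [1,0,3,2] [[3,1,2,4,0,5],[3,1,0,4,2,5],[0,1,3,2,4],[3,1,5,2,0,4]]],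
Node.mk [0,820,182,1542,2448,351,2216,273,1647,9,271,3105,1173,274] [(0,0),(0,1),(0,2),(0,3),(0,4),(3,1)] [Ref.mk 1877 1175 [0,1,3,2] [[0,3,2,1,5,4],[1,4,3,0,2],[0,1,3,2,4],[0,5,1,2,3,4]],Ref.mk 275 2995 [0,1,2,3] [[0,1,2,3,4,5],[0,1,2,3,4],[0,1,2,3,4,5],[0,1,2,3,4]],Ref.mk 122 2996 [0,1,2,3] [[0,1,2,3,4,5],[0,1,2,3,4],[0,1,2,3,4,5],[0,1,2,3,4]],Ref.mk 1580 2997 [0,1,2,3] [[0,1,2,3,4,5],[0,1,2,3,4],[0,1,2,3,4,5],[0,1,2,3,4]],Ref.mk 2309 2998 [0,1,2,3] [[0,1,2,3,4,5],[0,1,2,3,4],[0,1,2,3,4,5],[0,1,2,3,4]],Ref.mk 3038 2999 [0,1,2,3] [[0,1,2,3,4,5],[0,1,2,3,4],[0,1,2,3,4,5],[0,1,2,3,4]],Ref.mk 3767 1520 [3,0,1,2] [[0,5,3,1,2,4],[3,5,0,1,2,4],[3,4,2,0,1],[3,1,5,0,2,4]]],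
Node.mk [0,820,182,1542,2448,351,2216,273,1647,9,271,3105,1173] [(0,0),(0,1),(0,2),(0,3),(1,0),(2,1)] [Ref.mk 1876 2989 [0,1,2,3] [[0,1,2,3,4],[0,1,2,3,4],[0,1,2,3,4,5],[0,1,2,3,4]],Ref.mk 274 3000 [0,1,2,3] [[0,1,2,3,4],[0,1,2,3,4],[0,1,2,3,4,5],[0,1,2,3,4]]],
Node.mk [0,820,182,1542,2448,351,2216,273,1647,9,271,3105] [(0,1),(1,0),(1,1),(1,2),(1,3),(2,1)] [Ref.mk 36 2306 [0,1,2,3] [[0,1,2,3],[0,1,2,4],[0,1,2,3],[0,1,2,3]],Ref.mk 768 2965 [0,1,2,3] [[0,1,2,3],[0,1,2,3,4],[0,1,2,3,4],[0,1,2,3,4]],Ref.mk 930 2967 [0,1,2,3] [[0,1,2,3],[0,1,2,3,4],[0,1,2,3,4],[0,1,2,3,4]],Ref.mk 1011 2969 [0,1,2,3] [[0,1,2,3],[0,1,2,3,4],[0,1,2,3,4],[0,1,2,3,4]],Ref.mk 1092 2986 [0,1,2,3] [[0,1,2,3],[0,1,2,3,4],[0,1,2,3,4],[0,1,2,3,4]],Ref.mk 1173 3001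 [0,1,2,3] [[0,1,2,3],[0,1,2,3,4],[0,1,2,3,4,5],[0,1,2,3,4]]],
Node.mk [0,820,182,1542,2448,351,2216,273,1647,9,271] [(0,3),(1,0),(2,1),(3,0),(3,2),(3,3)] [Ref.mk 918 2963 [0,1,2,3] [[0,1,2,3],[0,1,2,3],[0,1,2,3,4],[0,1,2,3]],Ref.mk 3105 3002 [0,1,2,3] [[0,1,2,3],[0,1,2,3],[0,1,2,3,4],[0,1,2,3,4]]],
Node.mk [0,820,182,1542,2448,351,2216,273,1647,9,274,3105,768,2297] [(0,0),(0,2),(0,3),(1,3),(2,0),(2,1)] [],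
Node.mk [0,820,182,1542,2448,351,2216,273,1647,9,274,3105,768] [(0,0),(0,3),(1,4),(2,0),(3,0),(3,1)] [Ref.mk 2297 3004 [0,1,2,3] [[0,1,2,3,4],[0,1,2,3,4],[0,1,2,3,4],[0,1,2,3,4]]],
Node.mk [0,820,182,1542,2448,351,2216,273,1647,9,274,3105,930,101] [(0,0),(0,2),(0,3),(1,3),(2,1),(2,2)] [],
Node.mk [0,820,182,1542,2448,351,2216,273,1647,9,274,3105,930] [(0,0),(0,3),(1,3),(1,4),(2,2),(3,1)] [Ref.mk 101 3006 [0,1,2,3] [[0,1,2,3,4],[0,1,2,3,4],[0,1,2,3,4],[0,1,2,3,4]]]]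

/-- nodes -/
noncomputable def c47 : List Node := [
Node.mk [0,820,182,1542,2448,351,2216,273,1647,9,274,3105,1011,2286] [(0,0),(0,1),(0,2),(0,3),(2,1),(2,3)] [],
Node.mk [0,820,182,1542,2448,351,2216,273,1647,9,274,3105,1011] [(0,3),(1,3),(1,4),(2,3),(3,0),(3,1)] [Ref.mk 2286 3008 [0,1,2,3] [[0,1,2,3,4],[0,1,2,3,4],[0,1,2,3,4],[0,1,2,3,4]]],
Node.mk [0,820,182,1542,2448,351,2216,273,1647,9,274,3105] [(0,1),(1,0),(1,1),(1,2),(1,3),(2,1)] [Ref.mk 36 2306 [0,1,2,3] [[0,1,2,3],[0,1,2,4],[0,1,2,3],[0,1,2,3]],Ref.mk 768 3005 [0,1,2,3] [[0,1,2,3,4],[0,1,2,3,4],[0,1,2,3,4],[0,1,2,3,4]],Ref.mk 930 3007 [0,1,2,3] [[0,1,2,3,4],[0,1,2,3,4],[0,1,2,3,4],[0,1,2,3,4]],Ref.mk 1011 3009 [0,1,2,3] [[0,1,2,3,4],[0,1,2,3,4],[0,1,2,3,4],[0,1,2,3,4]],Ref.mk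 1092 1480 [1,0,3,2] [[3,1,2,4,0],[3,1,0,4,2],[0,1,3,2,4],[3,1,4,2,0]],Ref.mk 1173 1480 [1,0,3,2] [[3,1,2,4,0],[3,1,0,4,2],[0,1,3,2,4],[3,1,5,2,0]]],
Node.mk [0,820,182,1542,2448,351,2216,273,1647,9,274] [(0,3),(1,0),(2,1),(3,0),(3,2),(3,3)] [Ref.mk 918 3002 [1,3,2,0] [[3,1,2,0],[2,1,3,0],[2,1,3,0,4],[0,1,3,2,4]],Ref.mk 3105 3010 [0,1,2,3] [[0,1,2,3,4],[0,1,2,3],[0,1,2,3,4],[0,1,2,3,4]]],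
Node.mk [0,820,182,1542,2448,351,2216,273,1647,9] [(0,0),(0,2),(0,3),(1,0),(2,1),(3,2)] [Ref.mk 19 2929 [0,1,2,3] [[0,1,2,3],[0,1,2,3],[0,1,2,3,4],[0,1,2,3]],Ref.mk 271 3003 [0,1,2,3] [[0,1,2,3],[0,1,2,3],[0,1,2,3,4],[0,1,2,3]],Ref.mk 274 3011 [0,1,2,3] [[0,1,2,3,4],[0,1,2,3],[0,1,2,3,4],[0,1,2,3]]],
Node.mk [0,820,182,1542,2448,351,2216,273,1647,2358,895,2377] [(1,0),(1,3),(2,0),(2,1),(2,2),(3,3)] [],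
Node.mk [0,820,182,1542,2448,351,2216,273,1647,2358,895] [(0,0),(0,2),(0,3),(1,0),(2,1),(3,2)] [Ref.mk 2377 3013 [0,1,2,3] [[0,1,2,3,4],[0,1,2,3],[0,1,2,3,4],[0,1,2,3]]],
Node.mk [0,820,182,1542,2448,351,2216,273,1647,2358,976,2377] [(0,1),(2,1),(3,0),(3,1),(3,2),(3,3)] [Ref.mk 3105 2924 [0,1,2,3] [[0,3,2,1,4],[1,0,3,2],[2,1,0,4,3],[3,2,1,0,4]]],
Node.mk [0,820,182,1542,2448,351,2216,273,1647,2358,976] [(0,0),(0,2),(0,3),(1,0),(2,1),(3,2)] [Ref.mk 2377 3015 [0,1,2,3] [[0,1,2,3,4],[0,1,2,3],[0,1,2,3,4],[0,1,2,3]]],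
Node.mk [0,820,182,1542,2448,351,2216,273,1647,2358] [(0,0),(0,1),(0,2),(0,3),(1,1),(2,1)] [Ref.mk 895 3014 [0,1,2,3] [[0,1,2,3,4],[0,1,2,3],[0,1,2,3,4],[0,1,2,3]],Ref.mk 976 3016 [0,1,2,3] [[0,1,2,3,4],[0,1,2,3],[0,1,2,3,4],[0,1,2,3]]],
Node.mk [0,820,182,1542,2448,351,2216,273,1647,2522] [(1,0),(1,1),(1,2),(1,3),(2,1),(2,4)] [],
Node.mk [0,820,182,1542,2448,351,2216,273,1647] [(0,3),(1,0),(1,2),(1,3),(2,1),(3,2)] [Ref.mk 9 3012 [0,1,2,3] [[0,1,2,3],[0,1,2,3],[0,1,2,3,4],[0,1,2,3]],Ref.mk 2358 3017 [0,1,2,3] [[0,1,2,3],[0,1,2,3],[0,1,2,3,4],[0,1,2,3]],Ref.mk 36 2306 [0,1,2,3] [[0,1,2,3],[0,1,2,4],[0,1,2,3],[0,1,2,3]],Ref.mk 254 3017 [3,1,2,0] [[0,1,3,2],[0,1,2,3],[0,1,3,2,4],[0,1,3,2]],Ref.mk 2522 3018 [0,1,2,3] [[0,1,2,3],[0,1,2,3],[0,1,2,3,4],[0,1,2,3]]],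
Node.mk [0,820,182,1542,2448,351,2216,273,3105,9,271,768,2297] [(0,0),(0,2),(0,3),(1,3),(2,0),(2,1)] [],
Node.mk [0,820,182,1542,2448,351,2216,273,3105,9,271,768] [(0,0),(0,3),(1,4),(2,0),(3,0),(3,1)] [Ref.mk 2297 3020 [0,1,2,3] [[0,1,2,3],[0,1,2,3,4],[0,1,2,3,4],[0,1,2,3,4]]],
Node.mk [0,820,182,1542,2448,351,2216,273,3105,9,271,930,101] [(0,0),(0,2),(0,3),(1,3),(2,1),(2,2)] [],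
Node.mk [0,820,182,1542,2448,351,2216,273,3105,9,271,930] [(0,0),(0,3),(1,3),(1,4),(2,2),(3,1)] [Ref.mk 101 3022 [0,1,2,3] [[0,1,2,3],[0,1,2,3,4],[0,1,2,3,4],[0,1,2,3,4]]],
Node.mk [0,820,182,1542,2448,351,2216,273,3105,9,271,1011,274,2286] [(0,0),(0,1),(0,2),(0,3),(1,3),(2,1)] [Ref.mk 976 3020 [1,0,2,3] [[3,1,2,0],[3,1,2,0,4],[3,1,2,0,4],[0,1,2,3,4]],Ref.mk 1714 3020 [1,0,2,3] [[3,0,2,1],[1,3,2,0,4],[3,1,2,0,4],[0,2,1,3,4]],Ref.mk 977 3020 [1,0,2,3] [[3,1,2,0],[3,1,2,0,5],[3,1,2,0,4],[0,1,2,3,4]],Ref.mk 1715 3020 [1,0,2,3] [[3,0,2,1],[1,3,2,0,5],[3,1,2,0,4],[0,2,1,3,4]]],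
Node.mk [0,820,182,1542,2448,351,2216,273,3105,9,271,1011,274] [(0,3),(1,3),(1,4),(2,3),(3,0),(3,1)] [Ref.mk 2286 3024 [0,1,2,3] [[0,1,2,3,4],[0,1,2,3,4],[0,1,2,3,4],[0,1,2,3,4]]],
Node.mk [0,820,182,1542,2448,351,2216,273,3105,9,271,1011] [(0,0),(0,1),(0,2),(0,3),(1,0),(2,1)] [Ref.mk 1714 3021 [1,0,2,3] [[3,0,2,1],[1,3,2,0,4],[3,1,2,0,4],[0,2,1,3,4]],Ref.mk 274 3025 [0,1,2,3] [[0,1,2,3,4],[0,1,2,3,4],[0,1,2,3,4],[0,1,2,3,4]]],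
Node.mk [0,820,182,1542,2448,351,2216,273,3105,9,271,1092,1795,1828] [(0,0),(0,2),(1,3),(2,1),(2,4),(3,2)] [],
Node.mk [0,820,182,1542,2448,351,2216,273,3105,9,271,1092,1795,859] [(0,0),(0,2),(0,4),(1,3),(2,1),(3,1)] [Ref.mk 1828 3027 [0,1,2,3] [[0,1,2,3,4],[0,1,2,3,4,5],[0,1,2,3,4],[0,1,2,3,4]]],
Node.mk [0,820,182,1542,2448,351,2216,273,3105,9,271,1092,1795] [(0,3),(1,0),(1,1),(1,2),(1,3),(1,4)] [Ref.mk 45 2306 [0,1,2,3] [[0,1,2,3],[0,1,2,5],[0,1,2,3],[0,1,2,3]],Ref.mk 1828 3027 [0,1,2,3] [[0,1,2,3,4],[0,1,2,3,4,5],[0,1,2,3,4],[0,1,2,3,4]],Ref.mk 859 3028 [0,1,2,3] [[0,1,2,3,4],[0,1,2,3,4,5],[0,1,2,3,4],[0,1,2,3,4]]],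
Node.mk [0,820,182,1542,2448,351,2216,273,3105,9,271,1092,274,1495] [(0,0),(0,1),(1,4),(2,0),(3,0),(3,2)] [],
Node.mk [0,820,182,1542,2448,351,2216,273,3105,9,271,1092,274,1657] [(0,0),(0,1),(1,3),(1,4),(2,2),(3,2)] [],
Node.mk [0,820,182,1542,2448,351,2216,273,3105,9,271,1092,274,1819,1587] [(0,0),(0,1),(0,2),(0,3),(1,3),(1,4)] [Ref.mk 1795 3029 [0,1,2,3] [[0,1,2,3,4],[0,1,2,3,4],[0,1,2,3,4],[0,1,2,3,4]],Ref.mk 1796 3029 [0,1,2,3] [[0,1,2,3,5],[0,1,2,3,4],[0,1,2,3,4],[0,1,2,3,4]]],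
Node.mk [0,820,182,1542,2448,351,2216,273,3105,9,271,1092,274,1819,1101] [(0,0),(0,1),(0,2),(0,3),(1,3),(3,1)] [Ref.mk 1795 3027 [0,1,2,3] [[0,1,2,3,4],[0,1,2,3,5,4],[0,1,2,3,4],[0,1,2,3,4]],Ref.mk 1796 3027 [0,1,2,3] [[0,1,2,3,5],[0,1,2,3,5,4],[0,1,2,3,4],[0,1,2,3,4]]],
Node.mk [0,820,182,1542,2448,351,2216,273,3105,9,271,1092,274,1819] [(0,1),(1,0),(1,1),(1,2),(1,3),(1,4)] [Ref.mk 45 2306 [0,1,2,3] [[0,1,2,3],[0,1,2,5],[0,1,2,3],[0,1,2,3]],Ref.mk 1587 3032 [0,1,2,3] [[0,1,2,3,4],[0,1,2,3,4,5],[0,1,2,3,4],[0,1,2,3,4]],Ref.mk 1101 3033 [0,1,2,3] [[0,1,2,3,4],[0,1,2,3,4,5],[0,1,2,3,4],[0,1,2,3,4]]],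
Node.mk [0,820,182,1542,2448,351,2216,273,3105,9,271,1092,274,1900,1587] [(0,0),(0,1),(0,2),(0,3),(1,3),(1,4)] [Ref.mk 1795 3029 [0,1,2,3] [[0,1,2,3,4],[0,1,2,3,4],[0,1,2,3,4],[0,1,2,3,4]],Ref.mk 1796 3029 [0,1,2,3] [[0,1,2,3,5],[0,1,2,3,4],[0,1,2,3,4],[0,1,2,3,4]]],
Node.mk [0,820,182,1542,2448,351,2216,273,3105,9,271,1092,274,1900,1182] [(0,0),(0,1),(0,2),(0,3),(1,3),(3,1)] [],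
Node.mk [0,820,182,1542,2448,351,2216,273,3105,9,271,1092,274,1900] [(0,1),(1,0),(1,1),(1,2),(1,3),(1,4)] [Ref.mk 45 2306 [0,1,2,3] [[0,1,2,3],[0,1,2,5],[0,1,2,3],[0,1,2,3]],Ref.mk 1587 3035 [0,1,2,3] [[0,1,2,3,4],[0,1,2,3,4,5],[0,1,2,3,4,5],[0,1,2,3,4]],Ref.mk 1182 3036 [0,1,2,3] [[0,1,2,3,4],[0,1,2,3,4,5],[0,1,2,3,4,5],[0,1,2,3,4]]],
Node.mk [0,820,182,1542,2448,351,2216,273,3105,9,271,1092,274,1828] [(0,0),(0,1),(0,2),(0,3),(1,3),(2,1)] [Ref.mk 1057 3027 [0,1,2,3] [[0,3,2,1,4],[1,0,2,3,5,4],[0,1,2,3,4],[0,2,1,3,4]],Ref.mk 1795 3027 [0,1,2,3] [[0,1,2,3,4],[0,1,2,3,4,5],[0,1,2,3,4],[0,1,2,3,4]],Ref.mk 1058 3027 [0,1,2,3] [[0,3,2,1,5],[1,0,2,3,5,4],[0,1,2,3,4],[0,2,1,3,4]],Ref.mk 1796 3027 [0,1,2,3] [[0,1,2,3,5],[0,1,2,3,4,5],[0,1,2,3,4],[0,1,2,3,4]]],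
Node.mk [0,820,182,1542,2448,351,2216,273,3105,9,271,1092,274] [(0,3),(1,0),(1,1),(1,2),(1,3),(2,1)] [Ref.mk 36 2306 [0,1,2,3] [[0,1,2,3],[0,1,2,4],[0,1,2,3],[0,1,2,3]],Ref.mk 45 2306 [0,1,2,3] [[0,1,2,3],[0,1,2,5],[0,1,2,3],[0,1,2,3]],Ref.mk 1495 3030 [0,1,2,3] [[0,1,2,3,4],[0,1,2,3,4],[0,1,2,3,4],[0,1,2,3,4]],Ref.mk 1657 3031 [0,1,2,3] [[0,1,2,3,4],[0,1,2,3,4],[0,1,2,3,4],[0,1,2,3,4]],Ref.mk 1738 3025 [0,1,2,3] [[0,3,2,1,4],[1,0,2,3,4],[0,1,2,3,4],[0,2,1,3,4]],Ref.mk 1819 3034 [0,1,2,3] [[0,1,2,3,4],[0,1,2,3,4],[0,1,2,3,4],[0,1,2,3,4]],Ref.mk 1900 3037 [0,1,2,3] [[0,1,2,3,4],[0,1,2,3,4],[0,1,2,3,4,5],[0,1,2,3,4]],Ref.mk 1828 3038 [0,1,2,3] [[0,1,2,3,4],[0,1,2,3,4,5],[0,1,2,3,4],[0,1,2,3,4]]],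
Node.mk [0,820,182,1542,2448,351,2216,273,3105,9,271,1092] [(0,0),(0,1),(0,2),(0,3),(1,0),(2,1)] [Ref.mk 1795 3029 [0,1,2,3] [[0,1,2,3,4],[0,1,2,3,4],[0,1,2,3,4],[0,1,2,3,4]],Ref.mk 274 3039 [0,1,2,3] [[0,1,2,3,4],[0,1,2,3,4],[0,1,2,3,4],[0,1,2,3,4]]],
Node.mk [0,820,182,1542,2448,351,2216,273,3105,9,271,1173,1876,1909] [(0,0),(0,2),(1,3),(2,1),(2,5),(3,2)] [],
Node.mk [0,820,182,1542,2448,351,2216,273,3105,9,271,1173,1876,859] [(0,0),(0,2),(0,4),(1,3),(2,1),(3,1)] [Ref.mk 1909 3041 [0,1,2,3] [[0,1,2,3,4],[0,1,2,3,4,5],[0,1,2,3,4,5],[0,1,2,3,4]]],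
Node.mk [0,820,182,1542,2448,351,2216,273,3105,9,271,1173,1876] [(0,3),(1,0),(1,1),(1,2),(1,3),(1,4)] [Ref.mk 45 2306 [0,1,2,3] [[0,1,2,3],[0,1,2,5],[0,1,2,3],[0,1,2,3]],Ref.mk 1909 3041 [0,1,2,3] [[0,1,2,3,4],[0,1,2,3,4,5],[0,1,2,3,4,5],[0,1,2,3,4]],Ref.mk 859 3042 [0,1,2,3] [[0,1,2,3,4],[0,1,2,3,4,5],[0,1,2,3,4,5],[0,1,2,3,4]]],
Node.mk [0,820,182,1542,2448,351,2216,273,3105,9,271,1173,274,275,1900,1587] [(0,0),(0,1),(0,2),(0,3),(1,3),(1,4)] [Ref.mk 1876 3043 [0,1,2,3] [[0,1,2,3,4],[0,1,2,3,4],[0,1,2,3,4,5],[0,1,2,3,4]],Ref.mk 1877 3043 [0,1,2,3] [[0,1,2,3,5],[0,1,2,3,4],[0,1,2,3,4,5],[0,1,2,3,4]],Ref.mk 1878 3043 [0,1,2,3] [[0,1,2,3,6],[0,1,2,3,4],[0,1,2,3,4,5],[0,1,2,3,4]]],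
Node.mk [0,820,182,1542,2448,351,2216,273,3105,9,271,1173,274,275,1900,1182] [(0,0),(0,1),(0,2),(0,3),(1,3),(3,1)] [Ref.mk 1876 3043 [0,1,2,3] [[0,1,2,3,4],[0,1,2,3,4],[0,1,2,3,4,5],[0,1,2,3,4]],Ref.mk 1877 3043 [0,1,2,3] [[0,1,2,3,5],[0,1,2,3,4],[0,1,2,3,4,5],[0,1,2,3,4]],Ref.mk 1878 3043 [0,1,2,3] [[0,1,2,3,6],[0,1,2,3,4],[0,1,2,3,4,5],[0,1,2,3,4]]],
Node.mk [0,820,182,1542,2448,351,2216,273,3105,9,271,1173,274,275,1900] [(0,1),(1,0),(1,1),(1,2),(1,3),(1,4)] [Ref.mk 45 2306 [0,1,2,3] [[0,1,2,3],[0,1,2,5],[0,1,2,3],[0,1,2,3]],Ref.mk 1587 3044 [0,1,2,3] [[0,1,2,3,4,5],[0,1,2,3,4,5],[0,1,2,3,4,5],[0,1,2,3,4]],Ref.mk 1182 3045 [0,1,2,3] [[0,1,2,3,4,5],[0,1,2,3,4,5],[0,1,2,3,4,5],[0,1,2,3,4]]],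
Node.mk [0,820,182,1542,2448,351,2216,273,3105,9,271,1173,274,275,1981,1587] [(0,0),(0,1),(0,2),(0,3),(1,3),(1,4)] [Ref.mk 1876 3043 [0,1,2,3] [[0,1,2,3,4],[0,1,2,3,4],[0,1,2,3,4,5],[0,1,2,3,4]],Ref.mk 1877 3043 [0,1,2,3] [[0,1,2,3,5],[0,1,2,3,4],[0,1,2,3,4,5],[0,1,2,3,4]],Ref.mk 1878 3043 [0,1,2,3] [[0,1,2,3,6],[0,1,2,3,4],[0,1,2,3,4,5],[0,1,2,3,4]]],
Node.mk [0,820,182,1542,2448,351,2216,273,3105,9,271,1173,274,275,1981,1263] [(0,0),(0,1),(0,2),(0,3),(1,3),(3,1)] [],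
Node.mk [0,820,182,1542,2448,351,2216,273,3105,9,271,1173,274,275,1981] [(0,1),(1,0),(1,1),(1,2),(1,3),(1,4)] [Ref.mk 45 2306 [0,1,2,3] [[0,1,2,3],[0,1,2,5],[0,1,2,3],[0,1,2,3]],Ref.mk 1587 3047 [0,1,2,3] [[0,1,2,3,4,5],[0,1,2,3,4,5],[0,1,2,3,4,5,6],[0,1,2,3,4]],Ref.mk 1263 3048 [0,1,2,3] [[0,1,2,3,4,5],[0,1,2,3,4,5],[0,1,2,3,4,5,6],[0,1,2,3,4]]],
Node.mk [0,820,182,1542,2448,351,2216,273,3105,9,271,1173,274,275,1909] [(1,0),(1,1),(1,2),(1,3),(2,1),(2,5)] [Ref.mk 36 2306 [0,1,2,3] [[0,1,2,3],[0,1,2,4],[0,1,2,3],[0,1,2,3]],Ref.mk 45 2306 [0,1,2,3] [[0,1,2,3],[0,1,2,5],[0,1,2,3],[0,1,2,3]],Ref.mk 54 2306 [0,1,2,3] [[0,1,2,3],[0,1,2,6],[0,1,2,3],[0,1,2,3]],Ref.mk 1495 3021 [0,1,2,3] [[0,3,2,1],[1,0,2,3,4],[0,1,2,3,4],[0,2,1,3,4]],Ref.mk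 1657 3023 [0,1,2,3] [[0,3,2,1],[1,0,2,3,4],[0,1,2,3,4],[0,2,1,3,4]],Ref.mk 1738 3026 [0,1,2,3] [[0,3,2,1],[1,0,2,3,4],[0,1,2,3,4],[0,2,1,3,4]],Ref.mk 1819 3036 [0,1,2,3] [[0,3,2,1,5],[1,0,2,3,4,5],[0,1,2,3,4,5],[0,2,1,3,4]],Ref.mk 1981 3048 [0,1,2,3] [[0,3,2,1,4,5],[1,0,2,3,4,5],[0,1,2,3,4,6,5],[0,2,1,3,4]],Ref.mk 777 3021 [0,1,2,3] [[0,1,2,3],[0,1,2,3,5],[0,1,2,3,4],[0,1,2,3,4]],Ref.mk 939 3023 [0,1,2,3] [[0,1,2,3],[0,1,2,3,5],[0,1,2,3,4],[0,1,2,3,4]],Ref.mk 1020 3026 [0,1,2,3] [[0,1,2,3],[0,1,2,3,5],[0,1,2,3,4],[0,1,2,3,4]],Ref.mk 1101 3036 [0,1,2,3] [[0,1,2,3,5],[0,1,2,3,5,4],[0,1,2,3,4,5],[0,1,2,3,4]],Ref.mk 1263 3048 [0,1,2,3] [[0,1,2,3,4,5],[0,1,2,3,5,4],[0,1,2,3,4,6,5],[0,1,2,3,4]]],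
Node.mk [0,820,182,1542,2448,351,2216,273,3105,9,271,1173,274,275] [(0,3),(1,0),(1,1),(1,2),(1,3),(2,1)] [Ref.mk 36 2306 [0,1,2,3] [[0,1,2,3],[0,1,2,4],[0,1,2,3],[0,1,2,3]],Ref.mk 45 2306 [0,1,2,3] [[0,1,2,3],[0,1,2,5],[0,1,2,3],[0,1,2,3]],Ref.mk 1495 3021 [0,1,2,3] [[0,3,2,1],[1,0,2,3,4],[0,1,2,3,4],[0,2,1,3,4]],Ref.mk 1657 3023 [0,1,2,3] [[0,3,2,1],[1,0,2,3,4],[0,1,2,3,4],[0,2,1,3,4]],Ref.mk 1738 3025 [0,1,2,3] [[0,3,2,1,5],[1,0,2,3,4],[0,1,2,3,4],[0,2,1,3,4]],Ref.mk 1819 3037 [0,1,2,3] [[0,3,2,1,5],[1,0,2,3,4],[0,1,2,3,4,5],[0,2,1,3,4]],Ref.mk 1900 3046 [0,1,2,3] [[0,1,2,3,4,5],[0,1,2,3,4],[0,1,2,3,4,5],[0,1,2,3,4]],Ref.mk 1981 3049 [0,1,2,3] [[0,1,2,3,4,5],[0,1,2,3,4],[0,1,2,3,4,5,6],[0,1,2,3,4]],Ref.mk 1909 3050 [0,1,2,3] [[0,1,2,3,4,5],[0,1,2,3,4,5],[0,1,2,3,4,5],[0,1,2,3,4]]],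
Node.mk [0,820,182,1542,2448,351,2216,273,3105,9,271,1173,274,122] [(0,0),(2,1),(3,0),(3,1),(3,2),(3,3)] [],
Node.mk [0,820,182,1542,2448,351,2216,273,3105,9,271,1173,274,1580] [(0,0),(0,2),(1,3),(2,1),(3,1),(3,2)] [],
Node.mk [0,820,182,1542,2448,351,2216,273,3105,9,271,1173,274,2309] [(0,0),(0,5),(1,4),(2,1),(3,0),(3,3)] [],
Node.mk [0,820,182,1542,2448,351,2216,273,3105,9,271,1173,274,3038] [(1,0),(1,1),(1,2),(1,3),(1,4),(2,1)] [Ref.mk 45 2306 [0,1,2,3] [[0,1,2,3],[0,1,2,5],[0,1,2,3],[0,1,2,3]]],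
Node.mk [0,820,182,1542,2448,351,2216,273,3105,9,271,1173,274] [(0,0),(0,1),(0,2),(0,3),(0,4),(3,1)] [Ref.mk 1877 3043 [0,1,2,3] [[0,1,2,3,5],[0,1,2,3,4],[0,1,2,3,4,5],[0,1,2,3,4]],Ref.mk 275 3051 [0,1,2,3] [[0,1,2,3,4,5],[0,1,2,3,4],[0,1,2,3,4,5],[0,1,2,3,4]],Ref.mk 122 3052 [0,1,2,3] [[0,1,2,3,4,5],[0,1,2,3,4],[0,1,2,3,4,5],[0,1,2,3,4]],Ref.mk 1580 3053 [0,1,2,3] [[0,1,2,3,4,5],[0,1,2,3,4],[0,1,2,3,4,5],[0,1,2,3,4]],Ref.mk 2309 3054 [0,1,2,3] [[0,1,2,3,4,5],[0,1,2,3,4],[0,1,2,3,4,5],[0,1,2,3,4]],Ref.mk 3038 3055 [0,1,2,3] [[0,1,2,3,4,5],[0,1,2,3,4],[0,1,2,3,4,5],[0,1,2,3,4]],Ref.mk 3767 1640 [3,0,1,2] [[0,5,3,1,2,4],[3,5,0,1,2,4],[3,4,2,0,1],[3,1,5,0,2,4]]],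
Node.mk [0,820,182,1542,2448,351,2216,273,3105,9,271,1173] [(0,0),(0,1),(0,2),(0,3),(1,0),(2,1)] [Ref.mk 1876 3043 [0,1,2,3] [[0,1,2,3,4],[0,1,2,3,4],[0,1,2,3,4,5],[0,1,2,3,4]],Ref.mk 274 3056 [0,1,2,3] [[0,1,2,3,4],[0,1,2,3,4],[0,1,2,3,4,5],[0,1,2,3,4]]],
Node.mk [0,820,182,1542,2448,351,2216,273,3105,9,271] [(0,1),(1,0),(1,1),(1,2),(1,3),(2,1)] [Ref.mk 36 2306 [0,1,2,3] [[0,1,2,3],[0,1,2,4],[0,1,2,3],[0,1,2,3]],Ref.mk 768 3021 [0,1,2,3] [[0,1,2,3],[0,1,2,3,4],[0,1,2,3,4],[0,1,2,3,4]],Ref.mk 930 3023 [0,1,2,3] [[0,1,2,3],[0,1,2,3,4],[0,1,2,3,4],[0,1,2,3,4]],Ref.mk 1011 3026 [0,1,2,3] [[0,1,2,3],[0,1,2,3,4],[0,1,2,3,4],[0,1,2,3,4]],Ref.mk 1092 3040 [0,1,2,3] [[0,1,2,3],[0,1,2,3,4],[0,1,2,3,4],[0,1,2,3,4]],Ref.mk 1173 3057 [0,1,2,3]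 [[0,1,2,3],[0,1,2,3,4],[0,1,2,3,4,5],[0,1,2,3,4]]],
Node.mk [0,820,182,1542,2448,351,2216,273,3105,9,274,930,101] [(0,0),(0,2),(0,3),(1,3),(2,1),(2,2)] [],
Node.mk [0,820,182,1542,2448,351,2216,273,3105,9,274,930] [(0,0),(0,3),(1,3),(1,4),(2,2),(3,1)] [Ref.mk 101 3059 [0,1,2,3] [[0,1,2,3,4],[0,1,2,3,4],[0,1,2,3,4],[0,1,2,3,4]]],
Node.mk [0,820,182,1542,2448,351,2216,273,3105,9,274,1011,2286] [(0,0),(0,1),(0,2),(0,3),(2,1),(2,3)] [],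
Node.mk [0,820,182,1542,2448,351,2216,273,3105,9,274,1011] [(0,3),(1,3),(1,4),(2,3),(3,0),(3,1)] [Ref.mk 2286 3061 [0,1,2,3] [[0,1,2,3,4],[0,1,2,3,4],[0,1,2,3,4],[0,1,2,3,4]]],
Node.mk [0,820,182,1542,2448,351,2216,273,3105,9,274,1092,1828,1058] [(0,0),(0,2),(1,3),(2,1),(2,4),(3,1)] [],
Node.mk [0,820,182,1542,2448,351,2216,273,3105,9,274,1092,1828,1796] [(0,0),(0,2),(1,3),(2,1),(2,4),(3,2)] [],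
Node.mk [0,820,182,1542,2448,351,2216,273,3105,9,274,1092,1828,275] [(0,0),(0,1),(0,2),(0,3),(1,3),(2,1)] [Ref.mk 1057 3063 [0,1,2,3] [[0,1,2,3,5,4],[0,1,2,3,4,5],[0,1,2,3,4],[0,1,2,3,4]],Ref.mk 1795 3064 [0,1,2,3] [[0,1,2,3,5,4],[0,1,2,3,4,5],[0,1,2,3,4],[0,1,2,3,4]],Ref.mk 1058 3063 [0,1,2,3] [[0,1,2,3,4,5],[0,1,2,3,4,5],[0,1,2,3,4],[0,1,2,3,4]],Ref.mk 1796 3064 [0,1,2,3] [[0,1,2,3,4,5],[0,1,2,3,4,5],[0,1,2,3,4],[0,1,2,3,4]],Ref.mk 1059 3063 [0,1,2,3] [[0,1,2,3,5,6],[0,1,2,3,4,5],[0,1,2,3,4],[0,1,2,3,4]],Ref.mk 1797 3064 [0,1,2,3] [[0,1,2,3,5,6],[0,1,2,3,4,5],[0,1,2,3,4],[0,1,2,3,4]]],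
Node.mk [0,820,182,1542,2448,351,2216,273,3105,9,274,1092,1828] [(0,0),(0,1),(0,2),(0,3),(0,4),(2,1)] [Ref.mk 1058 3063 [0,1,2,3] [[0,1,2,3,4,5],[0,1,2,3,4,5],[0,1,2,3,4],[0,1,2,3,4]],Ref.mk 1796 3064 [0,1,2,3] [[0,1,2,3,4,5],[0,1,2,3,4,5],[0,1,2,3,4],[0,1,2,3,4]],Ref.mk 275 3065 [0,1,2,3] [[0,1,2,3,4,5],[0,1,2,3,4,5],[0,1,2,3,4],[0,1,2,3,4]]],
Node.mk [0,820,182,1542,2448,351,2216,273,3105,9,274,1092,777] [(0,0),(0,1),(0,2),(0,3),(1,3),(3,1)] [],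
Node.mk [0,820,182,1542,2448,351,2216,273,3105,9,274,1092,1101] [(0,0),(0,2),(0,3),(1,3),(2,4),(3,1)] [],
Node.mk [0,820,182,1542,2448,351,2216,273,3105,9,274,1092,1182] [(0,0),(0,1),(0,2),(0,3),(1,3),(3,1)] [],
Node.mk [0,820,182,1542,2448,351,2216,273,3105,9,274,1092] [(1,0),(1,1),(1,2),(1,3),(1,4),(2,1)] [Ref.mk 45 2306 [0,1,2,3] [[0,1,2,3],[0,1,2,5],[0,1,2,3],[0,1,2,3]],Ref.mk 1828 3066 [0,1,2,3] [[0,1,2,3,4],[0,1,2,3,4,5],[0,1,2,3,4],[0,1,2,3,4]],Ref.mk 777 3067 [0,1,2,3] [[0,1,2,3,4],[0,1,2,3,4,5],[0,1,2,3,4],[0,1,2,3,4]],Ref.mk 939 3060 [0,1,2,3] [[0,1,2,3,4],[0,1,2,3,5],[0,1,2,3,4],[0,1,2,3,4]],Ref.mk 1020 3062 [0,1,2,3] [[0,1,2,3,4],[0,1,2,3,5],[0,1,2,3,4],[0,1,2,3,4]],Ref.mk 1101 3068 [0,1,2,3] [[0,1,2,3,4],[0,1,2,3,4,5],[0,1,2,3,4],[0,1,2,3,4]],Ref.mk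 1182 3069 [0,1,2,3] [[0,1,2,3,4],[0,1,2,3,4,5],[0,1,2,3,4,5],[0,1,2,3,4]]],
Node.mk [0,820,182,1542,2448,351,2216,273,3105,9,274,1173,1909] [(0,1),(3,0),(3,1),(3,2),(3,3),(3,4)] [Ref.mk 3834 2278 [1,0,2,3] [[3,5,0,4,2,1],[3,1,0,4,2],[3,5,0,2,4,1],[0,2,1,4,3,5]],Ref.mk 4062 1657 [3,1,0,2] [[0,2,3,1,5,4],[1,5,3,0,2,4],[0,1,2,3,4],[0,5,1,3,2,4]],Ref.mk 3774 2125 [3,1,0,2] [[0,2,3,1,5,4],[1,5,3,0,2,4],[0,1,2,3,4],[0,5,1,3,2,4]]]]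

end Vale.Agent.P045.R4N2
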