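import Vale.Agent.P045.Check

/-! Certificate data. -/

namespace Vale.Agent.P045.R4N2

open Vale.Agent.P045

/-- nodes -/
noncomputable def c48 : List Node := [
Node.mk [0,820,182,1542,2448,351,2216,273,3105,9,274,1173,777] [(0,0),(0,1),(0,2),(0,3),(1,3),(3,1)] [],
Node.mk [0,820,182,1542,2448,351,2216,273,3105,9,274,1173,1182] [(0,0),(0,2),(0,3),(1,3),(2,5),(3,1)] [],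
Node.mk [0,820,182,1542,2448,351,2216,273,3105,9,274,1173,1263] [(0,0),(0,1),(0,2),(0,3),(1,3),(3,1)] [],
Node.mk [0,820,182,1542,2448,351,2216,273,3105,9,274,1173] [(1,0),(1,1),(1,2),(1,3),(1,4),(2,1)] [Ref.mk 45 1980 [1,0,3,2] [[3,1,2,4,0,5],[3,1,0,4,2],[0,1,3,4,2],[3,1,5,2,0,4]],Ref.mk 1909 3071 [0,1,2,3] [[0,1,2,3,4],[0,1,2,3,4,5],[0,1,2,3,4,5],[0,1,2,3,4]],Ref.mk 777 3072 [0,1,2,3] [[0,1,2,3,4],[0,1,2,3,4,5],[0,1,2,3,4,5],[0,1,2,3,4]],Ref.mk 939 3060 [0,1,2,3] [[0,1,2,3,4],[0,1,2,3,5],[0,1,2,3,4],[0,1,2,3,4]],Ref.mk 1020 3062 [0,1,2,3] [[0,1,2,3,4],[0,1,2,3,5],[0,1,2,3,4],[0,1,2,3,4]],Ref.mk 1101 3069 [0,1,2,3] [[0,1,2,3,4],[0,1,2,3,5,4],[0,1,2,3,4,5],[0,1,2,3,4]],Ref.mk 1182 3073 [0,1,2,3] [[0,1,2,3,4],[0,1,2,3,4,5],[0,1,2,3,4,5],[0,1,2,3,4]],Ref.mk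 1263 3074 [0,1,2,3] [[0,1,2,3,4],[0,1,2,3,4,5],[0,1,2,3,4,5,6],[0,1,2,3,4]]],
Node.mk [0,820,182,1542,2448,351,2216,273,3105,9,274] [(0,1),(1,0),(1,1),(1,2),(1,3),(2,1)] [Ref.mk 36 2306 [0,1,2,3] [[0,1,2,3],[0,1,2,4],[0,1,2,3],[0,1,2,3]],Ref.mk 768 1692 [1,0,2,3] [[3,1,2,0,4],[3,1,2,4,0],[3,1,2,0,4],[0,1,2,3,4]],Ref.mk 930 3060 [0,1,2,3] [[0,1,2,3,4],[0,1,2,3,4],[0,1,2,3,4],[0,1,2,3,4]],Ref.mk 1011 3062 [0,1,2,3] [[0,1,2,3,4],[0,1,2,3,4],[0,1,2,3,4],[0,1,2,3,4]],Ref.mk 1092 3070 [0,1,2,3] [[0,1,2,3,4],[0,1,2,3,4],[0,1,2,3,4],[0,1,2,3,4]],Ref.mk 1173 3075 [0,1,2,3] [[0,1,2,3,4],[0,1,2,3,4],[0,1,2,3,4,5],[0,1,2,3,4]]],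
Node.mk [0,820,182,1542,2448,351,2216,273,3105,9] [(0,0),(0,2),(0,3),(1,0),(2,1),(3,2)] [Ref.mk 271 3058 [0,1,2,3] [[0,1,2,3],[0,1,2,3],[0,1,2,3,4],[0,1,2,3,4]],Ref.mk 274 3076 [0,1,2,3] [[0,1,2,3,4],[0,1,2,3],[0,1,2,3,4],[0,1,2,3,4]]],
Node.mk [0,820,182,1542,2448,351,2216,273,3105,2358] [(0,0),(0,2),(0,3),(1,0),(2,1),(3,2)] [Ref.mk 2377 2925 [0,1,2,3] [[0,3,2,1],[1,0,3,2],[2,1,0,4,3],[3,2,1,0,4]]],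
Node.mk [0,820,182,1542,2448,351,2216,273,3105] [(0,3),(1,0),(1,2),(1,3),(2,1),(3,2)] [Ref.mk 9 3077 [0,1,2,3] [[0,1,2,3],[0,1,2,3],[0,1,2,3,4],[0,1,2,3,4]],Ref.mk 2358 3078 [0,1,2,3] [[0,1,2,3],[0,1,2,3],[0,1,2,3,4],[0,1,2,3,4]],Ref.mk 36 2306 [0,1,2,3] [[0,1,2,3],[0,1,2,4],[0,1,2,3],[0,1,2,3]]],
Node.mk [0,820,182,1542,2448,351,2216,273] [(0,1),(1,1),(2,1),(3,0),(3,1),(3,3)] [Ref.mk 1647 3019 [0,1,2,3] [[0,1,2,3],[0,1,2,3],[0,1,2,3,4],[0,1,2,3]],Ref.mk 3105 3079 [0,1,2,3] [[0,1,2,3],[0,1,2,3],[0,1,2,3,4],[0,1,2,3,4]]],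
Node.mk [0,820,182,1542,2448,351,2216,22,2934,9,768,244] [(0,1),(1,0),(2,0),(2,1),(2,3),(3,0)] [],
Node.mk [0,820,182,1542,2448,351,2216,22,2934,9,768,2297] [(0,0),(0,1),(0,2),(0,3),(2,0),(2,1)] [],
Node.mk [0,820,182,1542,2448,351,2216,22,2934,9,768] [(0,0),(0,3),(1,2),(1,4),(2,0),(3,1)] [Ref.mk 244 3081 [0,1,2,3] [[0,1,2,3,4],[0,1,2,3,4],[0,1,2,3,4],[0,1,2,3,4]],Ref.mk 2297 3082 [0,1,2,3] [[0,1,2,3,4],[0,1,2,3,4],[0,1,2,3,4],[0,1,2,3,4]]],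
Node.mk [0,820,182,1542,2448,351,2216,22,2934,9,930,101,1738,1587] [(0,0),(0,2),(0,3),(1,2),(2,1),(3,2)] [],
Node.mk [0,820,182,1542,2448,351,2216,22,2934,9,930,101,1738,1020] [(0,0),(0,1),(0,2),(0,3),(1,2),(3,1)] [],
Node.mk [0,820,182,1542,2448,351,2216,22,2934,9,930,101,1738] [(0,1),(1,0),(1,1),(1,2),(1,3),(1,4)] [Ref.mk 45 2306 [0,1,2,3] [[0,1,2,3],[0,1,2,5],[0,1,2,3],[0,1,2,3]],Ref.mk 1587 3084 [0,1,2,3] [[0,1,2,3,4],[0,1,2,3,4,5],[0,1,2,3,4],[0,1,2,3,4]],Ref.mk 1020 3085 [0,1,2,3] [[0,1,2,3,4],[0,1,2,3,4,5],[0,1,2,3,4],[0,1,2,3,4]]],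
Node.mk [0,820,182,1542,2448,351,2216,22,2934,9,930,101,1819,1587] [(0,0),(0,2),(0,3),(1,2),(2,1),(3,2)] [],
Node.mk [0,820,182,1542,2448,351,2216,22,2934,9,930,101,1819,1101] [(0,0),(0,1),(0,2),(0,3),(1,2),(3,1)] [],
Node.mk [0,820,182,1542,2448,351,2216,22,2934,9,930,101,1819] [(0,1),(1,0),(1,1),(1,2),(1,3),(1,4)] [Ref.mk 45 2306 [0,1,2,3] [[0,1,2,3],[0,1,2,5],[0,1,2,3],[0,1,2,3]],Ref.mk 1587 3087 [0,1,2,3] [[0,1,2,3,4],[0,1,2,3,4,5],[0,1,2,3,4],[0,1,2,3,4]],Ref.mk 1101 3088 [0,1,2,3] [[0,1,2,3,4],[0,1,2,3,4,5],[0,1,2,3,4],[0,1,2,3,4]]],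
Node.mk [0,820,182,1542,2448,351,2216,22,2934,9,930,101,1900,1587] [(0,0),(0,2),(0,3),(1,2),(2,1),(3,2)] [],
Node.mk [0,820,182,1542,2448,351,2216,22,2934,9,930,101,1900,1182] [(0,0),(0,1),(0,2),(0,3),(1,2),(3,1)] [],
Node.mk [0,820,182,1542,2448,351,2216,22,2934,9,930,101,1900] [(0,1),(1,0),(1,1),(1,2),(1,3),(1,4)] [Ref.mk 45 2306 [0,1,2,3] [[0,1,2,3],[0,1,2,5],[0,1,2,3],[0,1,2,3]],Ref.mk 1587 3090 [0,1,2,3] [[0,1,2,3,4],[0,1,2,3,4,5],[0,1,2,3,4,5],[0,1,2,3,4]],Ref.mk 1182 3091 [0,1,2,3] [[0,1,2,3,4],[0,1,2,3,4,5],[0,1,2,3,4,5],[0,1,2,3,4]]],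
Node.mk [0,820,182,1542,2448,351,2216,22,2934,9,930,101,263,1657,1587] [(0,0),(0,2),(0,3),(1,2),(2,1),(2,2)] [Ref.mk 1495 3083 [0,1,2,3] [[0,3,2,1,4],[1,0,2,3,4],[0,1,2,3,4],[0,2,1,3,4]],Ref.mk 1738 3084 [0,1,2,3] [[0,1,2,3,4],[0,1,2,3,4,5],[0,1,2,3,4],[0,1,2,3,4]],Ref.mk 1819 3087 [0,1,2,3] [[0,1,2,3,4],[0,1,2,3,4,5],[0,1,2,3,4],[0,1,2,3,4]],Ref.mk 1900 3090 [0,1,2,3] [[0,1,2,3,4],[0,1,2,3,4,5],[0,1,2,3,4,5],[0,1,2,3,4]]],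
Node.mk [0,820,182,1542,2448,351,2216,22,2934,9,930,101,263,1657,939] [(0,0),(0,2),(0,3),(1,2),(2,2),(3,1)] [],
Node.mk [0,820,182,1542,2448,351,2216,22,2934,9,930,101,263,1657] [(0,1),(1,0),(1,1),(1,2),(1,3),(1,4)] [Ref.mk 45 2306 [0,1,2,3] [[0,1,2,3],[0,1,2,5],[0,1,2,3],[0,1,2,3]],Ref.mk 1587 3093 [0,1,2,3] [[0,1,2,3,4],[0,1,2,3,4,5],[0,1,2,3,4],[0,1,2,3,4]],Ref.mk 939 3094 [0,1,2,3] [[0,1,2,3,4],[0,1,2,3,4,5],[0,1,2,3,4],[0,1,2,3,4]]],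
Node.mk [0,820,182,1542,2448,351,2216,22,2934,9,930,101,263,1666,896] [(0,0),(0,2),(1,2),(2,1),(2,2),(3,1)] [],
Node.mk [0,820,182,1542,2448,351,2216,22,2934,9,930,101,263,1666,23] [(0,0),(0,1),(0,2),(0,3),(1,2),(2,1)] [Ref.mk 895 3096 [0,1,2,3] [[0,1,2,3,5,4],[0,1,2,3,4,5],[0,1,2,3,4],[0,1,2,3,4]],Ref.mk 1633 3096 [0,1,2,3] [[0,3,2,1,5,4],[1,0,2,3,5,4],[0,1,2,3,4],[0,2,1,3,4]],Ref.mk 896 3096 [0,1,2,3] [[0,1,2,3,4,5],[0,1,2,3,4,5],[0,1,2,3,4],[0,1,2,3,4]],Ref.mk 1634 3096 [0,1,2,3] [[0,3,2,1,4,5],[1,0,2,3,5,4],[0,1,2,3,4],[0,2,1,3,4]],Ref.mk 897 3096 [0,1,2,3] [[0,1,2,3,5,6],[0,1,2,3,4,5],[0,1,2,3,4],[0,1,2,3,4]],Ref.mk 1635 3096 [0,1,2,3] [[0,3,2,1,5,6],[1,0,2,3,5,4],[0,1,2,3,4],[0,2,1,3,4]]],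
Node.mk [0,820,182,1542,2448,351,2216,22,2934,9,930,101,263,1666] [(0,0),(0,1),(0,2),(0,3),(0,4),(2,1)] [Ref.mk 896 3096 [0,1,2,3] [[0,1,2,3,4,5],[0,1,2,3,4,5],[0,1,2,3,4],[0,1,2,3,4]],Ref.mk 1634 3096 [0,1,2,3] [[0,3,2,1,4,5],[1,0,2,3,5,4],[0,1,2,3,4],[0,2,1,3,4]],Ref.mk 23 3097 [0,1,2,3] [[0,1,2,3,4,5],[0,1,2,3,4,5],[0,1,2,3,4],[0,1,2,3,4]]],
Node.mk [0,820,182,1542,2448,351,2216,22,2934,9,930,101,263] [(0,3),(1,0),(1,1),(1,2),(1,3),(2,1)] [Ref.mk 36 2306 [0,1,2,3] [[0,1,2,3],[0,1,2,4],[0,1,2,3],[0,1,2,3]],Ref.mk 45 2306 [0,1,2,3] [[0,1,2,3],[0,1,2,5],[0,1,2,3],[0,1,2,3]],Ref.mk 1495 3083 [0,1,2,3] [[0,3,2,1,4],[1,0,2,3,4],[0,1,2,3,4],[0,2,1,3,4]],Ref.mk 1657 3095 [0,1,2,3] [[0,1,2,3,4],[0,1,2,3,4],[0,1,2,3,4],[0,1,2,3,4]],Ref.mk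 1738 3086 [0,1,2,3] [[0,1,2,3,4],[0,1,2,3,4],[0,1,2,3,4],[0,1,2,3,4]],Ref.mk 1819 3089 [0,1,2,3] [[0,1,2,3,4],[0,1,2,3,4],[0,1,2,3,4],[0,1,2,3,4]],Ref.mk 1900 3092 [0,1,2,3] [[0,1,2,3,4],[0,1,2,3,4],[0,1,2,3,4,5],[0,1,2,3,4]],Ref.mk 1666 3098 [0,1,2,3] [[0,1,2,3,4],[0,1,2,3,4,5],[0,1,2,3,4],[0,1,2,3,4]]],
Node.mk [0,820,182,1542,2448,351,2216,22,2934,9,930,101,344,1657,1587] [(0,0),(0,2),(0,3),(1,2),(2,1),(2,2)] [Ref.mk 1495 3083 [0,1,2,3] [[0,3,2,1,4],[1,0,2,3,4],[0,1,2,3,4],[0,2,1,3,4]],Ref.mk 1738 3084 [0,1,2,3] [[0,1,2,3,4],[0,1,2,3,4,5],[0,1,2,3,4],[0,1,2,3,4]],Ref.mk 1819 3087 [0,1,2,3] [[0,1,2,3,4],[0,1,2,3,4,5],[0,1,2,3,4],[0,1,2,3,4]],Ref.mk 1900 3090 [0,1,2,3] [[0,1,2,3,4],[0,1,2,3,4,5],[0,1,2,3,4,5],[0,1,2,3,4]]],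
Node.mk [0,820,182,1542,2448,351,2216,22,2934,9,930,101,344,1657,939] [(0,0),(0,2),(0,3),(1,2),(2,2),(3,1)] [],
Node.mk [0,820,182,1542,2448,351,2216,22,2934,9,930,101,344,1657] [(0,1),(1,0),(1,1),(1,2),(1,3),(1,4)] [Ref.mk 45 2306 [0,1,2,3] [[0,1,2,3],[0,1,2,5],[0,1,2,3],[0,1,2,3]],Ref.mk 1587 3100 [0,1,2,3] [[0,1,2,3,4],[0,1,2,3,4,5],[0,1,2,3,4],[0,1,2,3,4]],Ref.mk 939 3101 [0,1,2,3] [[0,1,2,3,4],[0,1,2,3,4,5],[0,1,2,3,4],[0,1,2,3,4]]],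
Node.mk [0,820,182,1542,2448,351,2216,22,2934,9,930,101,344,1666,896] [(0,0),(0,2),(1,2),(2,1),(2,2),(3,1)] [],
Node.mk [0,820,182,1542,2448,351,2216,22,2934,9,930,101,344,1666,23] [(0,0),(0,1),(0,2),(0,3),(1,2),(2,1)] [Ref.mk 895 3103 [0,1,2,3] [[0,1,2,3,5,4],[0,1,2,3,4,5],[0,1,2,3,4],[0,1,2,3,4]],Ref.mk 1633 3103 [0,1,2,3] [[0,3,2,1,5,4],[1,0,2,3,5,4],[0,1,2,3,4],[0,2,1,3,4]],Ref.mk 896 3103 [0,1,2,3] [[0,1,2,3,4,5],[0,1,2,3,4,5],[0,1,2,3,4],[0,1,2,3,4]],Ref.mk 1634 3103 [0,1,2,3] [[0,3,2,1,4,5],[1,0,2,3,5,4],[0,1,2,3,4],[0,2,1,3,4]],Ref.mk 897 3103 [0,1,2,3] [[0,1,2,3,5,6],[0,1,2,3,4,5],[0,1,2,3,4],[0,1,2,3,4]],Ref.mk 1635 3103 [0,1,2,3] [[0,3,2,1,5,6],[1,0,2,3,5,4],[0,1,2,3,4],[0,2,1,3,4]]],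
Node.mk [0,820,182,1542,2448,351,2216,22,2934,9,930,101,344,1666] [(0,0),(0,1),(0,2),(0,3),(0,4),(2,1)] [Ref.mk 896 3103 [0,1,2,3] [[0,1,2,3,4,5],[0,1,2,3,4,5],[0,1,2,3,4],[0,1,2,3,4]],Ref.mk 1634 3103 [0,1,2,3] [[0,3,2,1,4,5],[1,0,2,3,5,4],[0,1,2,3,4],[0,2,1,3,4]],Ref.mk 23 3104 [0,1,2,3] [[0,1,2,3,4,5],[0,1,2,3,4,5],[0,1,2,3,4],[0,1,2,3,4]]],
Node.mk [0,820,182,1542,2448,351,2216,22,2934,9,930,101,344] [(0,3),(1,0),(1,1),(1,2),(1,3),(2,1)] [Ref.mk 36 2306 [0,1,2,3] [[0,1,2,3],[0,1,2,4],[0,1,2,3],[0,1,2,3]],Ref.mk 45 2306 [0,1,2,3] [[0,1,2,3],[0,1,2,5],[0,1,2,3],[0,1,2,3]],Ref.mk 1495 3083 [0,1,2,3] [[0,3,2,1,4],[1,0,2,3,4],[0,1,2,3,4],[0,2,1,3,4]],Ref.mk 1657 3102 [0,1,2,3] [[0,1,2,3,4],[0,1,2,3,4],[0,1,2,3,4],[0,1,2,3,4]],Ref.mk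 1738 3086 [0,1,2,3] [[0,1,2,3,4],[0,1,2,3,4],[0,1,2,3,4],[0,1,2,3,4]],Ref.mk 1819 3089 [0,1,2,3] [[0,1,2,3,4],[0,1,2,3,4],[0,1,2,3,4],[0,1,2,3,4]],Ref.mk 1900 3092 [0,1,2,3] [[0,1,2,3,4],[0,1,2,3,4],[0,1,2,3,4,5],[0,1,2,3,4]],Ref.mk 1666 3105 [0,1,2,3] [[0,1,2,3,4],[0,1,2,3,4,5],[0,1,2,3,4],[0,1,2,3,4]]],
Node.mk [0,820,182,1542,2448,351,2216,22,2934,9,930,101,425,1657,1587] [(0,0),(0,2),(0,3),(1,2),(2,1),(2,2)] [Ref.mk 1495 3083 [0,1,2,3] [[0,3,2,1,4],[1,0,2,3,4],[0,1,2,3,4],[0,2,1,3,4]],Ref.mk 1738 3084 [0,1,2,3] [[0,1,2,3,4],[0,1,2,3,4,5],[0,1,2,3,4],[0,1,2,3,4]],Ref.mk 1819 3087 [0,1,2,3] [[0,1,2,3,4],[0,1,2,3,4,5],[0,1,2,3,4],[0,1,2,3,4]],Ref.mk 1900 3090 [0,1,2,3] [[0,1,2,3,4],[0,1,2,3,4,5],[0,1,2,3,4,5],[0,1,2,3,4]],Ref.mk 1981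 3090 [0,1,2,3] [[0,1,2,3,4],[0,1,2,3,4,5],[0,1,2,3,4,6],[0,1,2,3,4]]],
Node.mk [0,820,182,1542,2448,351,2216,22,2934,9,930,101,425,1657,939] [(0,0),(0,2),(0,3),(1,2),(2,2),(3,1)] [],
Node.mk [0,820,182,1542,2448,351,2216,22,2934,9,930,101,425,1657] [(0,1),(1,0),(1,1),(1,2),(1,3),(1,4)] [Ref.mk 45 2306 [0,1,2,3] [[0,1,2,3],[0,1,2,5],[0,1,2,3],[0,1,2,3]],Ref.mk 1587 3107 [0,1,2,3] [[0,1,2,3,4],[0,1,2,3,4,5],[0,1,2,3,4,5],[0,1,2,3,4]],Ref.mk 939 3108 [0,1,2,3] [[0,1,2,3,4],[0,1,2,3,4,5],[0,1,2,3,4,5],[0,1,2,3,4]]],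
Node.mk [0,820,182,1542,2448,351,2216,22,2934,9,930,101,425,1666,896] [(0,0),(0,2),(1,2),(2,1),(2,2),(3,1)] [],
Node.mk [0,820,182,1542,2448,351,2216,22,2934,9,930,101,425,1666,23] [(0,0),(0,1),(0,2),(0,3),(1,2),(2,1)] [Ref.mk 895 3110 [0,1,2,3] [[0,1,2,3,5,4],[0,1,2,3,4,5],[0,1,2,3,4,5],[0,1,2,3,4]],Ref.mk 1633 3110 [0,1,2,3] [[0,3,2,1,5,4],[1,0,2,3,5,4],[0,1,2,3,4,5],[0,2,1,3,4]],Ref.mk 896 3110 [0,1,2,3] [[0,1,2,3,4,5],[0,1,2,3,4,5],[0,1,2,3,4,5],[0,1,2,3,4]],Ref.mk 1634 3110 [0,1,2,3] [[0,3,2,1,4,5],[1,0,2,3,5,4],[0,1,2,3,4,5],[0,2,1,3,4]],Ref.mk 897 3110 [0,1,2,3] [[0,1,2,3,5,6],[0,1,2,3,4,5],[0,1,2,3,4,5],[0,1,2,3,4]],Ref.mk 1635 3110 [0,1,2,3] [[0,3,2,1,5,6],[1,0,2,3,5,4],[0,1,2,3,4,5],[0,2,1,3,4]]],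
Node.mk [0,820,182,1542,2448,351,2216,22,2934,9,930,101,425,1666] [(0,0),(0,1),(0,2),(0,3),(0,4),(2,1)] [Ref.mk 896 3110 [0,1,2,3] [[0,1,2,3,4,5],[0,1,2,3,4,5],[0,1,2,3,4,5],[0,1,2,3,4]],Ref.mk 1634 3110 [0,1,2,3] [[0,3,2,1,4,5],[1,0,2,3,5,4],[0,1,2,3,4,5],[0,2,1,3,4]],Ref.mk 23 3111 [0,1,2,3] [[0,1,2,3,4,5],[0,1,2,3,4,5],[0,1,2,3,4,5],[0,1,2,3,4]]],
Node.mk [0,820,182,1542,2448,351,2216,22,2934,9,930,101,425] [(0,3),(1,0),(1,1),(1,2),(1,3),(2,1)] [Ref.mk 36 2306 [0,1,2,3] [[0,1,2,3],[0,1,2,4],[0,1,2,3],[0,1,2,3]],Ref.mk 45 2306 [0,1,2,3] [[0,1,2,3],[0,1,2,5],[0,1,2,3],[0,1,2,3]],Ref.mk 1495 3083 [0,1,2,3] [[0,3,2,1,4],[1,0,2,3,4],[0,1,2,3,4],[0,2,1,3,4]],Ref.mk 1657 3109 [0,1,2,3] [[0,1,2,3,4],[0,1,2,3,4],[0,1,2,3,4,5],[0,1,2,3,4]],Ref.mk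 1738 3086 [0,1,2,3] [[0,1,2,3,4],[0,1,2,3,4],[0,1,2,3,4],[0,1,2,3,4]],Ref.mk 1819 3089 [0,1,2,3] [[0,1,2,3,4],[0,1,2,3,4],[0,1,2,3,4],[0,1,2,3,4]],Ref.mk 1900 3092 [0,1,2,3] [[0,3,2,1,4],[1,0,2,3,4],[0,1,5,3,4,2],[0,2,1,3,4]],Ref.mk 1981 3092 [0,1,2,3] [[0,1,2,3,4],[0,1,2,3,4],[0,1,2,3,4,6],[0,1,2,3,4]],Ref.mk 1666 3112 [0,1,2,3] [[0,1,2,3,4],[0,1,2,3,4,5],[0,1,2,3,4,5],[0,1,2,3,4]]],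
Node.mk [0,820,182,1542,2448,351,2216,22,2934,9,930,101] [(0,0),(0,3),(2,0),(2,1),(2,2),(3,1)] [Ref.mk 1738 3086 [0,1,2,3] [[0,1,2,3,4],[0,1,2,3,4],[0,1,2,3,4],[0,1,2,3,4]],Ref.mk 1819 3089 [0,1,2,3] [[0,1,2,3,4],[0,1,2,3,4],[0,1,2,3,4],[0,1,2,3,4]],Ref.mk 1900 3092 [0,1,2,3] [[0,1,2,3,4],[0,1,2,3,4],[0,1,2,3,4,5],[0,1,2,3,4]],Ref.mk 263 3099 [0,1,2,3] [[0,1,2,3,4],[0,1,2,3,4],[0,1,2,3,4],[0,1,2,3,4]],Ref.mk 344 3106 [0,1,2,3] [[0,1,2,3,4],[0,1,2,3,4],[0,1,2,3,4],[0,1,2,3,4]],Ref.mk 425 3113 [0,1,2,3] [[0,1,2,3,4],[0,1,2,3,4],[0,1,2,3,4,5],[0,1,2,3,4]]],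
Node.mk [0,820,182,1542,2448,351,2216,22,2934,9,930,263,855] [(0,0),(0,1),(0,2),(2,0),(2,1),(3,1)] [],
Node.mk [0,820,182,1542,2448,351,2216,22,2934,9,930,263,856] [(0,0),(0,1),(0,2),(1,2),(2,1),(3,1)] [],
Node.mk [0,820,182,1542,2448,351,2216,22,2934,9,930,263,1666,1675] [(0,0),(0,1),(0,2),(1,2),(2,2),(3,2)] [],
Node.mk [0,820,182,1542,2448,351,2216,22,2934,9,930,263,1666] [(1,0),(1,1),(1,2),(1,3),(1,4),(1,5)] [Ref.mk 54 2306 [0,1,2,3] [[0,1,2,3],[0,1,2,6],[0,1,2,3],[0,1,2,3]],Ref.mk 865 3116 [0,1,2,3] [[0,1,2,3,4],[0,1,2,3,4,6],[0,1,2,3,4],[0,1,2,3,4]],Ref.mk 1675 3117 [0,1,2,3] [[0,1,2,3,4],[0,1,2,3,4,5,6],[0,1,2,3,4],[0,1,2,3,4]],Ref.mk 1596 3116 [0,1,2,3] [[0,3,2,1,4],[1,0,2,3,5,6],[0,1,2,3,4],[0,2,1,3,4]],Ref.mk 948 3117 [0,1,2,3]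 [[0,3,2,1,4],[1,0,2,3,5,4,6],[0,1,2,3,4],[0,2,1,3,4]]],
Node.mk [0,820,182,1542,2448,351,2216,22,2934,9,930,263,857] [(0,0),(0,1),(0,2),(1,2),(2,1),(3,1)] [],
Node.mk [0,820,182,1542,2448,351,2216,22,2934,9,930,263,859] [(0,0),(0,2),(0,4),(1,2),(2,1),(3,1)] [Ref.mk 1666 3118 [0,1,2,3] [[0,1,2,3,4],[0,1,2,3,4,5],[0,1,2,3,4],[0,1,2,3,4]]],
Node.mk [0,820,182,1542,2448,351,2216,22,2934,9,930,263,860] [(0,0),(0,2),(1,1),(1,2),(2,1),(3,1)] [Ref.mk 1666 3118 [0,1,2,3] [[0,1,2,3,4],[0,1,2,3,4,5],[0,1,2,3,4],[0,1,2,3,4]]],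
Node.mk [0,820,182,1542,2448,351,2216,22,2934,9,930,263] [(0,3),(1,0),(1,1),(1,2),(1,3),(1,4)] [Ref.mk 45 2306 [0,1,2,3] [[0,1,2,3],[0,1,2,5],[0,1,2,3],[0,1,2,3]],Ref.mk 855 3115 [0,1,2,3] [[0,1,2,3,4],[0,1,2,3,4,5],[0,1,2,3,4],[0,1,2,3,4]],Ref.mk 856 3116 [0,1,2,3] [[0,1,2,3,4],[0,1,2,3,4,5],[0,1,2,3,4],[0,1,2,3,4]],Ref.mk 1666 3118 [0,1,2,3] [[0,1,2,3,4],[0,1,2,3,4,5],[0,1,2,3,4],[0,1,2,3,4]],Ref.mk 857 3119 [0,1,2,3] [[0,1,2,3,4],[0,1,2,3,4,5],[0,1,2,3,4],[0,1,2,3,4]],Ref.mk 859 3120 [0,1,2,3] [[0,1,2,3,4],[0,1,2,3,4,5],[0,1,2,3,4],[0,1,2,3,4]],Ref.mk 860 3121 [0,1,2,3] [[0,1,2,3,4,5],[0,1,2,3,4,5],[0,1,2,3,4],[0,1,2,3,4]]],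
Node.mk [0,820,182,1542,2448,351,2216,22,2934,9,930,344,855] [(0,0),(0,1),(0,2),(2,0),(2,1),(3,1)] [],
Node.mk [0,820,182,1542,2448,351,2216,22,2934,9,930,344,856] [(0,0),(0,1),(0,2),(1,2),(2,1),(3,1)] [],
Node.mk [0,820,182,1542,2448,351,2216,22,2934,9,930,344,1666,1675] [(0,0),(0,1),(0,2),(1,2),(2,2),(3,2)] [],
Node.mk [0,820,182,1542,2448,351,2216,22,2934,9,930,344,1666] [(1,0),(1,1),(1,2),(1,3),(1,4),(1,5)] [Ref.mk 54 2306 [0,1,2,3] [[0,1,2,3],[0,1,2,6],[0,1,2,3],[0,1,2,3]],Ref.mk 865 3124 [0,1,2,3] [[0,1,2,3,4],[0,1,2,3,4,6],[0,1,2,3,4],[0,1,2,3,4]],Ref.mk 1675 3125 [0,1,2,3] [[0,1,2,3,4],[0,1,2,3,4,5,6],[0,1,2,3,4],[0,1,2,3,4]],Ref.mk 1596 3124 [0,1,2,3] [[0,3,2,1,4],[1,0,2,3,5,6],[0,1,2,3,4],[0,2,1,3,4]],Ref.mk 948 3125 [0,1,2,3]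 [[0,3,2,1,4],[1,0,2,3,5,4,6],[0,1,2,3,4],[0,2,1,3,4]]],
Node.mk [0,820,182,1542,2448,351,2216,22,2934,9,930,344,857] [(0,0),(0,1),(0,2),(1,2),(2,1),(3,1)] [],
Node.mk [0,820,182,1542,2448,351,2216,22,2934,9,930,344,859] [(0,0),(0,2),(0,4),(1,2),(2,1),(3,1)] [Ref.mk 1666 3126 [0,1,2,3] [[0,1,2,3,4],[0,1,2,3,4,5],[0,1,2,3,4],[0,1,2,3,4]]],
Node.mk [0,820,182,1542,2448,351,2216,22,2934,9,930,344,860] [(0,0),(0,2),(1,1),(1,2),(2,1),(3,1)] [Ref.mk 1666 3126 [0,1,2,3] [[0,1,2,3,4],[0,1,2,3,4,5],[0,1,2,3,4],[0,1,2,3,4]]],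
Node.mk [0,820,182,1542,2448,351,2216,22,2934,9,930,344] [(0,3),(1,0),(1,1),(1,2),(1,3),(1,4)] [Ref.mk 45 2306 [0,1,2,3] [[0,1,2,3],[0,1,2,5],[0,1,2,3],[0,1,2,3]],Ref.mk 855 3123 [0,1,2,3] [[0,1,2,3,4],[0,1,2,3,4,5],[0,1,2,3,4],[0,1,2,3,4]],Ref.mk 856 3124 [0,1,2,3] [[0,1,2,3,4],[0,1,2,3,4,5],[0,1,2,3,4],[0,1,2,3,4]],Ref.mk 1666 3126 [0,1,2,3] [[0,1,2,3,4],[0,1,2,3,4,5],[0,1,2,3,4],[0,1,2,3,4]],Ref.mk 857 3127 [0,1,2,3] [[0,1,2,3,4],[0,1,2,3,4,5],[0,1,2,3,4],[0,1,2,3,4]],Ref.mk 859 3128 [0,1,2,3] [[0,1,2,3,4],[0,1,2,3,4,5],[0,1,2,3,4],[0,1,2,3,4]],Ref.mk 860 3129 [0,1,2,3] [[0,1,2,3,4,5],[0,1,2,3,4,5],[0,1,2,3,4],[0,1,2,3,4]]],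
Node.mk [0,820,182,1542,2448,351,2216,22,2934,9,930,425,855] [(0,0),(0,1),(0,2),(2,0),(2,1),(3,1)] [],
Node.mk [0,820,182,1542,2448,351,2216,22,2934,9,930,425,856] [(0,0),(0,1),(0,2),(1,2),(2,1),(3,1)] [],
Node.mk [0,820,182,1542,2448,351,2216,22,2934,9,930,425,1666,1675] [(0,0),(0,1),(0,2),(1,2),(2,2),(3,2)] [],
Node.mk [0,820,182,1542,2448,351,2216,22,2934,9,930,425,1666] [(1,0),(1,1),(1,2),(1,3),(1,4),(1,5)] [Ref.mk 54 2306 [0,1,2,3] [[0,1,2,3],[0,1,2,6],[0,1,2,3],[0,1,2,3]],Ref.mk 865 3132 [0,1,2,3] [[0,1,2,3,4],[0,1,2,3,4,6],[0,1,2,3,4,5],[0,1,2,3,4]],Ref.mk 1675 3133 [0,1,2,3] [[0,1,2,3,4],[0,1,2,3,4,5,6],[0,1,2,3,4,5],[0,1,2,3,4]],Ref.mk 1596 3132 [0,1,2,3] [[0,3,2,1,4],[1,0,2,3,5,6],[0,1,2,3,4,5],[0,2,1,3,4]],Ref.mk 948 3133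 [0,1,2,3] [[0,3,2,1,4],[1,0,2,3,5,4,6],[0,1,2,3,4,5],[0,2,1,3,4]]],
Node.mk [0,820,182,1542,2448,351,2216,22,2934,9,930,425,857] [(0,0),(0,1),(0,2),(1,2),(2,1),(3,1)] []]

/-- nodes -/
noncomputable def c49 : List Node := [
Node.mk [0,820,182,1542,2448,351,2216,22,2934,9,930,425,859] [(0,0),(0,2),(0,4),(1,2),(2,1),(3,1)] [Ref.mk 1666 3134 [0,1,2,3] [[0,1,2,3,4],[0,1,2,3,4,5],[0,1,2,3,4,5],[0,1,2,3,4]]],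
Node.mk [0,820,182,1542,2448,351,2216,22,2934,9,930,425,860] [(0,0),(0,2),(1,1),(1,2),(2,1),(3,1)] [Ref.mk 1666 3134 [0,1,2,3] [[0,1,2,3,4],[0,1,2,3,4,5],[0,1,2,3,4,5],[0,1,2,3,4]]],
Node.mk [0,820,182,1542,2448,351,2216,22,2934,9,930,425] [(0,3),(1,0),(1,1),(1,2),(1,3),(1,4)] [Ref.mk 45 2306 [0,1,2,3] [[0,1,2,3],[0,1,2,5],[0,1,2,3],[0,1,2,3]],Ref.mk 855 3131 [0,1,2,3] [[0,1,2,3,4],[0,1,2,3,4,5],[0,1,2,3,4,5],[0,1,2,3,4]],Ref.mk 856 3132 [0,1,2,3] [[0,1,2,3,4],[0,1,2,3,4,5],[0,1,2,3,4,5],[0,1,2,3,4]],Ref.mk 1666 3134 [0,1,2,3] [[0,1,2,3,4],[0,1,2,3,4,5],[0,1,2,3,4,5],[0,1,2,3,4]],Ref.mk 857 3135 [0,1,2,3] [[0,1,2,3,4],[0,1,2,3,4,5],[0,1,2,3,4,5],[0,1,2,3,4]],Ref.mk 859 3136 [0,1,2,3] [[0,1,2,3,4],[0,1,2,3,4,5],[0,1,2,3,4,5],[0,1,2,3,4]],Ref.mk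 860 3137 [0,1,2,3] [[0,1,2,3,4,5],[0,1,2,3,4,5],[0,1,2,3,4,5],[0,1,2,3,4]]],
Node.mk [0,820,182,1542,2448,351,2216,22,2934,9,930] [(0,0),(0,3),(1,4),(2,0),(2,2),(3,1)] [Ref.mk 101 3114 [0,1,2,3] [[0,1,2,3,4],[0,1,2,3,4],[0,1,2,3,4],[0,1,2,3,4]],Ref.mk 263 3122 [0,1,2,3] [[0,1,2,3,4],[0,1,2,3,4],[0,1,2,3,4],[0,1,2,3,4]],Ref.mk 344 3130 [0,1,2,3] [[0,1,2,3,4],[0,1,2,3,4],[0,1,2,3,4],[0,1,2,3,4]],Ref.mk 425 3138 [0,1,2,3] [[0,1,2,3,4],[0,1,2,3,4],[0,1,2,3,4,5],[0,1,2,3,4]]],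
Node.mk [0,820,182,1542,2448,351,2216,22,2934,9,1092,1819,1587] [(0,0),(0,2),(0,3),(1,2),(2,1),(3,2)] [],
Node.mk [0,820,182,1542,2448,351,2216,22,2934,9,1092,1819,1101] [(0,0),(0,2),(0,3),(1,2),(2,4),(3,1)] [],
Node.mk [0,820,182,1542,2448,351,2216,22,2934,9,1092,1819] [(0,1),(1,0),(1,1),(1,2),(1,3),(1,4)] [Ref.mk 45 2306 [0,1,2,3] [[0,1,2,3],[0,1,2,5],[0,1,2,3],[0,1,2,3]],Ref.mk 1587 3140 [0,1,2,3] [[0,1,2,3,4],[0,1,2,3,4,5],[0,1,2,3,4],[0,1,2,3,4]],Ref.mk 1101 3141 [0,1,2,3] [[0,1,2,3,4],[0,1,2,3,4,5],[0,1,2,3,4],[0,1,2,3,4]]],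
Node.mk [0,820,182,1542,2448,351,2216,22,2934,9,1092,1900,1587] [(0,0),(0,2),(0,3),(1,2),(2,1),(3,2)] [],
Node.mk [0,820,182,1542,2448,351,2216,22,2934,9,1092,1900,1182] [(0,0),(0,1),(0,2),(0,3),(1,2),(3,1)] [],
Node.mk [0,820,182,1542,2448,351,2216,22,2934,9,1092,1900] [(0,1),(1,0),(1,1),(1,2),(1,3),(1,4)] [Ref.mk 45 2306 [0,1,2,3] [[0,1,2,3],[0,1,2,5],[0,1,2,3],[0,1,2,3]],Ref.mk 1587 3143 [0,1,2,3] [[0,1,2,3,4],[0,1,2,3,4,5],[0,1,2,3,4,5],[0,1,2,3,4]],Ref.mk 1182 3144 [0,1,2,3] [[0,1,2,3,4],[0,1,2,3,4,5],[0,1,2,3,4,5],[0,1,2,3,4]]],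
Node.mk [0,820,182,1542,2448,351,2216,22,2934,9,1092,1828,1058] [(0,0),(0,2),(1,2),(2,1),(2,4),(3,1)] [],
Node.mk [0,820,182,1542,2448,351,2216,22,2934,9,1092,1828,23] [(0,0),(0,1),(0,2),(0,3),(1,2),(2,1)] [Ref.mk 1057 3146 [0,1,2,3] [[0,1,2,3,5,4],[0,1,2,3,4,5],[0,1,2,3,4],[0,1,2,3,4]],Ref.mk 1795 3146 [0,1,2,3] [[0,3,2,1,5,4],[1,0,2,3,5,4],[0,1,2,3,4],[0,2,1,3,4]],Ref.mk 1058 3146 [0,1,2,3] [[0,1,2,3,4,5],[0,1,2,3,4,5],[0,1,2,3,4],[0,1,2,3,4]],Ref.mk 1796 3146 [0,1,2,3] [[0,3,2,1,4,5],[1,0,2,3,5,4],[0,1,2,3,4],[0,2,1,3,4]],Ref.mk 1059 3146 [0,1,2,3] [[0,1,2,3,5,6],[0,1,2,3,4,5],[0,1,2,3,4],[0,1,2,3,4]],Ref.mk 1797 3146 [0,1,2,3] [[0,3,2,1,5,6],[1,0,2,3,5,4],[0,1,2,3,4],[0,2,1,3,4]]],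
Node.mk [0,820,182,1542,2448,351,2216,22,2934,9,1092,1828] [(0,0),(0,1),(0,2),(0,3),(0,4),(2,1)] [Ref.mk 1058 3146 [0,1,2,3] [[0,1,2,3,4,5],[0,1,2,3,4,5],[0,1,2,3,4],[0,1,2,3,4]],Ref.mk 1796 3146 [0,1,2,3] [[0,3,2,1,4,5],[1,0,2,3,5,4],[0,1,2,3,4],[0,2,1,3,4]],Ref.mk 23 3147 [0,1,2,3] [[0,1,2,3,4,5],[0,1,2,3,4,5],[0,1,2,3,4],[0,1,2,3,4]]],
Node.mk [0,820,182,1542,2448,351,2216,22,2934,9,1092] [(0,3),(1,0),(1,1),(1,2),(1,3),(2,1)] [Ref.mk 36 2306 [0,1,2,3] [[0,1,2,3],[0,1,2,4],[0,1,2,3],[0,1,2,3]],Ref.mk 45 2306 [0,1,2,3] [[0,1,2,3],[0,1,2,5],[0,1,2,3],[0,1,2,3]],Ref.mk 1495 3083 [0,1,2,3] [[0,3,2,1,4],[1,0,2,3,4],[0,1,2,3,4],[0,2,1,3,4]],Ref.mk 1657 3139 [0,1,2,3] [[0,3,2,1,4],[1,0,2,3,4],[0,1,2,3,4],[0,2,1,3,4]],Ref.mk 1738 3139 [3,1,2,0]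 [[0,1,3,2,4],[0,1,2,3,4],[0,1,3,2,4],[0,1,3,2,4]],Ref.mk 1819 3142 [0,1,2,3] [[0,1,2,3,4],[0,1,2,3,4],[0,1,2,3,4],[0,1,2,3,4]],Ref.mk 1900 3145 [0,1,2,3] [[0,1,2,3,4],[0,1,2,3,4],[0,1,2,3,4,5],[0,1,2,3,4]],Ref.mk 1828 3148 [0,1,2,3] [[0,1,2,3,4],[0,1,2,3,4,5],[0,1,2,3,4],[0,1,2,3,4]]],
Node.mk [0,820,182,1542,2448,351,2216,22,2934,9,1173,1900,1587] [(0,0),(0,2),(0,3),(1,2),(2,1),(3,2)] [],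
Node.mk [0,820,182,1542,2448,351,2216,22,2934,9,1173,1900,1182] [(0,0),(0,2),(0,3),(1,2),(2,5),(3,1)] [],
Node.mk [0,820,182,1542,2448,351,2216,22,2934,9,1173,1900] [(0,1),(1,0),(1,1),(1,2),(1,3),(1,4)] [Ref.mk 45 2306 [0,1,2,3] [[0,1,2,3],[0,1,2,5],[0,1,2,3],[0,1,2,3]],Ref.mk 1587 3150 [0,1,2,3] [[0,1,2,3,4],[0,1,2,3,4,5],[0,1,2,3,4,5],[0,1,2,3,4]],Ref.mk 1182 3151 [0,1,2,3] [[0,1,2,3,4],[0,1,2,3,4,5],[0,1,2,3,4,5],[0,1,2,3,4]]],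
Node.mk [0,820,182,1542,2448,351,2216,22,2934,9,1173,1981,1587] [(0,0),(0,2),(0,3),(1,2),(2,1),(3,2)] [],
Node.mk [0,820,182,1542,2448,351,2216,22,2934,9,1173,1981,1263] [(0,0),(0,1),(0,2),(0,3),(1,2),(3,1)] [],
Node.mk [0,820,182,1542,2448,351,2216,22,2934,9,1173,1981] [(0,1),(1,0),(1,1),(1,2),(1,3),(1,4)] [Ref.mk 45 2306 [0,1,2,3] [[0,1,2,3],[0,1,2,5],[0,1,2,3],[0,1,2,3]],Ref.mk 1587 3153 [0,1,2,3] [[0,1,2,3,4],[0,1,2,3,4,5],[0,1,2,3,4,5,6],[0,1,2,3,4]],Ref.mk 1263 3154 [0,1,2,3] [[0,1,2,3,4],[0,1,2,3,4,5],[0,1,2,3,4,5,6],[0,1,2,3,4]]],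
Node.mk [0,820,182,1542,2448,351,2216,22,2934,9,1173,1909,1139] [(0,0),(0,1),(0,2),(1,2),(2,1),(2,5)] [Ref.mk 777 3083 [0,1,2,3] [[0,1,2,3,4],[0,1,2,3,5],[0,1,2,3,4],[0,1,2,3,4]],Ref.mk 939 3139 [0,1,2,3] [[0,1,2,3,4],[0,1,2,3,5],[0,1,2,3,4],[0,1,2,3,4]],Ref.mk 1020 3139 [3,1,2,0] [[0,2,3,1,4],[1,0,2,3,5],[0,1,3,2,4],[0,3,1,2,4]],Ref.mk 1101 3144 [0,1,2,3] [[0,1,2,3,4],[0,1,2,3,5,4],[0,1,2,3,4,5],[0,1,2,3,4]],Ref.mk 1263 3154 [0,1,2,3] [[0,1,2,3,4],[0,1,2,3,5,4],[0,1,2,3,4,6,5],[0,1,2,3,4]]],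
Node.mk [0,820,182,1542,2448,351,2216,22,2934,9,1173,1909,23] [(0,0),(0,1),(0,2),(0,3),(1,2),(2,1)] [Ref.mk 1138 3156 [0,1,2,3] [[0,1,2,3,5,4],[0,1,2,3,4,5],[0,1,2,3,4,5],[0,1,2,3,4]],Ref.mk 1876 3156 [0,1,2,3] [[0,3,2,1,5,4],[1,0,2,3,5,4],[0,1,2,3,4,5],[0,2,1,3,4]],Ref.mk 1139 3156 [0,1,2,3] [[0,1,2,3,4,5],[0,1,2,3,4,5],[0,1,2,3,4,5],[0,1,2,3,4]],Ref.mk 1877 3156 [0,1,2,3] [[0,3,2,1,4,5],[1,0,2,3,5,4],[0,1,2,3,4,5],[0,2,1,3,4]],Ref.mk 1140 3156 [0,1,2,3] [[0,1,2,3,5,6],[0,1,2,3,4,5],[0,1,2,3,4,5],[0,1,2,3,4]],Ref.mk 1878 3156 [0,1,2,3] [[0,3,2,1,5,6],[1,0,2,3,5,4],[0,1,2,3,4,5],[0,2,1,3,4]]],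
Node.mk [0,820,182,1542,2448,351,2216,22,2934,9,1173,1909] [(0,0),(0,1),(0,2),(0,3),(0,4),(2,1)] [Ref.mk 1139 3156 [0,1,2,3] [[0,1,2,3,4,5],[0,1,2,3,4,5],[0,1,2,3,4,5],[0,1,2,3,4]],Ref.mk 1877 3156 [0,1,2,3] [[0,3,2,1,4,5],[1,0,2,3,5,4],[0,1,2,3,4,5],[0,2,1,3,4]],Ref.mk 23 3157 [0,1,2,3] [[0,1,2,3,4,5],[0,1,2,3,4,5],[0,1,2,3,4,5],[0,1,2,3,4]]],
Node.mk [0,820,182,1542,2448,351,2216,22,2934,9,1173] [(0,3),(1,0),(1,1),(1,2),(1,3),(2,1)] [Ref.mk 36 2306 [0,1,2,3] [[0,1,2,3],[0,1,2,4],[0,1,2,3],[0,1,2,3]],Ref.mk 45 2306 [0,1,2,3] [[0,1,2,3],[0,1,2,5],[0,1,2,3],[0,1,2,3]],Ref.mk 1495 3083 [0,1,2,3] [[0,3,2,1,4],[1,0,2,3,4],[0,1,2,3,4],[0,2,1,3,4]],Ref.mk 1657 3139 [0,1,2,3] [[0,3,2,1,4],[1,0,2,3,4],[0,1,2,3,4],[0,2,1,3,4]],Ref.mk 1738 3139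 [3,1,2,0] [[0,1,3,2,4],[0,1,2,3,4],[0,1,3,2,4],[0,1,3,2,4]],Ref.mk 1819 3145 [0,1,2,3] [[0,3,2,1,4],[1,0,2,3,4],[0,1,2,3,4,5],[0,2,1,3,4]],Ref.mk 1900 3152 [0,1,2,3] [[0,1,2,3,4],[0,1,2,3,4],[0,1,2,3,4,5],[0,1,2,3,4]],Ref.mk 1981 3155 [0,1,2,3] [[0,1,2,3,4],[0,1,2,3,4],[0,1,2,3,4,5,6],[0,1,2,3,4]],Ref.mk 1909 3158 [0,1,2,3] [[0,1,2,3,4],[0,1,2,3,4,5],[0,1,2,3,4,5],[0,1,2,3,4]]],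
Node.mk [0,820,182,1542,2448,351,2216,22,2934,9] [(0,1),(1,0),(1,1),(1,2),(1,3),(2,1)] [Ref.mk 36 2306 [0,1,2,3] [[0,1,2,3],[0,1,2,4],[0,1,2,3],[0,1,2,3]],Ref.mk 768 3083 [0,1,2,3] [[0,1,2,3,4],[0,1,2,3,4],[0,1,2,3,4],[0,1,2,3,4]],Ref.mk 930 3139 [0,1,2,3] [[0,1,2,3,4],[0,1,2,3,4],[0,1,2,3,4],[0,1,2,3,4]],Ref.mk 1011 3139 [3,1,2,0] [[0,2,3,1,4],[1,0,2,3,4],[0,1,3,2,4],[0,3,1,2,4]],Ref.mk 1092 3149 [0,1,2,3] [[0,1,2,3,4],[0,1,2,3,4],[0,1,2,3,4],[0,1,2,3,4]],Ref.mk 1173 3159 [0,1,2,3] [[0,1,2,3,4],[0,1,2,3,4],[0,1,2,3,4,5],[0,1,2,3,4]]],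
Node.mk [0,820,182,1542,2448,351,2216,22,2934] [(0,3),(1,0),(1,2),(1,3),(2,1),(3,2)] [Ref.mk 9 3160 [0,1,2,3] [[0,1,2,3,4],[0,1,2,3],[0,1,2,3,4],[0,1,2,3,4]],Ref.mk 36 2306 [0,1,2,3] [[0,1,2,3],[0,1,2,4],[0,1,2,3],[0,1,2,3]]],
Node.mk [0,820,182,1542,2448,351,2216,22] [(0,1),(1,1),(2,1),(3,0),(3,1),(3,3)] [Ref.mk 1476 2927 [1,3,2,0] [[2,1,3,0],[2,1,0,3],[0,1,4,2,3],[0,1,3,2,4]],Ref.mk 2934 3161 [0,1,2,3] [[0,1,2,3,4],[0,1,2,3],[0,1,2,3,4],[0,1,2,3,4]]],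
Node.mk [0,820,182,1542,2448,351,2216,274,3105,9,768,2297] [(0,0),(0,2),(0,3),(1,3),(2,0),(2,1)] [],
Node.mk [0,820,182,1542,2448,351,2216,274,3105,9,768] [(0,0),(0,3),(1,4),(2,0),(3,0),(3,1)] [Ref.mk 2297 3163 [0,1,2,3] [[0,1,2,3,4],[0,1,2,3,4],[0,1,2,3,4],[0,1,2,3,4]]],
Node.mk [0,820,182,1542,2448,351,2216,274,3105,9,930,101] [(0,0),(0,2),(0,3),(1,3),(2,1),(2,2)] [],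
Node.mk [0,820,182,1542,2448,351,2216,274,3105,9,930] [(0,0),(0,3),(1,3),(1,4),(2,2),(3,1)] [Ref.mk 101 3165 [0,1,2,3] [[0,1,2,3,4],[0,1,2,3,4],[0,1,2,3,4],[0,1,2,3,4]]],
Node.mk [0,820,182,1542,2448,351,2216,274,3105,9,1092,1819,1587] [(0,0),(0,2),(0,3),(1,3),(2,1),(3,2)] [],
Node.mk [0,820,182,1542,2448,351,2216,274,3105,9,1092,1819,1101] [(0,0),(0,2),(0,3),(1,3),(2,4),(3,1)] [],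
Node.mk [0,820,182,1542,2448,351,2216,274,3105,9,1092,1819] [(0,1),(1,0),(1,1),(1,2),(1,3),(1,4)] [Ref.mk 45 2306 [0,1,2,3] [[0,1,2,3],[0,1,2,5],[0,1,2,3],[0,1,2,3]],Ref.mk 1587 3167 [0,1,2,3] [[0,1,2,3,4],[0,1,2,3,4,5],[0,1,2,3,4],[0,1,2,3,4]],Ref.mk 1101 3168 [0,1,2,3] [[0,1,2,3,4],[0,1,2,3,4,5],[0,1,2,3,4],[0,1,2,3,4]]],
Node.mk [0,820,182,1542,2448,351,2216,274,3105,9,1092,1900,1587] [(0,0),(0,2),(0,3),(1,3),(2,1),(3,2)] [],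
Node.mk [0,820,182,1542,2448,351,2216,274,3105,9,1092,1900,1182] [(0,0),(0,1),(0,2),(0,3),(1,3),(3,1)] [],
Node.mk [0,820,182,1542,2448,351,2216,274,3105,9,1092,1900] [(0,1),(1,0),(1,1),(1,2),(1,3),(1,4)] [Ref.mk 45 2306 [0,1,2,3] [[0,1,2,3],[0,1,2,5],[0,1,2,3],[0,1,2,3]],Ref.mk 1587 3170 [0,1,2,3] [[0,1,2,3,4],[0,1,2,3,4,5],[0,1,2,3,4,5],[0,1,2,3,4]],Ref.mk 1182 3171 [0,1,2,3] [[0,1,2,3,4],[0,1,2,3,4,5],[0,1,2,3,4,5],[0,1,2,3,4]]],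
Node.mk [0,820,182,1542,2448,351,2216,274,3105,9,1092,1828,1135] [(0,0),(0,1),(0,2),(0,3),(1,3),(3,1)] [],
Node.mk [0,820,182,1542,2448,351,2216,274,3105,9,1092,1828] [(0,0),(2,0),(2,1),(2,2),(2,3),(2,4)] [Ref.mk 1135 3173 [0,1,2,3] [[0,1,2,3,4],[0,1,2,3,4,5],[0,1,2,3,4,5],[0,1,2,3,4]],Ref.mk 1900 3172 [0,1,2,3] [[0,1,2,3,4],[0,1,2,3,4],[0,1,2,3,4,5],[0,1,2,3,4]],Ref.mk 1875 3173 [0,1,2,3] [[0,3,2,1,4],[1,0,2,3,5,4],[0,1,2,3,4,5],[0,2,1,3,4]],Ref.mk 1182 3172 [0,1,2,3] [[0,3,2,1,4],[1,0,2,3,5],[0,1,2,3,4,5],[0,2,1,3,4]]],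
Node.mk [0,820,182,1542,2448,351,2216,274,3105,9,1092] [(0,3),(1,0),(1,1),(1,2),(1,3),(2,1)] [Ref.mk 36 2306 [0,1,2,3] [[0,1,2,3],[0,1,2,4],[0,1,2,3],[0,1,2,3]],Ref.mk 45 2306 [0,1,2,3] [[0,1,2,3],[0,1,2,5],[0,1,2,3],[0,1,2,3]],Ref.mk 1495 3164 [0,1,2,3] [[0,3,2,1,4],[1,0,2,3,4],[0,1,2,3,4],[0,2,1,3,4]],Ref.mk 1657 3166 [0,1,2,3] [[0,3,2,1,4],[1,0,2,3,4],[0,1,2,3,4],[0,2,1,3,4]],Ref.mk 1738 3166 [3,1,2,0] [[0,1,3,2,4],[0,1,2,3,4],[0,1,3,2,4],[0,1,3,2,4]],Ref.mk 1819 3169 [0,1,2,3] [[0,1,2,3,4],[0,1,2,3,4],[0,1,2,3,4],[0,1,2,3,4]],Ref.mk 1900 3172 [0,1,2,3] [[0,1,2,3,4],[0,1,2,3,4],[0,1,2,3,4,5],[0,1,2,3,4]],Ref.mk 1828 3174 [0,1,2,3] [[0,1,2,3,4],[0,1,2,3,4,5],[0,1,2,3,4],[0,1,2,3,4]]],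
Node.mk [0,820,182,1542,2448,351,2216,274,3105,9,1173,1900,1587] [(0,0),(0,2),(0,3),(1,3),(2,1),(3,2)] [],
Node.mk [0,820,182,1542,2448,351,2216,274,3105,9,1173,1900,1182] [(0,0),(0,2),(0,3),(1,3),(2,5),(3,1)] [],
Node.mk [0,820,182,1542,2448,351,2216,274,3105,9,1173,1900] [(0,1),(1,0),(1,1),(1,2),(1,3),(1,4)] [Ref.mk 45 2306 [0,1,2,3] [[0,1,2,3],[0,1,2,5],[0,1,2,3],[0,1,2,3]],Ref.mk 1587 3176 [0,1,2,3] [[0,1,2,3,4],[0,1,2,3,4,5],[0,1,2,3,4,5],[0,1,2,3,4]],Ref.mk 1182 3177 [0,1,2,3] [[0,1,2,3,4],[0,1,2,3,4,5],[0,1,2,3,4,5],[0,1,2,3,4]]],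
Node.mk [0,820,182,1542,2448,351,2216,274,3105,9,1173,1981,1587] [(0,0),(0,2),(0,3),(1,3),(2,1),(3,2)] [],
Node.mk [0,820,182,1542,2448,351,2216,274,3105,9,1173,1981,1263] [(0,0),(0,1),(0,2),(0,3),(1,3),(3,1)] [],
Node.mk [0,820,182,1542,2448,351,2216,274,3105,9,1173,1981] [(0,1),(1,0),(1,1),(1,2),(1,3),(1,4)] [Ref.mk 45 2306 [0,1,2,3] [[0,1,2,3],[0,1,2,5],[0,1,2,3],[0,1,2,3]],Ref.mk 1587 3179 [0,1,2,3] [[0,1,2,3,4],[0,1,2,3,4,5],[0,1,2,3,4,5,6],[0,1,2,3,4]],Ref.mk 1263 3180 [0,1,2,3] [[0,1,2,3,4],[0,1,2,3,4,5],[0,1,2,3,4,5,6],[0,1,2,3,4]]],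
Node.mk [0,820,182,1542,2448,351,2216,274,3105,9,1173,1909,275] [(1,0),(1,1),(1,2),(1,3),(2,1),(2,5)] [Ref.mk 36 2306 [0,1,2,3] [[0,1,2,3],[0,1,2,4],[0,1,2,3],[0,1,2,3]],Ref.mk 45 2306 [0,1,2,3] [[0,1,2,3],[0,1,2,5],[0,1,2,3],[0,1,2,3]],Ref.mk 54 2306 [0,1,2,3] [[0,1,2,3],[0,1,2,6],[0,1,2,3],[0,1,2,3]],Ref.mk 1495 3164 [0,1,2,3] [[0,3,2,1,4],[1,0,2,3,4],[0,1,2,3,4],[0,2,1,3,4]],Ref.mk 1657 3166 [0,1,2,3] [[0,3,2,1,4],[1,0,2,3,4],[0,1,2,3,4],[0,2,1,3,4]],Ref.mk 1738 3166 [3,1,2,0] [[0,1,3,2,4],[0,1,2,3,4],[0,1,3,2,4],[0,1,3,2,4]],Ref.mk 1819 3171 [0,1,2,3] [[0,3,2,1,5],[1,0,2,3,4,5],[0,1,2,3,4,5],[0,2,1,3,4]],Ref.mk 1981 3180 [0,1,2,3] [[0,3,2,1,5],[1,0,2,3,4,5],[0,1,2,3,4,6,5],[0,2,1,3,4]],Ref.mk 777 3164 [0,1,2,3] [[0,1,2,3,4],[0,1,2,3,5],[0,1,2,3,4],[0,1,2,3,4]],Ref.mk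 939 3166 [0,1,2,3] [[0,1,2,3,4],[0,1,2,3,5],[0,1,2,3,4],[0,1,2,3,4]],Ref.mk 1020 3166 [3,1,2,0] [[0,2,3,1,4],[1,0,2,3,5],[0,1,3,2,4],[0,3,1,2,4]],Ref.mk 1101 3171 [0,1,2,3] [[0,1,2,3,5],[0,1,2,3,5,4],[0,1,2,3,4,5],[0,1,2,3,4]],Ref.mk 1263 3180 [0,1,2,3] [[0,1,2,3,5],[0,1,2,3,5,4],[0,1,2,3,4,6,5],[0,1,2,3,4]]],
Node.mk [0,820,182,1542,2448,351,2216,274,3105,9,1173,1909] [(0,0),(0,1),(0,2),(0,3),(0,4),(2,1)] [Ref.mk 1139 1978 [0,1,3,2] [[0,1,2,3,5,4],[0,5,3,1,2,4],[0,2,3,4,1],[0,5,1,2,3,4]],Ref.mk 1877 1978 [0,1,3,2] [[0,3,2,1,5,4],[1,4,3,0,2,5],[0,1,3,4,2],[0,5,1,2,3,4]],Ref.mk 275 3182 [0,1,2,3] [[0,1,2,3,4,5],[0,1,2,3,4,5],[0,1,2,3,4,5],[0,1,2,3,4]]],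
Node.mk [0,820,182,1542,2448,351,2216,274,3105,9,1173] [(0,3),(1,0),(1,1),(1,2),(1,3),(2,1)] [Ref.mk 36 2306 [0,1,2,3] [[0,1,2,3],[0,1,2,4],[0,1,2,3],[0,1,2,3]],Ref.mk 45 2306 [0,1,2,3] [[0,1,2,3],[0,1,2,5],[0,1,2,3],[0,1,2,3]],Ref.mk 1495 3164 [0,1,2,3] [[0,3,2,1,4],[1,0,2,3,4],[0,1,2,3,4],[0,2,1,3,4]],Ref.mk 1657 3166 [0,1,2,3] [[0,3,2,1,4],[1,0,2,3,4],[0,1,2,3,4],[0,2,1,3,4]],Ref.mk 1738 3166 [3,1,2,0] [[0,1,3,2,4],[0,1,2,3,4],[0,1,3,2,4],[0,1,3,2,4]],Ref.mk 1819 3172 [0,1,2,3] [[0,3,2,1,4],[1,0,2,3,4],[0,1,2,3,4,5],[0,2,1,3,4]],Ref.mk 1900 3178 [0,1,2,3] [[0,1,2,3,4],[0,1,2,3,4],[0,1,2,3,4,5],[0,1,2,3,4]],Ref.mk 1981 3181 [0,1,2,3] [[0,1,2,3,4],[0,1,2,3,4],[0,1,2,3,4,5,6],[0,1,2,3,4]],Ref.mk 1909 3183 [0,1,2,3] [[0,1,2,3,4],[0,1,2,3,4,5],[0,1,2,3,4,5],[0,1,2,3,4]]],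
Node.mk [0,820,182,1542,2448,351,2216,274,3105,9] [(0,1),(1,0),(1,1),(1,2),(1,3),(2,1)] [Ref.mk 36 2302 [0,1,2,3] [[0,3,4,1,2],[1,0,3,4,2],[0,1,3,2],[0,2,1,4,3]],Ref.mk 768 3164 [0,1,2,3] [[0,1,2,3,4],[0,1,2,3,4],[0,1,2,3,4],[0,1,2,3,4]],Ref.mk 930 3166 [0,1,2,3] [[0,1,2,3,4],[0,1,2,3,4],[0,1,2,3,4],[0,1,2,3,4]],Ref.mk 1011 3166 [3,1,2,0] [[0,2,3,1,4],[1,0,2,3,4],[0,1,3,2,4],[0,3,1,2,4]],Ref.mk 1092 3175 [0,1,2,3] [[0,1,2,3,4],[0,1,2,3,4],[0,1,2,3,4],[0,1,2,3,4]],Ref.mk 1173 3184 [0,1,2,3] [[0,1,2,3,4],[0,1,2,3,4],[0,1,2,3,4,5],[0,1,2,3,4]]],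
Node.mk [0,820,182,1542,2448,351,2216,274,3105] [(0,3),(1,0),(1,2),(1,3),(2,1),(3,2)] [Ref.mk 9 3185 [0,1,2,3] [[0,1,2,3,4],[0,1,2,3],[0,1,2,3,4],[0,1,2,3,4]],Ref.mk 36 2302 [0,1,2,3] [[0,1,4,3,2],[0,1,3,4,2],[0,1,3,2],[0,1,2,4,3]]],
Node.mk [0,820,182,1542,2448,351,2216,274] [(0,1),(1,1),(2,1),(3,0),(3,1),(3,3)] [Ref.mk 1647 3079 [1,3,2,0] [[3,1,2,0],[2,1,3,0],[2,1,3,0,4],[0,1,3,2,4]],Ref.mk 3105 3186 [0,1,2,3] [[0,1,2,3,4],[0,1,2,3],[0,1,2,3,4],[0,1,2,3,4]]],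
Node.mk [0,820,182,1542,2448,351,2216] [(0,0),(0,1),(0,2),(1,1),(2,1),(3,1)] [Ref.mk 21 2928 [0,1,2,3] [[0,1,2,3],[0,1,2,3],[0,1,2,3,4],[0,1,2,3]],Ref.mk 273 3080 [0,1,2,3] [[0,1,2,3],[0,1,2,3],[0,1,2,3,4],[0,1,2,3]],Ref.mk 22 3162 [0,1,2,3] [[0,1,2,3,4],[0,1,2,3],[0,1,2,3,4],[0,1,2,3]],Ref.mk 274 3187 [0,1,2,3] [[0,1,2,3,4],[0,1,2,3],[0,1,2,3,4],[0,1,2,3]]],
Node.mk [0,820,182,1542,2448,351] [(0,0),(0,1),(1,1),(2,1),(3,0),(3,1)] [Ref.mk 2513 2405 [0,1,2,3] [[0,1,2,3],[0,1,2,3],[0,1,2,3,4],[0,1,2,3]],Ref.mk 2216 3188 [0,1,2,3] [[0,1,2,3],[0,1,2,3],[0,1,2,3,4],[0,1,2,3]]],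
Node.mk [0,820,182,1542,2448,1486,2225,2529,9,3114,733,1714] [(0,0),(0,4),(1,0),(2,0),(2,2),(3,1)] [],
Node.mk [0,820,182,1542,2448,1486,2225,2529,9,3114,733,1876] [(0,0),(0,4),(1,0),(2,0),(2,2),(3,1)] [],
Node.mk [0,820,182,1542,2448,1486,2225,2529,9,3114,733] [(0,0),(0,1),(0,3),(2,0),(2,1),(2,2)] [Ref.mk 1714 3190 [0,1,2,3] [[0,1,2,3,4],[0,1,2,3,4],[0,1,2,3,4],[0,1,2,3,4]],Ref.mk 1795 3190 [0,1,2,3] [[0,1,2,3,4],[0,1,2,3,4],[0,1,2,4,3],[0,1,2,3,4]],Ref.mk 1876 3191 [0,1,2,3] [[0,1,2,3,4],[0,1,2,3,4],[0,1,2,3,4,5],[0,1,2,3,4]]],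
Node.mk [0,820,182,1542,2448,1486,2225,2529,9,3114,2353] [(0,0),(0,1),(1,1),(2,0),(2,1),(2,2)] [],
Node.mk [0,820,182,1542,2448,1486,2225,2529,9,3114,2938,1002] [(0,1),(1,2),(1,3),(2,0),(2,2),(3,2)] [],
Node.mk [0,820,182,1542,2448,1486,2225,2529,9,3114,2938,1164] [(0,1),(1,2),(1,3),(2,0),(2,2),(3,2)] [],
Node.mk [0,820,182,1542,2448,1486,2225,2529,9,3114,2938] [(0,0),(0,1),(1,1),(2,0),(2,1),(2,2)] [Ref.mk 1002 3194 [0,1,2,3] [[0,1,2,3,4],[0,1,2,3,4],[0,1,2,3,4],[0,1,2,3,4]],Ref.mk 1083 3194 [0,1,2,3] [[0,1,2,3,4],[0,1,2,3,4],[0,1,2,4,3],[0,1,2,3,4]],Ref.mk 1164 3195 [0,1,2,3] [[0,1,2,3,4],[0,1,2,3,4],[0,1,2,3,4,5],[0,1,2,3,4]]],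
Node.mk [0,820,182,1542,2448,1486,2225,2529,9,3114] [(0,0),(0,1),(0,2),(0,3),(1,1),(2,1)] [Ref.mk 733 3192 [0,1,2,3] [[0,1,2,3,4],[0,1,2,3,4],[0,1,2,3,4],[0,1,2,3,4]],Ref.mk 2353 3193 [0,1,2,3] [[0,1,2,3,4],[0,1,2,3,4],[0,1,2,3,4],[0,1,2,3,4]],Ref.mk 2938 3196 [0,1,2,3] [[0,1,2,3,4],[0,1,2,3,4],[0,1,2,3,4],[0,1,2,3,4]]],
Node.mk [0,820,182,1542,2448,1486,2225,2529,9,3079] [(0,0),(0,1),(0,2),(2,0),(2,1),(2,2)] [],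
Node.mk [0,820,182,1542,2448,1486,2225,2529,9,3160,2928,1002] [(0,0),(0,2),(1,0),(1,1),(1,2),(1,3)] []]

/-- nodes -/
noncomputable def c50 : List Node := [
Node.mk [0,820,182,1542,2448,1486,2225,2529,9,3160,2928] [(0,0),(1,0),(1,1),(1,2),(2,0),(2,1)] [Ref.mk 1002 3199 [0,1,2,3] [[0,1,2,3],[0,1,2,3,4],[0,1,2,3,4],[0,1,2,3,4]]],
Node.mk [0,820,182,1542,2448,1486,2225,2529,9,3160,1002] [(0,1),(1,2),(2,0),(2,1),(2,2),(2,3)] [Ref.mk 360 3189 [0,1,2,3] [[0,1,2,3],[0,1,2,4],[0,1,2,3,4],[0,1,2,3]],Ref.mk 441 3189 [0,1,2,3] [[0,1,2,3],[0,1,2,4],[0,1,2,3,5],[0,1,2,3]]],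
Node.mk [0,820,182,1542,2448,1486,2225,2529,9,3160] [(0,0),(1,0),(1,2),(2,1),(3,2),(3,3)] [Ref.mk 2928 3200 [0,1,2,3] [[0,1,2,3],[0,1,2,3,4],[0,1,2,3,4],[0,1,2,3,4]],Ref.mk 1002 3201 [0,1,2,3] [[0,1,2,3],[0,1,2,3,4],[0,1,2,3,4],[0,1,2,3,4]]],
Node.mk [0,820,182,1542,2448,1486,2225,2529,9,3322,2928,1164] [(0,0),(0,2),(1,0),(1,1),(1,2),(1,3)] [],
Node.mk [0,820,182,1542,2448,1486,2225,2529,9,3322,2928] [(0,0),(1,0),(1,1),(1,2),(2,0),(2,1)] [Ref.mk 1164 3203 [0,1,2,3] [[0,1,2,3],[0,1,2,3,4],[0,1,2,3,4,5],[0,1,2,3,4]]],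
Node.mk [0,820,182,1542,2448,1486,2225,2529,9,3322,1164,3028] [(0,0),(0,1),(0,2),(2,0),(2,1),(2,5)] [],
Node.mk [0,820,182,1542,2448,1486,2225,2529,9,3322,1164] [(0,0),(0,1),(0,2),(0,3),(1,1),(2,0)] [Ref.mk 3028 3205 [0,1,2,3] [[0,1,2,3,4],[0,1,2,3,4],[0,1,2,3,4,5],[0,1,2,3,4]]],
Node.mk [0,820,182,1542,2448,1486,2225,2529,9,3322] [(0,0),(1,0),(1,2),(2,1),(3,2),(3,3)] [Ref.mk 2928 3204 [0,1,2,3] [[0,1,2,3],[0,1,2,3,4],[0,1,2,3,4,5],[0,1,2,3,4]],Ref.mk 1164 3206 [0,1,2,3] [[0,1,2,3],[0,1,2,3,4],[0,1,2,3,4,5],[0,1,2,3,4]]],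
Node.mk [0,820,182,1542,2448,1486,2225,2529,9] [(2,0),(2,1),(3,0),(3,1),(3,2),(3,3)] [Ref.mk 3114 3197 [0,1,2,3] [[0,1,2,3],[0,1,2,3,4],[0,1,2,3,4],[0,1,2,3,4]],Ref.mk 3079 3198 [0,1,2,3] [[0,1,2,3],[0,1,2,3,4],[0,1,2,3,4],[0,1,2,3,4]],Ref.mk 3160 3202 [0,1,2,3] [[0,1,2,3],[0,1,2,3,4],[0,1,2,3,4],[0,1,2,3,4]],Ref.mk 3241 3202 [0,1,2,3] [[0,1,2,3],[0,1,2,3,4],[0,1,2,4,3],[0,1,2,3,4]],Ref.mk 3322 3207 [0,1,2,3] [[0,1,2,3],[0,1,2,3,4],[0,1,2,3,4,5],[0,1,2,3,4]]],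
Node.mk [0,820,182,1542,2448,1486,2225,2529,198,733,2928,3646] [(0,0),(0,1),(0,2),(2,0),(2,1),(2,2)] [],
Node.mk [0,820,182,1542,2448,1486,2225,2529,198,733,2928,3657] [(0,0),(0,3),(1,1),(1,2),(2,0),(3,3)] [],
Node.mk [0,820,182,1542,2448,1486,2225,2529,198,733,2928] [(0,0),(3,0),(3,1),(3,2),(3,3),(3,4)] [Ref.mk 3646 3209 [0,1,2,3] [[0,1,2,3,4],[0,1,2,3,4],[0,1,2,3,4],[0,1,2,3,4,5]],Ref.mk 3657 3210 [0,1,2,3] [[0,1,2,3,4],[0,1,2,3,4],[0,1,2,3,4],[0,1,2,3,4,5]]],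
Node.mk [0,820,182,1542,2448,1486,2225,2529,198,733,3028,2394] [(0,0),(0,2),(1,0),(1,1),(1,3),(2,1)] [],
Node.mk [0,820,182,1542,2448,1486,2225,2529,198,733,3028] [(1,0),(1,1),(1,2),(1,3),(1,4),(2,1)] [Ref.mk 45 2306 [0,1,2,3] [[0,1,2,3],[0,1,2,5],[0,1,2,3],[0,1,2,3]],Ref.mk 2394 3212 [0,1,2,3] [[0,1,2,3,4],[0,1,2,3,4,5],[0,1,2,3,4],[0,1,2,3,4]]],
Node.mk [0,820,182,1542,2448,1486,2225,2529,198,733] [(0,0),(0,1),(3,0),(3,1),(3,2),(3,3)] [Ref.mk 2928 3211 [0,1,2,3] [[0,1,2,3,4],[0,1,2,3,4],[0,1,2,3,4],[0,1,2,3,4]],Ref.mk 3028 3213 [0,1,2,3] [[0,1,2,3,4],[0,1,2,3,4],[0,1,2,3,4],[0,1,2,3,4]]],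
Node.mk [0,820,182,1542,2448,1486,2225,2529,198,2353,2306] [(0,0),(0,1),(0,2),(2,0),(2,1),(2,2)] [],
Node.mk [0,820,182,1542,2448,1486,2225,2529,198,2353,103] [(0,0),(0,1),(1,1),(2,0),(2,1),(2,2)] [],
Node.mk [0,820,182,1542,2448,1486,2225,2529,198,2353] [(0,0),(0,1),(1,3),(2,0),(2,2),(3,2)] [Ref.mk 2306 3215 [0,1,2,3] [[0,1,2,3,4],[0,1,2,3,4],[0,1,2,3,4],[0,1,2,3]],Ref.mk 103 3216 [0,1,2,3] [[0,1,2,3,4],[0,1,2,3,4],[0,1,2,3,4],[0,1,2,3]]],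
Node.mk [0,820,182,1542,2448,1486,2225,2529,198,22,1476,2362] [(0,0),(0,1),(1,1),(2,0),(2,1),(2,2)] [],
Node.mk [0,820,182,1542,2448,1486,2225,2529,198,22,1476] [(0,3),(1,0),(1,2),(1,4),(2,1),(3,2)] [Ref.mk 9 3208 [0,1,2,3] [[0,1,2,3],[0,1,2,3,4],[0,1,2,3,4],[0,1,2,3]],Ref.mk 27 2306 [0,1,2,3] [[0,1,2,3],[0,1,2,3],[0,1,2,3],[0,1,2,3]],Ref.mk 45 2306 [0,1,2,3] [[0,1,2,3],[0,1,2,5],[0,1,2,3],[0,1,2,3]],Ref.mk 2362 3218 [0,1,2,3] [[0,1,2,3,4],[0,1,2,3,4],[0,1,2,3,4],[0,1,2,3]]],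
Node.mk [0,820,182,1542,2448,1486,2225,2529,198,22,2934] [(0,3),(1,0),(1,2),(1,4),(2,1),(3,2)] [Ref.mk 9 3208 [0,1,2,3] [[0,1,2,3],[0,1,2,3,4],[0,1,2,3,4],[0,1,2,3]],Ref.mk 27 2306 [0,1,2,3] [[0,1,2,3],[0,1,2,3],[0,1,2,3],[0,1,2,3]],Ref.mk 45 2306 [0,1,2,3] [[0,1,2,3],[0,1,2,5],[0,1,2,3],[0,1,2,3]]],
Node.mk [0,820,182,1542,2448,1486,2225,2529,198,22] [(0,1),(1,1),(2,1),(3,0),(3,1),(3,3)] [Ref.mk 1476 3219 [0,1,2,3] [[0,1,2,3,4],[0,1,2,3,4],[0,1,2,3,4],[0,1,2,3]],Ref.mk 2934 3220 [0,1,2,3] [[0,1,2,3,4],[0,1,2,3,4],[0,1,2,3,4],[0,1,2,3,4]]],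
Node.mk [0,820,182,1542,2448,1486,2225,2529,198] [(0,0),(0,1),(0,2),(0,3),(1,1),(2,1)] [Ref.mk 733 3214 [0,1,2,3] [[0,1,2,3,4],[0,1,2,3,4],[0,1,2,3,4],[0,1,2,3]],Ref.mk 2353 3217 [0,1,2,3] [[0,1,2,3,4],[0,1,2,3,4],[0,1,2,3,4],[0,1,2,3]],Ref.mk 22 3221 [0,1,2,3] [[0,1,2,3,4],[0,1,2,3,4],[0,1,2,3,4],[0,1,2,3]]],
Node.mk [0,820,182,1542,2448,1486,2225,2529,927,733,1714] [(0,0),(2,0),(2,1),(2,2),(2,3),(3,2)] [],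
Node.mk [0,820,182,1542,2448,1486,2225,2529,927,733,1876] [(0,0),(2,0),(2,1),(2,2),(2,5),(3,2)] [],
Node.mk [0,820,182,1542,2448,1486,2225,2529,927,733] [(0,0),(0,1),(2,0),(2,1),(2,2),(3,1)] [Ref.mk 1714 3223 [0,1,2,3] [[0,1,2,3,4],[0,1,2,3,4],[0,1,2,3,4],[0,1,2,3]],Ref.mk 1795 3223 [0,1,2,3] [[0,1,2,3,4],[0,1,2,3,4],[0,1,2,4,3],[0,1,2,3]],Ref.mk 1876 3224 [0,1,2,3] [[0,1,2,3,4],[0,1,2,3,4],[0,1,2,3,4,5],[0,1,2,3]]],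
Node.mk [0,820,182,1542,2448,1486,2225,2529,927,2353,2306] [(0,0),(0,1),(0,2),(2,0),(2,1),(2,2)] [],
Node.mk [0,820,182,1542,2448,1486,2225,2529,927,2353,832] [(0,2),(2,0),(2,1),(3,1),(3,2),(3,3)] [],
Node.mk [0,820,182,1542,2448,1486,2225,2529,927,2353] [(0,0),(0,1),(1,3),(2,0),(2,2),(3,2)] [Ref.mk 2306 3226 [0,1,2,3] [[0,1,2,3,4],[0,1,2,3,4],[0,1,2,3,4],[0,1,2,3]],Ref.mk 832 3227 [0,1,2,3] [[0,1,2,3,4],[0,1,2,3,4],[0,1,2,3,4],[0,1,2,3]]],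
Node.mk [0,820,182,1542,2448,1486,2225,2529,927,751,9,2361] [(1,1),(2,0),(2,1),(2,2),(3,1),(3,3)] [],
Node.mk [0,820,182,1542,2448,1486,2225,2529,927,751,9,2362] [(0,0),(0,1),(1,1),(2,0),(2,1),(2,2)] [],
Node.mk [0,820,182,1542,2448,1486,2225,2529,927,751,9] [(1,0),(1,2),(2,0),(2,1),(3,1),(3,2)] [Ref.mk 2361 3229 [0,1,2,3] [[0,1,2,3,4],[0,1,2,3,4],[0,1,2,3,4],[0,1,2,3]],Ref.mk 2362 3230 [0,1,2,3] [[0,1,2,3,4],[0,1,2,3,4],[0,1,2,3,4],[0,1,2,3]]],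
Node.mk [0,820,182,1542,2448,1486,2225,2529,927,751,2362] [(0,0),(0,1),(1,1),(2,0),(2,1),(2,2)] [],
Node.mk [0,820,182,1542,2448,1486,2225,2529,927,751] [(0,3),(1,0),(1,2),(1,4),(2,1),(3,2)] [Ref.mk 9 3231 [0,1,2,3] [[0,1,2,3,4],[0,1,2,3,4],[0,1,2,3,4],[0,1,2,3]],Ref.mk 27 2306 [0,1,2,3] [[0,1,2,3],[0,1,2,3],[0,1,2,3],[0,1,2,3]],Ref.mk 45 2306 [0,1,2,3] [[0,1,2,3],[0,1,2,5],[0,1,2,3],[0,1,2,3]],Ref.mk 2362 3232 [0,1,2,3] [[0,1,2,3,4],[0,1,2,3,4],[0,1,2,3,4],[0,1,2,3]]],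
Node.mk [0,820,182,1542,2448,1486,2225,2529,927,1480] [(0,0),(2,0),(2,1),(2,2),(3,1),(3,2)] [],
Node.mk [0,820,182,1542,2448,1486,2225,2529,927] [(0,0),(0,1),(0,2),(0,3),(1,1),(2,1)] [Ref.mk 733 3225 [0,1,2,3] [[0,1,2,3,4],[0,1,2,3,4],[0,1,2,3,4],[0,1,2,3]],Ref.mk 2353 3228 [0,1,2,3] [[0,1,2,3,4],[0,1,2,3,4],[0,1,2,3,4],[0,1,2,3]],Ref.mk 751 3233 [0,1,2,3] [[0,1,2,3,4],[0,1,2,3,4],[0,1,2,3,4],[0,1,2,3]],Ref.mk 1480 3234 [0,1,2,3] [[0,1,2,3,4],[0,1,2,3,4],[0,1,2,3,4],[0,1,2,3]]],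
Node.mk [0,820,182,1542,2448,1486,2225,2529,3114,733,1714] [(0,0),(0,4),(1,0),(2,0),(2,2),(3,1)] [],
Node.mk [0,820,182,1542,2448,1486,2225,2529,3114,733,1876] [(0,0),(0,4),(1,0),(2,0),(2,2),(3,1)] [],
Node.mk [0,820,182,1542,2448,1486,2225,2529,3114,733] [(0,0),(0,1),(0,3),(2,0),(2,1),(2,2)] [Ref.mk 1714 3236 [0,1,2,3] [[0,1,2,3,4],[0,1,2,3,4],[0,1,2,3,4],[0,1,2,3,4]],Ref.mk 1795 3236 [0,1,2,3] [[0,1,2,3,4],[0,1,2,3,4],[0,1,2,4,3],[0,1,2,3,4]],Ref.mk 1876 3237 [0,1,2,3] [[0,1,2,3,4],[0,1,2,3,4],[0,1,2,3,4,5],[0,1,2,3,4]]],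
Node.mk [0,820,182,1542,2448,1486,2225,2529,3114,2353,2306] [(0,0),(0,1),(0,2),(2,0),(2,1),(2,2)] [],
Node.mk [0,820,182,1542,2448,1486,2225,2529,3114,2353,3019] [(0,0),(0,1),(0,4),(1,2),(2,0),(2,1)] [],
Node.mk [0,820,182,1542,2448,1486,2225,2529,3114,2353] [(0,0),(0,1),(1,3),(2,0),(2,2),(3,2)] [Ref.mk 2306 3239 [0,1,2,3] [[0,1,2,3,4],[0,1,2,3,4],[0,1,2,3,4],[0,1,2,3,4]],Ref.mk 3019 3240 [0,1,2,3] [[0,1,2,3,4],[0,1,2,3,4],[0,1,2,3,4],[0,1,2,3,4]]],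
Node.mk [0,820,182,1542,2448,1486,2225,2529,3114,2938,2362] [(0,0),(0,1),(1,1),(2,0),(2,1),(2,2)] [],
Node.mk [0,820,182,1542,2448,1486,2225,2529,3114,2938] [(0,3),(1,0),(1,2),(1,4),(2,1),(3,2)] [Ref.mk 9 3196 [0,1,2,3] [[0,1,2,3,4],[0,1,2,3,4],[0,1,2,3,4],[0,1,2,3,4]],Ref.mk 27 2303 [3,1,2,0] [[0,1,3,2,4],[0,1,2,3,4],[0,1,4,2],[0,1,3,2,4]],Ref.mk 45 2303 [3,1,2,0] [[0,1,3,2,4],[0,1,2,5,4],[0,1,4,2],[0,1,3,2,4]],Ref.mk 2362 3242 [0,1,2,3] [[0,1,2,3,4],[0,1,2,3,4],[0,1,2,3,4],[0,1,2,3,4]]],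
Node.mk [0,820,182,1542,2448,1486,2225,2529,3114] [(0,0),(0,1),(0,2),(0,3),(1,1),(2,1)] [Ref.mk 733 3238 [0,1,2,3] [[0,1,2,3,4],[0,1,2,3,4],[0,1,2,3,4],[0,1,2,3,4]],Ref.mk 2353 3241 [0,1,2,3] [[0,1,2,3,4],[0,1,2,3,4],[0,1,2,3,4],[0,1,2,3,4]],Ref.mk 2938 3243 [0,1,2,3] [[0,1,2,3,4],[0,1,2,3,4],[0,1,2,3,4],[0,1,2,3,4]]],
Node.mk [0,820,182,1542,2448,1486,2225,2529,279,733,2928,104] [(0,0),(0,1),(0,2),(0,3),(2,0),(2,1)] [],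
Node.mk [0,820,182,1542,2448,1486,2225,2529,279,733,2928] [(0,0),(0,1),(0,2),(0,3),(0,4),(2,0)] [Ref.mk 104 3245 [0,1,2,3] [[0,1,2,3,4,5],[0,1,2,3,4],[0,1,2,3,4],[0,1,2,3,4]]],
Node.mk [0,820,182,1542,2448,1486,2225,2529,279,733,3028,23] [(1,0),(1,1),(1,2),(1,3),(1,4),(2,1)] [Ref.mk 45 2306 [0,1,2,3] [[0,1,2,3],[0,1,2,5],[0,1,2,3],[0,1,2,3]]],
Node.mk [0,820,182,1542,2448,1486,2225,2529,279,733,3028] [(0,0),(0,1),(0,2),(0,3),(0,4),(2,1)] [Ref.mk 23 3247 [0,1,2,3] [[0,1,2,3,4,5],[0,1,2,3,4],[0,1,2,3,4],[0,1,2,3,4]]],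
Node.mk [0,820,182,1542,2448,1486,2225,2529,279,733] [(0,0),(0,1),(3,0),(3,1),(3,2),(3,3)] [Ref.mk 2928 3246 [0,1,2,3] [[0,1,2,3,4],[0,1,2,3,4],[0,1,2,3,4],[0,1,2,3,4]],Ref.mk 3028 3248 [0,1,2,3] [[0,1,2,3,4],[0,1,2,3,4],[0,1,2,3,4],[0,1,2,3,4]]],
Node.mk [0,820,182,1542,2448,1486,2225,2529,279,22,2306] [(0,0),(0,1),(0,2),(0,3),(2,0),(2,1)] [],
Node.mk [0,820,182,1542,2448,1486,2225,2529,279,22] [(0,0),(0,1),(1,2),(1,3),(2,0),(3,2)] [Ref.mk 2306 3250 [0,1,2,3] [[0,1,2,3,4],[0,1,2,3,4],[0,1,2,3,4],[0,1,2,3]]],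
Node.mk [0,820,182,1542,2448,1486,2225,2529,279] [(0,0),(0,1),(0,2),(0,3),(1,1),(2,1)] [Ref.mk 733 3249 [0,1,2,3] [[0,1,2,3,4],[0,1,2,3,4],[0,1,2,3,4],[0,1,2,3]],Ref.mk 22 3251 [0,1,2,3] [[0,1,2,3,4],[0,1,2,3,4],[0,1,2,3,4],[0,1,2,3]]],
Node.mk [0,820,182,1542,2448,1486,2225,2529] [(0,3),(1,0),(1,2),(2,1),(3,2),(3,3)] [Ref.mk 9 3208 [0,1,2,3] [[0,1,2,3],[0,1,2,3,4],[0,1,2,3,4],[0,1,2,3]],Ref.mk 27 2306 [0,1,2,3] [[0,1,2,3],[0,1,2,3],[0,1,2,3],[0,1,2,3]],Ref.mk 36 2306 [0,1,2,3] [[0,1,2,3],[0,1,2,4],[0,1,2,3],[0,1,2,3]],Ref.mk 198 3222 [0,1,2,3] [[0,1,2,3],[0,1,2,3,4],[0,1,2,3,4],[0,1,2,3]],Ref.mk 927 3235 [0,1,2,3] [[0,1,2,3],[0,1,2,3,4],[0,1,2,3,4],[0,1,2,3]],Ref.mk 3114 3244 [0,1,2,3] [[0,1,2,3],[0,1,2,3,4],[0,1,2,3,4],[0,1,2,3,4]],Ref.mk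 279 3252 [0,1,2,3] [[0,1,2,3],[0,1,2,3,4],[0,1,2,3,4],[0,1,2,3]],Ref.mk 360 3252 [0,1,2,3] [[0,1,2,3],[0,1,2,3,4],[0,1,2,4,3],[0,1,2,3]],Ref.mk 441 3188 [0,1,2,3] [[0,1,2,3],[0,1,2,4],[0,1,2,4,5],[0,1,2,3]],Ref.mk 45 2306 [0,1,2,3] [[0,1,2,3],[0,1,2,5],[0,1,2,3],[0,1,2,3]]],
Node.mk [0,820,182,1542,2448,1486,2225,344,198,1476,733,2928,104] [(0,0),(0,1),(0,2),(0,3),(2,0),(2,1)] [],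
Node.mk [0,820,182,1542,2448,1486,2225,344,198,1476,733,2928] [(0,0),(0,1),(0,2),(0,3),(0,4),(2,0)] [Ref.mk 104 3254 [0,1,2,3] [[0,1,2,3,4,5],[0,1,2,3,4],[0,1,2,3,4],[0,1,2,3,4]]],
Node.mk [0,820,182,1542,2448,1486,2225,344,198,1476,733,3028] [(1,0),(1,1),(1,2),(1,3),(1,4),(2,1)] [Ref.mk 45 2306 [0,1,2,3] [[0,1,2,3],[0,1,2,5],[0,1,2,3],[0,1,2,3]]],
Node.mk [0,820,182,1542,2448,1486,2225,344,198,1476,733] [(0,0),(0,1),(3,0),(3,1),(3,2),(3,3)] [Ref.mk 2928 3255 [0,1,2,3] [[0,1,2,3,4],[0,1,2,3,4],[0,1,2,3,4],[0,1,2,3,4]],Ref.mk 3028 3256 [0,1,2,3] [[0,1,2,3,4],[0,1,2,3,4],[0,1,2,3,4],[0,1,2,3,4]]],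
Node.mk [0,820,182,1542,2448,1486,2225,344,198,1476,22,2306] [(0,0),(0,1),(0,2),(0,3),(2,0),(2,1)] [],
Node.mk [0,820,182,1542,2448,1486,2225,344,198,1476,22] [(0,1),(1,2),(1,3),(2,0),(3,0),(3,2)] [Ref.mk 2306 3258 [0,1,2,3] [[0,1,2,3,4],[0,1,2,3,4],[0,1,2,3,4],[0,1,2,3]]],
Node.mk [0,820,182,1542,2448,1486,2225,344,198,1476] [(0,0),(0,1),(0,2),(0,3),(1,1),(2,1)] [Ref.mk 733 3257 [0,1,2,3] [[0,1,2,3,4],[0,1,2,3,4],[0,1,2,3,4],[0,1,2,3]],Ref.mk 22 3259 [0,1,2,3] [[0,1,2,3,4],[0,1,2,3,4],[0,1,2,3,4],[0,1,2,3]]],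
Node.mk [0,820,182,1542,2448,1486,2225,344,198,2934] [(0,3),(1,0),(1,2),(1,4),(2,1),(3,2)] [Ref.mk 9 3251 [3,1,2,0] [[0,2,3,1,4],[1,0,2,3,4],[0,1,3,2,4],[0,3,1,2]],Ref.mk 27 2306 [0,1,2,3] [[0,1,2,3],[0,1,2,3],[0,1,2,3],[0,1,2,3]],Ref.mk 45 2306 [0,1,2,3] [[0,1,2,3],[0,1,2,5],[0,1,2,3],[0,1,2,3]]],
Node.mk [0,820,182,1542,2448,1486,2225,344,198] [(0,1),(1,1),(2,1),(3,0),(3,1),(3,3)] [Ref.mk 1476 3260 [0,1,2,3] [[0,1,2,3],[0,1,2,3,4],[0,1,2,3,4],[0,1,2,3]],Ref.mk 2934 3261 [0,1,2,3] [[0,1,2,3],[0,1,2,3,4],[0,1,2,3,4],[0,1,2,3,4]]],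
Node.mk [0,820,182,1542,2448,1486,2225,344,279,733,3170] [(0,1),(0,2),(0,4),(2,0),(2,1),(2,3)] []]

/-- nodes -/
noncomputable def c51 : List Node := [
Node.mk [0,820,182,1542,2448,1486,2225,344,279,733,2928,2306] [(0,0),(0,1),(0,2),(1,4),(2,0),(2,1)] [],
Node.mk [0,820,182,1542,2448,1486,2225,344,279,733,2928] [(1,0),(1,1),(1,2),(2,0),(3,0),(3,1)] [Ref.mk 2306 3264 [0,1,2,3] [[0,1,2,3,4],[0,1,2,3,4],[0,1,2,3,4],[0,1,2,3,4]],Ref.mk 3028 3211 [3,1,2,0] [[0,4,3,2,1],[0,3,2,1,4],[0,1,3,2,4],[0,4,3,2,1]]],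
Node.mk [0,820,182,1542,2448,1486,2225,344,279,733,3028,2306] [(0,0),(0,1),(0,2),(1,4),(2,0),(2,1)] [],
Node.mk [0,820,182,1542,2448,1486,2225,344,279,733,3028] [(0,0),(0,4),(1,0),(2,0),(3,0),(3,1)] [Ref.mk 3170 3263 [0,1,2,3] [[0,1,2,3,4],[0,1,2,3,4],[0,1,2,3,4],[0,1,2,3,4]],Ref.mk 2306 3266 [0,1,2,3] [[0,1,2,3,4],[0,1,2,3,4],[0,1,2,3,4],[0,1,2,3,4]]],
Node.mk [0,820,182,1542,2448,1486,2225,344,279,733] [(0,0),(1,0),(3,0),(3,1),(3,2),(3,3)] [Ref.mk 3170 3263 [0,1,2,3] [[0,1,2,3,4],[0,1,2,3,4],[0,1,2,3,4],[0,1,2,3,4]],Ref.mk 2928 3265 [0,1,2,3] [[0,1,2,3,4],[0,1,2,3,4],[0,1,2,3,4],[0,1,2,3,4]],Ref.mk 3028 3267 [0,1,2,3] [[0,1,2,3,4],[0,1,2,3,4],[0,1,2,3,4],[0,1,2,3,4]]],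
Node.mk [0,820,182,1542,2448,1486,2225,344,279,22,1476,254] [(0,0),(0,1),(0,2),(0,3),(3,0),(3,2)] [Ref.mk 733 3268 [0,1,2,3] [[0,1,2,3,4],[0,1,2,3,4],[0,1,2,3,4],[0,1,2,3]],Ref.mk 734 3268 [0,1,2,3] [[0,1,2,3,5],[0,1,2,3,4],[0,1,2,3,4],[0,1,2,3]]],
Node.mk [0,820,182,1542,2448,1486,2225,344,279,22,1476] [(0,3),(1,0),(1,2),(1,4),(2,1),(3,2)] [Ref.mk 9 3208 [3,1,2,0] [[0,2,3,1],[1,0,2,3,4],[0,1,3,2,4],[0,3,1,2]],Ref.mk 27 2306 [0,1,2,3] [[0,1,2,3],[0,1,2,3],[0,1,2,3],[0,1,2,3]],Ref.mk 45 2306 [0,1,2,3] [[0,1,2,3],[0,1,2,5],[0,1,2,3],[0,1,2,3]],Ref.mk 254 3269 [0,1,2,3] [[0,1,2,3,4],[0,1,2,3,4],[0,1,2,3,4],[0,1,2,3]]],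
Node.mk [0,820,182,1542,2448,1486,2225,344,279,22,2934] [(0,3),(1,0),(1,2),(1,4),(2,1),(3,2)] [Ref.mk 9 3220 [3,1,2,0] [[0,2,3,1,4],[1,0,2,3,4],[0,1,3,2,4],[0,3,1,2,4]],Ref.mk 27 2306 [0,1,2,3] [[0,1,2,3],[0,1,2,3],[0,1,2,3],[0,1,2,3]],Ref.mk 45 2306 [0,1,2,3] [[0,1,2,3],[0,1,2,5],[0,1,2,3],[0,1,2,3]]],
Node.mk [0,820,182,1542,2448,1486,2225,344,279,22] [(0,1),(1,1),(2,1),(3,0),(3,1),(3,3)] [Ref.mk 1476 3270 [0,1,2,3] [[0,1,2,3,4],[0,1,2,3,4],[0,1,2,3,4],[0,1,2,3]],Ref.mk 2934 3271 [0,1,2,3] [[0,1,2,3,4],[0,1,2,3,4],[0,1,2,3,4],[0,1,2,3,4]]],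
Node.mk [0,820,182,1542,2448,1486,2225,344,279,283,2306] [(0,0),(0,1),(0,2),(1,4),(2,0),(2,1)] [],
Node.mk [0,820,182,1542,2448,1486,2225,344,279,283] [(0,1),(1,3),(2,0),(2,3),(3,0),(3,2)] [Ref.mk 2306 3273 [0,1,2,3] [[0,1,2,3,4],[0,1,2,3,4],[0,1,2,3,4],[0,1,2,3]]],
Node.mk [0,820,182,1542,2448,1486,2225,344,279] [(0,0),(0,1),(0,2),(0,3),(1,1),(2,1)] [Ref.mk 733 3268 [0,1,2,3] [[0,1,2,3,4],[0,1,2,3,4],[0,1,2,3,4],[0,1,2,3]],Ref.mk 22 3272 [0,1,2,3] [[0,1,2,3,4],[0,1,2,3,4],[0,1,2,3,4],[0,1,2,3]],Ref.mk 283 3274 [0,1,2,3] [[0,1,2,3,4],[0,1,2,3,4],[0,1,2,3,4],[0,1,2,3]]],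
Node.mk [0,820,182,1542,2448,1486,2225,344,280,733,3170] [(0,1),(0,2),(0,4),(2,0),(2,1),(2,3)] [],
Node.mk [0,820,182,1542,2448,1486,2225,344,280,733,2928,2306] [(0,0),(0,1),(0,2),(1,4),(2,0),(2,1)] [],
Node.mk [0,820,182,1542,2448,1486,2225,344,280,733,2928] [(0,1),(0,3),(0,4),(2,0),(2,3),(3,0)] [Ref.mk 2306 3277 [0,1,2,3] [[0,1,2,3,4],[0,1,2,3,4],[0,1,2,3,4],[0,1,2,3,4]]],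
Node.mk [0,820,182,1542,2448,1486,2225,344,280,733,3028,2937] [(0,0),(0,1),(0,2),(0,3),(0,4),(1,2)] [],
Node.mk [0,820,182,1542,2448,1486,2225,344,280,733,3028] [(0,1),(0,4),(1,0),(3,0),(3,1),(3,3)] [Ref.mk 3170 3276 [0,1,2,3] [[0,1,2,3,4],[0,1,2,3,4],[0,1,2,3,4],[0,1,2,3,4]],Ref.mk 2928 3278 [0,1,2,3] [[0,1,2,3,4],[0,1,2,3,4],[0,1,2,3,4],[0,1,2,3,4]],Ref.mk 2937 3279 [0,1,2,3] [[0,1,2,3,4],[0,1,2,3,4],[0,1,2,3,4],[0,1,2,3,4]]],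
Node.mk [0,820,182,1542,2448,1486,2225,344,280,733] [(1,0),(1,2),(3,0),(3,1),(3,2),(3,3)] [Ref.mk 3170 3276 [0,1,2,3] [[0,1,2,3,4],[0,1,2,3,4],[0,1,2,3,4],[0,1,2,3,4]],Ref.mk 2928 3278 [0,1,2,3] [[0,1,2,3,4],[0,1,2,3,4],[0,1,2,3,4],[0,1,2,3,4]],Ref.mk 3028 3280 [0,1,2,3] [[0,1,2,3,4],[0,1,2,3,4],[0,1,2,3,4],[0,1,2,3,4]]],
Node.mk [0,820,182,1542,2448,1486,2225,344,280,22,2928,974] [(2,0),(3,0),(3,1),(3,2),(3,3),(3,4)] [],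
Node.mk [0,820,182,1542,2448,1486,2225,344,280,22,2928,2306] [(0,0),(0,1),(0,2),(1,4),(2,0),(2,1)] [],
Node.mk [0,820,182,1542,2448,1486,2225,344,280,22,2928] [(0,3),(1,1),(1,2),(2,0),(3,0),(3,4)] [Ref.mk 974 3282 [0,1,2,3] [[0,1,2,3,4],[0,1,2,3,4],[0,1,2,3,4],[0,1,2,3,4]],Ref.mk 2306 3283 [0,1,2,3] [[0,1,2,3,4],[0,1,2,3,4],[0,1,2,3,4],[0,1,2,3,4]]],
Node.mk [0,820,182,1542,2448,1486,2225,344,280,22,2937] [(0,1),(0,2),(0,3),(2,0),(2,1),(2,3)] [],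
Node.mk [0,820,182,1542,2448,1486,2225,344,280,22] [(0,1),(2,1),(3,0),(3,1),(3,2),(3,3)] [Ref.mk 2928 3284 [0,1,2,3] [[0,1,2,3,4],[0,1,2,3,4],[0,1,2,3,4],[0,1,2,3,4]],Ref.mk 2937 3285 [0,1,2,3] [[0,1,2,3,4],[0,1,2,3,4],[0,1,2,3,4],[0,1,2,3,4]]],
Node.mk [0,820,182,1542,2448,1486,2225,344,280,283,3170] [(0,1),(0,2),(1,1),(2,0),(2,1),(2,3)] [],
Node.mk [0,820,182,1542,2448,1486,2225,344,280,283,2928,2306] [(0,0),(0,1),(0,2),(1,4),(2,0),(2,1)] [],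
Node.mk [0,820,182,1542,2448,1486,2225,344,280,283,2928] [(0,3),(1,1),(2,0),(2,3),(3,0),(3,4)] [Ref.mk 2306 3288 [0,1,2,3] [[0,1,2,3,4],[0,1,2,3,4],[0,1,2,3,4],[0,1,2,3,4]]],
Node.mk [0,820,182,1542,2448,1486,2225,344,280,283] [(1,0),(2,1),(3,0),(3,1),(3,2),(3,3)] [Ref.mk 3170 3287 [0,1,2,3] [[0,1,2,3,4],[0,1,2,3,4],[0,1,2,3,4],[0,1,2,3,4]],Ref.mk 2928 3289 [0,1,2,3] [[0,1,2,3,4],[0,1,2,3,4],[0,1,2,3,4],[0,1,2,3,4]]],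
Node.mk [0,820,182,1542,2448,1486,2225,344,280] [(0,0),(0,1),(0,2),(0,3),(2,1),(3,2)] [Ref.mk 733 3281 [0,1,2,3] [[0,1,2,3,4],[0,1,2,3,4],[0,1,2,3,4],[0,1,2,3]],Ref.mk 22 3286 [0,1,2,3] [[0,1,2,3,4],[0,1,2,3,4],[0,1,2,3,4],[0,1,2,3]],Ref.mk 283 3290 [0,1,2,3] [[0,1,2,3,4],[0,1,2,3,4],[0,1,2,3,4],[0,1,2,3]]],
Node.mk [0,820,182,1542,2448,1486,2225,344,283,921,832] [(0,2),(2,0),(2,1),(2,2),(2,3),(3,1)] [],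
Node.mk [0,820,182,1542,2448,1486,2225,344,283,921] [(0,1),(1,3),(2,0),(2,3),(3,0),(3,2)] [Ref.mk 832 3292 [0,1,2,3] [[0,1,2,3,4],[0,1,2,3,4],[0,1,2,3,4],[0,1,2,3]]],
Node.mk [0,820,182,1542,2448,1486,2225,344,283,1164,832] [(0,2),(2,0),(2,1),(2,3),(2,5),(3,1)] [],
Node.mk [0,820,182,1542,2448,1486,2225,344,283,1164] [(0,1),(1,3),(2,0),(2,3),(3,0),(3,2)] [Ref.mk 832 3294 [0,1,2,3] [[0,1,2,3,4],[0,1,2,3,4],[0,1,2,3,4,5],[0,1,2,3]]],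
Node.mk [0,820,182,1542,2448,1486,2225,344,283] [(0,1),(0,2),(1,1),(2,0),(2,1),(2,3)] [Ref.mk 198 3262 [0,1,2,3] [[0,1,2,3],[0,1,2,3,4],[0,1,2,3,4],[0,1,2,3]],Ref.mk 360 3262 [0,1,2,3] [[0,1,2,3],[0,1,2,3,4],[0,1,4,3,2],[0,1,2,3]],Ref.mk 441 3187 [0,1,2,3] [[0,1,2,3,4],[0,1,2,4],[0,1,4,3,5],[0,1,2,3]],Ref.mk 921 3293 [0,1,2,3] [[0,1,2,3,4],[0,1,2,3,4],[0,1,2,3,4],[0,1,2,3]],Ref.mk 1083 3293 [0,1,2,3] [[0,1,2,3,4],[0,1,2,3,4],[0,1,4,3,2],[0,1,2,3]],Ref.mk 1164 3295 [0,1,2,3] [[0,1,2,3,4],[0,1,2,3,4],[0,1,2,3,4,5],[0,1,2,3]]],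
Node.mk [0,820,182,1542,2448,1486,2225,344] [(0,2),(0,3),(1,0),(1,2),(2,1),(3,2)] [Ref.mk 9 3208 [3,1,2,0] [[0,2,3,1],[1,0,2,3,4],[0,1,3,2,4],[0,3,1,2]],Ref.mk 27 2306 [0,1,2,3] [[0,1,2,3],[0,1,2,3],[0,1,2,3],[0,1,2,3]],Ref.mk 36 2306 [0,1,2,3] [[0,1,2,3],[0,1,2,4],[0,1,2,3],[0,1,2,3]],Ref.mk 198 3262 [0,1,2,3] [[0,1,2,3],[0,1,2,3,4],[0,1,2,3,4],[0,1,2,3]],Ref.mk 279 3275 [0,1,2,3] [[0,1,2,3],[0,1,2,3,4],[0,1,2,3,4],[0,1,2,3]],Ref.mk 360 3262 [0,1,2,3] [[0,1,2,3],[0,1,2,3,4],[0,1,4,3,2],[0,1,2,3]],Ref.mk 441 3188 [0,1,2,3] [[0,1,2,3],[0,1,2,4],[0,1,4,3,5],[0,1,2,3]],Ref.mk 45 2306 [0,1,2,3] [[0,1,2,3],[0,1,2,5],[0,1,2,3],[0,1,2,3]],Ref.mk 280 3291 [0,1,2,3] [[0,1,2,3],[0,1,2,3,4],[0,1,2,3,4],[0,1,2,3]],Ref.mk 283 3296 [0,1,2,3] [[0,1,2,3,4],[0,1,2,3,4],[0,1,2,3,4],[0,1,2,3]]],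
Node.mk [0,820,182,1542,2448,1486,2225,1073,1795] [(0,0),(0,1),(0,2),(2,0),(2,1),(2,4)] [],
Node.mk [0,820,182,1542,2448,1486,2225,1073] [(0,0),(0,1),(0,2),(0,3),(2,0),(2,1)] [Ref.mk 1795 3298 [0,1,2,3] [[0,1,2,3,4],[0,1,2,3,4],[0,1,2,3,4],[0,1,2,3]]],
Node.mk [0,820,182,1542,2448,1486,2225,1074,1795,2928] [(2,0),(2,1),(2,2),(2,3),(2,4),(3,2)] [Ref.mk 2610 3253 [0,1,2,3] [[0,1,2,3],[0,1,2,3,4],[0,1,2,3,5],[0,1,2,3]],Ref.mk 425 3297 [0,1,2,3] [[0,1,2,3],[0,1,2,3,4],[0,1,2,3,5],[0,1,2,3]]],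
Node.mk [0,820,182,1542,2448,1486,2225,1074,1795] [(0,1),(1,2),(3,0),(3,1),(3,2),(3,3)] [Ref.mk 2928 3300 [0,1,2,3] [[0,1,2,3,4],[0,1,2,3,4],[0,1,2,3,4],[0,1,2,3,4]]],
Node.mk [0,820,182,1542,2448,1486,2225,1074] [(0,0),(0,1),(0,2),(0,3),(2,0),(2,1)] [Ref.mk 1795 3301 [0,1,2,3] [[0,1,2,3,4],[0,1,2,3,4],[0,1,2,3,4],[0,1,2,3]]],
Node.mk [0,820,182,1542,2448,1486,2225,1083,2353,3114,2286] [(0,0),(0,1),(1,3),(2,0),(2,2),(3,2)] [],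
Node.mk [0,820,182,1542,2448,1486,2225,1083,2353,3114] [(0,1),(1,3),(2,0),(2,2),(2,3),(3,2)] [Ref.mk 2286 3303 [0,1,2,3] [[0,1,2,3,4],[0,1,2,3,4],[0,1,2,3,4],[0,1,2,3,4]],Ref.mk 2529 3241 [0,1,2,3] [[0,1,2,3,4],[0,1,2,3,4],[0,1,2,3,4],[0,1,2,3,4]],Ref.mk 2610 3241 [0,1,2,3] [[0,1,2,3,4],[0,1,2,3,4],[0,1,2,3,5],[0,1,2,3,4]]],
Node.mk [0,820,182,1542,2448,1486,2225,1083,2353,2928,2594] [(0,3),(1,0),(1,2),(2,1),(3,2),(3,3)] [],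
Node.mk [0,820,182,1542,2448,1486,2225,1083,2353,2928] [(0,3),(2,0),(2,1),(2,2),(2,3),(2,4)] [Ref.mk 2610 3253 [0,1,2,3] [[0,1,2,3],[0,1,2,3,4],[0,1,2,3,5],[0,1,2,3]],Ref.mk 2594 3305 [0,1,2,3] [[0,1,2,3,4],[0,1,2,3,4],[0,1,2,3,4,5],[0,1,2,3,4]]],
Node.mk [0,820,182,1542,2448,1486,2225,1083,2353,2938,283] [(0,3),(1,0),(1,2),(1,4),(2,1),(3,2)] [],
Node.mk [0,820,182,1542,2448,1486,2225,1083,2353,2938] [(0,2),(0,3),(1,0),(1,2),(2,1),(3,2)] [Ref.mk 3114 3304 [0,1,2,3] [[0,1,2,3,4],[0,1,2,3,4],[0,1,2,3,4],[0,1,2,3,4]],Ref.mk 283 3307 [0,1,2,3] [[0,1,2,3,4],[0,1,2,3,4],[0,1,2,3,4],[0,1,2,3,4]]],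
Node.mk [0,820,182,1542,2448,1486,2225,1083,2353] [(1,0),(1,3),(3,0),(3,1),(3,2),(3,3)] [Ref.mk 3114 3304 [0,1,2,3] [[0,1,2,3,4],[0,1,2,3,4],[0,1,2,3,4],[0,1,2,3,4]],Ref.mk 2928 3306 [0,1,2,3] [[0,1,2,3,4],[0,1,2,3,4],[0,1,2,3,4],[0,1,2,3,4]],Ref.mk 2938 3308 [0,1,2,3] [[0,1,2,3,4],[0,1,2,3,4],[0,1,2,3,4],[0,1,2,3,4]]],
Node.mk [0,820,182,1542,2448,1486,2225,1083,1795,3114] [(0,3),(2,0),(2,1),(2,2),(2,3),(2,4)] [Ref.mk 2610 3244 [0,1,2,3] [[0,1,2,3],[0,1,2,3,4],[0,1,2,3,5],[0,1,2,3,4]],Ref.mk 441 3189 [0,1,2,3] [[0,1,2,3],[0,1,2,4],[0,1,2,3,5],[0,1,2,3]],Ref.mk 1891 1701 [3,2,1,0] [[2,4,1,3,0],[0,2,1,5,4],[3,4,1,0,2],[1,0,2,3,4]]],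
Node.mk [0,820,182,1542,2448,1486,2225,1083,1795,3028,2594] [(0,1),(0,2),(1,3),(2,0),(3,2),(3,3)] [Ref.mk 441 3189 [0,1,2,3] [[0,1,2,3],[0,1,2,4],[0,1,2,3,5],[0,1,2,3]]],
Node.mk [0,820,182,1542,2448,1486,2225,1083,1795,3028] [(0,1),(2,0),(2,1),(2,2),(2,3),(2,4)] [Ref.mk 2610 3253 [0,1,2,3] [[0,1,2,3],[0,1,2,3,4],[0,1,2,3,5],[0,1,2,3]],Ref.mk 441 3189 [0,1,2,3] [[0,1,2,3],[0,1,2,4],[0,1,2,3,5],[0,1,2,3]],Ref.mk 2594 3311 [0,1,2,3] [[0,1,2,3,4],[0,1,2,3,4],[0,1,2,3,4,5],[0,1,2,3,4]],Ref.mk 425 3297 [0,1,2,3] [[0,1,2,3],[0,1,2,3,4],[0,1,2,3,5],[0,1,2,3]]],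
Node.mk [0,820,182,1542,2448,1486,2225,1083,1795] [(1,0),(2,0),(3,0),(3,1),(3,2),(3,3)] [Ref.mk 3114 3310 [0,1,2,3] [[0,1,2,3,4],[0,1,2,3,4],[0,1,2,3,4],[0,1,2,3,4]],Ref.mk 3028 3312 [0,1,2,3] [[0,1,2,3,4],[0,1,2,3,4],[0,1,2,3,4],[0,1,2,3,4]]],
Node.mk [0,820,182,1542,2448,1486,2225,1083,283,1791] [(0,0),(1,0),(2,0),(3,0),(3,1),(3,2)] [],
Node.mk [0,820,182,1542,2448,1486,2225,1083,283] [(0,1),(0,3),(2,0),(2,1),(2,2),(2,3)] [Ref.mk 1791 3314 [0,1,2,3] [[0,1,2,3,4],[0,1,2,3,4],[0,1,2,3,4],[0,1,2,3]],Ref.mk 360 3187 [0,1,2,3] [[0,1,2,3,4],[0,1,2,4],[0,1,2,3,4],[0,1,2,3]],Ref.mk 441 3187 [0,1,2,3] [[0,1,2,3,4],[0,1,2,4],[0,1,2,3,5],[0,1,2,3]],Ref.mk 1793 3313 [1,2,0,3] [[4,1,2,3,0],[0,1,3,4,2],[2,1,0,4,3],[3,1,2,0]],Ref.mk 344 3293 [0,1,2,3]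 [[0,1,2,3,4],[0,1,2,3,4],[0,1,4,3,2],[0,1,2,3]],Ref.mk 425 3295 [0,1,2,3] [[0,1,2,3,4],[0,1,2,3,4],[0,1,2,3,5,4],[0,1,2,3]],Ref.mk 1795 3313 [0,1,2,3] [[0,1,2,3,4],[0,1,2,3,4],[0,1,2,3,4],[0,1,2,3]],Ref.mk 1796 3313 [0,1,2,3] [[0,1,2,3,5],[0,1,2,3,4],[0,1,2,3,4],[0,1,2,3]]],
Node.mk [0,820,182,1542,2448,1486,2225,1083] [(0,0),(0,1),(0,2),(0,3),(2,0),(2,1)] [Ref.mk 2353 3309 [0,1,2,3] [[0,1,2,3,4],[0,1,2,3,4],[0,1,2,3,4],[0,1,2,3]],Ref.mk 1795 3313 [0,1,2,3] [[0,1,2,3,4],[0,1,2,3,4],[0,1,2,3,4],[0,1,2,3]],Ref.mk 283 3315 [0,1,2,3] [[0,1,2,3,4],[0,1,2,3,4],[0,1,2,3,4],[0,1,2,3]]],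
Node.mk [0,820,182,1542,2448,1486,2225] [(0,1),(1,1),(2,0),(2,1),(2,2),(2,3)] [Ref.mk 2529 3253 [0,1,2,3] [[0,1,2,3],[0,1,2,3,4],[0,1,2,3,4],[0,1,2,3]],Ref.mk 360 3188 [0,1,2,3] [[0,1,2,3],[0,1,2,4],[0,1,2,3,4],[0,1,2,3]],Ref.mk 2513 2405 [0,1,2,3] [[2,1,0,3],[0,1,2,4],[4,1,3,2,0],[3,1,2,0]],Ref.mk 344 3297 [0,1,2,3] [[0,1,2,3],[0,1,2,3,4],[0,1,2,3,4],[0,1,2,3]],Ref.mk 1073 3299 [0,1,2,3] [[0,1,2,3],[0,1,2,3,4],[0,1,2,3,4],[0,1,2,3]],Ref.mk 1074 3302 [0,1,2,3] [[0,1,2,3],[0,1,2,3,4],[0,1,2,3,4],[0,1,2,3]],Ref.mk 1083 3316 [0,1,2,3] [[0,1,2,3],[0,1,2,3,4],[0,1,2,3,4],[0,1,2,3]]],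
Node.mk [0,820,182,1542,2448,1486,2306,2353,274] [(0,0),(0,1),(0,2),(0,3),(0,4),(2,1)] [],
Node.mk [0,820,182,1542,2448,1486,2306,2353,283] [(0,0),(0,1),(0,2),(0,4),(2,0),(2,1)] [],
Node.mk [0,820,182,1542,2448,1486,2306,2353] [(0,0),(0,1),(0,2),(2,0),(2,1),(2,2)] [Ref.mk 274 3318 [0,1,2,3] [[0,1,2,3,4],[0,1,2,3,4],[0,1,2,3],[0,1,2,3]],Ref.mk 283 3319 [0,1,2,3] [[0,1,2,3,4],[0,1,2,3,4],[0,1,2,3],[0,1,2,3]]],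
Node.mk [0,820,182,1542,2448,1486,2306,2362,273] [(0,1),(0,2),(2,0),(2,1),(2,2),(2,3)] [],
Node.mk [0,820,182,1542,2448,1486,2306,2362,274] [(0,0),(0,1),(0,2),(0,3),(0,4),(2,1)] [],
Node.mk [0,820,182,1542,2448,1486,2306,2362,283] [(0,0),(0,1),(0,2),(0,4),(2,0),(2,1)] [Ref.mk 273 3321 [0,1,2,3] [[0,1,2,3,4],[0,1,2,3,4],[0,1,2,3],[0,1,2,3]]],
Node.mk [0,820,182,1542,2448,1486,2306,2362] [(0,0),(0,1),(0,2),(2,0),(2,1),(2,2)] [Ref.mk 273 3321 [0,1,2,3] [[0,1,2,3,4],[0,1,2,3,4],[0,1,2,3],[0,1,2,3]],Ref.mk 274 3322 [0,1,2,3] [[0,1,2,3,4],[0,1,2,3,4],[0,1,2,3],[0,1,2,3]],Ref.mk 283 3323 [0,1,2,3] [[0,1,2,3,4],[0,1,2,3,4],[0,1,2,3],[0,1,2,3]]],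
Node.mk [0,820,182,1542,2448,1486,2306,274] [(0,1),(0,2),(2,0),(2,1),(2,2),(2,3)] [Ref.mk 351 3189 [0,1,2,3] [[0,1,2,3],[0,1,2,3],[0,1,2,3,4],[0,1,2,3]],Ref.mk 360 3189 [0,1,2,3] [[0,1,2,3],[0,1,2,4],[0,1,2,3,4],[0,1,2,3]]],
Node.mk [0,820,182,1542,2448,1486,2306,283] [(0,0),(0,1),(0,2),(2,0),(2,1),(2,3)] [Ref.mk 2353 3319 [0,1,2,3] [[0,1,2,3,4],[0,1,2,3,4],[0,1,2,3],[0,1,2,3]],Ref.mk 2362 3323 [0,1,2,3] [[0,1,2,3,4],[0,1,2,3,4],[0,1,2,3],[0,1,2,3]]],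
Node.mk [0,820,182,1542,2448,1486,2306] [(0,0),(0,1),(0,2),(0,3),(2,0),(2,1)] [Ref.mk 2353 3320 [0,1,2,3] [[0,1,2,3,4],[0,1,2,3,4],[0,1,2,3],[0,1,2,3]],Ref.mk 2362 3324 [0,1,2,3] [[0,1,2,3,4],[0,1,2,3,4],[0,1,2,3],[0,1,2,3]],Ref.mk 274 3325 [0,1,2,3] [[0,1,2,3,4],[0,1,2,3,4],[0,1,2,3],[0,1,2,3]],Ref.mk 283 3326 [0,1,2,3] [[0,1,2,3,4],[0,1,2,3,4],[0,1,2,3],[0,1,2,3]]]]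

/-- nodes -/
noncomputable def c52 : List Node := [
Node.mk [0,820,182,1542,2448,1486,281,733,2199,3114,185,2351,207] [(0,0),(2,0),(3,0),(3,1),(3,2),(3,3)] [],
Node.mk [0,820,182,1542,2448,1486,281,733,2199,3114,185,2351] [(1,0),(1,1),(1,2),(1,3),(1,4),(2,0)] [Ref.mk 207 3328 [0,1,2,3] [[0,1,2,3,4,5],[0,1,2,3,4,5],[0,1,2,3],[0,1,2,3,4]]],
Node.mk [0,820,182,1542,2448,1486,281,733,2199,3114,185,2936,126] [(0,0),(0,1),(0,2),(1,2),(2,0),(2,1)] [],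
Node.mk [0,820,182,1542,2448,1486,281,733,2199,3114,185,2936] [(1,0),(1,1),(1,2),(1,3),(1,4),(2,0)] [Ref.mk 126 3330 [0,1,2,3] [[0,1,2,3,4,5],[0,1,2,3,4,5],[0,1,2,3],[0,1,2,3,4]]],
Node.mk [0,820,182,1542,2448,1486,281,733,2199,3114,185] [(0,0),(0,1),(1,1),(2,1),(3,0),(3,1)] [Ref.mk 2351 3329 [0,1,2,3] [[0,1,2,3,4,5],[0,1,2,3,4],[0,1,2,3],[0,1,2,3,4]],Ref.mk 2936 3331 [0,1,2,3] [[0,1,2,3,4,5],[0,1,2,3,4],[0,1,2,3],[0,1,2,3,4]]],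
Node.mk [0,820,182,1542,2448,1486,281,733,2199,3114,284,2299] [(0,0),(0,1),(0,2),(0,3),(0,4),(3,0)] [],
Node.mk [0,820,182,1542,2448,1486,281,733,2199,3114,284] [(0,0),(0,1),(1,0),(1,1),(3,0),(3,1)] [Ref.mk 2225 3317 [0,1,2,3] [[0,1,2,3],[0,1,2,3,4],[0,1,2,3],[0,1,2,3]],Ref.mk 2306 3327 [0,1,2,3] [[0,1,2,3],[0,1,2,3,4],[0,1,2,3],[0,1,2,3]],Ref.mk 2299 3333 [0,1,2,3] [[0,1,2,3,4,5],[0,1,2,3,4],[0,1,2,3],[0,1,2,3,4]]],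
Node.mk [0,820,182,1542,2448,1486,281,733,2199,3114] [(0,0),(0,1),(0,2),(0,3),(0,4),(2,0)] [Ref.mk 185 3332 [0,1,2,3] [[0,1,2,3,4,5],[0,1,2,3,4],[0,1,2,3],[0,1,2,3,4]],Ref.mk 284 3334 [0,1,2,3] [[0,1,2,3,4,5],[0,1,2,3,4],[0,1,2,3],[0,1,2,3,4]]],
Node.mk [0,820,182,1542,2448,1486,281,733,2199,3017] [(0,0),(0,1),(0,2),(1,2),(2,0),(2,1)] [],
Node.mk [0,820,182,1542,2448,1486,281,733,2199] [(2,0),(2,3),(3,0),(3,1),(3,2),(3,3)] [Ref.mk 3114 3335 [0,1,2,3] [[0,1,2,3,4],[0,1,2,3,4],[0,1,2,3],[0,1,2,3,4]],Ref.mk 3017 3336 [0,1,2,3] [[0,1,2,3,4],[0,1,2,3,4],[0,1,2,3],[0,1,2,3,4]]],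
Node.mk [0,820,182,1542,2448,1486,281,733,2928,734,3241] [(0,0),(0,1),(0,2),(0,3),(3,0),(3,1)] [],
Node.mk [0,820,182,1542,2448,1486,281,733,2928,734,1083] [(0,0),(0,1),(0,2),(0,3),(3,0),(3,1)] [],
Node.mk [0,820,182,1542,2448,1486,281,733,2928,734] [(0,2),(2,0),(2,1),(2,2),(2,3),(3,0)] [Ref.mk 3241 3338 [0,1,2,3] [[0,1,2,3,4,5],[0,1,2,3,4],[0,1,2,3,4],[0,1,2,3,4]],Ref.mk 1083 3339 [0,1,2,3] [[0,1,2,3,4,5],[0,1,2,3,4],[0,1,2,3,4],[0,1,2,3,4]]],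
Node.mk [0,820,182,1542,2448,1486,281,733,2928,1472,1795] [(0,0),(0,2),(0,3),(3,0),(3,1),(3,2)] [],
Node.mk [0,820,182,1542,2448,1486,281,733,2928,1472] [(0,2),(2,0),(2,1),(2,2),(2,3),(3,0)] [Ref.mk 1795 3341 [0,1,2,3] [[0,1,2,3,4,5],[0,1,2,3,4],[0,1,2,3,4],[0,1,2,3,4]]],
Node.mk [0,820,182,1542,2448,1486,281,733,2928,995] [(0,0),(0,1),(0,3),(1,2),(2,0),(2,3)] [],
Node.mk [0,820,182,1542,2448,1486,281,733,2928] [(0,0),(0,1),(0,2),(0,3),(0,4),(3,0)] [Ref.mk 734 3340 [0,1,2,3] [[0,1,2,3,4,5],[0,1,2,3,4],[0,1,2,3],[0,1,2,3,4]],Ref.mk 1472 3342 [0,1,2,3] [[0,1,2,3,4,5],[0,1,2,3,4],[0,1,2,3],[0,1,2,3,4]],Ref.mk 995 3343 [0,1,2,3] [[0,1,2,3,4,5],[0,1,2,3,4],[0,1,2,3],[0,1,2,3,4]]],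
Node.mk [0,820,182,1542,2448,1486,281,733,2299,1544] [(0,0),(0,1),(0,2),(0,4),(2,1),(3,0)] [],
Node.mk [0,820,182,1542,2448,1486,281,733,2299,842] [(0,0),(0,1),(0,2),(2,1),(3,0),(3,1)] [],
Node.mk [0,820,182,1542,2448,1486,281,733,2299] [(0,0),(0,1),(0,2),(0,3),(0,4),(3,0)] [Ref.mk 1544 3345 [0,1,2,3] [[0,1,2,3,4,5],[0,1,2,3,4],[0,1,2,3],[0,1,2,3]],Ref.mk 842 3346 [0,1,2,3] [[0,1,2,3,4,5],[0,1,2,3,4],[0,1,2,3],[0,1,2,3]]],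
Node.mk [0,820,182,1542,2448,1486,281,733,3028,1544] [(0,0),(0,1),(0,2),(0,4),(2,1),(3,0)] [],
Node.mk [0,820,182,1542,2448,1486,281,733,3028,842] [(0,0),(0,1),(0,2),(2,1),(3,0),(3,1)] [],
Node.mk [0,820,182,1542,2448,1486,281,733,3028] [(0,0),(0,1),(0,2),(0,3),(0,4),(3,0)] [Ref.mk 1544 3348 [0,1,2,3] [[0,1,2,3,4,5],[0,1,2,3,4],[0,1,2,3],[0,1,2,3,4]],Ref.mk 842 3349 [0,1,2,3] [[0,1,2,3,4,5],[0,1,2,3,4],[0,1,2,3],[0,1,2,3,4]]],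
Node.mk [0,820,182,1542,2448,1486,281,733] [(0,0),(0,1),(0,2),(3,0),(3,1),(3,2)] [Ref.mk 2199 3337 [0,1,2,3] [[0,1,2,3,4],[0,1,2,3,4],[0,1,2,3],[0,1,2,3]],Ref.mk 2928 3344 [0,1,2,3] [[0,1,2,3,4],[0,1,2,3,4],[0,1,2,3],[0,1,2,3,4]],Ref.mk 2299 3347 [0,1,2,3] [[0,1,2,3,4],[0,1,2,3,4],[0,1,2,3],[0,1,2,3]],Ref.mk 3028 3350 [0,1,2,3] [[0,1,2,3,4],[0,1,2,3,4],[0,1,2,3],[0,1,2,3,4]]],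
Node.mk [0,820,182,1542,2448,1486,281,994,927,2299] [(0,0),(2,1),(3,0),(3,1),(3,2),(3,3)] [],
Node.mk [0,820,182,1542,2448,1486,281,994,927,3028] [(0,0),(0,1),(1,1),(2,1),(3,0),(3,1)] [],
Node.mk [0,820,182,1542,2448,1486,281,994,927] [(0,0),(0,1),(2,0),(3,0),(3,1),(3,2)] [Ref.mk 2299 3352 [0,1,2,3] [[0,1,2,3,4],[0,1,2,3,4],[0,1,2,3],[0,1,2,3]],Ref.mk 3028 3353 [0,1,2,3] [[0,1,2,3,4],[0,1,2,3,4],[0,1,2,3],[0,1,2,3,4]]],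
Node.mk [0,820,182,1542,2448,1486,281,994] [(0,1),(1,2),(1,3),(2,0),(2,3),(3,2)] [Ref.mk 927 3354 [0,1,2,3] [[0,1,2,3,4],[0,1,2,3,4],[0,1,2,3],[0,1,2,3]]],
Node.mk [0,820,182,1542,2448,1486,281,841] [(0,0),(0,2),(2,1),(3,0),(3,1),(3,2)] [],
Node.mk [0,820,182,1542,2448,1486,281,2299,2199,1553] [(0,0),(0,1),(0,2),(1,1),(2,1),(3,0)] [],
Node.mk [0,820,182,1542,2448,1486,281,2299,2199,2300] [(0,0),(0,1),(0,2),(0,3),(1,3),(3,0)] [Ref.mk 1552 3357 [0,1,2,3] [[0,1,2,3,5,4],[0,1,2,3,4],[0,1,2,3],[0,1,2,3]],Ref.mk 1553 3357 [0,1,2,3] [[0,1,2,3,4,5],[0,1,2,3,4],[0,1,2,3],[0,1,2,3]],Ref.mk 1554 3357 [0,1,2,3] [[0,1,2,3,5,6],[0,1,2,3,4],[0,1,2,3],[0,1,2,3]]],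
Node.mk [0,820,182,1542,2448,1486,281,2299,2199] [(0,0),(0,1),(0,2),(0,3),(0,4),(3,0)] [Ref.mk 1553 3357 [0,1,2,3] [[0,1,2,3,4,5],[0,1,2,3,4],[0,1,2,3],[0,1,2,3]],Ref.mk 2300 3358 [0,1,2,3] [[0,1,2,3,4,5],[0,1,2,3,4],[0,1,2,3],[0,1,2,3]]],
Node.mk [0,820,182,1542,2448,1486,281,2299] [(0,0),(0,1),(0,2),(1,3),(3,0),(3,2)] [Ref.mk 2199 3359 [0,1,2,3] [[0,1,2,3,4],[0,1,2,3,4],[0,1,2,3],[0,1,2,3]],Ref.mk 733 3347 [0,1,2,3] [[0,1,2,3,4],[0,1,2,3,4],[0,1,2,3],[0,1,2,3]],Ref.mk 994 3355 [0,1,2,3] [[0,1,2,3,4],[0,1,2,3,4],[0,1,2,3],[0,1,2,3]]],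
Node.mk [0,820,182,1542,2448,1486,281,3028,2928,1553] [(0,0),(0,1),(0,2),(1,1),(2,1),(3,0)] [],
Node.mk [0,820,182,1542,2448,1486,281,3028,2928,3029] [(0,0),(0,1),(0,2),(0,3),(1,3),(3,0)] [Ref.mk 1552 3361 [0,1,2,3] [[0,1,2,3,5,4],[0,1,2,3,4],[0,1,2,3],[0,1,2,3,4]],Ref.mk 1553 3361 [0,1,2,3] [[0,1,2,3,4,5],[0,1,2,3,4],[0,1,2,3],[0,1,2,3,4]],Ref.mk 1554 3361 [0,1,2,3] [[0,1,2,3,5,6],[0,1,2,3,4],[0,1,2,3],[0,1,2,3,4]]],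
Node.mk [0,820,182,1542,2448,1486,281,3028,2928] [(0,0),(0,1),(0,2),(0,3),(0,4),(3,0)] [Ref.mk 1553 3361 [0,1,2,3] [[0,1,2,3,4,5],[0,1,2,3,4],[0,1,2,3],[0,1,2,3,4]],Ref.mk 3029 3362 [0,1,2,3] [[0,1,2,3,4,5],[0,1,2,3,4],[0,1,2,3],[0,1,2,3,4]]],
Node.mk [0,820,182,1542,2448,1486,281,3028] [(0,0),(0,1),(0,2),(1,3),(3,0),(3,2)] [Ref.mk 2928 3363 [0,1,2,3] [[0,1,2,3,4],[0,1,2,3,4],[0,1,2,3],[0,1,2,3,4]],Ref.mk 733 3350 [0,1,2,3] [[0,1,2,3,4],[0,1,2,3,4],[0,1,2,3],[0,1,2,3,4]],Ref.mk 994 3355 [0,1,2,3] [[0,1,2,3,4],[0,1,2,3,4],[0,1,2,3],[0,1,2,3]]],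
Node.mk [0,820,182,1542,2448,1486,281] [(0,0),(0,1),(0,2),(0,3),(3,0),(3,2)] [Ref.mk 733 3351 [0,1,2,3] [[0,1,2,3,4],[0,1,2,3,4],[0,1,2,3],[0,1,2,3]],Ref.mk 994 3355 [0,1,2,3] [[0,1,2,3,4],[0,1,2,3,4],[0,1,2,3],[0,1,2,3]],Ref.mk 841 3356 [0,1,2,3] [[0,1,2,3,4],[0,1,2,3,4],[0,1,2,3],[0,1,2,3]],Ref.mk 2299 3360 [0,1,2,3] [[0,1,2,3,4],[0,1,2,3,4],[0,1,2,3],[0,1,2,3]],Ref.mk 3028 3364 [0,1,2,3] [[0,1,2,3,4],[0,1,2,3,4],[0,1,2,3],[0,1,2,3,4]]],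
Node.mk [0,820,182,1542,2448,1486,1010,2199,733,2386] [(0,1),(0,2),(2,0),(2,1),(2,2),(2,3)] [Ref.mk 360 3189 [0,1,2,3] [[0,1,2,3],[0,1,2,4],[0,1,2,3,4],[0,1,2,3]]],
Node.mk [0,820,182,1542,2448,1486,1010,2199,733] [(0,0),(0,2),(1,0),(2,0),(2,3),(3,1)] [Ref.mk 2386 3366 [0,1,2,3] [[0,1,2,3,4],[0,1,2,3,4],[0,1,2,3],[0,1,2,3]]],
Node.mk [0,820,182,1542,2448,1486,1010,2199,1471,1791,2386] [(0,0),(1,1),(1,2),(2,3),(3,2),(3,3)] [],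
Node.mk [0,820,182,1542,2448,1486,1010,2199,1471,1791] [(0,0),(0,2),(1,1),(1,2),(2,3),(3,2)] [Ref.mk 2386 3368 [0,1,2,3] [[0,1,2,3,4],[0,1,2,3,4],[0,1,2,3,4],[0,1,2,3]]],
Node.mk [0,820,182,1542,2448,1486,1010,2199,1471] [(0,2),(1,2),(2,0),(2,1),(2,2),(2,3)] [Ref.mk 1791 3369 [0,1,2,3] [[0,1,2,3,4],[0,1,2,3,4],[0,1,2,3,4],[0,1,2,3]],Ref.mk 360 3189 [0,1,2,3] [[0,1,2,3],[0,1,2,4],[0,1,2,3,4],[0,1,2,3]]],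
Node.mk [0,820,182,1542,2448,1486,1010,2199] [(0,0),(0,1),(0,2),(0,3),(1,2),(2,3)] [Ref.mk 733 3367 [0,1,2,3] [[0,1,2,3,4],[0,1,2,3,4],[0,1,2,3],[0,1,2,3]],Ref.mk 1471 3370 [0,1,2,3] [[0,1,2,3,4],[0,1,2,3,4],[0,1,2,3],[0,1,2,3]]],
Node.mk [0,820,182,1542,2448,1486,1010,2928,733,2386] [(0,1),(0,2),(2,0),(2,1),(2,2),(2,3)] [Ref.mk 360 3313 [2,0,3,1] [[1,3,0,2,4],[1,0,3,2,4],[1,3,4,2,0],[1,2,4,0]]],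
Node.mk [0,820,182,1542,2448,1486,1010,2928,733] [(0,0),(0,2),(1,0),(2,0),(2,3),(3,1)] [Ref.mk 2386 3372 [0,1,2,3] [[0,1,2,3,4],[0,1,2,3,4],[0,1,2,3],[0,1,2,3,4]]],
Node.mk [0,820,182,1542,2448,1486,1010,2928,1471,2386,1072] [(0,0),(0,1),(0,2),(0,3),(1,1),(1,2)] [Ref.mk 733 3372 [0,1,2,3] [[0,1,2,3,4],[0,1,2,3,4],[0,1,2,3],[0,1,2,3,4]],Ref.mk 734 3372 [0,1,2,3] [[0,1,2,3,5],[0,1,2,3,4],[0,1,2,3],[0,1,2,3,4]]],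
Node.mk [0,820,182,1542,2448,1486,1010,2928,1471,2386] [(0,0),(0,2),(2,0),(2,1),(2,2),(2,3)] [Ref.mk 1072 3374 [0,1,2,3] [[0,1,2,3,4],[0,1,2,3,4],[0,1,2,3,4],[0,1,2,3,4]]],
Node.mk [0,820,182,1542,2448,1486,1010,2928,1471] [(0,0),(0,2),(1,2),(2,0),(2,1),(2,3)] [Ref.mk 2386 3375 [0,1,2,3] [[0,1,2,3,4],[0,1,2,3,4],[0,1,2,3],[0,1,2,3,4]]],
Node.mk [0,820,182,1542,2448,1486,1010,2928] [(0,0),(0,1),(0,2),(0,3),(1,2),(2,3)] [Ref.mk 733 3373 [0,1,2,3] [[0,1,2,3,4],[0,1,2,3,4],[0,1,2,3],[0,1,2,3,4]],Ref.mk 1471 3376 [0,1,2,3] [[0,1,2,3,4],[0,1,2,3,4],[0,1,2,3],[0,1,2,3,4]]],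
Node.mk [0,820,182,1542,2448,1486,1010,2208,256] [(2,0),(2,3),(3,0),(3,1),(3,2),(3,3)] [],
Node.mk [0,820,182,1542,2448,1486,1010,2208,265] [(0,3),(1,0),(1,2),(2,1),(2,3),(3,2)] [Ref.mk 36 2306 [0,1,2,3] [[0,1,2,3],[0,1,2,4],[0,1,2,3],[0,1,2,3]]],
Node.mk [0,820,182,1542,2448,1486,1010,2208] [(0,0),(0,1),(0,2),(0,3),(3,1),(3,2)] [Ref.mk 256 3378 [0,1,2,3] [[0,1,2,3,4],[0,1,2,3,4],[0,1,2,3],[0,1,2,3]],Ref.mk 265 3379 [0,1,2,3] [[0,1,2,3,4],[0,1,2,3,4],[0,1,2,3],[0,1,2,3]]],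
Node.mk [0,820,182,1542,2448,1486,1010,2937,256,3079] [(0,0),(0,1),(0,2),(0,3),(2,3),(3,1)] [],
Node.mk [0,820,182,1542,2448,1486,1010,2937,256,3241] [(0,0),(0,1),(0,2),(0,3),(2,3),(3,1)] [],
Node.mk [0,820,182,1542,2448,1486,1010,2937,256] [(0,0),(0,2),(2,0),(2,1),(2,3),(3,1)] [Ref.mk 3079 3381 [0,1,2,3] [[0,1,2,3,4],[0,1,2,3,4],[0,1,2,3],[0,1,2,3,4]],Ref.mk 3241 3382 [0,1,2,3] [[0,1,2,3,4],[0,1,2,3,4],[0,1,2,3,4],[0,1,2,3,4]]],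
Node.mk [0,820,182,1542,2448,1486,1010,2937,265] [(0,3),(1,0),(1,2),(2,1),(2,3),(3,2)] [Ref.mk 36 2306 [0,1,2,3] [[0,1,2,3],[0,1,2,4],[0,1,2,3],[0,1,2,3]]],
Node.mk [0,820,182,1542,2448,1486,1010,2937] [(0,0),(0,1),(0,2),(0,3),(3,1),(3,2)] [Ref.mk 256 3383 [0,1,2,3] [[0,1,2,3,4],[0,1,2,3,4],[0,1,2,3],[0,1,2,3,4]],Ref.mk 265 3384 [0,1,2,3] [[0,1,2,3,4],[0,1,2,3,4],[0,1,2,3],[0,1,2,3,4]]],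
Node.mk [0,820,182,1542,2448,1486,1010] [(0,0),(0,1),(0,2),(3,0),(3,1),(3,2)] [Ref.mk 2199 3371 [0,1,2,3] [[0,1,2,3],[0,1,2,3,4],[0,1,2,3],[0,1,2,3]],Ref.mk 2928 3377 [0,1,2,3] [[0,1,2,3],[0,1,2,3,4],[0,1,2,3],[0,1,2,3,4]],Ref.mk 2208 3380 [0,1,2,3] [[0,1,2,3],[0,1,2,3,4],[0,1,2,3],[0,1,2,3]],Ref.mk 2937 3385 [0,1,2,3] [[0,1,2,3],[0,1,2,3,4],[0,1,2,3],[0,1,2,3,4]]],
Node.mk [0,820,182,1542,2448,1486,768,733,1054,2917,333,2937] [(0,0),(0,1),(0,2),(0,3),(1,0),(1,2)] [],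
Node.mk [0,820,182,1542,2448,1486,768,733,1054,2917,333,3666] [(0,0),(0,1),(0,2),(0,3),(1,0),(1,2)] [],
Node.mk [0,820,182,1542,2448,1486,768,733,1054,2917,333] [(0,0),(0,1),(3,0),(3,1),(3,2),(3,3)] [Ref.mk 3170 3386 [2,3,0,1] [[0,3,1,2],[0,4,2,3,1],[0,2,3,1],[0,1,2,3]],Ref.mk 3899 3386 [2,3,0,1] [[0,3,1,2],[0,5,2,3,1],[0,2,3,1],[0,1,2,3]],Ref.mk 2937 3387 [0,1,2,3] [[0,1,2,3,4],[0,1,2,3,4],[0,1,2,3,4],[0,1,2,3,4]],Ref.mk 3666 3388 [0,1,2,3] [[0,1,2,3,4],[0,1,2,3,4],[0,1,2,3,4],[0,1,2,3,4,5]]],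
Node.mk [0,820,182,1542,2448,1486,768,733,1054,2917,414] [(0,0),(0,1),(1,0),(1,1),(3,0),(3,1)] [],
Node.mk [0,820,182,1542,2448,1486,768,733,1054,2917,2522] [(0,2),(1,0),(1,1),(1,2),(2,0),(2,2)] [Ref.mk 351 3189 [0,1,2,3] [[0,1,2,3],[0,1,2,3],[0,1,2,3,4],[0,1,2,3]],Ref.mk 360 3189 [0,1,2,3] [[0,1,2,3],[0,1,2,4],[0,1,2,3,4],[0,1,2,3]],Ref.mk 369 3189 [0,1,2,3] [[0,1,2,3],[0,1,2,5],[0,1,2,3,4],[0,1,2,3]]]]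

/-- nodes -/
noncomputable def c53 : List Node := [
Node.mk [0,820,182,1542,2448,1486,768,733,1054,2917,2603] [(0,2),(1,0),(1,1),(1,2),(2,0),(2,2)] [Ref.mk 432 3189 [0,1,2,3] [[0,1,2,3],[0,1,2,3],[0,1,2,3,5],[0,1,2,3]],Ref.mk 441 3189 [0,1,2,3] [[0,1,2,3],[0,1,2,4],[0,1,2,3,5],[0,1,2,3]],Ref.mk 450 3189 [0,1,2,3] [[0,1,2,3],[0,1,2,5],[0,1,2,3,5],[0,1,2,3]]],
Node.mk [0,820,182,1542,2448,1486,768,733,1054,2917] [(1,0),(1,2),(2,0),(2,1),(2,2),(2,3)] [Ref.mk 333 3389 [0,1,2,3] [[0,1,2,3,4],[0,1,2,3,4],[0,1,2,3,4],[0,1,2,3,4]],Ref.mk 414 3390 [0,1,2,3] [[0,1,2,3,4],[0,1,2,3,4],[0,1,2,3,4,5],[0,1,2,3,4]],Ref.mk 351 3189 [0,1,2,3] [[0,1,2,3],[0,1,2,3],[0,1,2,3,4],[0,1,2,3]],Ref.mk 432 3189 [0,1,2,3] [[0,1,2,3],[0,1,2,3],[0,1,2,3,5],[0,1,2,3]],Ref.mk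 360 3189 [0,1,2,3] [[0,1,2,3],[0,1,2,4],[0,1,2,3,4],[0,1,2,3]],Ref.mk 441 3189 [0,1,2,3] [[0,1,2,3],[0,1,2,4],[0,1,2,3,5],[0,1,2,3]],Ref.mk 369 3189 [0,1,2,3] [[0,1,2,3],[0,1,2,5],[0,1,2,3,4],[0,1,2,3]],Ref.mk 450 3189 [0,1,2,3] [[0,1,2,3],[0,1,2,5],[0,1,2,3,5],[0,1,2,3]],Ref.mk 2522 3391 [0,1,2,3] [[0,1,2,3,4],[0,1,2,3,4],[0,1,2,3,4],[0,1,2,3,4]],Ref.mk 2603 3392 [0,1,2,3] [[0,1,2,3,4],[0,1,2,3,4],[0,1,2,3,4,5],[0,1,2,3,4]]],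
Node.mk [0,820,182,1542,2448,1486,768,733,1054] [(0,0),(1,2),(2,3),(3,1),(3,2),(3,3)] [Ref.mk 1 3161 [0,3,1,2] [[1,0,3,2,4],[0,3,1,2],[0,2,4,1,3],[0,3,2,1,4]],Ref.mk 2917 3393 [0,1,2,3] [[0,1,2,3,4],[0,1,2,3,4],[0,1,2,3,4],[0,1,2,3,4]]],
Node.mk [0,820,182,1542,2448,1486,768,733,1083,2928,2522] [(0,0),(0,3),(1,0),(1,1),(1,2),(1,3)] [Ref.mk 2225 3317 [0,1,2,3] [[0,1,2,3],[0,1,2,3,4],[0,1,2,3],[0,1,2,3]],Ref.mk 281 3365 [0,1,2,3] [[0,1,2,3],[0,1,2,3,4],[0,1,2,3],[0,1,2,3]],Ref.mk 1010 3386 [0,1,2,3] [[0,1,2,3],[0,1,2,3,4],[0,1,2,3],[0,1,2,3]],Ref.mk 2234 3317 [0,1,2,3] [[0,1,2,3],[0,1,2,3,5],[0,1,2,3],[0,1,2,3]],Ref.mk 290 3365 [0,1,2,3] [[0,1,2,3],[0,1,2,3,5],[0,1,2,3],[0,1,2,3]],Ref.mk 1019 3386 [0,1,2,3] [[0,1,2,3],[0,1,2,3,5],[0,1,2,3],[0,1,2,3]]],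
Node.mk [0,820,182,1542,2448,1486,768,733,1083,2928,2297] [(0,0),(0,3),(1,0),(1,1),(1,2),(1,3)] [Ref.mk 2225 3317 [0,1,2,3] [[0,1,2,3],[0,1,2,3,4],[0,1,2,3],[0,1,2,3]],Ref.mk 281 3365 [0,1,2,3] [[0,1,2,3],[0,1,2,3,4],[0,1,2,3],[0,1,2,3]],Ref.mk 1010 3386 [0,1,2,3] [[0,1,2,3],[0,1,2,3,4],[0,1,2,3],[0,1,2,3]],Ref.mk 2234 3317 [0,1,2,3] [[0,1,2,3],[0,1,2,3,5],[0,1,2,3],[0,1,2,3]],Ref.mk 290 3365 [0,1,2,3] [[0,1,2,3],[0,1,2,3,5],[0,1,2,3],[0,1,2,3]],Ref.mk 1019 3386 [0,1,2,3] [[0,1,2,3],[0,1,2,3,5],[0,1,2,3],[0,1,2,3]]],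
Node.mk [0,820,182,1542,2448,1486,768,733,1083,2928] [(1,0),(1,2),(2,0),(2,2),(3,0),(3,1)] [Ref.mk 2522 3395 [0,1,2,3] [[0,1,2,3,4],[0,1,2,3,4],[0,1,2,3,4],[0,1,2,3,4]],Ref.mk 2297 3396 [0,1,2,3] [[0,1,2,3,4],[0,1,2,3,4],[0,1,2,3,4],[0,1,2,3,4]]],
Node.mk [0,820,182,1542,2448,1486,768,733,1083] [(0,0),(1,2),(2,3),(3,1),(3,2),(3,3)] [Ref.mk 12 3186 [0,3,1,2] [[3,0,1,2,4],[0,3,2,1],[1,2,3,0,4],[0,3,2,1,4]],Ref.mk 2928 3397 [0,1,2,3] [[0,1,2,3,4],[0,1,2,3,4],[0,1,2,3,4],[0,1,2,3,4]]],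
Node.mk [0,820,182,1542,2448,1486,768,733] [(0,0),(1,2),(2,0),(2,1),(2,3),(3,3)] [Ref.mk 892 3162 [0,2,1,3] [[1,0,3,2,4],[2,3,0,1],[0,2,4,3,1],[1,3,0,2]],Ref.mk 1054 3394 [0,1,2,3] [[0,1,2,3,4],[0,1,2,3,4],[0,1,2,3,4],[0,1,2,3]],Ref.mk 921 3187 [0,2,1,3] [[3,0,1,2,4],[2,3,1,0],[3,2,1,0,4],[1,3,0,2]],Ref.mk 1083 3398 [0,1,2,3] [[0,1,2,3,4],[0,1,2,3,4],[0,1,2,3,4],[0,1,2,3]]],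
Node.mk [0,820,182,1542,2448,1486,768,1471,2928,1794,1569,2353,1639] [(0,0),(0,1),(0,3),(1,0),(1,2),(2,0)] [],
Node.mk [0,820,182,1542,2448,1486,768,1471,2928,1794,1569,2353] [(0,0),(0,3),(1,0),(2,0),(2,1),(3,0)] [Ref.mk 1639 3400 [0,1,2,3] [[0,1,2,3,4],[0,1,2,3,4],[0,1,2,3,4],[0,1,2,3,4]]],
Node.mk [0,820,182,1542,2448,1486,768,1471,2928,1794,1569,1561] [(0,0),(0,3),(1,2),(2,0),(2,1),(2,3)] [Ref.mk 2353 3401 [0,1,2,3] [[0,1,2,3,4],[0,1,2,3,4],[0,1,2,3,4],[0,1,2,3,4]]],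
Node.mk [0,820,182,1542,2448,1486,768,1471,2928,1794,1569,2354,1639] [(0,0),(0,1),(0,3),(1,0),(1,2),(2,0)] [],
Node.mk [0,820,182,1542,2448,1486,768,1471,2928,1794,1569,2354] [(0,0),(0,3),(1,0),(2,0),(2,1),(3,0)] [Ref.mk 1639 3403 [0,1,2,3] [[0,1,2,3,4,5],[0,1,2,3,4],[0,1,2,3,4],[0,1,2,3,4]]],
Node.mk [0,820,182,1542,2448,1486,768,1471,2928,1794,1569,1562] [(0,0),(0,3),(1,2),(2,0),(2,1),(2,3)] [Ref.mk 2354 3404 [0,1,2,3] [[0,1,2,3,4,5],[0,1,2,3,4],[0,1,2,3,4],[0,1,2,3,4]]],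
Node.mk [0,820,182,1542,2448,1486,768,1471,2928,1794,1569] [(0,0),(0,1),(0,2),(0,3),(2,0),(3,0)] [Ref.mk 2353 3401 [0,1,2,3] [[0,1,2,3,4],[0,1,2,3,4],[0,1,2,3,4],[0,1,2,3,4]],Ref.mk 1561 3402 [0,1,2,3] [[0,1,2,3,4],[0,1,2,3,4],[0,1,2,3,4],[0,1,2,3,4]],Ref.mk 2354 3404 [0,1,2,3] [[0,1,2,3,4,5],[0,1,2,3,4],[0,1,2,3,4],[0,1,2,3,4]],Ref.mk 1562 3405 [0,1,2,3] [[0,1,2,3,4,5],[0,1,2,3,4],[0,1,2,3,4],[0,1,2,3,4]]],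
Node.mk [0,820,182,1542,2448,1486,768,1471,2928,1794,1587,2353,1639] [(0,0),(0,1),(0,3),(1,0),(1,2),(2,0)] [],
Node.mk [0,820,182,1542,2448,1486,768,1471,2928,1794,1587,2353] [(0,0),(0,3),(1,0),(2,0),(2,1),(3,0)] [Ref.mk 1639 3407 [0,1,2,3] [[0,1,2,3,4],[0,1,2,3,4,5],[0,1,2,3,4],[0,1,2,3,4]]],
Node.mk [0,820,182,1542,2448,1486,768,1471,2928,1794,1587,1561] [(0,0),(0,3),(1,2),(2,0),(2,1),(2,3)] [Ref.mk 2353 3408 [0,1,2,3] [[0,1,2,3,4],[0,1,2,3,4,5],[0,1,2,3,4],[0,1,2,3,4]]],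
Node.mk [0,820,182,1542,2448,1486,768,1471,2928,1794,1587,2354,1639] [(0,0),(0,1),(0,3),(1,0),(1,2),(2,0)] [],
Node.mk [0,820,182,1542,2448,1486,768,1471,2928,1794,1587,2354] [(0,0),(0,3),(1,0),(2,0),(2,1),(3,0)] [Ref.mk 1639 3410 [0,1,2,3] [[0,1,2,3,4,5],[0,1,2,3,4,5],[0,1,2,3,4],[0,1,2,3,4]]],
Node.mk [0,820,182,1542,2448,1486,768,1471,2928,1794,1587,1562] [(0,0),(0,3),(1,2),(2,0),(2,1),(2,3)] [Ref.mk 2354 3411 [0,1,2,3] [[0,1,2,3,4,5],[0,1,2,3,4,5],[0,1,2,3,4],[0,1,2,3,4]]],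
Node.mk [0,820,182,1542,2448,1486,768,1471,2928,1794,1587] [(0,0),(0,1),(0,2),(0,3),(2,0),(3,0)] [Ref.mk 2353 3408 [0,1,2,3] [[0,1,2,3,4],[0,1,2,3,4,5],[0,1,2,3,4],[0,1,2,3,4]],Ref.mk 1561 3409 [0,1,2,3] [[0,1,2,3,4],[0,1,2,3,4,5],[0,1,2,3,4],[0,1,2,3,4]],Ref.mk 2354 3411 [0,1,2,3] [[0,1,2,3,4,5],[0,1,2,3,4,5],[0,1,2,3,4],[0,1,2,3,4]],Ref.mk 1562 3412 [0,1,2,3] [[0,1,2,3,4,5],[0,1,2,3,4,5],[0,1,2,3,4],[0,1,2,3,4]]],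
Node.mk [0,820,182,1542,2448,1486,768,1471,2928,1794] [(0,0),(1,0),(1,1),(1,2),(2,0),(2,3)] [Ref.mk 1569 3406 [0,1,2,3] [[0,1,2,3,4],[0,1,2,3,4],[0,1,2,3,4],[0,1,2,3,4]],Ref.mk 1578 3406 [3,1,2,0] [[0,1,3,2,4],[0,1,2,4,3],[0,1,3,2,4],[0,1,3,2,4]],Ref.mk 1587 3413 [0,1,2,3] [[0,1,2,3,4],[0,1,2,3,4,5],[0,1,2,3,4],[0,1,2,3,4]]],
Node.mk [0,820,182,1542,2448,1486,768,1471,2928] [(0,0),(1,2),(2,0),(2,1),(2,3),(3,3)] [Ref.mk 1632 3161 [0,2,1,3] [[3,0,1,2,4],[2,3,0,1],[1,2,3,4,0],[2,3,0,1,4]],Ref.mk 1794 3414 [0,1,2,3] [[0,1,2,3,4],[0,1,2,3,4],[0,1,2,3,4],[0,1,2,3,4]]],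
Node.mk [0,820,182,1542,2448,1486,768,1471] [(0,0),(1,2),(2,3),(3,1),(3,2),(3,3)] [Ref.mk 1 3187 [0,3,1,2] [[1,0,3,2,4],[0,3,1,2],[0,2,4,1,3],[0,3,2,1]],Ref.mk 2917 3399 [3,1,2,0] [[0,1,3,2,4],[0,1,2,4,3],[0,1,3,2],[0,1,3,2]],Ref.mk 12 3162 [0,3,1,2] [[3,0,1,2,4],[0,3,2,1],[1,2,3,0,4],[0,3,2,1]],Ref.mk 2928 3415 [0,1,2,3] [[0,1,2,3,4],[0,1,2,3,4],[0,1,2,3],[0,1,2,3,4]]],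
Node.mk [0,820,182,1542,2448,1486,768,841,2377] [(0,0),(2,0),(2,1),(3,0),(3,1),(3,3)] [],
Node.mk [0,820,182,1542,2448,1486,768,841] [(0,0),(1,0),(2,0),(2,1),(3,0),(3,1)] [Ref.mk 2377 3417 [0,1,2,3] [[0,1,2,3,4],[0,1,2,3,4],[0,1,2,3],[0,1,2,3]],Ref.mk 2362 3377 [3,1,2,0] [[0,1,3,2],[0,3,2,4,1],[0,1,3,2],[0,4,3,2,1]]],
Node.mk [0,820,182,1542,2448,1486,768,1579,3027] [(0,0),(1,0),(1,1),(2,0),(2,1),(3,0)] [],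
Node.mk [0,820,182,1542,2448,1486,768,1579] [(0,0),(1,2),(2,3),(3,1),(3,2),(3,3)] [Ref.mk 118 3162 [0,3,1,2] [[1,0,3,2,4],[0,3,2,1],[4,2,0,3,1],[1,3,2,0]],Ref.mk 3034 3418 [3,1,2,0] [[0,1,3,2,4],[0,1,2,4,3],[0,1,3,2],[0,1,3,2]],Ref.mk 111 3187 [0,3,1,2] [[3,0,1,2,4],[0,3,1,2],[3,2,1,4,0],[1,3,2,0]],Ref.mk 3027 3419 [0,1,2,3] [[0,1,2,3,4],[0,1,2,3,4],[0,1,2,3],[0,1,2,3,4]]],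
Node.mk [0,820,182,1542,2448,1486,768] [(0,0),(0,1),(0,3),(1,2),(2,3),(3,3)] [Ref.mk 731 3188 [2,0,1,3] [[0,3,1,2],[2,0,1,3],[0,2,1,3,4],[1,3,0,2]],Ref.mk 1469 3188 [2,0,1,3] [[0,3,1,2],[2,0,3,1],[1,2,0,4,3],[2,3,0,1]],Ref.mk 839 3188 [2,0,1,3] [[1,3,0,2],[2,0,3,1],[3,2,4,0,1],[1,3,0,2]],Ref.mk 1577 3188 [2,0,1,3] [[1,3,0,2],[2,0,1,3],[4,2,3,1,0],[2,3,0,1]],Ref.mk 733 3399 [0,1,2,3] [[0,1,2,3,4],[0,1,2,3,4],[0,1,2,3],[0,1,2,3]],Ref.mk 1471 3416 [0,1,2,3] [[0,1,2,3,4],[0,1,2,3,4],[0,1,2,3],[0,1,2,3]],Ref.mk 841 3418 [0,1,2,3] [[0,1,2,3,4],[0,1,2,3,4],[0,1,2,3],[0,1,2,3]],Ref.mk 1579 3420 [0,1,2,3] [[0,1,2,3,4],[0,1,2,3,4],[0,1,2,3],[0,1,2,3]]],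
Node.mk [0,820,182,1542,2448,1486,1578,2935,1083,1795,2189] [(0,0),(1,0),(1,1),(1,2),(1,3),(3,2)] [Ref.mk 2225 3317 [0,1,2,3] [[0,1,2,3],[0,1,2,3,4],[0,1,2,3],[0,1,2,3]],Ref.mk 2234 3317 [0,1,2,3] [[0,1,2,3],[0,1,2,3,5],[0,1,2,3],[0,1,2,3]]],
Node.mk [0,820,182,1542,2448,1486,1578,2935,1083,1795] [(0,0),(0,1),(0,3),(1,1),(1,2),(1,3)] [Ref.mk 2189 3422 [0,1,2,3] [[0,1,2,3,4],[0,1,2,3,4],[0,1,2,3,4],[0,1,2,3,4]],Ref.mk 3161 2012 [3,1,0,2] [[2,3,1,0,4],[0,2,1,4,3],[3,0,1,4,2],[1,3,0,4,2]],Ref.mk 2225 3313 [0,1,2,3] [[2,1,0,3,4],[4,1,2,3,0],[0,1,3,2,4],[3,1,2,0]],Ref.mk 2234 3313 [0,1,2,3] [[0,1,2,3,4],[0,1,2,3,5],[0,1,2,3,4],[0,1,2,3]]],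
Node.mk [0,820,182,1542,2448,1486,1578,2935,1083] [(0,0),(0,1),(0,2),(0,3),(1,2),(1,3)] [Ref.mk 1795 3423 [0,1,2,3] [[0,1,2,3,4],[0,1,2,3,4],[0,1,2,3,4],[0,1,2,3,4]]],
Node.mk [0,820,182,1542,2448,1486,1578,2935] [(1,2),(2,0),(2,1),(2,2),(2,3),(3,2)] [Ref.mk 1083 3424 [0,1,2,3] [[0,1,2,3],[0,1,2,3,4],[0,1,2,3,4],[0,1,2,3,4]]],
Node.mk [0,820,182,1542,2448,1486,1578,3161,2353] [(1,0),(2,0),(2,1),(2,2),(2,3),(3,2)] [Ref.mk 1083 91 [0,1,2,3] [[3,2,1,4,0],[0,2,3,4],[1,2,0,4,3],[2,0,3,1,4]]],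
Node.mk [0,820,182,1542,2448,1486,1578,3161,1633,2386] [(0,0),(1,1),(1,2),(2,3),(3,2),(3,3)] [Ref.mk 921 1710 [3,1,2,0] [[2,3,1,4,0],[0,2,3,4,1],[1,3,2,0],[3,0,2,1,4]]],
Node.mk [0,820,182,1542,2448,1486,1578,3161,1633] [(0,0),(1,0),(2,0),(2,1),(3,0),(3,2)] [Ref.mk 2386 3427 [0,1,2,3] [[0,1,2,3,4],[0,1,2,3,4],[0,1,2,3],[0,1,2,3,4]],Ref.mk 921 1711 [3,1,2,0] [[2,3,1,4,0],[0,2,3,4,1],[1,3,2,0],[3,0,2,1,4]]],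
Node.mk [0,820,182,1542,2448,1486,1578,3161,2938,1083,2939] [(0,0),(0,2),(0,3),(1,2),(2,1),(3,2)] [],
Node.mk [0,820,182,1542,2448,1486,1578,3161,2938,1083,266] [(0,0),(0,3),(1,2),(2,1),(2,3),(3,2)] [],
Node.mk [0,820,182,1542,2448,1486,1578,3161,2938,1083] [(0,0),(0,1),(0,2),(0,3),(0,4),(1,3)] [Ref.mk 1796 1701 [3,1,2,0] [[2,3,1,4,0],[0,2,3,4,1],[1,3,4,0,2],[3,0,2,1,5]],Ref.mk 2939 3429 [0,1,2,3] [[0,1,2,3,4,5],[0,1,2,3,4],[0,1,2,3,4],[0,1,2,3,4]],Ref.mk 266 3430 [0,1,2,3] [[0,1,2,3,4,5],[0,1,2,3,4],[0,1,2,3,4],[0,1,2,3,4]]],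
Node.mk [0,820,182,1542,2448,1486,1578,3161,2938] [(1,2),(2,0),(2,1),(2,2),(2,3),(3,2)] [Ref.mk 1083 3431 [0,1,2,3] [[0,1,2,3,4],[0,1,2,3,4],[0,1,2,3,4],[0,1,2,3,4]]],
Node.mk [0,820,182,1542,2448,1486,1578,3161] [(0,0),(0,1),(0,2),(0,3),(2,1),(2,3)] [Ref.mk 2353 3426 [0,1,2,3] [[0,1,2,3,4],[0,1,2,3,4],[0,1,2,3],[0,1,2,3,4]],Ref.mk 1471 2138 [3,1,0,2] [[2,0,1,4,3],[0,2,1,4],[3,2,1,4,0],[1,2,3,0]],Ref.mk 1633 3428 [0,1,2,3] [[0,1,2,3,4],[0,1,2,3,4],[0,1,2,3],[0,1,2,3,4]],Ref.mk 1795 2020 [2,1,0,3] [[1,2,4,3,0],[0,2,1,4],[3,2,4,1,0],[2,0,4,1,3]],Ref.mk 2938 3432 [0,1,2,3] [[0,1,2,3,4],[0,1,2,3,4],[0,1,2,3],[0,1,2,3,4]]],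
Node.mk [0,820,182,1542,2448,1486,1578,2936] [(0,0),(0,2),(0,3),(1,2),(2,1),(3,2)] [],
Node.mk [0,820,182,1542,2448,1486,1578,2928,324] [(0,0),(0,3),(1,0),(2,1),(3,0),(3,2)] [],
Node.mk [0,820,182,1542,2448,1486,1578,2928,1083,2353,283,427] [(0,0),(0,3),(0,4),(1,1),(1,3),(3,0)] [],
Node.mk [0,820,182,1542,2448,1486,1578,2928,1083,2353,283] [(0,3),(2,0),(2,1),(2,2),(2,3),(2,4)] [Ref.mk 405 3435 [0,1,2,3] [[0,1,2,3],[0,1,2,3,4],[0,1,2,3,5],[0,1,2,3,4]],Ref.mk 427 3436 [0,1,2,3] [[0,1,2,3,4],[0,1,2,3,4],[0,1,2,3,4,5],[0,1,2,3,4]]],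
Node.mk [0,820,182,1542,2448,1486,1578,2928,1083,2353,292,427] [(0,0),(0,3),(0,4),(1,1),(1,3),(3,0)] [],
Node.mk [0,820,182,1542,2448,1486,1578,2928,1083,2353,292] [(0,3),(2,0),(2,1),(2,2),(2,3),(2,4)] [Ref.mk 405 3435 [0,1,2,3] [[0,1,2,3],[0,1,2,3,4],[0,1,2,3,5],[0,1,2,3,4]],Ref.mk 427 3438 [0,1,2,3] [[0,1,2,3,4],[0,1,2,3,4,5],[0,1,2,3,4,5],[0,1,2,3,4]]],
Node.mk [0,820,182,1542,2448,1486,1578,2928,1083,2353] [(0,0),(0,3),(1,0),(1,1),(1,2),(1,3)] [Ref.mk 2225 3306 [0,1,2,3] [[0,1,2,3,4],[0,1,2,3,4],[0,1,2,3,4],[0,1,2,3,4]],Ref.mk 2234 3306 [0,1,2,3] [[0,1,2,3,4],[0,1,2,3,5],[0,1,2,3,4],[0,1,2,3,4]],Ref.mk 283 3437 [0,1,2,3] [[0,1,2,3,4],[0,1,2,3,4],[0,1,2,3,4],[0,1,2,3,4]],Ref.mk 292 3439 [0,1,2,3] [[0,1,2,3,4],[0,1,2,3,4,5],[0,1,2,3,4],[0,1,2,3,4]]],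
Node.mk [0,820,182,1542,2448,1486,1578,2928,1083,1795,3028] [(0,0),(1,0),(2,0),(2,1),(2,4),(3,0)] [],
Node.mk [0,820,182,1542,2448,1486,1578,2928,1083,1795] [(0,0),(2,0),(3,0),(3,1),(3,2),(3,3)] [Ref.mk 3161 1701 [3,1,2,0] [[2,3,1,4,0],[0,2,3,4,1],[1,3,4,0,2],[3,0,2,1,4]],Ref.mk 3890 1701 [3,1,2,0] [[2,3,1,5,0],[0,2,3,4,1],[1,3,4,0,2],[3,0,2,1,4]],Ref.mk 3028 3441 [0,1,2,3] [[0,1,2,3,4],[0,1,2,3,4],[0,1,2,3,4],[0,1,2,3,4]]],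
Node.mk [0,820,182,1542,2448,1486,1578,2928,1083,3028] [(0,0),(0,3),(1,0),(2,0),(2,1),(3,0)] [Ref.mk 1795 3441 [0,1,2,3] [[0,1,2,3,4],[0,1,2,3,4],[0,1,2,3,4],[0,1,2,3,4]]],
Node.mk [0,820,182,1542,2448,1486,1578,2928,1083] [(0,0),(0,1),(0,2),(0,3),(1,2),(2,3)] [Ref.mk 2353 3440 [0,1,2,3] [[0,1,2,3,4],[0,1,2,3,4],[0,1,2,3,4],[0,1,2,3,4]],Ref.mk 1795 3442 [0,1,2,3] [[0,1,2,3,4],[0,1,2,3,4],[0,1,2,3,4],[0,1,2,3,4]],Ref.mk 3028 3443 [0,1,2,3] [[0,1,2,3,4],[0,1,2,3,4],[0,1,2,3,4],[0,1,2,3,4]]],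
Node.mk [0,820,182,1542,2448,1486,1578,2928] [(1,1),(1,2),(2,0),(2,1),(2,2),(2,3)] [Ref.mk 324 3435 [0,1,2,3] [[0,1,2,3],[0,1,2,3,4],[0,1,2,3,4],[0,1,2,3,4]],Ref.mk 351 3189 [0,1,2,3] [[0,1,2,3],[0,1,2,3],[0,1,2,3,4],[0,1,2,3]],Ref.mk 360 2141 [2,1,3,0] [[1,2,0,4,3],[4,2,1,0],[2,0,4,1,3],[3,2,0,1]],Ref.mk 369 3189 [0,1,2,3] [[0,1,2,3],[0,1,2,5],[0,1,2,3,4],[0,1,2,3]],Ref.mk 2513 2140 [2,1,3,0] [[1,3,0,4,2],[0,2,1,4],[2,3,4,1,0],[3,0,2,1]],Ref.mk 1083 3444 [0,1,2,3] [[0,1,2,3],[0,1,2,3,4],[0,1,2,3,4],[0,1,2,3,4]]],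
Node.mk [0,820,182,1542,2448,1486,1578,2937,333] [(0,0),(0,1),(0,3),(1,1),(1,2),(1,3)] [],
Node.mk [0,820,182,1542,2448,1486,1578,2937,1083,256] [(0,0),(0,3),(1,1),(1,2),(1,3),(2,3)] [],
Node.mk [0,820,182,1542,2448,1486,1578,2937,1083,1795] [(0,0),(0,3),(2,0),(2,1),(3,0),(3,2)] [Ref.mk 3161 1701 [3,1,2,0] [[2,3,1,4,0],[0,2,3,4,1],[1,3,4,0,2],[3,0,2,1,4]]],
Node.mk [0,820,182,1542,2448,1486,1578,2937,1083] [(0,0),(0,1),(0,2),(0,3),(1,2),(1,3)] [Ref.mk 256 3447 [0,1,2,3] [[0,1,2,3,4],[0,1,2,3,4],[0,1,2,3,4],[0,1,2,3,4]],Ref.mk 1795 3448 [0,1,2,3] [[0,1,2,3,4],[0,1,2,3,4],[0,1,2,3,4],[0,1,2,3,4]]],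
Node.mk [0,820,182,1542,2448,1486,1578,2937] [(1,2),(2,0),(2,1),(2,2),(2,3),(3,2)] [Ref.mk 333 3446 [0,1,2,3] [[0,1,2,3],[0,1,2,3,4],[0,1,2,3,4],[0,1,2,3,4]],Ref.mk 1083 3449 [0,1,2,3] [[0,1,2,3],[0,1,2,3,4],[0,1,2,3,4],[0,1,2,3,4]]],
Node.mk [0,820,182,1542,2448,1486,1578,2938,2353] [(0,0),(0,4),(2,0),(2,1),(2,2),(3,2)] [Ref.mk 3161 3426 [0,1,2,3] [[0,1,2,3,4],[0,1,2,3,4],[0,1,2,3],[0,1,2,3,4]],Ref.mk 1002 67 [0,1,2,3] [[3,2,1,4,0],[0,2,3,4],[1,2,0,3],[2,0,3,1,4]],Ref.mk 1083 71 [0,1,2,3] [[3,2,1,4,0],[0,2,3,4],[1,2,0,4,3],[2,0,3,1,4]]],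
Node.mk [0,820,182,1542,2448,1486,1578,2938] [(0,0),(0,3),(2,0),(2,1),(3,0),(3,2)] [Ref.mk 3161 3432 [0,1,2,3] [[0,1,2,3,4],[0,1,2,3,4],[0,1,2,3],[0,1,2,3,4]],Ref.mk 2353 3451 [0,1,2,3] [[0,1,2,3,4],[0,1,2,3,4],[0,1,2,3],[0,1,2,3,4]]],
Node.mk [0,820,182,1542,2448,1486,1578] [(0,0),(2,1),(3,0),(3,1),(3,2),(3,3)] [Ref.mk 2935 3425 [0,1,2,3] [[0,1,2,3],[0,1,2,3,4],[0,1,2,3],[0,1,2,3,4]],Ref.mk 3161 3433 [0,1,2,3] [[0,1,2,3],[0,1,2,3,4],[0,1,2,3],[0,1,2,3,4]],Ref.mk 2936 3434 [0,1,2,3] [[0,1,2,3],[0,1,2,3,4],[0,1,2,3],[0,1,2,3,4]],Ref.mk 2928 3445 [0,1,2,3] [[0,1,2,3],[0,1,2,3,4],[0,1,2,3],[0,1,2,3,4]],Ref.mk 2937 3450 [0,1,2,3] [[0,1,2,3],[0,1,2,3,4],[0,1,2,3],[0,1,2,3,4]],Ref.mk 2938 3452 [0,1,2,3] [[0,1,2,3,4],[0,1,2,3,4],[0,1,2,3],[0,1,2,3,4]]],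
Node.mk [0,820,182,1542,2448,1486,282,3177,1791] [(0,0),(0,1),(0,3),(2,3),(3,0),(3,2)] [],
Node.mk [0,820,182,1542,2448,1486,282,3177,1793] [(0,0),(0,1),(0,2),(0,3),(3,0),(3,2)] []]

/-- nodes -/
noncomputable def c54 : List Node := [
Node.mk [0,820,182,1542,2448,1486,282,3177,1794] [(0,0),(0,1),(0,3),(1,2),(2,3),(3,2)] [],
Node.mk [0,820,182,1542,2448,1486,282,3177,1074] [(0,0),(0,1),(0,3),(3,0),(3,1),(3,2)] [],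
Node.mk [0,820,182,1542,2448,1486,282,3177,1083,856] [(0,0),(0,1),(1,2),(2,1),(2,3),(3,1)] [],
Node.mk [0,820,182,1542,2448,1486,282,3177,1083,1828] [(0,0),(0,1),(0,2),(0,3),(3,0),(3,2)] [],
Node.mk [0,820,182,1542,2448,1486,282,3177,1083] [(1,0),(1,1),(1,2),(1,3),(1,4),(3,0)] [Ref.mk 856 3458 [0,1,2,3] [[0,1,2,3],[0,1,2,3,4,5],[0,1,2,3,4],[0,1,2,3,4]],Ref.mk 1828 3459 [0,1,2,3] [[0,1,2,3],[0,1,2,3,4,5],[0,1,2,3,4],[0,1,2,3,4]],Ref.mk 1019 3386 [0,1,2,3] [[0,1,2,3],[0,1,2,3,5],[0,1,2,3],[0,1,2,3]],Ref.mk 777 3421 [0,1,2,3] [[0,1,2,3],[0,1,2,3,5],[0,1,2,3],[0,1,2,3]],Ref.mk 1587 3453 [0,1,2,3] [[0,1,2,3],[0,1,2,3,5],[0,1,2,3],[0,1,2,3]]],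
Node.mk [0,820,182,1542,2448,1486,282,3177,1795,733,1544] [(0,0),(0,1),(0,4),(1,2),(2,3),(3,2)] [],
Node.mk [0,820,182,1542,2448,1486,282,3177,1795,733,1472] [(0,0),(0,1),(1,2),(2,0),(2,3),(3,2)] [],
Node.mk [0,820,182,1542,2448,1486,282,3177,1795,733] [(0,0),(0,1),(0,2),(0,3),(0,4),(3,0)] [Ref.mk 1544 3461 [0,1,2,3] [[0,1,2,3,4,5],[0,1,2,3,4],[0,1,2,3,4],[0,1,2,3,4]],Ref.mk 1472 3462 [0,1,2,3] [[0,1,2,3,4,5],[0,1,2,3,4],[0,1,2,3,4],[0,1,2,3,4]]],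
Node.mk [0,820,182,1542,2448,1486,282,3177,1795] [(0,0),(0,1),(1,1),(1,2),(2,1),(2,3)] [Ref.mk 1083 3460 [0,1,2,3] [[0,1,2,3],[0,1,2,3,4],[0,1,2,3,4],[0,1,2,3,4]],Ref.mk 733 3463 [0,1,2,3] [[0,1,2,3,4],[0,1,2,3,4],[0,1,2,3,4],[0,1,2,3,4]]],
Node.mk [0,820,182,1542,2448,1486,282,3177] [(0,1),(2,0),(2,1),(2,2),(2,3),(3,0)] [Ref.mk 1791 3454 [0,1,2,3] [[0,1,2,3],[0,1,2,3,4],[0,1,2,3,4],[0,1,2,3,4]],Ref.mk 1793 3455 [0,1,2,3] [[0,1,2,3],[0,1,2,3,4],[0,1,2,3,4],[0,1,2,3,4]],Ref.mk 1794 3456 [0,1,2,3] [[0,1,2,3],[0,1,2,3,4],[0,1,2,3,4],[0,1,2,3,4]],Ref.mk 1074 3457 [0,1,2,3] [[0,1,2,3],[0,1,2,3,4],[0,1,2,3,4],[0,1,2,3,4]],Ref.mk 1083 3460 [0,1,2,3] [[0,1,2,3],[0,1,2,3,4],[0,1,2,3,4],[0,1,2,3,4]],Ref.mk 1795 3464 [0,1,2,3] [[0,1,2,3,4],[0,1,2,3,4],[0,1,2,3,4],[0,1,2,3,4]]],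
Node.mk [0,820,182,1542,2448,1486,282,3114,733,2352,1083,185] [(0,0),(0,1),(0,3),(0,4),(1,2),(3,1)] [],
Node.mk [0,820,182,1542,2448,1486,282,3114,733,2352,1083] [(0,0),(0,1),(0,2),(0,3),(0,4),(3,1)] [Ref.mk 185 3466 [0,1,2,3] [[0,1,2,3,4,5],[0,1,2,3,4],[0,1,2,3,4],[0,1,2,3,4]]],
Node.mk [0,820,182,1542,2448,1486,282,3114,733,2352] [(1,0),(1,1),(2,0),(2,1),(2,2),(2,3)] [Ref.mk 1083 3467 [0,1,2,3] [[0,1,2,3,4],[0,1,2,3,4],[0,1,2,3,4],[0,1,2,3,4]]],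
Node.mk [0,820,182,1542,2448,1486,282,3114,733,2937,1504] [(0,0),(0,1),(0,3),(1,0),(1,2),(3,2)] [Ref.mk 3170 3386 [2,3,0,1] [[0,3,1,2],[0,4,2,3,1],[0,2,3,1],[0,1,2,3]],Ref.mk 2225 3317 [0,1,2,3] [[0,1,2,3],[0,1,2,3,4],[0,1,2,3],[0,1,2,3]],Ref.mk 2306 3327 [0,1,2,3] [[0,1,2,3],[0,1,2,3,4],[0,1,2,3],[0,1,2,3]],Ref.mk 1010 3386 [0,1,2,3] [[0,1,2,3],[0,1,2,3,4],[0,1,2,3],[0,1,2,3]]],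
Node.mk [0,820,182,1542,2448,1486,282,3114,733,2937] [(1,0),(1,1),(1,2),(1,3),(1,4),(2,1)] [Ref.mk 45 2306 [0,1,2,3] [[0,1,2,3],[0,1,2,5],[0,1,2,3],[0,1,2,3]],Ref.mk 1504 3469 [0,1,2,3] [[0,1,2,3,4],[0,1,2,3,4,5],[0,1,2,3],[0,1,2,3,4]],Ref.mk 777 3421 [0,1,2,3] [[0,1,2,3],[0,1,2,3,5],[0,1,2,3],[0,1,2,3]]],
Node.mk [0,820,182,1542,2448,1486,282,3114,733] [(0,0),(0,1),(1,1),(2,1),(3,0),(3,1)] [Ref.mk 3161 3313 [3,0,1,2] [[2,4,1,0,3],[3,0,1,2,4],[0,4,1,3,2],[1,2,3,0]],Ref.mk 2225 3317 [0,1,2,3] [[0,1,2,3],[0,1,2,3,4],[0,1,2,3],[0,1,2,3]],Ref.mk 2352 3468 [0,1,2,3] [[0,1,2,3,4],[0,1,2,3,4],[0,1,2,3],[0,1,2,3,4]],Ref.mk 2937 3470 [0,1,2,3] [[0,1,2,3,4],[0,1,2,3,4],[0,1,2,3],[0,1,2,3,4]]],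
Node.mk [0,820,182,1542,2448,1486,282,3114,184] [(0,0),(0,1),(0,3),(1,1),(2,1),(3,0)] [Ref.mk 731 3471 [0,1,2,3] [[0,1,4,3,2],[0,1,2,3,4],[0,1,2,3],[0,1,2,3,4]],Ref.mk 733 3471 [0,1,2,3] [[0,1,2,3,4],[0,1,2,3,4],[0,1,2,3],[0,1,2,3,4]],Ref.mk 734 3471 [0,1,2,3] [[0,1,4,3,5],[0,1,2,3,4],[0,1,2,3],[0,1,2,3,4]]],
Node.mk [0,820,182,1542,2448,1486,282,3114,283,3161] [(0,1),(1,1),(2,0),(2,1),(2,2),(2,3)] [Ref.mk 324 3442 [3,0,1,2] [[2,4,1,0,3],[3,0,1,2,4],[0,4,1,3,2],[1,2,3,0,4]],Ref.mk 1083 1701 [2,0,1,3] [[3,0,2,4,1],[3,1,2,4,0],[4,3,2,0,1],[0,2,1,4,3]]],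
Node.mk [0,820,182,1542,2448,1486,282,3114,283] [(0,0),(0,1),(1,1),(2,1),(3,0),(3,1)] [Ref.mk 3161 3473 [0,1,2,3] [[0,1,2,3,4],[0,1,2,3,4],[0,1,2,3],[0,1,2,3,4]],Ref.mk 2225 2130 [1,0,2,3] [[4,1,2,0,3],[3,1,2,4,0],[3,1,2,0],[0,1,2,3,4]]],
Node.mk [0,820,182,1542,2448,1486,282,3114] [(0,0),(0,1),(0,2),(0,3),(1,1),(2,1)] [Ref.mk 733 3471 [0,1,2,3] [[0,1,2,3,4],[0,1,2,3,4],[0,1,2,3],[0,1,2,3,4]],Ref.mk 184 3472 [0,1,2,3] [[0,1,2,3,4],[0,1,2,3,4],[0,1,2,3],[0,1,2,3,4]],Ref.mk 283 3474 [0,1,2,3] [[0,1,2,3,4],[0,1,2,3,4],[0,1,2,3],[0,1,2,3,4]]],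
Node.mk [0,820,182,1542,2448,1486,282,3161,344,2937,1001] [(0,1),(0,2),(0,3),(2,0),(2,1),(2,3)] [],
Node.mk [0,820,182,1542,2448,1486,282,3161,344,2937] [(0,1),(0,3),(1,0),(1,1),(1,2),(2,1)] [Ref.mk 1001 3476 [0,1,2,3] [[0,1,2,3],[0,1,2,3,4],[0,1,2,3,4],[0,1,2,3,4]],Ref.mk 2225 3317 [0,1,2,3] [[0,1,2,3],[0,1,2,3,4],[0,1,2,3],[0,1,2,3]],Ref.mk 1010 3386 [0,1,2,3] [[0,1,2,3],[0,1,2,3,4],[0,1,2,3],[0,1,2,3]],Ref.mk 1019 3386 [0,1,2,3] [[0,1,2,3],[0,1,2,3,5],[0,1,2,3],[0,1,2,3]]],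
Node.mk [0,820,182,1542,2448,1486,282,3161,344] [(0,1),(1,1),(2,1),(2,3),(3,0),(3,1)] [Ref.mk 2225 3297 [0,1,2,3] [[0,1,2,3],[0,1,2,3,4],[0,1,2,3,4],[0,1,2,3]],Ref.mk 2937 3477 [0,1,2,3] [[0,1,2,3],[0,1,2,3,4],[0,1,2,3,4],[0,1,2,3,4]]],
Node.mk [0,820,182,1542,2448,1486,282,3161,1083,3114] [(0,0),(0,1),(0,2),(0,3),(1,0),(1,3)] [Ref.mk 1795 3310 [3,1,0,2] [[2,0,1,4,3],[0,2,1,4,3],[3,2,1,4,0],[1,2,3,4,0]],Ref.mk 283 1701 [2,0,1,3] [[3,0,2,4,1],[3,1,2,4,0],[4,3,2,0,1],[0,2,1,4,3]]],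
Node.mk [0,820,182,1542,2448,1486,282,3161,1083] [(0,1),(1,0),(1,1),(1,2),(1,3),(2,3)] [Ref.mk 3114 3479 [0,1,2,3] [[0,1,2,3],[0,1,2,3,4],[0,1,2,3,4],[0,1,2,3,4]],Ref.mk 2225 3316 [0,1,2,3] [[0,1,2,3],[0,1,2,3,4],[0,1,2,3,4],[0,1,2,3]],Ref.mk 768 3421 [0,1,2,3] [[0,1,2,3],[0,1,2,3,4],[0,1,2,3],[0,1,2,3]],Ref.mk 1578 3433 [0,1,2,3] [[0,1,2,3],[0,1,2,3,4],[0,1,2,3],[0,1,2,3,4]],Ref.mk 777 3421 [0,1,2,3] [[0,1,2,3],[0,1,2,3,5],[0,1,2,3],[0,1,2,3]],Ref.mk 1587 3433 [0,1,2,3] [[0,1,2,3],[0,1,2,3,5],[0,1,2,3],[0,1,2,3,4]]],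
Node.mk [0,820,182,1542,2448,1486,282,3161] [(0,1),(1,1),(2,0),(2,1),(2,2),(2,3)] [Ref.mk 324 2304 [1,2,0,3] [[0,1,4,3,2],[0,1,3,4,2],[0,1,3,2],[0,1,2,4,3]],Ref.mk 344 3478 [0,1,2,3] [[0,1,2,3],[0,1,2,3,4],[0,1,2,3,4],[0,1,2,3,4]],Ref.mk 1083 3480 [0,1,2,3] [[0,1,2,3],[0,1,2,3,4],[0,1,2,3,4],[0,1,2,3,4]]],
Node.mk [0,820,182,1542,2448,1486,282,2928,1504,731] [(0,1),(0,3),(3,0),(3,1),(3,2),(3,3)] [Ref.mk 3177 3465 [0,1,2,3] [[0,1,2,3],[0,1,2,3,4],[0,1,2,3],[0,1,2,3,4]],Ref.mk 3906 3465 [0,1,2,3] [[0,1,2,3],[0,1,2,3,4],[0,1,2,3],[0,1,2,3,5]],Ref.mk 3114 3475 [0,1,2,3] [[0,1,2,3],[0,1,2,3,4],[0,1,2,3],[0,1,2,3,4]],Ref.mk 3843 3475 [0,1,2,3] [[0,1,2,3],[0,1,2,3,4],[0,1,2,3],[0,1,2,3,5]],Ref.mk 3161 3481 [0,1,2,3] [[0,1,2,3],[0,1,2,3,4],[0,1,2,3],[0,1,2,3,4]],Ref.mk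 3890 3481 [0,1,2,3] [[0,1,2,3],[0,1,2,3,4],[0,1,2,3],[0,1,2,3,5]],Ref.mk 3170 3386 [2,3,0,1] [[0,3,1,2],[0,4,2,3,1],[0,2,3,1],[0,1,2,3]],Ref.mk 3899 3386 [2,3,0,1] [[0,3,1,2],[0,5,2,3,1],[0,2,3,1],[0,1,2,3]]],
Node.mk [0,820,182,1542,2448,1486,282,2928,1504,733] [(0,1),(0,3),(3,0),(3,1),(3,2),(3,3)] [Ref.mk 3177 3465 [0,1,2,3] [[0,1,2,3],[0,1,2,3,4],[0,1,2,3],[0,1,2,3,4]],Ref.mk 3906 3465 [0,1,2,3] [[0,1,2,3],[0,1,2,3,4],[0,1,2,3],[0,1,2,3,5]],Ref.mk 3114 3471 [0,1,2,3] [[0,1,2,3,4],[0,1,2,5,4],[0,1,2,3],[0,1,2,3,4]],Ref.mk 3843 3471 [0,1,2,3] [[0,1,2,3,4],[0,1,2,5,4],[0,1,2,3],[0,1,2,3,5]],Ref.mk 3161 3481 [0,1,2,3] [[0,1,2,3],[0,1,2,3,4],[0,1,2,3],[0,1,2,3,4]],Ref.mk 3890 3481 [0,1,2,3] [[0,1,2,3],[0,1,2,3,4],[0,1,2,3],[0,1,2,3,5]],Ref.mk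 3170 3386 [2,3,0,1] [[0,3,1,2],[0,4,2,3,1],[0,2,3,1],[0,1,2,3]],Ref.mk 3899 3386 [2,3,0,1] [[0,3,1,2],[0,5,2,3,1],[0,2,3,1],[0,1,2,3]]],
Node.mk [0,820,182,1542,2448,1486,282,2928,1504] [(0,0),(0,1),(0,3),(1,1),(1,2),(2,3)] [Ref.mk 731 3482 [0,1,2,3] [[0,1,2,3],[0,1,2,3,4,5],[0,1,2,3],[0,1,2,3,4]],Ref.mk 2225 3317 [0,1,2,3] [[0,1,2,3],[0,1,2,3,4],[0,1,2,3],[0,1,2,3]],Ref.mk 2306 3327 [0,1,2,3] [[0,1,2,3],[0,1,2,3,4],[0,1,2,3],[0,1,2,3]],Ref.mk 733 3483 [0,1,2,3] [[0,1,2,3,4],[0,1,2,3,4,5],[0,1,2,3],[0,1,2,3,4]]],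
Node.mk [0,820,182,1542,2448,1486,282,2928,2395] [(0,0),(0,1),(0,2),(0,3),(1,1),(3,0)] [],
Node.mk [0,820,182,1542,2448,1486,282,2928] [(1,0),(1,1),(1,2),(1,3),(1,4),(3,0)] [Ref.mk 1504 3484 [0,1,2,3] [[0,1,2,3],[0,1,2,3,4,5],[0,1,2,3],[0,1,2,3,4]],Ref.mk 3043 3418 [3,1,2,0] [[0,4,3,2,1],[0,5,2,1,3],[0,1,3,2],[0,1,3,2]],Ref.mk 2395 3485 [0,1,2,3] [[0,1,2,3],[0,1,2,3,4,5],[0,1,2,3],[0,1,2,3,4]],Ref.mk 1019 3377 [0,1,2,3] [[0,1,2,3],[0,1,2,3,5],[0,1,2,3],[0,1,2,3,4]],Ref.mk 777 3416 [3,1,2,0] [[0,1,3,2,4],[0,1,2,5,3],[0,1,3,2],[0,1,3,2]],Ref.mk 1587 3445 [0,1,2,3] [[0,1,2,3],[0,1,2,3,5],[0,1,2,3],[0,1,2,3,4]]],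
Node.mk [0,820,182,1542,2448,1486,282,2937,2225,733,1504] [(0,1),(0,3),(3,0),(3,1),(3,2),(3,3)] [Ref.mk 3114 3469 [0,1,2,3] [[0,1,2,3,4],[0,1,2,3,4,5],[0,1,2,3],[0,1,2,3,4]],Ref.mk 3161 3481 [0,1,2,3] [[0,1,2,3],[0,1,2,3,4],[0,1,2,3],[0,1,2,3,4]],Ref.mk 3170 3386 [2,3,0,1] [[0,3,1,2],[0,4,2,3,1],[0,2,3,1],[0,1,2,3]],Ref.mk 3899 3386 [2,3,0,1] [[0,3,1,2],[0,5,2,3,1],[0,2,3,1],[0,1,2,3]]],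
Node.mk [0,820,182,1542,2448,1486,282,2937,2225,733] [(1,0),(1,1),(1,2),(1,3),(1,4),(2,1)] [Ref.mk 45 2306 [0,1,2,3] [[0,1,2,3],[0,1,2,5],[0,1,2,3],[0,1,2,3]],Ref.mk 1504 3487 [0,1,2,3] [[0,1,2,3,4],[0,1,2,3,4,5],[0,1,2,3],[0,1,2,3,4]],Ref.mk 1019 3386 [0,1,2,3] [[0,1,2,3],[0,1,2,3,5],[0,1,2,3],[0,1,2,3]],Ref.mk 777 3421 [0,1,2,3] [[0,1,2,3],[0,1,2,3,5],[0,1,2,3],[0,1,2,3]]],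
Node.mk [0,820,182,1542,2448,1486,282,2937,2225,751,344] [(0,2),(0,3),(1,0),(1,2),(2,1),(3,2)] [Ref.mk 9 3231 [3,1,2,0] [[0,2,3,1,4],[1,0,2,3,4],[0,1,3,2,4],[0,3,1,2]],Ref.mk 27 2306 [0,1,2,3] [[0,1,2,3],[0,1,2,3],[0,1,2,3],[0,1,2,3]],Ref.mk 36 2306 [0,1,2,3] [[0,1,2,3],[0,1,2,4],[0,1,2,3],[0,1,2,3]],Ref.mk 45 2306 [0,1,2,3] [[0,1,2,3],[0,1,2,5],[0,1,2,3],[0,1,2,3]]],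
Node.mk [0,820,182,1542,2448,1486,282,2937,2225,751,1795] [(0,1),(0,3),(1,1),(1,2),(2,0),(2,1)] [Ref.mk 3161 3481 [0,1,2,3] [[0,1,2,3],[0,1,2,3,4],[0,1,2,3],[0,1,2,3,4]]],
Node.mk [0,820,182,1542,2448,1486,282,2937,2225,751] [(0,1),(0,3),(2,0),(2,1),(2,2),(2,3)] [Ref.mk 344 3489 [0,1,2,3] [[0,1,2,3,4],[0,1,2,3,4],[0,1,2,3,4],[0,1,2,3,4]],Ref.mk 1795 3490 [0,1,2,3] [[0,1,2,3,4],[0,1,2,3,4],[0,1,2,3,4],[0,1,2,3,4]]],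
Node.mk [0,820,182,1542,2448,1486,282,2937,2225] [(0,0),(0,1),(0,2),(0,3),(1,1),(2,1)] [Ref.mk 733 3488 [0,1,2,3] [[0,1,2,3,4],[0,1,2,3,4],[0,1,2,3],[0,1,2,3,4]],Ref.mk 22 2400 [1,2,0,3] [[2,1,4,3,0],[0,1,3,2],[4,1,3,0,2],[0,1,2,3,4]],Ref.mk 751 3491 [0,1,2,3] [[0,1,2,3,4],[0,1,2,3,4],[0,1,2,3],[0,1,2,3,4]]],
Node.mk [0,820,182,1542,2448,1486,282,2937,2352,733,1795] [(0,1),(0,3),(0,4),(1,0),(1,1),(1,2)] [Ref.mk 3114 3312 [3,1,2,0] [[1,4,2,3,0],[0,4,1,2,3],[0,2,4,1,3],[4,0,3,1,2]],Ref.mk 2225 3488 [0,1,2,3] [[0,1,2,3,4],[0,1,2,3,4],[0,1,2,3],[0,1,2,3,4]]],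
Node.mk [0,820,182,1542,2448,1486,282,2937,2352,733] [(0,1),(0,3),(2,0),(2,1),(2,2),(2,3)] [Ref.mk 1795 3493 [0,1,2,3] [[0,1,2,3,4],[0,1,2,3,4],[0,1,2,3,4],[0,1,2,3,4]]],
Node.mk [0,820,182,1542,2448,1486,282,2937,2352,751,81] [(0,0),(0,3),(1,0),(1,2),(2,0),(2,1)] [],
Node.mk [0,820,182,1542,2448,1486,282,2937,2352,751] [(0,1),(0,3),(0,4),(1,2),(2,0),(3,1)] [Ref.mk 81 3495 [0,1,2,3] [[0,1,2,3,4],[0,1,2,3,4],[0,1,2,3],[0,1,2,3,4]],Ref.mk 3161 3481 [0,1,2,3] [[0,1,2,3],[0,1,2,3,4],[0,1,2,3],[0,1,2,3,4]],Ref.mk 2306 3327 [0,1,2,3] [[0,1,2,3],[0,1,2,3,4],[0,1,2,3],[0,1,2,3]]],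
Node.mk [0,820,182,1542,2448,1486,282,2937,2352,184] [(0,0),(0,1),(0,3),(1,1),(1,2),(2,1)] [Ref.mk 731 3494 [0,1,2,3] [[0,1,4,3,2],[0,1,2,3,4],[0,1,2,3],[0,1,2,3,4]],Ref.mk 733 3494 [0,1,2,3] [[0,1,2,3,4],[0,1,2,3,4],[0,1,2,3],[0,1,2,3,4]],Ref.mk 734 3494 [0,1,2,3] [[0,1,4,3,5],[0,1,2,3,4],[0,1,2,3],[0,1,2,3,4]]],
Node.mk [0,820,182,1542,2448,1486,282,2937,2352] [(0,0),(0,1),(0,2),(0,3),(1,1),(2,1)] [Ref.mk 733 3494 [0,1,2,3] [[0,1,2,3,4],[0,1,2,3,4],[0,1,2,3],[0,1,2,3,4]],Ref.mk 751 3496 [0,1,2,3] [[0,1,2,3,4],[0,1,2,3,4],[0,1,2,3],[0,1,2,3,4]],Ref.mk 184 3497 [0,1,2,3] [[0,1,2,3,4],[0,1,2,3,4],[0,1,2,3],[0,1,2,3,4]]],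
Node.mk [0,820,182,1542,2448,1486,282,2937] [(0,1),(1,1),(1,2),(2,1),(3,0),(3,1)] [Ref.mk 3114 3475 [0,1,2,3] [[0,1,2,3],[0,1,2,3,4],[0,1,2,3],[0,1,2,3,4]],Ref.mk 3161 3481 [0,1,2,3] [[0,1,2,3],[0,1,2,3,4],[0,1,2,3],[0,1,2,3,4]],Ref.mk 2225 3492 [0,1,2,3] [[0,1,2,3],[0,1,2,3,4],[0,1,2,3],[0,1,2,3,4]],Ref.mk 2352 3498 [0,1,2,3] [[0,1,2,3],[0,1,2,3,4],[0,1,2,3],[0,1,2,3,4]]],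
Node.mk [0,820,182,1542,2448,1486,282] [(0,1),(2,1),(3,0),(3,1),(3,2),(3,3)] [Ref.mk 3177 3465 [0,1,2,3] [[0,1,2,3],[0,1,2,3,4],[0,1,2,3],[0,1,2,3,4]],Ref.mk 3114 3475 [0,1,2,3] [[0,1,2,3],[0,1,2,3,4],[0,1,2,3],[0,1,2,3,4]],Ref.mk 3161 3481 [0,1,2,3] [[0,1,2,3],[0,1,2,3,4],[0,1,2,3],[0,1,2,3,4]],Ref.mk 3170 3386 [2,3,0,1] [[0,3,1,2],[0,4,2,3,1],[0,2,3,1],[0,1,2,3]],Ref.mk 2928 3486 [0,1,2,3] [[0,1,2,3],[0,1,2,3,4],[0,1,2,3],[0,1,2,3,4]],Ref.mk 2937 3499 [0,1,2,3] [[0,1,2,3],[0,1,2,3,4],[0,1,2,3],[0,1,2,3,4]]],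
Node.mk [0,820,182,1542,2448,1486,1579,733,1795,3028] [(0,0),(0,4),(1,0),(2,0),(2,1),(3,0)] [],
Node.mk [0,820,182,1542,2448,1486,1579,733,1795] [(0,0),(1,2),(2,3),(3,1),(3,2),(3,3)] [Ref.mk 112 3186 [0,3,1,2] [[4,0,1,2,3],[0,3,1,2],[3,2,1,0,4],[1,3,2,0,4]],Ref.mk 3028 3501 [0,1,2,3] [[0,1,2,3,4],[0,1,2,3,4],[0,1,2,3,4],[0,1,2,3,4]]],
Node.mk [0,820,182,1542,2448,1486,1579,733] [(1,0),(1,2),(2,0),(2,1),(2,2),(3,0)] [Ref.mk 1712 3416 [0,1,3,2] [[2,4,0,1,3],[1,0,2,4,3],[2,1,3,0],[3,0,1,2]],Ref.mk 1010 3420 [0,1,3,2] [[2,1,0,4,3],[4,3,2,1,0],[1,2,3,0],[3,0,1,2]],Ref.mk 1714 3187 [0,2,1,3] [[4,2,1,0,3],[3,2,0,1],[1,2,3,0,4],[2,0,3,1]],Ref.mk 1795 3502 [0,1,2,3] [[0,1,2,3,4],[0,1,2,3,4],[0,1,2,3,4],[0,1,2,3]]],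
Node.mk [0,820,182,1542,2448,1486,1579] [(0,0),(1,2),(2,1),(2,3),(3,2),(3,3)] [Ref.mk 768 3420 [0,1,2,3] [[0,1,2,3,4],[0,1,2,3,4],[0,1,2,3],[0,1,2,3]],Ref.mk 733 3503 [0,1,2,3] [[0,1,2,3,4],[0,1,2,3,4],[0,1,2,3],[0,1,2,3]]],
Node.mk [0,820,182,1542,2448,1486,283,3177,1054] [(0,0),(0,1),(1,2),(2,3),(3,1),(3,2)] [],
Node.mk [0,820,182,1542,2448,1486,283,3177,2512,2199,1504] [(0,0),(0,1),(1,0),(1,1),(1,2),(2,3)] [],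
Node.mk [0,820,182,1542,2448,1486,283,3177,2512,2199,2314] [(0,0),(0,1),(0,2),(2,0),(2,1),(3,0)] [],
Node.mk [0,820,182,1542,2448,1486,283,3177,2512,2199] [(1,0),(1,1),(1,2),(1,3),(1,4),(3,0)] [Ref.mk 1504 3506 [0,1,2,3] [[0,1,2,3,4],[0,1,2,3,4,5],[0,1,2,3,4],[0,1,2,3,4]],Ref.mk 2314 3507 [0,1,2,3] [[0,1,2,3,4],[0,1,2,3,4,5],[0,1,2,3,4],[0,1,2,3,4]],Ref.mk 1019 1747 [2,3,0,1] [[3,1,2,4,0],[3,1,0,4,2],[0,1,2,4,3],[2,1,0,4,5]]],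
Node.mk [0,820,182,1542,2448,1486,283,3177,2512,1083,856] [(0,0),(0,1),(1,0),(1,2),(1,3),(2,3)] [],
Node.mk [0,820,182,1542,2448,1486,283,3177,2512,1083,1828] [(0,0),(0,1),(0,3),(1,1),(1,2),(2,3)] [],
Node.mk [0,820,182,1542,2448,1486,283,3177,2512,1083] [(1,0),(1,1),(1,2),(1,3),(1,4),(3,0)] [Ref.mk 856 3509 [0,1,2,3] [[0,1,2,3,4],[0,1,2,3,4,5],[0,1,2,3,4],[0,1,2,3,4]],Ref.mk 1828 3510 [0,1,2,3] [[0,1,2,3,4],[0,1,2,3,4,5],[0,1,2,3,4],[0,1,2,3,4]],Ref.mk 1019 3386 [0,1,2,3] [[0,1,2,3],[0,1,2,3,5],[0,1,2,3],[0,1,2,3]]],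
Node.mk [0,820,182,1542,2448,1486,283,3177,2512] [(0,0),(1,0),(1,2),(2,1),(2,3),(3,2)] [Ref.mk 2199 3508 [0,1,2,3] [[0,1,2,3,4],[0,1,2,3,4],[0,1,2,3,4],[0,1,2,3,4]],Ref.mk 1083 3511 [0,1,2,3] [[0,1,2,3,4],[0,1,2,3,4],[0,1,2,3,4],[0,1,2,3,4]]],
Node.mk [0,820,182,1542,2448,1486,283,3177,3970,3657,1504] [(0,0),(0,1),(1,0),(1,1),(1,2),(2,3)] [],
Node.mk [0,820,182,1542,2448,1486,283,3177,3970,3657,3772] [(0,0),(0,1),(0,2),(2,0),(2,1),(3,0)] [],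
Node.mk [0,820,182,1542,2448,1486,283,3177,3970,3657] [(1,0),(1,1),(1,2),(1,3),(1,4),(3,0)] [Ref.mk 1504 3513 [0,1,2,3] [[0,1,2,3,4],[0,1,2,3,4,5],[0,1,2,3,4],[0,1,2,3,4,5]],Ref.mk 3772 3514 [0,1,2,3] [[0,1,2,3,4],[0,1,2,3,4,5],[0,1,2,3,4],[0,1,2,3,4,5]],Ref.mk 1019 3386 [0,1,2,3] [[0,1,2,3],[0,1,2,3,5],[0,1,2,3],[0,1,2,3]]],
Node.mk [0,820,182,1542,2448,1486,283,3177,3970,1083,856] [(0,0),(0,1),(1,0),(1,2),(1,3),(2,3)] [],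
Node.mk [0,820,182,1542,2448,1486,283,3177,3970,1083,1828] [(0,0),(0,1),(0,3),(1,1),(1,2),(2,3)] [],
Node.mk [0,820,182,1542,2448,1486,283,3177,3970,1083] [(1,0),(1,1),(1,2),(1,3),(1,4),(3,0)] [Ref.mk 856 3516 [0,1,2,3] [[0,1,2,3,4],[0,1,2,3,4,5],[0,1,2,3,4],[0,1,2,3,4,5]],Ref.mk 1828 3517 [0,1,2,3] [[0,1,2,3,4],[0,1,2,3,4,5],[0,1,2,3,4],[0,1,2,3,4,5]],Ref.mk 1019 3386 [0,1,2,3] [[0,1,2,3],[0,1,2,3,5],[0,1,2,3],[0,1,2,3]]],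
Node.mk [0,820,182,1542,2448,1486,283,3177,3970] [(0,0),(1,0),(1,2),(2,1),(2,3),(3,2)] [Ref.mk 3657 3515 [0,1,2,3] [[0,1,2,3,4],[0,1,2,3,4],[0,1,2,3,4],[0,1,2,3,4,5]],Ref.mk 1083 3518 [0,1,2,3] [[0,1,2,3,4],[0,1,2,3,4],[0,1,2,3,4],[0,1,2,3,4,5]]]]

/-- nodes -/
noncomputable def c55 : List Node := [
Node.mk [0,820,182,1542,2448,1486,283,3177,1083,325,856] [(0,0),(0,1),(1,0),(1,2),(1,3),(2,3)] [],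
Node.mk [0,820,182,1542,2448,1486,283,3177,1083,325,1828] [(0,0),(0,1),(0,3),(1,1),(1,2),(2,3)] [],
Node.mk [0,820,182,1542,2448,1486,283,3177,1083,325] [(1,0),(1,1),(1,2),(1,3),(1,4),(3,0)] [Ref.mk 856 3520 [0,1,2,3] [[0,1,2,3,4],[0,1,2,3,4,5],[0,1,2,3,4],[0,1,2,3,4]],Ref.mk 1828 3521 [0,1,2,3] [[0,1,2,3,4],[0,1,2,3,4,5],[0,1,2,3,4],[0,1,2,3,4]],Ref.mk 1019 3386 [0,1,2,3] [[0,1,2,3],[0,1,2,3,5],[0,1,2,3],[0,1,2,3]]],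
Node.mk [0,820,182,1542,2448,1486,283,3177,1083] [(0,0),(1,2),(2,1),(2,3),(3,1),(3,2)] [Ref.mk 325 3522 [0,1,2,3] [[0,1,2,3,4],[0,1,2,3,4],[0,1,2,3,4],[0,1,2,3,4]],Ref.mk 2512 3511 [0,1,2,3] [[0,1,2,3,4],[0,1,2,3,4],[0,1,2,3,4],[0,1,2,3,4]],Ref.mk 3241 3511 [0,1,2,3] [[0,1,2,3,4],[0,1,2,3,4],[0,1,2,3,4],[0,1,2,4,3]],Ref.mk 3970 3518 [0,1,2,3] [[0,1,2,3,4],[0,1,2,3,4],[0,1,2,3,4],[0,1,2,3,4,5]],Ref.mk 12 3522 [0,2,1,3] [[0,3,4,1,2],[0,4,3,1,2],[0,3,4,2,1],[0,1,2,3,4]],Ref.mk 2199 3511 [0,2,1,3] [[0,3,4,1,2],[0,4,3,1,2],[0,3,4,2,1],[0,1,2,3,4]],Ref.mk 2928 3511 [0,2,1,3] [[0,3,4,1,2],[0,4,3,1,2],[0,3,4,2,1],[0,1,2,4,3]],Ref.mk 3657 3518 [0,2,1,3] [[0,3,4,1,2],[0,4,3,1,2],[0,3,4,2,1],[0,1,2,3,4,5]]],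
Node.mk [0,820,182,1542,2448,1486,283,3177,1075,1584] [(0,0),(0,1),(0,4),(3,0),(3,1),(3,2)] [],
Node.mk [0,820,182,1542,2448,1486,283,3177,1075,292] [(0,1),(0,4),(1,0),(1,1),(1,2),(1,3)] [Ref.mk 1575 3524 [0,1,2,3] [[0,1,2,3,4],[0,1,2,3,5,4],[0,1,2,3,4],[0,1,2,3,4]],Ref.mk 360 3189 [0,1,2,3] [[0,1,2,3],[0,1,2,4],[0,1,2,3,4],[0,1,2,3]],Ref.mk 1584 3524 [0,1,2,3] [[0,1,2,3,4],[0,1,2,3,4,5],[0,1,2,3,4],[0,1,2,3,4]],Ref.mk 369 3189 [0,1,2,3] [[0,1,2,3],[0,1,2,5],[0,1,2,3,4],[0,1,2,3]],Ref.mk 1593 3524 [0,1,2,3] [[0,1,2,3,4],[0,1,2,3,5,6],[0,1,2,3,4],[0,1,2,3,4]],Ref.mk 378 3189 [0,1,2,3] [[0,1,2,3],[0,1,2,6],[0,1,2,3,4],[0,1,2,3]],Ref.mk 1010 3386 [0,1,2,3] [[0,1,2,3],[0,1,2,3,4],[0,1,2,3],[0,1,2,3]],Ref.mk 1019 3386 [0,1,2,3] [[0,1,2,3],[0,1,2,3,5],[0,1,2,3],[0,1,2,3]],Ref.mk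 1028 3386 [0,1,2,3] [[0,1,2,3],[0,1,2,3,6],[0,1,2,3],[0,1,2,3]],Ref.mk 768 3421 [0,1,2,3] [[0,1,2,3],[0,1,2,3,4],[0,1,2,3],[0,1,2,3]],Ref.mk 777 3421 [0,1,2,3] [[0,1,2,3],[0,1,2,3,5],[0,1,2,3],[0,1,2,3]],Ref.mk 786 3421 [0,1,2,3] [[0,1,2,3],[0,1,2,3,6],[0,1,2,3],[0,1,2,3]]],
Node.mk [0,820,182,1542,2448,1486,283,3177,1075] [(0,1),(1,0),(1,1),(1,2),(1,3),(1,4)] [Ref.mk 1584 3524 [0,1,2,3] [[0,1,2,3,4],[0,1,2,3,4,5],[0,1,2,3,4],[0,1,2,3,4]],Ref.mk 369 3189 [0,1,2,3] [[0,1,2,3],[0,1,2,5],[0,1,2,3,4],[0,1,2,3]],Ref.mk 1019 3386 [0,1,2,3] [[0,1,2,3],[0,1,2,3,5],[0,1,2,3],[0,1,2,3]],Ref.mk 777 3421 [0,1,2,3] [[0,1,2,3],[0,1,2,3,5],[0,1,2,3],[0,1,2,3]],Ref.mk 1588 3504 [0,1,2,3] [[0,1,2,3,4],[0,1,2,3,5],[0,1,2,3],[0,1,2,3]],Ref.mk 292 3525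 [0,1,2,3] [[0,1,2,3,4],[0,1,2,3,4,5],[0,1,2,3,4],[0,1,2,3,4]]],
Node.mk [0,820,182,1542,2448,1486,283,3177] [(2,0),(2,1),(2,2),(2,3),(3,0),(3,2)] [Ref.mk 1054 3505 [0,1,2,3] [[0,1,2,3,4],[0,1,2,3,4],[0,1,2,3,4],[0,1,2,3,4]],Ref.mk 2512 3512 [0,1,2,3] [[0,1,2,3,4],[0,1,2,3,4],[0,1,2,3,4],[0,1,2,3,4]],Ref.mk 3241 3512 [0,1,2,3] [[0,1,2,3,4],[0,1,2,3,4],[0,1,2,3,4],[0,1,2,4,3]],Ref.mk 3970 3519 [0,1,2,3] [[0,1,2,3,4],[0,1,2,3,4],[0,1,2,3,4],[0,1,2,3,4,5]],Ref.mk 1083 3523 [0,1,2,3] [[0,1,2,3,4],[0,1,2,3,4],[0,1,2,3,4],[0,1,2,3,4]],Ref.mk 1075 3526 [0,1,2,3] [[0,1,2,3,4],[0,1,2,3,4],[0,1,2,3,4],[0,1,2,3,4]]],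
Node.mk [0,820,182,1542,2448,1486,283,3114,324] [(0,0),(0,1),(1,1),(2,1),(3,0),(3,1)] [Ref.mk 3161 2303 [1,2,0,3] [[0,1,4,3,2],[0,1,3,4,2],[0,1,4,2],[0,1,2,4,3]],Ref.mk 2353 2303 [1,2,0,3] [[0,1,2,3,4],[0,1,2,4,3],[0,1,2,4],[0,1,2,3,4]]],
Node.mk [0,820,182,1542,2448,1486,283,3114,342] [(0,0),(0,1),(1,1),(2,1),(3,0),(3,1)] [Ref.mk 2938 3186 [0,1,2,3] [[0,1,4,3,2],[0,1,4,2],[0,1,3,2,4],[0,1,2,4,3]]],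
Node.mk [0,820,182,1542,2448,1486,283,3114,1083] [(0,0),(0,1),(1,1),(2,1),(3,0),(3,1)] [Ref.mk 3161 3315 [0,2,1,3] [[0,3,2,1,4],[0,4,2,1,3],[0,3,2,4,1],[0,1,2,4]],Ref.mk 2225 3315 [0,1,2,3] [[0,1,2,3,4],[0,1,2,3,4],[0,1,2,3,4],[0,1,2,3]],Ref.mk 2353 3315 [0,2,1,3] [[0,3,4,1,2],[0,4,3,1,2],[0,3,4,2,1],[0,1,2,3]],Ref.mk 2938 3315 [0,1,2,3] [[0,1,4,3,2],[0,1,4,3,2],[0,1,3,2,4],[0,1,2,4]]],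
Node.mk [0,820,182,1542,2448,1486,283,3114] [(0,1),(1,1),(2,0),(2,1),(2,2),(2,3)] [Ref.mk 324 3528 [0,1,2,3] [[0,1,2,3,4],[0,1,2,3,4],[0,1,2,3,4],[0,1,2,3,4]],Ref.mk 342 3529 [0,1,2,3] [[0,1,2,3,4],[0,1,2,3,4],[0,1,2,3,4],[0,1,2,3,4]],Ref.mk 351 3189 [0,1,2,3] [[0,1,2,3],[0,1,2,3],[0,1,2,3,4],[0,1,2,3]],Ref.mk 360 3529 [0,1,2,3] [[0,1,4,3,2],[0,1,4,3,2],[0,1,3,2,4],[0,1,2,4,3]],Ref.mk 369 3189 [0,1,2,3] [[0,1,2,3],[0,1,2,5],[0,1,2,3,4],[0,1,2,3]],Ref.mk 1083 3530 [0,1,2,3] [[0,1,2,3,4],[0,1,2,3,4],[0,1,2,3,4],[0,1,2,3,4]]],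
Node.mk [0,820,182,1542,2448,1486,283,3161,81,3114,1083] [(0,0),(0,3),(1,0),(2,1),(3,0),(3,2)] [],
Node.mk [0,820,182,1542,2448,1486,283,3161,81,3114] [(1,0),(2,0),(2,1),(2,2),(2,3),(3,2)] [Ref.mk 1083 3532 [0,1,2,3] [[0,1,2,3,4],[0,1,2,3,4],[0,1,2,3,4],[0,1,2,3,4]]],
Node.mk [0,820,182,1542,2448,1486,283,3161,81,2353,324,9] [(0,0),(1,0),(1,1),(1,3),(2,0),(3,0)] [],
Node.mk [0,820,182,1542,2448,1486,283,3161,81,2353,324,2386] [(0,0),(0,1),(2,0),(2,1),(2,2),(2,3)] [],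
Node.mk [0,820,182,1542,2448,1486,283,3161,81,2353,324] [(0,3),(1,0),(1,2),(2,1),(2,3),(3,2)] [Ref.mk 9 3534 [0,1,2,3] [[0,1,2,3,4],[0,1,2,3,4],[0,1,2,3,4],[0,1,2,3,4]],Ref.mk 3114 3533 [0,1,2,3] [[0,1,4,3,2],[0,1,4,3,2],[0,1,3,2],[0,1,2,4,3]],Ref.mk 2386 3535 [0,1,2,3] [[0,1,2,3,4],[0,1,2,3,4],[0,1,2,3,4],[0,1,2,3,4]]],
Node.mk [0,820,182,1542,2448,1486,283,3161,81,2353,1083] [(0,1),(0,4),(1,0),(1,1),(1,2),(1,3)] [Ref.mk 3114 3532 [0,1,2,3] [[0,1,4,3,2],[0,1,4,3,2],[0,1,3,2,4],[0,1,2,4,3]],Ref.mk 768 3421 [0,1,2,3] [[0,1,2,3],[0,1,2,3,4],[0,1,2,3],[0,1,2,3]],Ref.mk 1578 3312 [0,1,2,3] [[3,0,1,4,2],[4,2,3,0,1],[1,3,0,4,2],[2,3,0,1,4]],Ref.mk 777 3421 [0,1,2,3] [[0,1,2,3],[0,1,2,3,5],[0,1,2,3],[0,1,2,3]],Ref.mk 1587 1991 [1,2,3,0] [[0,3,2,1,5,4],[1,4,3,0,2],[0,1,3,4,2],[0,3,1,2,4]]],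
Node.mk [0,820,182,1542,2448,1486,283,3161,81,2353] [(0,1),(1,1),(2,0),(2,1),(2,2),(2,3)] [Ref.mk 324 3536 [0,1,2,3] [[0,1,2,3,4],[0,1,2,3,4],[0,1,2,3,4],[0,1,2,3,4]],Ref.mk 1083 3537 [0,1,2,3] [[0,1,2,3,4],[0,1,2,3,4],[0,1,2,3,4],[0,1,2,3,4]]],
Node.mk [0,820,182,1542,2448,1486,283,3161,81,2938] [(0,1),(0,2),(1,1),(2,0),(2,1),(2,3)] [Ref.mk 3114 3533 [0,1,2,3] [[0,1,2,3,4],[0,1,2,3,4],[0,1,2,3],[0,1,2,3,4]],Ref.mk 2353 3538 [0,1,2,3] [[0,1,2,3,4],[0,1,2,3,4],[0,1,2,3],[0,1,2,3,4]]],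
Node.mk [0,820,182,1542,2448,1486,283,3161,81] [(0,1),(1,1),(2,1),(2,3),(3,0),(3,1)] [Ref.mk 3114 3533 [0,1,2,3] [[0,1,2,3,4],[0,1,2,3,4],[0,1,2,3],[0,1,2,3,4]],Ref.mk 2225 3317 [0,1,2,3] [[0,1,2,3],[0,1,2,3,4],[0,1,2,3],[0,1,2,3]],Ref.mk 2353 3538 [0,1,2,3] [[0,1,2,3,4],[0,1,2,3,4],[0,1,2,3],[0,1,2,3,4]],Ref.mk 2938 3539 [0,1,2,3] [[0,1,2,3,4],[0,1,2,3,4],[0,1,2,3],[0,1,2,3,4]]],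
Node.mk [0,820,182,1542,2448,1486,283,3161,2353] [(0,1),(1,1),(2,0),(2,1),(2,2),(2,3)] [Ref.mk 324 2302 [1,2,0,3] [[0,1,4,3,2],[0,1,3,4,2],[0,1,4,2],[0,1,2,4,3]],Ref.mk 1083 3315 [0,2,1,3] [[0,3,4,1,2],[0,4,3,1,2],[0,3,4,2,1],[0,1,2,3]]],
Node.mk [0,820,182,1542,2448,1486,283,3161] [(0,1),(1,2),(1,3),(2,0),(2,3),(3,2)] [Ref.mk 81 3540 [0,1,2,3] [[0,1,2,3,4],[0,1,2,3,4],[0,1,2,3],[0,1,2,3,4]],Ref.mk 162 2262 [1,2,0,3] [[0,1,4,3,2],[0,1,3,2],[0,1,4,2],[0,1,2,4,3]],Ref.mk 324 2304 [1,2,0,3] [[0,1,4,3,2],[0,1,3,4,2],[0,1,4,2],[0,1,2,4,3]],Ref.mk 3114 3531 [0,1,2,3] [[0,1,2,3,4],[0,1,2,3,4],[0,1,2,3],[0,1,2,3,4]],Ref.mk 2306 3326 [0,1,2,3] [[0,1,2,3,4],[0,1,2,3,4],[0,1,2,3],[0,1,2,3]],Ref.mk 2353 3541 [0,1,2,3] [[0,1,2,3,4],[0,1,2,3,4],[0,1,2,3],[0,1,2,3,4]]],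
Node.mk [0,820,182,1542,2448,1486,283,2928,1504,759,1794] [(0,0),(2,0),(3,0),(3,1),(3,2),(3,3)] [Ref.mk 3161 3542 [0,1,2,3] [[0,1,2,3,4],[0,1,2,3,4],[0,1,2,3],[0,1,2,3,4]],Ref.mk 3890 3542 [0,1,2,3] [[0,1,2,3,4],[0,1,2,3,4],[0,1,2,3],[0,1,2,3,5]],Ref.mk 3170 3386 [2,3,0,1] [[0,3,1,2],[0,4,2,3,1],[0,2,3,1],[0,1,2,3]],Ref.mk 3899 3386 [2,3,0,1] [[0,3,1,2],[0,5,2,3,1],[0,2,3,1],[0,1,2,3]]],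
Node.mk [0,820,182,1542,2448,1486,283,2928,1504,759] [(0,0),(1,2),(2,0),(2,1),(2,2),(2,3)] [Ref.mk 1794 3543 [0,1,2,3] [[0,1,2,3,4],[0,1,2,3,4,5],[0,1,2,3,4],[0,1,2,3,4]]],
Node.mk [0,820,182,1542,2448,1486,283,2928,1504,1569] [(1,1),(2,0),(2,1),(2,2),(2,3),(3,0)] [],
Node.mk [0,820,182,1542,2448,1486,283,2928,1504] [(0,0),(0,1),(1,0),(1,1),(1,2),(2,3)] [Ref.mk 2225 3317 [0,1,2,3] [[0,1,2,3],[0,1,2,3,4],[0,1,2,3],[0,1,2,3]],Ref.mk 2306 3326 [0,1,2,3] [[0,1,2,3,4],[0,1,2,5,4],[0,1,2,3],[0,1,2,3]],Ref.mk 759 3544 [0,1,2,3] [[0,1,2,3,4],[0,1,2,3,4,5],[0,1,2,3],[0,1,2,3,4]],Ref.mk 1569 3545 [0,1,2,3] [[0,1,2,3,4],[0,1,2,3,4,5],[0,1,2,3],[0,1,2,3,4]],Ref.mk 768 3416 [3,1,2,0] [[0,1,3,2,4],[0,1,2,4,5],[0,1,3,2],[0,1,3,2]],Ref.mk 1578 3445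 [0,1,2,3] [[0,1,2,3],[0,1,2,5,4],[0,1,2,3],[0,1,2,3,4]],Ref.mk 777 3544 [0,1,2,3] [[0,1,2,3,4],[0,1,2,5,4,3],[0,1,2,3],[0,1,2,3,4]],Ref.mk 1587 3545 [0,1,2,3] [[0,1,2,3,4],[0,1,2,5,4,3],[0,1,2,3],[0,1,2,3,4]],Ref.mk 786 3416 [3,1,2,0] [[0,1,3,2,4],[0,1,2,6,5],[0,1,3,2],[0,1,3,2]],Ref.mk 1596 3445 [0,1,2,3] [[0,1,2,3],[0,1,2,5,6],[0,1,2,3],[0,1,2,3,4]]],
Node.mk [0,820,182,1542,2448,1486,283,2928] [(1,0),(1,1),(1,2),(1,3),(1,4),(3,0)] [Ref.mk 1504 3546 [0,1,2,3] [[0,1,2,3,4],[0,1,2,3,4,5],[0,1,2,3],[0,1,2,3,4]],Ref.mk 3043 3418 [3,1,2,0] [[0,4,3,2,1],[0,5,2,1,3],[0,1,3,2],[0,1,3,2]],Ref.mk 1019 3377 [0,1,2,3] [[0,1,2,3],[0,1,2,3,5],[0,1,2,3],[0,1,2,3,4]],Ref.mk 777 3416 [3,1,2,0] [[0,1,3,2,4],[0,1,2,5,3],[0,1,3,2],[0,1,3,2]],Ref.mk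 1587 3445 [0,1,2,3] [[0,1,2,3],[0,1,2,3,5],[0,1,2,3],[0,1,2,3,4]]],
Node.mk [0,820,182,1542,2448,1486,283,2938,2225] [(0,1),(1,1),(2,0),(2,1),(2,2),(2,3)] [Ref.mk 344 3296 [0,1,2,3] [[0,1,2,3,4],[0,1,2,3,4],[0,1,2,3,4],[0,1,2,3]],Ref.mk 1083 3541 [0,2,1,3] [[0,3,4,1,2],[0,4,3,1,2],[0,3,4,2],[0,1,2,3,4]]],
Node.mk [0,820,182,1542,2448,1486,283,2938,2353,346,81] [(0,0),(0,1),(0,4),(1,2),(2,0),(2,1)] [],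
Node.mk [0,820,182,1542,2448,1486,283,2938,2353,346] [(0,1),(0,4),(1,2),(1,3),(2,0),(3,2)] [Ref.mk 81 3549 [0,1,2,3] [[0,1,2,3,4],[0,1,2,3,4],[0,1,2,3,4],[0,1,2,3,4]]],
Node.mk [0,820,182,1542,2448,1486,283,2938,2353,1075] [(0,3),(0,4),(1,0),(1,2),(2,1),(3,2)] [],
Node.mk [0,820,182,1542,2448,1486,283,2938,2353] [(0,1),(1,1),(2,0),(2,1),(2,2),(2,3)] [Ref.mk 1083 3315 [0,2,1,3] [[0,3,4,1,2],[0,4,3,1,2],[0,3,4,2,1],[0,1,2,3]],Ref.mk 346 3550 [0,1,2,3] [[0,1,2,3,4],[0,1,2,3,4],[0,1,2,3,4],[0,1,2,3,4]],Ref.mk 1075 3551 [0,1,2,3] [[0,1,2,3,4],[0,1,2,3,4],[0,1,2,3,4],[0,1,2,3,4]]],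
Node.mk [0,820,182,1542,2448,1486,283,2938] [(0,1),(1,1),(1,2),(2,1),(3,0),(3,1)] [Ref.mk 3114 3531 [0,1,2,3] [[0,1,2,3,4],[0,1,2,3,4],[0,1,2,3],[0,1,2,3,4]],Ref.mk 3161 3542 [0,1,2,3] [[0,1,2,3,4],[0,1,2,3,4],[0,1,2,3],[0,1,2,3,4]],Ref.mk 2225 3548 [0,1,2,3] [[0,1,2,3,4],[0,1,2,3,4],[0,1,2,3],[0,1,2,3,4]],Ref.mk 2353 3552 [0,1,2,3] [[0,1,2,3,4],[0,1,2,3,4],[0,1,2,3],[0,1,2,3,4]]],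
Node.mk [0,820,182,1542,2448,1486,283] [(0,1),(2,1),(3,0),(3,1),(3,2),(3,3)] [Ref.mk 3177 3527 [0,1,2,3] [[0,1,2,3,4],[0,1,2,3,4],[0,1,2,3],[0,1,2,3,4]],Ref.mk 3114 3531 [0,1,2,3] [[0,1,2,3,4],[0,1,2,3,4],[0,1,2,3],[0,1,2,3,4]],Ref.mk 3161 3542 [0,1,2,3] [[0,1,2,3,4],[0,1,2,3,4],[0,1,2,3],[0,1,2,3,4]],Ref.mk 3170 3386 [2,3,0,1] [[0,3,1,2],[0,4,2,3,1],[0,2,3,1],[0,1,2,3]],Ref.mk 2928 3547 [0,1,2,3] [[0,1,2,3,4],[0,1,2,3,4],[0,1,2,3],[0,1,2,3,4]],Ref.mk 2938 3553 [0,1,2,3] [[0,1,2,3,4],[0,1,2,3,4],[0,1,2,3],[0,1,2,3,4]]],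
Node.mk [0,820,182,1542,2448,1486] [(0,0),(0,1),(1,0),(1,1),(1,2),(1,3)] [Ref.mk 2225 3317 [0,1,2,3] [[0,1,2,3],[0,1,2,3,4],[0,1,2,3],[0,1,2,3]],Ref.mk 1577 3189 [2,0,1,3] [[1,3,0,2],[2,0,1,3],[4,2,3,1,0],[2,3,0,1]],Ref.mk 2306 3327 [0,1,2,3] [[0,1,2,3],[0,1,2,3,4],[0,1,2,3],[0,1,2,3]],Ref.mk 281 3365 [0,1,2,3] [[0,1,2,3],[0,1,2,3,4],[0,1,2,3],[0,1,2,3]],Ref.mk 1010 3386 [0,1,2,3] [[0,1,2,3],[0,1,2,3,4],[0,1,2,3],[0,1,2,3]],Ref.mk 768 3421 [0,1,2,3] [[0,1,2,3],[0,1,2,3,4],[0,1,2,3],[0,1,2,3]],Ref.mk 1578 3453 [0,1,2,3] [[0,1,2,3],[0,1,2,3,4],[0,1,2,3],[0,1,2,3]],Ref.mk 282 3500 [0,1,2,3] [[0,1,2,3],[0,1,2,3,4],[0,1,2,3],[0,1,2,3]],Ref.mk 1579 3504 [0,1,2,3] [[0,1,2,3,4],[0,1,2,3,4],[0,1,2,3],[0,1,2,3]],Ref.mk 283 3554 [0,1,2,3] [[0,1,2,3,4],[0,1,2,3,4],[0,1,2,3],[0,1,2,3]]],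
Node.mk [0,820,182,1542,2448,1810,2225,2353,3114,2935,1588] [(0,0),(0,1),(0,2),(0,4),(1,1),(2,1)] [],
Node.mk [0,820,182,1542,2448,1810,2225,2353,3114,2935] [(0,1),(1,0),(1,1),(1,2),(1,3),(1,4)] [Ref.mk 1588 3556 [0,1,2,3] [[0,1,2,3,4],[0,1,2,3,4,5],[0,1,2,3,4],[0,1,2,3,4]]],
Node.mk [0,820,182,1542,2448,1810,2225,2353,3114,2938] [(0,3),(1,0),(1,2),(1,4),(2,1),(3,2)] [],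
Node.mk [0,820,182,1542,2448,1810,2225,2353,3114] [(0,3),(1,0),(2,1),(2,2),(3,2),(3,3)] [Ref.mk 2935 3557 [0,1,2,3] [[0,1,2,3,4],[0,1,2,3,4],[0,1,2,3,4],[0,1,2,3,4]],Ref.mk 280 3557 [0,1,3,2] [[0,1,2,3,4],[0,3,4,1,2],[0,2,3,4,1],[0,4,1,2,3]],Ref.mk 2938 3558 [0,1,2,3] [[0,1,2,3,4],[0,1,2,3,4],[0,1,2,3,4],[0,1,2,3,4]],Ref.mk 283 3558 [0,1,3,2] [[0,1,2,3,4],[0,3,4,1,2],[0,2,3,4,1],[0,4,1,2,3]]],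
Node.mk [0,820,182,1542,2448,1810,2225,2353,3161,280,1092] [(0,1),(0,2),(3,0),(3,1),(3,2),(3,3)] [Ref.mk 3114 3557 [0,1,2,3] [[2,1,0,3,4],[0,1,4,3,2],[3,1,2,0,4],[4,1,2,3,0]]],
Node.mk [0,820,182,1542,2448,1810,2225,2353,3161,280] [(0,1),(0,2),(1,0),(1,1),(2,1),(2,3)] [Ref.mk 3114 3557 [0,1,2,3] [[2,1,0,3,4],[0,1,4,3,2],[3,1,2,0,4],[4,1,2,3,0]],Ref.mk 921 3557 [0,2,3,1] [[2,1,0,3,4],[2,1,3,4,0],[0,1,3,4,2],[2,1,3,0,4]],Ref.mk 1092 3560 [0,1,2,3] [[0,1,2,3,4],[0,1,2,3,4],[0,1,2,3,4],[0,1,2,3,4]]],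
Node.mk [0,820,182,1542,2448,1810,2225,2353,3161,1001] [(0,2),(1,0),(1,1),(1,3),(2,3),(3,1)] [],
Node.mk [0,820,182,1542,2448,1810,2225,2353,3161,283] [(0,3),(1,0),(1,2),(1,4),(2,1),(3,2)] [Ref.mk 1001 3562 [0,1,2,3] [[4,1,2,3,0],[0,1,4,3,2],[2,1,0,3,4],[3,1,2,0,4]]],
Node.mk [0,820,182,1542,2448,1810,2225,2353,3161] [(0,3),(1,0),(1,2),(2,1),(3,2),(3,3)] [Ref.mk 3114 3559 [0,1,2,3] [[2,1,0,3,4],[0,1,4,3,2],[3,1,2,0,4],[4,1,2,3,0]],Ref.mk 280 3561 [0,1,2,3] [[0,1,2,3,4],[0,1,2,3,4],[0,1,2,3,4],[0,1,2,3,4]],Ref.mk 1001 3562 [0,1,2,3] [[0,1,2,3,4],[0,1,2,3,4],[0,1,2,3,4],[0,1,2,3,4]],Ref.mk 283 3563 [0,1,2,3] [[0,1,2,3,4],[0,1,2,3,4],[0,1,2,3,4],[0,1,2,3,4]]],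
Node.mk [0,820,182,1542,2448,1810,2225,2353,3252,3981,2354] [(0,0),(0,2),(0,3),(1,1),(2,4),(3,3)] [],
Node.mk [0,820,182,1542,2448,1810,2225,2353,3252,3981,1058] [(1,2),(2,4),(3,0),(3,1),(3,2),(3,3)] [Ref.mk 3114 3559 [0,1,2,3] [[0,1,2,3,4],[0,1,2,3,4],[0,1,2,3,4],[0,1,2,3,4]],Ref.mk 3843 3559 [0,1,2,3] [[0,1,2,3,4],[0,1,2,3,4],[0,1,2,3,4],[0,1,2,3,5]],Ref.mk 4572 3559 [0,1,2,3] [[0,1,2,3,4],[0,1,2,3,4],[0,1,2,3,4],[0,1,2,3,6]],Ref.mk 3161 3564 [0,1,2,3] [[0,1,2,3,4],[0,1,2,3,4],[0,1,2,3,4],[0,1,2,3,4]],Ref.mk 3890 3564 [0,1,2,3] [[0,1,2,3,4],[0,1,2,3,4],[0,1,2,3,4],[0,1,2,3,5]],Ref.mk 4619 3564 [0,1,2,3] [[0,1,2,3,4],[0,1,2,3,4],[0,1,2,3,4],[0,1,2,3,6]]],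
Node.mk [0,820,182,1542,2448,1810,2225,2353,3252,3981,2210] [(0,0),(0,3),(1,1),(1,2),(2,4),(3,3)] [],
Node.mk [0,820,182,1542,2448,1810,2225,2353,3252,3981] [(0,0),(0,1),(0,2),(0,3),(0,4),(1,1)] [Ref.mk 2354 3565 [0,1,2,3] [[0,1,2,3,4,5],[0,1,2,3,4],[0,1,2,3,4],[0,1,2,3,4,5]],Ref.mk 1058 3566 [0,1,2,3] [[0,1,2,3,4,5],[0,1,2,3,4],[0,1,2,3,4],[0,1,2,3,4,5]],Ref.mk 2210 3567 [0,1,2,3] [[0,1,2,3,4,5],[0,1,2,3,4],[0,1,2,3,4],[0,1,2,3,4,5]]],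
Node.mk [0,820,182,1542,2448,1810,2225,2353,3252,3756,2354] [(0,0),(0,1),(0,2),(0,3),(2,1),(3,3)] [],
Node.mk [0,820,182,1542,2448,1810,2225,2353,3252,3756,2210] [(0,0),(0,1),(0,3),(1,2),(2,1),(3,3)] [],
Node.mk [0,820,182,1542,2448,1810,2225,2353,3252,3756] [(0,0),(0,1),(0,2),(0,3),(0,4),(2,1)] [Ref.mk 2354 3569 [0,1,2,3] [[0,1,2,3,4,5],[0,1,2,3,4],[0,1,2,3,4],[0,1,2,3,4,5]],Ref.mk 2210 3570 [0,1,2,3] [[0,1,2,3,4,5],[0,1,2,3,4],[0,1,2,3,4],[0,1,2,3,4,5]]],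
Node.mk [0,820,182,1542,2448,1810,2225,2353,3252,3667] [(0,2),(0,3),(1,0),(1,2),(2,1),(3,2)] [Ref.mk 3843 3558 [0,1,2,3] [[0,1,2,3,4],[0,1,2,3,4],[0,1,2,3,4],[0,1,2,3,5]],Ref.mk 283 3558 [2,1,3,0] [[0,4,3,1,2],[0,3,2,1,4],[0,2,3,5,4],[0,1,3,4,2]]],
Node.mk [0,820,182,1542,2448,1810,2225,2353,3252] [(0,1),(3,0),(3,1),(3,2),(3,3),(3,4)] [Ref.mk 3843 3559 [0,1,2,3] [[0,1,2,3,4],[0,1,2,3,4],[0,1,2,3,4],[0,1,2,3,5]],Ref.mk 3890 3564 [0,1,2,3] [[0,1,2,3,4],[0,1,2,3,4],[0,1,2,3,4],[0,1,2,3,5]],Ref.mk 3981 3568 [0,1,2,3] [[0,1,2,3,4],[0,1,2,3,4],[0,1,2,3,4],[0,1,2,3,4,5]],Ref.mk 3756 3571 [0,1,2,3] [[0,1,2,3,4],[0,1,2,3,4],[0,1,2,3,4],[0,1,2,3,4,5]],Ref.mk 3667 3572 [0,1,2,3] [[0,1,2,3,4],[0,1,2,3,4],[0,1,2,3,4],[0,1,2,3,4,5]]],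
Node.mk [0,820,182,1542,2448,1810,2225,2353,2938] [(0,2),(0,3),(1,0),(1,2),(2,1),(3,2)] [Ref.mk 3114 3558 [0,1,2,3] [[0,1,2,3,4],[0,1,2,3,4],[0,1,2,3,4],[0,1,2,3,4]],Ref.mk 283 3558 [0,1,3,2] [[4,1,2,3,0],[0,3,2,1,4],[3,2,0,4,1],[2,4,1,0,3]]],
Node.mk [0,820,182,1542,2448,1810,2225,2353] [(0,1),(2,1),(3,0),(3,1),(3,2),(3,3)] [Ref.mk 3114 3559 [0,1,2,3] [[0,1,2,3,4],[0,1,2,3,4],[0,1,2,3,4],[0,1,2,3,4]],Ref.mk 3161 3564 [0,1,2,3] [[0,1,2,3,4],[0,1,2,3,4],[0,1,2,3,4],[0,1,2,3,4]],Ref.mk 3252 3573 [0,1,2,3] [[0,1,2,3,4],[0,1,2,3,4],[0,1,2,3,4],[0,1,2,3,4]],Ref.mk 2938 3574 [0,1,2,3] [[0,1,2,3,4],[0,1,2,3,4],[0,1,2,3,4],[0,1,2,3,4]]],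
Node.mk [0,820,182,1542,2448,1810,2225,1057,3114] [(1,0),(1,2),(1,4),(2,1),(2,2),(2,4)] [Ref.mk 9 1992 [0,1,2,3] [[0,1,2,4,3],[0,3,2,1,4],[0,4,2,3,1],[0,2,1,3,4]],Ref.mk 27 1992 [0,1,2,3] [[0,1,2,3,4],[0,1,2,3,4],[0,1,2,3,4],[0,1,2,3,4]],Ref.mk 45 1992 [0,1,2,3] [[0,1,2,4,3],[0,3,2,5,4],[0,4,2,3,1],[0,2,1,3,4]],Ref.mk 759 3315 [3,1,2,0] [[0,1,3,2,4],[0,1,2,3,4],[0,1,3,2,4],[0,1,3,2]],Ref.mk 1002 3573 [0,1,2,3] [[3,2,1,0,4],[0,4,3,2,1],[1,0,4,3,2],[2,3,0,1,4]],Ref.mk 1164 3573 [0,1,2,3] [[3,2,1,0,4],[0,4,3,2,1],[1,0,4,5,2],[2,3,0,1,4]],Ref.mk 1471 3315 [3,1,2,0] [[0,2,3,1,4],[0,3,2,1,4],[0,4,3,2,1],[0,1,4,2]],Ref.mk 1714 3573 [0,1,2,3] [[4,2,1,0,3],[0,4,1,2,3],[4,0,1,3,2],[1,3,0,2,4]],Ref.mk 1876 3573 [0,1,2,3] [[4,2,1,0,3],[0,4,1,2,3],[4,0,1,5,2],[1,3,0,2,4]]],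
Node.mk [0,820,182,1542,2448,1810,2225,1057] [(1,0),(1,2),(3,0),(3,1),(3,2),(3,3)] [Ref.mk 3114 3576 [0,1,2,3] [[0,1,2,3,4],[0,1,2,3,4],[0,1,2,3,4],[0,1,2,3,4]],Ref.mk 3252 3573 [0,1,3,2] [[3,2,1,0,4],[0,2,1,4,3],[2,0,1,4,3],[1,2,0,4,3]],Ref.mk 3028 3573 [0,1,3,2] [[4,2,1,0,3],[0,2,3,4,1],[1,0,2,4,3],[4,2,0,1,3]]],
Node.mk [0,820,182,1542,2448,1810,2225,112,3114,2939] [(1,0),(1,1),(1,2),(1,3),(1,4),(2,1)] [Ref.mk 45 2302 [0,1,3,2] [[0,1,5,3,2],[0,3,2,5,4],[0,2,4,3],[0,4,1,3,2]]],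
Node.mk [0,820,182,1542,2448,1810,2225,112,3114] [(0,0),(0,1),(0,2),(0,3),(0,4),(2,1)] [Ref.mk 2354 3559 [0,1,2,3] [[0,1,2,3,5],[0,1,2,3,4],[0,1,2,3,4],[0,1,2,3,4]],Ref.mk 2939 3578 [0,1,2,3] [[0,1,2,3,4,5],[0,1,2,3,4],[0,1,2,3,4],[0,1,2,3,4]],Ref.mk 284 3564 [0,3,2,1] [[2,1,0,4,5],[0,1,3,2,4],[2,1,3,0,4],[2,1,3,4,0]]],
Node.mk [0,820,182,1542,2448,1810,2225,112,3161,2939] [(0,0),(0,1),(0,2),(1,2),(1,3),(3,2)] [Ref.mk 336 3304 [2,3,1,0] [[0,1,3,4,2],[0,1,3,2,4],[0,1,2,4,3],[0,1,3,2,5]],Ref.mk 1057 3304 [2,3,1,0] [[0,4,3,1,2],[0,2,3,1,4],[0,3,2,4,1],[0,1,4,2,5]],Ref.mk 2354 3558 [0,3,1,2] [[2,1,5,4,0],[0,2,3,1,4],[2,3,0,4,1],[2,4,1,0,3]],Ref.mk 284 3563 [0,3,1,2] [[0,1,2,4,5],[0,2,3,1,4],[0,3,4,2,1],[0,4,1,3,2]]],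
Node.mk [0,820,182,1542,2448,1810,2225,112,3161] [(0,0),(0,1),(0,2),(0,3),(0,4),(2,1)] [Ref.mk 2354 3564 [0,1,2,3] [[0,1,2,3,5],[0,1,2,3,4],[0,1,2,3,4],[0,1,2,3,4]],Ref.mk 2939 3580 [0,1,2,3] [[0,1,2,3,4,5],[0,1,2,3,4],[0,1,2,3,4],[0,1,2,3,4]],Ref.mk 284 3564 [0,3,1,2] [[0,1,2,4,5],[0,2,3,1,4],[0,3,4,2,1],[0,4,1,3,2]]],
Node.mk [0,820,182,1542,2448,1810,2225,112] [(1,2),(2,1),(3,0),(3,1),(3,2),(3,3)] [Ref.mk 3114 3579 [0,1,2,3] [[0,1,2,3,4],[0,1,2,3,4],[0,1,2,3,4],[0,1,2,3,4]],Ref.mk 3161 3581 [0,1,2,3] [[0,1,2,3,4],[0,1,2,3,4],[0,1,2,3,4],[0,1,2,3,4]]],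
Node.mk [0,820,182,1542,2448,1810,2225,841,3114,2610] [(0,0),(1,2),(2,1),(3,1),(3,2),(3,3)] []]

end Vale.Agent.P045.R4N2
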