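import Vale.Agent.P045.Check

/-! Certificate data. -/

namespace Vale.Agent.P045.R4N2

open Vale.Agent.P045

/-- nodes -/
noncomputable def c56 : List Node := [
Node.mk [0,820,182,1542,2448,1810,2225,841,3114] [(2,0),(2,1),(2,2),(2,3),(3,1),(3,2)] [Ref.mk 2529 2130 [0,2,1,3] [[0,4,2,1,3],[4,1,0,3,2],[2,3,4,0],[3,1,2,0,4]],Ref.mk 2610 3583 [0,1,2,3] [[0,1,2,3,4],[0,1,2,3,4],[0,1,2,3,4,5],[0,1,2,3,4]],Ref.mk 360 3187 [3,1,2,0] [[0,1,3,2,4],[0,3,2,4],[0,1,3,2,4],[0,4,3,2]],Ref.mk 441 3187 [3,1,2,0] [[0,1,3,2,4],[0,3,2,4],[0,1,3,2,5],[0,4,3,2]]],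
Node.mk [0,820,182,1542,2448,1810,2225,841,3161,2234] [(0,2),(2,0),(2,1),(3,1),(3,2),(3,3)] [],
Node.mk [0,820,182,1542,2448,1810,2225,841,3161,290] [(0,0),(0,2),(2,1),(3,0),(3,1),(3,2)] [],
Node.mk [0,820,182,1542,2448,1810,2225,841,3161] [(1,0),(1,1),(1,2),(1,3),(1,4),(2,1)] [Ref.mk 2234 3585 [0,1,2,3] [[0,1,2,3,4],[0,1,2,3,4,5],[0,1,2,3,4],[0,1,2,3,4]],Ref.mk 290 3586 [0,1,2,3] [[0,1,2,3,4],[0,1,2,3,4,5],[0,1,2,3,4],[0,1,2,3,4]],Ref.mk 1101 3573 [3,1,2,0] [[0,1,3,2,4],[0,3,2,5,4],[0,1,3,2,4],[0,4,3,2,1]]],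
Node.mk [0,820,182,1542,2448,1810,2225,841] [(1,2),(2,1),(3,0),(3,1),(3,2),(3,3)] [Ref.mk 3114 3584 [0,1,2,3] [[0,1,2,3,4],[0,1,2,3,4],[0,1,2,3,4],[0,1,2,3,4]],Ref.mk 3161 3587 [0,1,2,3] [[0,1,2,3,4],[0,1,2,3,4],[0,1,2,3,4],[0,1,2,3,4]]],
Node.mk [0,820,182,1542,2448,1810,2225,2299,3114,1876,1164,1587] [(0,0),(1,2),(2,3),(3,1),(3,2),(3,3)] [Ref.mk 112 3582 [0,1,2,3] [[0,1,2,3,4],[0,1,2,3,4],[0,1,2,3,4],[0,1,2,3]],Ref.mk 3028 2126 [2,1,3,0] [[1,2,5,0,3,4],[0,2,3,5,1,4],[2,0,1,3,4],[3,2,0,4,1]],Ref.mk 3757 2126 [2,1,3,0] [[1,2,5,0,3,4],[0,2,3,5,1,4],[2,0,1,3,5],[3,2,0,4,1]]],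
Node.mk [0,820,182,1542,2448,1810,2225,2299,3114,1876,1164] [(0,0),(1,0),(1,1),(1,2),(1,3),(1,4)] [Ref.mk 1587 3589 [0,1,2,3] [[0,1,2,3,4],[0,1,2,3,4,5],[0,1,2,3,4,5],[0,1,2,3,4]]],
Node.mk [0,820,182,1542,2448,1810,2225,2299,3114,1876] [(0,0),(1,2),(2,1),(2,3),(3,2),(3,3)] [Ref.mk 1164 3590 [0,1,2,3] [[0,1,2,3,4],[0,1,2,3,4],[0,1,2,3,4,5],[0,1,2,3,4]],Ref.mk 1057 3576 [2,3,0,1] [[1,2,4,3,0],[3,4,2,0,1],[4,0,1,3,2],[3,4,2,0,1]]],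
Node.mk [0,820,182,1542,2448,1810,2225,2299,3114] [(1,3),(2,0),(2,1),(2,2),(2,3),(3,3)] [Ref.mk 360 3187 [3,1,2,0] [[0,1,3,2,4],[0,1,2,4],[0,1,3,2,4],[0,1,3,2]],Ref.mk 441 3187 [3,1,2,0] [[0,1,3,2,4],[0,1,2,4],[0,1,3,2,5],[0,1,3,2]],Ref.mk 1057 3576 [2,3,0,1] [[1,2,4,3,0],[3,4,2,0,1],[4,0,1,3,2],[3,4,2,0,1]],Ref.mk 1795 3584 [0,1,3,2] [[0,1,2,3,4],[0,3,4,1,2],[0,2,3,4,1],[0,4,1,2,3]],Ref.mk 1876 3591 [0,1,2,3] [[0,1,2,3,4],[0,1,2,3,4],[0,1,2,3,4,5],[0,1,2,3,4]]],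
Node.mk [0,820,182,1542,2448,1810,2225,2299,3079,1633] [(0,0),(0,1),(1,2),(2,3),(3,2),(3,3)] [Ref.mk 921 3557 [3,1,2,0] [[2,3,1,0,4],[0,4,3,2,1],[1,0,2,4,3],[3,2,0,1,4]],Ref.mk 1057 3557 [3,2,0,1] [[2,3,1,0,4],[2,0,1,3,4],[4,2,1,3,0],[1,4,2,0,3]],Ref.mk 3028 3304 [0,1,2,3] [[1,2,4,0,3],[0,4,3,2,1],[2,0,1,4,3],[4,3,0,2,1]]],
Node.mk [0,820,182,1542,2448,1810,2225,2299,3079] [(0,0),(0,1),(1,0),(1,2),(1,3),(3,3)] [Ref.mk 1633 3593 [0,1,2,3] [[0,1,2,3,4],[0,1,2,3,4],[0,1,2,3,4],[0,1,2,3,4]],Ref.mk 283 3323 [0,2,1,3] [[4,1,0,3,2],[1,2,3,4,0],[3,0,2,4],[3,4,2,0]]],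
Node.mk [0,820,182,1542,2448,1810,2225,2299,3161,2939,2523,284] [(0,1),(0,3),(1,1),(3,0),(3,3),(3,4)] [Ref.mk 1057 3577 [0,1,2,3] [[0,1,2,3,4],[0,1,2,3,4],[0,1,2,3,4],[0,1,2,3]]],
Node.mk [0,820,182,1542,2448,1810,2225,2299,3161,2939,2523] [(0,1),(0,2),(0,3),(1,1),(2,0),(3,3)] [Ref.mk 3114 3591 [2,1,0,3] [[1,2,4,3,0],[0,2,3,4,1],[3,2,1,4,0,5],[2,0,4,3,1]],Ref.mk 1057 3577 [0,1,2,3] [[0,1,2,3,4],[0,1,2,3,4],[0,1,2,3,4],[0,1,2,3]],Ref.mk 284 3595 [0,1,2,3] [[0,1,2,3,4,5],[0,1,2,3,4],[0,1,2,3,4],[0,1,2,3,4]]],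
Node.mk [0,820,182,1542,2448,1810,2225,2299,3161,2939] [(0,0),(0,1),(0,2),(1,2),(1,3),(3,2)] [Ref.mk 2523 3596 [0,1,2,3] [[0,1,2,3,4,5],[0,1,2,3,4],[0,1,2,3,4],[0,1,2,3,4]],Ref.mk 1057 3577 [0,1,2,3] [[0,1,2,3,4],[0,1,2,3,4],[0,1,2,3,4],[0,1,2,3]],Ref.mk 2354 3563 [0,3,2,1] [[0,1,2,4,5],[3,1,0,2,4],[3,1,2,0,4],[2,1,3,0,4]],Ref.mk 284 3558 [0,3,2,1] [[2,1,5,4,0],[3,1,0,2,4],[0,1,3,2,4],[4,1,3,2,0]]],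
Node.mk [0,820,182,1542,2448,1810,2225,2299,3161] [(0,0),(0,1),(0,2),(0,3),(0,4),(2,1)] [Ref.mk 2354 3564 [0,3,2,1] [[0,1,2,4,5],[3,1,0,2,4],[3,1,2,0,4],[2,1,3,0,4]],Ref.mk 2939 3597 [0,1,2,3] [[0,1,2,3,4,5],[0,1,2,3,4],[0,1,2,3,4],[0,1,2,3,4]],Ref.mk 284 3597 [0,3,2,1] [[0,1,2,4,3,5],[3,1,0,2,4],[3,1,2,0,4],[2,1,3,0,4]]],
Node.mk [0,820,182,1542,2448,1810,2225,2299] [(1,2),(2,1),(3,0),(3,1),(3,2),(3,3)] [Ref.mk 3114 3592 [0,1,2,3] [[0,1,2,3,4],[0,1,2,3,4],[0,1,2,3,4],[0,1,2,3,4]],Ref.mk 3079 3594 [0,1,2,3] [[0,1,2,3,4],[0,1,2,3,4],[0,1,2,3,4],[0,1,2,3,4]],Ref.mk 3161 3598 [0,1,2,3] [[0,1,2,3,4],[0,1,2,3,4],[0,1,2,3,4],[0,1,2,3,4]]],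
Node.mk [0,820,182,1542,2448,1810,2225,3028,2394] [(0,0),(0,1),(0,2),(1,3),(3,2),(3,3)] [Ref.mk 3252 3584 [2,1,0,3] [[1,2,4,0,3],[0,5,3,2,1],[3,0,1,4,2],[2,3,0,4,1]],Ref.mk 1057 3573 [0,1,3,2] [[4,2,1,0,3],[0,2,3,4,1],[1,0,2,4,3],[4,2,0,1,3]]],
Node.mk [0,820,182,1542,2448,1810,2225,3028,2234] [(0,2),(1,0),(1,1),(1,2),(1,3),(2,1)] [Ref.mk 36 2306 [0,1,2,3] [[0,1,2,3],[0,1,2,4],[0,1,2,3],[0,1,2,3]],Ref.mk 2385 3600 [0,1,2,3] [[0,1,2,3,4],[0,1,2,3,5,4],[0,1,2,3,4],[0,1,2,3,4]],Ref.mk 45 2306 [0,1,2,3] [[0,1,2,3],[0,1,2,5],[0,1,2,3],[0,1,2,3]],Ref.mk 2394 3600 [0,1,2,3] [[0,1,2,3,4],[0,1,2,3,4,5],[0,1,2,3,4],[0,1,2,3,4]],Ref.mk 54 2306 [0,1,2,3] [[0,1,2,3],[0,1,2,6],[0,1,2,3],[0,1,2,3]],Ref.mk 2403 3600 [0,1,2,3]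 [[0,1,2,3,4],[0,1,2,3,5,6],[0,1,2,3,4],[0,1,2,3,4]]],
Node.mk [0,820,182,1542,2448,1810,2225,3028,290] [(0,0),(0,1),(0,2),(1,3),(3,0),(3,2)] [Ref.mk 3252 3600 [3,1,2,0] [[0,4,3,2,1],[0,3,2,1,4,5],[0,1,3,2,4],[0,4,3,2,1]],Ref.mk 1057 3587 [2,1,3,0] [[4,3,1,0,2],[0,5,3,2,1],[1,0,4,2,3],[4,2,0,1,3]]],
Node.mk [0,820,182,1542,2448,1810,2225,3028] [(1,0),(1,1),(1,2),(1,3),(1,4),(2,1)] [Ref.mk 45 2141 [0,1,2,3] [[0,4,2,3,1],[0,3,2,5],[0,1,2,3,4],[0,4,2,3]],Ref.mk 2394 3600 [0,1,2,3] [[0,1,2,3,4],[0,1,2,3,4,5],[0,1,2,3,4],[0,1,2,3,4]],Ref.mk 2234 3601 [0,1,2,3] [[0,1,2,3,4],[0,1,2,3,4,5],[0,1,2,3,4],[0,1,2,3,4]],Ref.mk 290 3602 [0,1,2,3] [[0,1,2,3,4],[0,1,2,3,4,5],[0,1,2,3,4],[0,1,2,3,4]]],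
Node.mk [0,820,182,1542,2448,1810,2225,283,23,2938,9,837] [(0,0),(0,1),(1,2),(1,4),(2,1),(3,1)] [],
Node.mk [0,820,182,1542,2448,1810,2225,283,23,2938,9,2295] [(0,0),(0,1),(0,3),(1,2),(1,4),(2,1)] [],
Node.mk [0,820,182,1542,2448,1810,2225,283,23,2938,9,3024] [(0,0),(0,1),(0,3),(1,2),(1,4),(2,1)] [],
Node.mk [0,820,182,1542,2448,1810,2225,283,23,2938,9,3753] [(0,0),(0,1),(0,3),(1,2),(1,4),(2,1)] [],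
Node.mk [0,820,182,1542,2448,1810,2225,283,23,2938,9] [(0,1),(0,2),(0,3),(1,2),(3,0),(3,2)] [Ref.mk 1053 3532 [2,0,1,3] [[0,1,3,4,2],[0,3,4,1,2],[1,0,4,2,3],[0,2,1,4,3]],Ref.mk 837 3604 [0,1,2,3] [[0,1,2,3,4,5],[0,1,2,3,4],[0,1,2,3,4],[0,1,2,3,4]],Ref.mk 2295 3605 [0,1,2,3] [[0,1,2,3,4,5],[0,1,2,3,4],[0,1,2,3,4],[0,1,2,3,4]],Ref.mk 3024 3606 [0,1,2,3] [[0,1,2,3,4,5],[0,1,2,3,4],[0,1,2,3,4],[0,1,2,3,4]],Ref.mk 3753 3607 [0,1,2,3] [[0,1,2,3,4,5],[0,1,2,3,4],[0,1,2,3,4],[0,1,2,3,4,5]],Ref.mk 1057 3313 [2,0,1,3] [[4,0,1,3,2],[4,2,1,0,3],[0,4,1,3,2],[1,3,0,2]],Ref.mk 841 3588 [0,1,2,3] [[0,1,2,3,4],[0,1,2,3,4],[0,1,2,3,4],[0,1,2,3]],Ref.mk 2299 3599 [0,1,2,3] [[0,1,2,3,4],[0,1,2,3,4],[0,1,2,3,4],[0,1,2,3]],Ref.mk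 3028 2129 [3,1,0,2] [[0,2,3,1,4],[1,3,4,0,2],[0,1,2,4,5],[0,4,1,3,2]],Ref.mk 3757 2129 [3,1,0,2] [[0,2,3,1,5],[1,3,4,0,2],[0,1,2,4,5],[0,4,1,3,2]],Ref.mk 1058 3577 [0,1,2,3] [[0,1,2,3,5],[0,1,2,3,4],[0,1,2,3,4],[0,1,2,3]],Ref.mk 842 3588 [0,1,2,3] [[0,1,2,3,5],[0,1,2,3,4],[0,1,2,3,4],[0,1,2,3]],Ref.mk 2300 3599 [0,1,2,3] [[0,1,2,3,5],[0,1,2,3,4],[0,1,2,3,4],[0,1,2,3]],Ref.mk 3029 3603 [0,1,2,3] [[0,1,2,3,5],[0,1,2,3,4],[0,1,2,3,4],[0,1,2,3,4]],Ref.mk 3758 3603 [0,1,2,3] [[0,1,2,3,5],[0,1,2,3,4],[0,1,2,3,4],[0,1,2,3,5]],Ref.mk 1059 3577 [0,1,2,3] [[0,1,2,3,6],[0,1,2,3,4],[0,1,2,3,4],[0,1,2,3]],Ref.mk 843 3588 [0,1,2,3] [[0,1,2,3,6],[0,1,2,3,4],[0,1,2,3,4],[0,1,2,3]],Ref.mk 2301 3599 [0,1,2,3] [[0,1,2,3,6],[0,1,2,3,4],[0,1,2,3,4],[0,1,2,3]],Ref.mk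 3030 3603 [0,1,2,3] [[0,1,2,3,6],[0,1,2,3,4],[0,1,2,3,4],[0,1,2,3,4]],Ref.mk 3759 3603 [0,1,2,3] [[0,1,2,3,6],[0,1,2,3,4],[0,1,2,3,4],[0,1,2,3,5]]],
Node.mk [0,820,182,1542,2448,1810,2225,283,23,2938] [(0,3),(1,0),(1,2),(1,4),(2,1),(3,2)] [Ref.mk 9 3608 [0,1,2,3] [[0,1,2,3,4,5],[0,1,2,3,4],[0,1,2,3,4],[0,1,2,3,4]],Ref.mk 27 3608 [0,1,3,2] [[0,1,4,3,2,5],[0,3,2,1,4],[0,2,4,3,1],[0,4,1,3,2]],Ref.mk 45 2303 [0,1,3,2] [[0,1,4,3,2],[0,3,2,5,4],[0,2,4,3],[0,4,1,3,2]]],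
Node.mk [0,820,182,1542,2448,1810,2225,283,23] [(0,1),(1,1),(2,1),(3,0),(3,1),(3,3)] [Ref.mk 1480 3186 [1,3,0,2] [[2,1,4,3,0],[2,1,3,0],[4,1,2,0,5],[0,1,4,3,2]],Ref.mk 2938 3609 [0,1,2,3] [[0,1,2,3,4,5],[0,1,2,3,4],[0,1,2,3,4],[0,1,2,3,4]]],
Node.mk [0,820,182,1542,2448,1810,2225,283,284,3114] [(0,0),(0,1),(0,2),(0,3),(1,4),(3,2)] [Ref.mk 1057 3312 [2,0,1,3] [[4,0,1,3,2],[4,2,1,0,3],[0,4,1,3,2],[1,3,0,2,4]],Ref.mk 112 3564 [0,3,2,1] [[2,1,0,4,5],[0,1,3,2,4],[2,1,3,0,4],[2,1,3,4,0]],Ref.mk 841 2303 [2,0,1,3] [[3,4,0,1,2],[4,1,0,5,2],[4,3,0,2],[0,2,1,3,4]],Ref.mk 2299 3443 [1,0,3,2] [[3,2,1,4,0],[4,2,1,0,5],[3,0,1,2,4],[1,2,3,4,0]],Ref.mk 3028 3603 [0,1,2,3] [[0,1,2,3,4],[0,1,2,3,4],[0,1,2,3,4],[0,1,2,3,4]],Ref.mk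 3757 2303 [2,0,1,3] [[3,4,0,1,2],[4,1,0,5,2],[4,3,0,2],[0,2,5,3,4]],Ref.mk 1058 3312 [2,0,1,3] [[4,0,1,3,2],[5,2,1,0,3],[0,4,1,3,2],[1,3,0,2,4]],Ref.mk 113 3564 [0,3,2,1] [[2,1,0,5,4],[0,1,3,2,4],[2,1,3,0,4],[2,1,3,4,0]],Ref.mk 842 2303 [2,0,1,3] [[3,4,0,1,2],[5,1,0,4,2],[4,3,0,2],[0,2,1,3,4]],Ref.mk 2300 3443 [1,0,3,2] [[3,2,1,4,0],[5,2,1,0,4],[3,0,1,2,4],[1,2,3,4,0]],Ref.mk 3029 3603 [0,1,2,3] [[0,1,2,3,5],[0,1,2,3,4],[0,1,2,3,4],[0,1,2,3,4]],Ref.mk 3758 2303 [2,0,1,3] [[3,4,0,1,2],[5,1,0,4,2],[4,3,0,2],[0,2,5,3,4]],Ref.mk 1059 3576 [0,1,2,3] [[0,1,2,3,6],[0,1,2,3,4],[0,1,2,3,4],[0,1,2,3,4]],Ref.mk 114 3564 [0,3,2,1] [[2,1,0,6,5],[0,1,3,2,4],[2,1,3,0,4],[2,1,3,4,0]],Ref.mk 843 3584 [0,1,2,3] [[0,1,2,3,6],[0,1,2,3,4],[0,1,2,3,4],[0,1,2,3,4]],Ref.mk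 2301 3592 [0,1,2,3] [[0,1,2,3,6],[0,1,2,3,4],[0,1,2,3,4],[0,1,2,3,4]],Ref.mk 3030 3603 [0,1,2,3] [[0,1,2,3,6],[0,1,2,3,4],[0,1,2,3,4],[0,1,2,3,4]],Ref.mk 3759 3603 [0,1,2,3] [[0,1,2,3,6],[0,1,2,3,4],[0,1,2,3,4],[0,1,2,3,5]]],
Node.mk [0,820,182,1542,2448,1810,2225,283,284,3252] [(0,0),(0,1),(0,2),(0,3),(1,1),(3,0)] [Ref.mk 1057 3310 [2,0,1,3] [[4,0,1,3,2],[4,2,1,0,3],[0,4,1,3,2],[1,3,0,2,4]],Ref.mk 3028 3603 [0,1,2,3] [[0,1,2,3,4],[0,1,2,3,4],[0,1,2,3,4],[0,1,2,3,4]],Ref.mk 1058 3310 [2,0,1,3] [[4,0,1,3,2],[5,2,1,0,3],[0,4,1,3,2],[1,3,0,2,4]],Ref.mk 3029 3603 [0,1,2,3] [[0,1,2,3,5],[0,1,2,3,4],[0,1,2,3,4],[0,1,2,3,4]],Ref.mk 1059 3573 [0,1,3,2] [[3,2,1,0,6],[0,2,1,4,3],[2,0,1,4,3],[1,2,0,4,3]],Ref.mk 3030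 3603 [0,1,2,3] [[0,1,2,3,6],[0,1,2,3,4],[0,1,2,3,4],[0,1,2,3,4]]],
Node.mk [0,820,182,1542,2448,1810,2225,283,284] [(1,0),(2,1),(3,0),(3,1),(3,2),(3,3)] [Ref.mk 3114 3611 [0,1,2,3] [[0,1,2,3,4,5],[0,1,2,3,4],[0,1,2,3,4],[0,1,2,3,4]],Ref.mk 3252 3612 [0,1,2,3] [[0,1,2,3,4,5],[0,1,2,3,4],[0,1,2,3,4],[0,1,2,3,4]]],
Node.mk [0,820,182,1542,2448,1810,2225,283] [(0,0),(0,1),(0,2),(0,3),(0,4),(3,2)] [Ref.mk 1058 3577 [0,1,2,3] [[0,1,2,3,5],[0,1,2,3,4],[0,1,2,3,4],[0,1,2,3]],Ref.mk 23 3610 [0,1,2,3] [[0,1,2,3,4,5],[0,1,2,3,4],[0,1,2,3,4],[0,1,2,3]],Ref.mk 113 3582 [0,1,2,3] [[0,1,2,3,5],[0,1,2,3,4],[0,1,2,3,4],[0,1,2,3]],Ref.mk 842 3588 [0,1,2,3] [[0,1,2,3,5],[0,1,2,3,4],[0,1,2,3,4],[0,1,2,3]],Ref.mk 2300 3599 [0,1,2,3]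 [[0,1,2,3,5],[0,1,2,3,4],[0,1,2,3,4],[0,1,2,3]],Ref.mk 3029 3603 [0,1,2,3] [[0,1,2,3,5],[0,1,2,3,4],[0,1,2,3,4],[0,1,2,3,4]],Ref.mk 284 3613 [0,1,2,3] [[0,1,2,3,4,5],[0,1,2,3,4],[0,1,2,3,4],[0,1,2,3]]],
Node.mk [0,820,182,1542,2448,1810,2225] [(0,0),(0,1),(0,2),(0,3),(1,2),(3,2)] [Ref.mk 2353 3575 [0,1,2,3] [[0,1,2,3,4],[0,1,2,3,4],[0,1,2,3,4],[0,1,2,3]],Ref.mk 1057 3577 [0,1,2,3] [[0,1,2,3,4],[0,1,2,3,4],[0,1,2,3,4],[0,1,2,3]],Ref.mk 112 3582 [0,1,2,3] [[0,1,2,3,4],[0,1,2,3,4],[0,1,2,3,4],[0,1,2,3]],Ref.mk 841 3588 [0,1,2,3] [[0,1,2,3,4],[0,1,2,3,4],[0,1,2,3,4],[0,1,2,3]],Ref.mk 2299 3599 [0,1,2,3] [[0,1,2,3,4],[0,1,2,3,4],[0,1,2,3,4],[0,1,2,3]],Ref.mk 3028 3603 [0,1,2,3] [[0,1,2,3,4],[0,1,2,3,4],[0,1,2,3,4],[0,1,2,3,4]],Ref.mk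 283 3614 [0,1,2,3] [[0,1,2,3,4],[0,1,2,3,4],[0,1,2,3,4],[0,1,2,3]]],
Node.mk [0,820,182,1542,2448,1810,281,3177,2385,2432,1057,3028,284] [(0,0),(0,1),(0,4),(1,0),(1,3),(3,0)] [Ref.mk 3252 3588 [2,1,3,0] [[1,3,4,0,2],[0,4,1,2,3],[2,0,4,1,3],[3,2,0,1]]],
Node.mk [0,820,182,1542,2448,1810,281,3177,2385,2432,1057,3028] [(0,0),(0,1),(0,2),(0,3),(0,4),(2,1)] [Ref.mk 284 3616 [0,1,2,3] [[0,1,2,3,4,5],[0,1,2,3,4],[0,1,2,3,4],[0,1,2,3,4]]],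
Node.mk [0,820,182,1542,2448,1810,281,3177,2385,2432,1057,3757,284] [(0,0),(0,1),(0,4),(1,0),(1,3),(3,0)] [Ref.mk 3981 3588 [2,1,3,0] [[1,3,4,0,2],[0,4,1,2,3],[2,0,5,1,3],[3,2,0,1]]],
Node.mk [0,820,182,1542,2448,1810,281,3177,2385,2432,1057,3757] [(0,0),(0,1),(0,2),(0,3),(0,4),(2,1)] [Ref.mk 284 3618 [0,1,2,3] [[0,1,2,3,4,5],[0,1,2,3,4],[0,1,2,3,4],[0,1,2,3,4,5]]],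
Node.mk [0,820,182,1542,2448,1810,281,3177,2385,2432,1057] [(0,0),(0,1),(3,0),(3,1),(3,2),(3,3)] [Ref.mk 3252 3617 [0,1,2,3] [[0,1,2,4,3],[0,3,2,1,4],[0,4,2,3,1],[0,2,1,3,4]],Ref.mk 3981 3619 [0,1,2,3] [[0,1,2,4,3],[0,3,2,1,4],[0,4,2,3,1],[0,2,1,3,4,5]],Ref.mk 3028 3617 [0,1,2,3] [[0,1,2,3,4],[0,1,2,3,4],[0,1,2,3,4],[0,1,2,3,4]],Ref.mk 3757 3619 [0,1,2,3] [[0,1,2,3,4],[0,1,2,3,4],[0,1,2,3,4],[0,1,2,3,4,5]]],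
Node.mk [0,820,182,1542,2448,1810,281,3177,2385,2432,283,2449] [(0,0),(0,1),(3,0),(3,1),(3,2),(3,3)] [],
Node.mk [0,820,182,1542,2448,1810,281,3177,2385,2432,283] [(0,0),(0,3),(1,0),(2,1),(3,0),(3,2)] [Ref.mk 2449 3621 [0,1,2,3] [[0,1,2,3,4],[0,1,2,3,4],[0,1,2,3,4],[0,1,2,3,4]]],
Node.mk [0,820,182,1542,2448,1810,281,3177,2385,2432] [(0,0),(0,1),(0,2),(0,3),(1,1),(2,1)] [Ref.mk 1057 3620 [0,1,2,3] [[0,1,2,3,4],[0,1,2,3,4],[0,1,2,3,4],[0,1,2,3,4]],Ref.mk 283 3622 [0,1,2,3] [[0,1,2,3,4],[0,1,2,3,4],[0,1,2,3,4],[0,1,2,3,4]]],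
Node.mk [0,820,182,1542,2448,1810,281,3177,2385,2207,9,1057,3028] [(1,0),(1,1),(1,2),(1,3),(1,4),(2,1)] [Ref.mk 45 2306 [0,1,2,3] [[0,1,2,3],[0,1,2,5],[0,1,2,3],[0,1,2,3]]],
Node.mk [0,820,182,1542,2448,1810,281,3177,2385,2207,9,1057,3757] [(1,0),(1,1),(1,2),(1,3),(1,4),(2,1)] [Ref.mk 45 2306 [0,1,2,3] [[0,1,2,3],[0,1,2,5],[0,1,2,3],[0,1,2,3]]],
Node.mk [0,820,182,1542,2448,1810,281,3177,2385,2207,9,1057] [(0,0),(0,1),(3,0),(3,1),(3,2),(3,3)] [Ref.mk 3252 3588 [2,1,3,0] [[1,3,4,0,2],[0,4,1,2,3],[2,0,4,1,3],[3,2,0,1]],Ref.mk 3981 3588 [2,1,3,0] [[1,3,4,0,2],[0,4,1,2,3],[2,0,5,1,3],[3,2,0,1]],Ref.mk 3028 3624 [0,1,2,3] [[0,1,2,3,4],[0,1,2,3,4],[0,1,2,3,4],[0,1,2,3,4]],Ref.mk 3757 3625 [0,1,2,3] [[0,1,2,3,4],[0,1,2,3,4],[0,1,2,3,4],[0,1,2,3,4,5]]],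
Node.mk [0,820,182,1542,2448,1810,281,3177,2385,2207,9,184,921] [(0,3),(1,2),(1,3),(2,2),(3,0),(3,1)] [],
Node.mk [0,820,182,1542,2448,1810,281,3177,2385,2207,9,184,1083,3241] [(0,0),(0,1),(0,2),(1,2),(2,1),(2,4)] [],
Node.mk [0,820,182,1542,2448,1810,281,3177,2385,2207,9,184,1083,3970] [(0,0),(0,1),(0,2),(1,2),(2,1),(2,4)] [],
Node.mk [0,820,182,1542,2448,1810,281,3177,2385,2207,9,184,1083] [(0,0),(2,1),(3,0),(3,1),(3,2),(3,3)] [Ref.mk 3241 3628 [0,1,2,3] [[0,1,2,3,4],[0,1,2,3,4],[0,1,2,3,4],[0,1,2,3,4]],Ref.mk 3970 3629 [0,1,2,3] [[0,1,2,3,4],[0,1,2,3,4],[0,1,2,3,4],[0,1,2,3,4,5]],Ref.mk 3252 3628 [0,1,2,3] [[0,3,2,1,4],[1,0,2,3,4],[0,1,2,3,4],[0,2,1,3,4]],Ref.mk 3981 3629 [0,1,2,3] [[0,3,2,1,4],[1,0,2,3,4],[0,1,2,3,4],[0,2,1,3,4,5]]],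
Node.mk [0,820,182,1542,2448,1810,281,3177,2385,2207,9,184,1164,3322] [(0,1),(1,0),(1,1),(1,2),(1,3),(1,4)] [Ref.mk 45 2306 [0,1,2,3] [[0,1,2,3],[0,1,2,5],[0,1,2,3],[0,1,2,3]]],
Node.mk [0,820,182,1542,2448,1810,281,3177,2385,2207,9,184,1164,4051] [(0,1),(1,0),(1,1),(1,2),(1,3),(1,4)] [Ref.mk 45 2306 [0,1,2,3] [[0,1,2,3],[0,1,2,5],[0,1,2,3],[0,1,2,3]]],
Node.mk [0,820,182,1542,2448,1810,281,3177,2385,2207,9,184,1164] [(0,0),(2,1),(3,0),(3,1),(3,2),(3,3)] [Ref.mk 3322 3631 [0,1,2,3] [[0,1,2,3,4],[0,1,2,3,4],[0,1,2,3,4,5],[0,1,2,3,4]],Ref.mk 4051 3632 [0,1,2,3] [[0,1,2,3,4],[0,1,2,3,4],[0,1,2,3,4,5],[0,1,2,3,4,5]],Ref.mk 3252 3631 [0,1,2,3] [[0,3,2,1,4],[1,0,2,3,4],[0,1,2,3,5,4],[0,2,1,3,4]],Ref.mk 3981 3632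 [0,1,2,3] [[0,3,2,1,4],[1,0,2,3,4],[0,1,2,3,5,4],[0,2,1,3,4,5]]],
Node.mk [0,820,182,1542,2448,1810,281,3177,2385,2207,9,184,1101] [(1,0),(1,1),(1,2),(1,4),(2,1),(2,4)] [Ref.mk 27 2306 [0,1,2,3] [[0,1,2,3],[0,1,2,3],[0,1,2,3],[0,1,2,3]],Ref.mk 45 2306 [0,1,2,3] [[0,1,2,3],[0,1,2,5],[0,1,2,3],[0,1,2,3]],Ref.mk 54 2306 [0,1,2,3] [[0,1,2,3],[0,1,2,6],[0,1,2,3],[0,1,2,3]],Ref.mk 1504 3555 [0,1,2,3] [[0,1,2,3],[0,1,2,5],[0,1,2,3],[0,1,2,3]],Ref.mk 1666 3627 [0,1,2,3] [[0,3,2,1,4],[1,0,2,5,4],[0,1,2,3,4],[0,2,1,3,4]],Ref.mk 1747 3627 [3,1,2,0] [[0,1,3,2,4],[0,1,2,5,4],[0,1,3,2,4],[0,1,3,2,4]],Ref.mk 1909 3633 [0,1,2,3] [[0,1,2,3,4],[0,1,2,5,4],[0,1,2,3,5,4],[0,1,2,3,4]],Ref.mk 759 3555 [3,1,2,0] [[0,1,3,2],[0,1,2,3],[0,1,3,2],[0,1,3,2]],Ref.mk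 921 3627 [0,1,2,3] [[0,1,2,3,4],[0,1,2,3,4],[0,1,2,3,4],[0,1,2,3,4]],Ref.mk 1002 3627 [3,1,2,0] [[0,2,3,1,4],[1,0,2,3,4],[0,1,3,2,4],[0,3,1,2,4]],Ref.mk 1164 3633 [0,1,2,3] [[0,1,2,3,4],[0,1,2,3,4],[0,1,2,3,4,5],[0,1,2,3,4]]],
Node.mk [0,820,182,1542,2448,1810,281,3177,2385,2207,9,184] [(0,1),(1,0),(1,1),(1,2),(1,4),(2,1)] [Ref.mk 27 2306 [0,1,2,3] [[0,1,2,3],[0,1,2,3],[0,1,2,3],[0,1,2,3]],Ref.mk 45 2306 [0,1,2,3] [[0,1,2,3],[0,1,2,5],[0,1,2,3],[0,1,2,3]],Ref.mk 759 3622 [3,2,1,0] [[0,2,3,1,4],[0,4,2,1,3],[1,3,4,2,0],[0,1,3,2,4]],Ref.mk 921 3627 [0,1,2,3] [[0,1,2,3,4],[0,1,2,3,4],[0,1,2,3,4],[0,1,2,3,4]],Ref.mk 1002 3627 [3,1,2,0] [[0,2,3,1,4],[1,0,2,3,4],[0,1,3,2,4],[0,3,1,2,4]],Ref.mk 1083 3630 [0,1,2,3]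 [[0,1,2,3,4],[0,1,2,3,4],[0,1,2,3,4],[0,1,2,3,4]],Ref.mk 1164 3633 [0,1,2,3] [[0,1,2,3,4],[0,1,2,3,4],[0,1,2,3,4,5],[0,1,2,3,4]],Ref.mk 1101 3634 [0,1,2,3] [[0,1,2,3,4],[0,1,2,3,4,5],[0,1,2,3,4],[0,1,2,3,4]]],
Node.mk [0,820,182,1542,2448,1810,281,3177,2385,2207,9] [(0,0),(0,1),(0,2),(0,3),(1,1),(2,1)] [Ref.mk 1057 3626 [0,1,2,3] [[0,1,2,3,4],[0,1,2,3,4],[0,1,2,3,4],[0,1,2,3,4]],Ref.mk 184 3635 [0,1,2,3] [[0,1,2,3,4],[0,1,2,3,4],[0,1,2,3,4],[0,1,2,3,4]]],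
Node.mk [0,820,182,1542,2448,1810,281,3177,2385,2207] [(0,3),(1,0),(1,2),(1,4),(2,1),(3,2)] [Ref.mk 9 3636 [0,1,2,3] [[0,1,2,3],[0,1,2,3,4],[0,1,2,3,4],[0,1,2,3,4]],Ref.mk 27 2306 [0,1,2,3] [[0,1,2,3],[0,1,2,3],[0,1,2,3],[0,1,2,3]],Ref.mk 45 2306 [0,1,2,3] [[0,1,2,3],[0,1,2,5],[0,1,2,3],[0,1,2,3]]],
Node.mk [0,820,182,1542,2448,1810,281,3177,2385] [(0,0),(0,1),(1,1),(2,1),(3,0),(3,1)] [Ref.mk 2432 3623 [0,1,2,3] [[0,1,2,3],[0,1,2,3,4],[0,1,2,3,4],[0,1,2,3,4]],Ref.mk 2207 3637 [0,1,2,3] [[0,1,2,3],[0,1,2,3,4],[0,1,2,3,4],[0,1,2,3,4]]],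
Node.mk [0,820,182,1542,2448,1810,281,3177,3843,3890,1057,3907] [(0,0),(0,1),(3,0),(3,1),(3,2),(3,5)] [],
Node.mk [0,820,182,1542,2448,1810,281,3177,3843,3890,1057,3665] [(0,0),(0,1),(0,2),(1,1),(2,1),(3,1)] [],
Node.mk [0,820,182,1542,2448,1810,281,3177,3843,3890,1057] [(0,0),(0,3),(1,0),(2,1),(3,0),(3,2)] [Ref.mk 3907 3639 [0,1,2,3] [[0,1,2,3,4],[0,1,2,3,4],[0,1,2,3,4],[0,1,2,3,4,5]],Ref.mk 3665 3640 [0,1,2,3] [[0,1,2,3,4],[0,1,2,3,4],[0,1,2,3,4],[0,1,2,3,4,5]]],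
Node.mk [0,820,182,1542,2448,1810,281,3177,3843,3890,283,3907] [(0,0),(0,1),(3,0),(3,1),(3,2),(3,5)] [],
Node.mk [0,820,182,1542,2448,1810,281,3177,3843,3890,283] [(0,0),(0,3),(1,0),(2,1),(3,0),(3,2)] [Ref.mk 3907 3642 [0,1,2,3] [[0,1,2,3,4],[0,1,2,3,4],[0,1,2,3,4],[0,1,2,3,4,5]]],
Node.mk [0,820,182,1542,2448,1810,281,3177,3843,3890] [(0,0),(0,1),(0,2),(0,3),(1,1),(2,1)] [Ref.mk 1057 3641 [0,1,2,3] [[0,1,2,3,4],[0,1,2,3,4],[0,1,2,3,4],[0,1,2,3,4,5]],Ref.mk 283 3643 [0,1,2,3] [[0,1,2,3,4],[0,1,2,3,4],[0,1,2,3,4],[0,1,2,3,4,5]]],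
Node.mk [0,820,182,1542,2448,1810,281,3177,3843,3665,9,1057,1101] [(0,0),(0,2),(1,2),(2,1),(2,4),(3,1)] [],
Node.mk [0,820,182,1542,2448,1810,281,3177,3843,3665,9,1057,1588] [(0,0),(0,2),(0,4),(1,2),(2,1),(3,2)] [Ref.mk 1101 3645 [0,1,2,3] [[0,1,2,3,4],[0,1,2,3,4,5],[0,1,2,3,4],[0,1,2,3,4,5]]],
Node.mk [0,820,182,1542,2448,1810,281,3177,3843,3665,9,1057] [(0,1),(1,0),(1,1),(1,2),(1,3),(1,4)] [Ref.mk 45 2306 [0,1,2,3] [[0,1,2,3],[0,1,2,5],[0,1,2,3],[0,1,2,3]],Ref.mk 1101 3645 [0,1,2,3] [[0,1,2,3,4],[0,1,2,3,4,5],[0,1,2,3,4],[0,1,2,3,4,5]],Ref.mk 1588 3646 [0,1,2,3] [[0,1,2,3,4],[0,1,2,3,4,5],[0,1,2,3,4],[0,1,2,3,4,5]]]]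

/-- nodes -/
noncomputable def c57 : List Node := [
Node.mk [0,820,182,1542,2448,1810,281,3177,3843,3665,9,184,921] [(0,3),(1,2),(1,3),(2,2),(3,0),(3,1)] [],
Node.mk [0,820,182,1542,2448,1810,281,3177,3843,3665,9,184,1002] [(0,0),(0,3),(1,2),(1,3),(2,3),(3,1)] [],
Node.mk [0,820,182,1542,2448,1810,281,3177,3843,3665,9,184,1083,1587] [(0,0),(0,2),(0,3),(1,2),(2,1),(3,2)] [],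
Node.mk [0,820,182,1542,2448,1810,281,3177,3843,3665,9,184,1083,1101] [(0,0),(0,2),(0,3),(1,2),(2,4),(3,1)] [],
Node.mk [0,820,182,1542,2448,1810,281,3177,3843,3665,9,184,1083] [(0,1),(1,0),(1,1),(1,2),(1,3),(1,4)] [Ref.mk 45 2306 [0,1,2,3] [[0,1,2,3],[0,1,2,5],[0,1,2,3],[0,1,2,3]],Ref.mk 1587 3650 [0,1,2,3] [[0,1,2,3,4],[0,1,2,3,4,5],[0,1,2,3,4],[0,1,2,3,4,5]],Ref.mk 1101 3651 [0,1,2,3] [[0,1,2,3,4],[0,1,2,3,4,5],[0,1,2,3,4],[0,1,2,3,4,5]]],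
Node.mk [0,820,182,1542,2448,1810,281,3177,3843,3665,9,184,1164,1587] [(0,0),(0,2),(0,3),(1,2),(2,1),(3,2)] [],
Node.mk [0,820,182,1542,2448,1810,281,3177,3843,3665,9,184,1164,1101] [(0,0),(0,1),(0,2),(0,3),(1,2),(1,3)] [Ref.mk 1057 3645 [0,1,2,3] [[0,1,2,3,4],[0,1,2,3,4,5],[0,1,2,3,4],[0,1,2,3,4,5]],Ref.mk 1058 3645 [0,1,2,3] [[0,1,2,3,5],[0,1,2,3,4,5],[0,1,2,3,4],[0,1,2,3,4,5]]],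
Node.mk [0,820,182,1542,2448,1810,281,3177,3843,3665,9,184,1164] [(0,1),(1,0),(1,1),(1,2),(1,3),(1,4)] [Ref.mk 45 2306 [0,1,2,3] [[0,1,2,3],[0,1,2,5],[0,1,2,3],[0,1,2,3]],Ref.mk 1587 3653 [0,1,2,3] [[0,1,2,3,4],[0,1,2,3,4,5],[0,1,2,3,4,5],[0,1,2,3,4,5]],Ref.mk 1101 3654 [0,1,2,3] [[0,1,2,3,4],[0,1,2,3,4,5],[0,1,2,3,4,5],[0,1,2,3,4,5]]],
Node.mk [0,820,182,1542,2448,1810,281,3177,3843,3665,9,184,1101] [(0,0),(0,1),(0,2),(0,3),(1,2),(2,1)] [Ref.mk 1057 3645 [0,1,2,3] [[0,1,2,3,4],[0,1,2,3,4,5],[0,1,2,3,4],[0,1,2,3,4,5]],Ref.mk 1795 3645 [0,1,2,3] [[0,3,2,1,4],[1,0,2,5,4,3],[0,1,2,3,4],[0,2,1,3,4,5]],Ref.mk 1058 3645 [0,1,2,3] [[0,1,2,3,5],[0,1,2,3,4,5],[0,1,2,3,4],[0,1,2,3,4,5]],Ref.mk 1796 3645 [0,1,2,3]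 [[0,3,2,1,5],[1,0,2,5,4,3],[0,1,2,3,4],[0,2,1,3,4,5]]],
Node.mk [0,820,182,1542,2448,1810,281,3177,3843,3665,9,184] [(0,1),(1,0),(1,1),(1,2),(1,4),(2,1)] [Ref.mk 27 2306 [0,1,2,3] [[0,1,2,3],[0,1,2,3],[0,1,2,3],[0,1,2,3]],Ref.mk 45 2306 [0,1,2,3] [[0,1,2,3],[0,1,2,5],[0,1,2,3],[0,1,2,3]],Ref.mk 759 3643 [0,2,1,3] [[0,1,2,3,4],[0,4,3,1,2],[0,3,4,2,1],[0,2,1,3,4,5]],Ref.mk 921 3648 [0,1,2,3] [[0,1,2,3,4],[0,1,2,3,4],[0,1,2,3,4],[0,1,2,3,4,5]],Ref.mk 1002 3649 [0,1,2,3] [[0,1,2,3,4],[0,1,2,3,4],[0,1,2,3,4],[0,1,2,3,4,5]],Ref.mk 1083 3652 [0,1,2,3] [[0,1,2,3,4],[0,1,2,3,4],[0,1,2,3,4],[0,1,2,3,4,5]],Ref.mk 1164 3655 [0,1,2,3] [[0,1,2,3,4],[0,1,2,3,4],[0,1,2,3,4,5],[0,1,2,3,4,5]],Ref.mk 1101 3656 [0,1,2,3] [[0,1,2,3,4],[0,1,2,3,4,5],[0,1,2,3,4],[0,1,2,3,4,5]]],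
Node.mk [0,820,182,1542,2448,1810,281,3177,3843,3665,9] [(0,0),(0,1),(0,2),(0,3),(1,1),(2,1)] [Ref.mk 1057 3647 [0,1,2,3] [[0,1,2,3,4],[0,1,2,3,4],[0,1,2,3,4],[0,1,2,3,4,5]],Ref.mk 184 3657 [0,1,2,3] [[0,1,2,3,4],[0,1,2,3,4],[0,1,2,3,4],[0,1,2,3,4,5]]],
Node.mk [0,820,182,1542,2448,1810,281,3177,3843,3665] [(0,3),(1,0),(1,2),(1,4),(2,1),(3,2)] [Ref.mk 9 3658 [0,1,2,3] [[0,1,2,3],[0,1,2,3,4],[0,1,2,3,4],[0,1,2,3,4,5]],Ref.mk 27 2306 [0,1,2,3] [[0,1,2,3],[0,1,2,3],[0,1,2,3],[0,1,2,3]],Ref.mk 45 2306 [0,1,2,3] [[0,1,2,3],[0,1,2,5],[0,1,2,3],[0,1,2,3]]],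
Node.mk [0,820,182,1542,2448,1810,281,3177,3843] [(0,0),(0,1),(1,1),(2,1),(3,0),(3,1)] [Ref.mk 3890 3644 [0,1,2,3] [[0,1,2,3],[0,1,2,3,4],[0,1,2,3,4],[0,1,2,3,4,5]],Ref.mk 3665 3659 [0,1,2,3] [[0,1,2,3],[0,1,2,3,4],[0,1,2,3,4],[0,1,2,3,4,5]]],
Node.mk [0,820,182,1542,2448,1810,281,3177] [(1,0),(1,2),(2,1),(3,0),(3,1),(3,2)] [Ref.mk 2385 3638 [0,1,2,3] [[0,1,2,3],[0,1,2,3,4],[0,1,2,3,4],[0,1,2,3,4]],Ref.mk 3114 3638 [0,1,2,3] [[0,1,2,3],[0,1,2,3,4],[0,1,2,3,4],[0,1,2,4,3]],Ref.mk 3843 3660 [0,1,2,3] [[0,1,2,3],[0,1,2,3,4],[0,1,2,3,4],[0,1,2,3,4,5]],Ref.mk 2523 3588 [2,1,3,0] [[1,3,4,0,2],[0,4,1,2,3],[2,0,3,1,4],[3,2,0,1]],Ref.mk 3252 3588 [2,1,3,0] [[1,3,4,0,2],[0,4,1,2,3],[2,0,4,1,3],[3,2,0,1]],Ref.mk 3981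 3588 [2,1,3,0] [[1,3,4,0,2],[0,4,1,2,3],[2,0,5,1,4],[3,2,0,1]]],
Node.mk [0,820,182,1542,2448,1810,281,3114,1057] [(0,0),(0,1),(0,2),(3,0),(3,1),(3,2)] [Ref.mk 2523 3587 [2,1,3,0] [[1,2,4,0,3],[0,2,1,4,3],[2,0,3,1,4],[3,2,0,1,4]],Ref.mk 3252 3592 [2,3,0,1] [[4,3,1,2,0],[4,3,1,0,2],[3,0,1,4,2],[1,2,4,0,3]],Ref.mk 3981 3587 [2,1,3,0] [[1,2,4,0,3],[0,2,1,4,3],[2,0,5,1,4],[3,2,0,1,4]],Ref.mk 2299 3587 [2,1,3,0] [[4,2,1,0,3],[0,2,3,4,1],[1,0,3,2,4],[4,2,0,1,3]],Ref.mk 3028 3592 [2,3,0,1] [[1,3,4,2,0],[4,3,2,0,1],[4,0,1,3,2],[3,2,4,0,1]],Ref.mk 3757 3587 [2,1,3,0] [[4,2,1,0,3],[0,2,3,4,1],[1,0,5,2,4],[4,2,0,1,3]]],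
Node.mk [0,820,182,1542,2448,1810,281,3114,184,2351,2936] [(0,3),(1,0),(1,2),(1,4),(2,1),(3,2)] [],
Node.mk [0,820,182,1542,2448,1810,281,3114,184,2351,1164] [(0,0),(0,3),(1,0),(2,1),(3,0),(3,2)] [Ref.mk 2936 3663 [0,1,2,3] [[0,1,2,3,4],[0,1,2,3,4],[0,1,2,3,4],[0,1,2,3,4]]],
Node.mk [0,820,182,1542,2448,1810,281,3114,184,2351] [(1,0),(2,1),(2,2),(2,3),(2,4),(3,2)] [Ref.mk 2936 3663 [0,1,2,3] [[0,1,2,3,4],[0,1,2,3,4],[0,1,2,3,4],[0,1,2,3,4]],Ref.mk 759 3315 [3,2,1,0] [[0,2,3,1,4],[0,4,3,1,2],[0,3,2,4,1],[0,1,3,2]],Ref.mk 1164 3664 [0,1,2,3] [[0,1,2,3,4],[0,1,2,3,4],[0,1,2,3,4,5],[0,1,2,3,4]]],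
Node.mk [0,820,182,1542,2448,1810,281,3114,184,2936,9,3753] [(0,0),(0,1),(0,2),(0,3),(1,2),(2,1)] [],
Node.mk [0,820,182,1542,2448,1810,281,3114,184,2936,9,3755] [(0,0),(0,1),(0,2),(0,3),(1,2),(2,1)] [],
Node.mk [0,820,182,1542,2448,1810,281,3114,184,2936,9,3756] [(0,0),(0,1),(0,2),(0,3),(1,2),(2,1)] [],
Node.mk [0,820,182,1542,2448,1810,281,3114,184,2936,9,3758] [(0,0),(0,1),(0,2),(1,2),(1,3),(3,2)] [Ref.mk 3981 3588 [2,1,3,0] [[1,3,4,0,2],[0,4,1,2,3],[2,0,5,1,3],[3,2,0,1]],Ref.mk 1058 3662 [0,1,2,3] [[0,1,2,3,5],[0,1,2,3,4],[0,1,2,3,4],[0,1,2,3,4]]],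
Node.mk [0,820,182,1542,2448,1810,281,3114,184,2936,9] [(0,1),(3,0),(3,1),(3,2),(3,3),(3,4)] [Ref.mk 3906 3657 [0,1,2,3] [[0,1,2,3,4],[0,1,2,3,4],[0,1,2,3,4],[0,1,2,3,5,4]],Ref.mk 3753 3666 [0,1,2,3] [[0,1,2,3,4],[0,1,2,3,4],[0,1,2,3,4],[0,1,2,3,4,5]],Ref.mk 3755 3667 [0,1,2,3] [[0,1,2,3,4],[0,1,2,3,4],[0,1,2,3,4],[0,1,2,3,4,5]],Ref.mk 3981 1991 [3,1,0,2] [[0,2,4,1,5,3],[1,3,2,0,4],[0,1,2,4,3],[0,4,1,2,3]],Ref.mk 3756 3668 [0,1,2,3] [[0,1,2,3,4],[0,1,2,3,4],[0,1,2,3,4],[0,1,2,3,4,5]],Ref.mk 3757 2110 [3,0,1,2] [[0,2,4,5,1,3],[4,1,0,2],[2,3,4,1,0],[2,4,1,0,3]],Ref.mk 3758 3669 [0,1,2,3] [[0,1,2,3,4,5],[0,1,2,3,4],[0,1,2,3,4],[0,1,2,3,4,5]]],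
Node.mk [0,820,182,1542,2448,1810,281,3114,184,2936] [(0,3),(1,0),(1,2),(1,4),(2,1),(3,2)] [Ref.mk 9 3670 [0,1,2,3] [[0,1,2,3,4],[0,1,2,3,4],[0,1,2,3,4],[0,1,2,3,4]],Ref.mk 27 2303 [2,1,0,3] [[0,1,2,4,3],[3,1,2,0,4],[0,1,4,2],[0,1,2,4,3]],Ref.mk 45 2303 [2,1,3,0] [[0,4,3,1,2],[0,3,2,5,4],[0,2,3,4],[0,1,3,2,4]]],
Node.mk [0,820,182,1542,2448,1810,281,3114,184] [(0,0),(0,1),(1,1),(2,1),(3,0),(3,1)] [Ref.mk 2351 3665 [0,1,2,3] [[0,1,2,3,4],[0,1,2,3,4],[0,1,2,3,4],[0,1,2,3,4]],Ref.mk 2936 3671 [0,1,2,3] [[0,1,2,3,4],[0,1,2,3,4],[0,1,2,3,4],[0,1,2,3,4]]],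
Node.mk [0,820,182,1542,2448,1810,281,3114] [(0,0),(0,1),(0,2),(0,3),(1,1),(2,1)] [Ref.mk 1057 3662 [0,1,2,3] [[0,1,2,3,4],[0,1,2,3,4],[0,1,2,3,4],[0,1,2,3,4]],Ref.mk 184 3672 [0,1,2,3] [[0,1,2,3,4],[0,1,2,3,4],[0,1,2,3,4],[0,1,2,3,4]],Ref.mk 283 3672 [0,1,2,3] [[0,1,2,3,4],[0,1,4,3,2],[0,1,3,2,4],[0,1,2,4,3]]],
Node.mk [0,820,182,1542,2448,1810,281,3161,1057] [(1,0),(1,2),(3,0),(3,1),(3,2),(3,3)] [Ref.mk 3114 3662 [0,1,2,3] [[0,1,2,3,4],[0,1,2,3,4],[0,1,2,3,4],[0,1,2,3,4]],Ref.mk 3252 3587 [2,1,3,0] [[1,3,4,0,2],[0,4,1,2,3],[2,0,4,1,3],[3,2,0,1,4]],Ref.mk 3981 3587 [2,1,3,0] [[1,3,4,0,2],[0,4,1,2,3],[2,0,5,1,3],[3,2,0,1,4]],Ref.mk 3028 3587 [2,1,3,0] [[4,3,1,0,2],[0,4,3,2,1],[1,0,4,2,3],[4,2,0,1,3]],Ref.mk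 3757 3587 [2,1,3,0] [[4,3,1,0,2],[0,4,3,2,1],[1,0,5,2,3],[4,2,0,1,3]]],
Node.mk [0,820,182,1542,2448,1810,281,3161,1795] [(0,0),(0,2),(2,1),(2,3),(2,4),(3,2)] [],
Node.mk [0,820,182,1542,2448,1810,281,3161,1876,1164] [(1,0),(1,1),(1,2),(1,3),(2,3),(3,2)] [Ref.mk 3114 3573 [2,1,3,0] [[3,5,2,1,0],[0,1,2,3,4],[4,2,0,3,1],[2,4,3,0,1]],Ref.mk 2225 3576 [3,1,0,2] [[2,3,1,0,4],[0,2,1,4,3],[3,0,1,4,2],[1,3,0,5,4]],Ref.mk 2234 3576 [3,1,0,2] [[2,3,1,0,4],[0,2,1,5,3],[3,0,1,4,2],[1,3,0,5,4]]],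
Node.mk [0,820,182,1542,2448,1810,281,3161,1876] [(0,0),(0,1),(0,2),(1,1),(2,1),(2,3)] [Ref.mk 1164 3676 [0,1,2,3] [[0,1,2,3,4],[0,1,2,3,4],[0,1,2,3,4,5],[0,1,2,3,4]],Ref.mk 1057 3674 [0,1,2,3] [[0,1,2,3,4],[0,1,2,3,4],[0,1,2,3,4],[0,1,2,3,4]]],
Node.mk [0,820,182,1542,2448,1810,281,3161] [(0,0),(0,1),(0,2),(0,3),(2,1),(2,3)] [Ref.mk 1057 3674 [0,1,2,3] [[0,1,2,3,4],[0,1,2,3,4],[0,1,2,3,4],[0,1,2,3,4]],Ref.mk 1471 3582 [0,2,3,1] [[0,1,2,4,3],[0,4,3,1,2],[0,2,4,3,1],[0,3,1,2]],Ref.mk 1633 3599 [0,2,3,1] [[2,1,0,4,3],[2,4,3,1,0],[0,2,3,4,1],[2,3,1,0]],Ref.mk 1795 3675 [0,1,2,3] [[0,1,2,3,4],[0,1,2,3,4],[0,1,2,3,4],[0,1,2,3,4]],Ref.mk 1876 3677 [0,1,2,3] [[0,1,2,3,4],[0,1,2,3,4],[0,1,2,3,4,5],[0,1,2,3,4]]],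
Node.mk [0,820,182,1542,2448,1810,281] [(0,1),(2,1),(3,0),(3,1),(3,2),(3,3)] [Ref.mk 3177 3661 [0,1,2,3] [[0,1,2,3],[0,1,2,3,4],[0,1,2,3,4],[0,1,2,3,4]],Ref.mk 3114 3673 [0,1,2,3] [[0,1,2,3],[0,1,2,3,4],[0,1,2,3,4],[0,1,2,3,4]],Ref.mk 3161 3678 [0,1,2,3] [[0,1,2,3],[0,1,2,3,4],[0,1,2,3,4],[0,1,2,3,4]],Ref.mk 2936 3615 [0,1,3,2] [[0,1,2,3],[0,3,2,1,4],[0,2,4,3,1],[0,4,1,3]],Ref.mk 3252 3588 [2,1,3,0] [[1,3,4,0,2],[0,4,1,2,3],[2,0,4,1,3],[3,2,0,1]]],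
Node.mk [0,820,182,1542,2448,1810,1578,2353,3161,405] [(0,3),(1,0),(2,1),(2,2),(2,3),(3,2)] [],
Node.mk [0,820,182,1542,2448,1810,1578,2353,3161,2594] [(0,1),(0,3),(1,0),(1,1),(1,2),(2,1)] [Ref.mk 2216 3609 [2,1,0,3] [[0,1,2,4,3,5],[3,1,0,4,2],[2,1,4,0,3],[3,1,2,0,4]],Ref.mk 2225 2399 [3,1,2,0] [[3,1,0,2,4],[0,1,2,4,3],[5,1,2,3,0,4],[2,1,3,0,4]],Ref.mk 2234 2399 [3,1,2,0] [[3,1,0,2,4],[0,1,2,5,3],[5,1,2,3,0,4],[2,1,3,0,4]]],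
Node.mk [0,820,182,1542,2448,1810,1578,2353,3161] [(2,0),(2,1),(2,2),(2,3),(2,4),(3,2)] [Ref.mk 405 3680 [0,1,2,3] [[0,1,2,3,4],[0,1,2,3,4],[0,1,2,3,4,5],[0,1,2,3,4]],Ref.mk 2594 3681 [0,1,2,3] [[0,1,2,3,4],[0,1,2,3,4],[0,1,2,3,4,5],[0,1,2,3,4]],Ref.mk 1164 2005 [0,1,2,3] [[3,0,1,2,4],[0,2,3,4],[1,3,4,5,2,0],[2,3,4,1,0]]],
Node.mk [0,820,182,1542,2448,1810,1578,2353,2938,2610] [(0,0),(1,2),(2,1),(3,1),(3,2),(3,3)] [Ref.mk 336 69 [2,1,3,0] [[1,3,4,2,0,5],[0,2,1,4],[2,3,0,1,4],[3,0,4,1,2]],Ref.mk 3252 3612 [2,3,0,1] [[0,1,2,4,3,5],[4,2,0,1,3],[4,3,2,0,1],[2,4,1,0,3]],Ref.mk 3981 2017 [2,1,3,0] [[1,3,4,2,0,5],[0,2,1,4],[2,3,5,1,0,4],[3,0,4,1,2]]],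
Node.mk [0,820,182,1542,2448,1810,1578,2353,2938,427] [(0,0),(0,4),(1,2),(2,1),(3,1),(3,2)] [Ref.mk 336 70 [2,1,3,0] [[1,3,4,2,0,5],[0,2,1,4],[2,3,0,1,4],[3,0,4,1,2]],Ref.mk 2523 3430 [2,1,3,0] [[2,4,0,1,3,5],[0,3,2,1,4],[3,2,4,0,1],[4,1,3,2,0]],Ref.mk 3252 2012 [2,1,3,0] [[1,3,4,2,0],[0,2,1,4,3],[2,3,4,1,0],[3,0,4,1,2]],Ref.mk 3981 2018 [2,1,3,0] [[1,3,4,2,0,5],[0,2,1,4],[2,3,5,1,0,4],[3,0,4,1,2]]],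
Node.mk [0,820,182,1542,2448,1810,1578,2353,2938] [(2,0),(2,1),(2,2),(2,3),(2,4),(3,2)] [Ref.mk 2610 3683 [0,1,2,3] [[0,1,2,3,4],[0,1,2,3,4],[0,1,2,3,4,5],[0,1,2,3,4]],Ref.mk 1164 2019 [0,1,2,3] [[3,2,1,4,0],[0,2,3,4],[1,2,4,5,0,3],[2,0,3,1,4]],Ref.mk 427 3684 [0,1,2,3] [[0,1,2,3,4],[0,1,2,3,4],[0,1,2,3,4,5],[0,1,2,3,4]]],
Node.mk [0,820,182,1542,2448,1810,1578,2353] [(0,0),(2,1),(3,0),(3,1),(3,2),(3,3)] [Ref.mk 3161 3682 [0,1,2,3] [[0,1,2,3,4],[0,1,2,3,4],[0,1,2,3,4],[0,1,2,3,4]],Ref.mk 3252 2020 [0,1,3,2] [[3,2,1,0,4],[0,2,1,4],[2,0,1,4,3],[1,2,0,4,3]],Ref.mk 2938 3685 [0,1,2,3] [[0,1,2,3,4],[0,1,2,3,4],[0,1,2,3,4],[0,1,2,3,4]]],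
Node.mk [0,820,182,1542,2448,1810,1578,751] [(0,0),(0,3),(2,0),(2,1),(3,0),(3,2)] [Ref.mk 974 3432 [0,1,3,2] [[2,1,0,3,4],[0,3,2,1,4],[1,2,3,0],[3,4,1,2,0]],Ref.mk 2353 3686 [0,1,2,3] [[0,1,2,3,4],[0,1,2,3,4],[0,1,2,3,4],[0,1,2,3]]],
Node.mk [0,820,182,1542,2448,1810,1578,2209] [(0,3),(1,2),(2,1),(3,0),(3,2),(3,3)] [],
Node.mk [0,820,182,1542,2448,1810,1578,2938] [(0,0),(0,3),(2,0),(2,1),(3,0),(3,2)] [Ref.mk 3161 3685 [0,1,2,3] [[2,1,4,3,0],[0,1,2,3,4],[3,1,0,2,4],[4,1,2,0,3]],Ref.mk 2353 3685 [0,1,2,3] [[0,1,2,3,4],[0,1,2,3,4],[0,1,2,3,4],[0,1,2,3,4]]],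
Node.mk [0,820,182,1542,2448,1810,1578,2299] [(1,2),(2,1),(2,2),(3,0),(3,2),(3,3)] [Ref.mk 974 3428 [0,1,3,2] [[2,1,0,3,4],[0,3,2,1,4],[1,2,3,0],[3,4,1,2,0]],Ref.mk 3161 3603 [0,3,2,1] [[0,1,2,4,3],[3,1,0,2,4],[3,1,2,0,4],[2,1,3,0,4]],Ref.mk 759 3453 [3,1,2,0] [[0,1,3,2],[0,1,2,3,4],[0,1,3,2],[0,1,3,2]],Ref.mk 1002 2304 [0,1,3,2] [[3,2,4,0,1],[0,2,3,4,1],[2,0,3,1],[1,2,0,3,4]],Ref.mk 1083 2131 [2,1,3,0] [[1,2,4,0,3],[0,2,3,4,1],[2,0,1,3],[3,2,0,4,1]],Ref.mk 1164 2304 [0,1,3,2] [[3,2,4,0,1],[0,2,3,4,1],[2,0,3,1],[1,2,0,5,4]]],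
Node.mk [0,820,182,1542,2448,1810,1578] [(0,0),(0,1),(0,2),(0,3),(3,0),(3,2)] [Ref.mk 2353 3686 [0,1,2,3] [[0,1,2,3,4],[0,1,2,3,4],[0,1,2,3,4],[0,1,2,3]],Ref.mk 751 3687 [0,1,2,3] [[0,1,2,3,4],[0,1,2,3,4],[0,1,2,3,4],[0,1,2,3]],Ref.mk 2209 3688 [0,1,2,3] [[0,1,2,3,4],[0,1,2,3,4],[0,1,2,3,4],[0,1,2,3]],Ref.mk 2938 3689 [0,1,2,3] [[0,1,2,3,4],[0,1,2,3,4],[0,1,2,3,4],[0,1,2,3,4]],Ref.mk 841 2141 [2,1,0,3] [[1,3,4,0,2],[0,2,3,4],[3,0,1,4,2],[2,3,0,1]],Ref.mk 2299 3690 [0,1,2,3] [[0,1,2,3,4],[0,1,2,3,4],[0,1,2,3,4],[0,1,2,3]],Ref.mk 3028 2141 [2,1,0,3] [[1,3,4,0,2],[0,2,3,4],[3,0,1,4,2],[2,3,0,4]]],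
Node.mk [0,820,182,1542,2448,1810,282,1057,3114,3028] [(0,0),(0,1),(0,3),(0,4),(2,1),(3,0)] [Ref.mk 3161 3304 [2,1,3,0] [[3,1,2,4,0],[0,1,2,3,4],[4,1,0,3,2],[2,1,4,0,3]],Ref.mk 2225 3310 [2,0,1,3] [[1,0,4,3,2],[3,2,1,0,4],[0,4,3,1,2],[2,3,0,1,4]]],
Node.mk [0,820,182,1542,2448,1810,282,1057,3114] [(0,0),(0,1),(0,3),(3,0),(3,1),(3,2)] [Ref.mk 3161 3313 [3,0,1,2] [[2,4,1,0,3],[3,0,1,2,4],[0,4,1,3,2],[1,2,3,4]],Ref.mk 2225 3312 [2,0,1,3] [[1,0,4,3,2],[3,2,1,0,4],[0,4,3,1,2],[2,3,0,1,4]],Ref.mk 2299 3579 [2,0,3,1] [[1,2,4,3,0],[3,2,4,0,1],[2,0,1,3,4],[0,2,4,3,1]],Ref.mk 3028 3692 [0,1,2,3] [[0,1,2,3,4],[0,1,2,3,4],[0,1,2,3,4],[0,1,2,3,4]],Ref.mk 3757 3579 [2,0,3,1] [[1,2,4,3,0],[3,2,4,0,1],[2,0,1,5,4],[0,2,4,3,1]]],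
Node.mk [0,820,182,1542,2448,1810,282,1057,3252,3028] [(0,0),(0,1),(0,2),(0,3),(0,4),(3,0)] [],
Node.mk [0,820,182,1542,2448,1810,282,1057,3252] [(0,1),(0,3),(2,3),(3,0),(3,1),(3,2)] [Ref.mk 2385 3581 [2,1,3,0] [[1,2,4,0,3],[0,2,1,4,3],[2,0,4,1,3],[3,2,0,1,4]],Ref.mk 3114 3693 [0,1,2,3] [[0,1,2,3,4],[0,1,2,3,4],[0,1,2,3,4],[0,1,2,3,4]],Ref.mk 3843 3581 [2,1,3,0] [[1,2,4,0,3],[0,2,1,4,3],[2,0,4,1,5],[3,2,0,1,4]],Ref.mk 2522 3373 [3,1,2,0] [[3,2,0,1,4],[1,0,2,3,4],[4,1,2,3],[2,3,1,0,4]],Ref.mk 2225 3573 [3,0,1,2] [[2,3,1,0,4],[3,2,1,0,4],[0,4,1,3,2],[1,0,3,4,2]],Ref.mk 3028 3694 [0,1,2,3] [[0,1,2,3,4],[0,1,2,3,4],[0,1,2,3,4],[0,1,2,3,4]]],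
Node.mk [0,820,182,1542,2448,1810,282,1057] [(1,0),(1,2),(3,0),(3,1),(3,2),(3,3)] [Ref.mk 3114 3693 [0,1,2,3] [[0,1,2,3,4],[0,1,2,3,4],[0,1,2,3,4],[0,1,2,3,4]],Ref.mk 3252 3695 [0,1,2,3] [[0,1,2,3,4],[0,1,2,3,4],[0,1,2,3,4],[0,1,2,3,4]],Ref.mk 3028 3614 [1,0,3,2] [[0,2,3,4,1],[3,2,4,0,1],[2,0,4,1,3],[1,2,3,4]]],
Node.mk [0,820,182,1542,2448,1810,282,1471,2225] [(0,1),(0,3),(3,0),(3,1),(3,2),(3,3)] [Ref.mk 3114 3579 [0,1,3,2] [[0,1,2,3,4],[0,3,4,1,2],[0,2,3,4,1],[0,4,1,2,3]],Ref.mk 3161 3581 [0,2,3,1] [[0,1,2,4,3],[0,4,3,1,2],[0,2,4,3,1],[0,3,1,2,4]],Ref.mk 3028 3573 [1,2,0,3] [[4,3,2,1,0],[0,1,3,4,2],[2,4,0,3,1],[3,4,2,0,1]]],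
Node.mk [0,820,182,1542,2448,1810,282,1471] [(0,0),(0,1),(1,1),(1,2),(2,1),(2,3)] [Ref.mk 2225 3697 [0,1,2,3] [[0,1,2,3,4],[0,1,2,3,4],[0,1,2,3,4],[0,1,2,3]],Ref.mk 2352 3614 [0,2,1,3] [[0,1,3,4,2],[0,1,3,4,2],[0,1,4,2,3],[0,1,2,3]],Ref.mk 759 3575 [1,0,2,3] [[3,2,1,4,0],[3,0,1,2,4],[0,3,1,4,2],[1,3,0,2]],Ref.mk 1057 3614 [1,0,2,3] [[0,2,1,4,3],[3,0,4,2,1],[1,3,0,4,2],[2,3,0,1]]],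
Node.mk [0,820,182,1542,2448,1810,282,1714,927,185] [(0,0),(0,1),(0,3),(0,4),(3,0),(3,2)] [],
Node.mk [0,820,182,1542,2448,1810,282,1714,927,284] [(0,0),(0,1),(1,3),(2,4),(3,0),(3,2)] [Ref.mk 974 3481 [0,1,3,2] [[2,1,0,3],[0,3,2,1,4],[1,2,3,0],[3,4,1,2,0]],Ref.mk 2225 2130 [1,0,3,2] [[4,3,2,0,1],[3,1,0,5,2],[0,2,3,1],[3,4,1,2,0]]],
Node.mk [0,820,182,1542,2448,1810,282,1714,927] [(0,0),(0,1),(0,2),(0,3),(0,4),(3,2)] [Ref.mk 185 3699 [0,1,2,3] [[0,1,2,3,4,5],[0,1,2,3,4],[0,1,2,3,4],[0,1,2,3]],Ref.mk 284 3700 [0,1,2,3] [[0,1,2,3,4,5],[0,1,2,3,4],[0,1,2,3,4],[0,1,2,3]]],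
Node.mk [0,820,182,1542,2448,1810,282,1714] [(1,0),(1,1),(1,2),(1,3),(3,0),(3,2)] [Ref.mk 927 3701 [0,1,2,3] [[0,1,2,3,4],[0,1,2,3,4],[0,1,2,3,4],[0,1,2,3]],Ref.mk 2385 3698 [2,0,1,3] [[1,2,4,3,0],[3,0,1,2,4],[0,4,3,1,2],[2,3,0,1]],Ref.mk 3114 3698 [2,0,1,3] [[1,2,4,3,0],[3,0,1,2,4],[0,4,3,1,2],[2,4,0,1]],Ref.mk 2225 3575 [0,2,1,3] [[0,1,2,4,3],[3,1,0,4,2],[2,1,4,0,3],[3,1,2,0]]],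
Node.mk [0,820,182,1542,2448,1810,282,1075,2299,3161] [(0,4),(1,0),(1,2),(2,4),(3,0),(3,1)] [],
Node.mk [0,820,182,1542,2448,1810,282,1075,2299] [(0,4),(1,2),(3,0),(3,1),(3,2),(3,3)] [Ref.mk 3161 3703 [0,1,2,3] [[0,1,2,3,4],[0,1,2,3,4],[0,1,2,3,4],[0,1,2,3,4]]],
Node.mk [0,820,182,1542,2448,1810,282,1075] [(0,1),(0,3),(2,3),(3,0),(3,1),(3,2)] [Ref.mk 2522 3385 [3,1,2,0] [[3,2,0,1],[1,0,2,3,4],[4,1,2,3],[2,3,1,0,4]],Ref.mk 2299 3704 [0,1,2,3] [[0,1,2,3,4],[0,1,2,3,4],[0,1,2,3,4],[0,1,2,3]],Ref.mk 3028 3377 [0,3,2,1] [[3,4,0,1],[2,1,0,4,3],[1,4,0,3],[0,2,3,4,1]]],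
Node.mk [0,820,182,1542,2448,1810,282] [(0,0),(0,1),(0,2),(0,3),(2,1),(3,0)] [Ref.mk 1057 3696 [0,1,2,3] [[0,1,2,3,4],[0,1,2,3,4],[0,1,2,3,4],[0,1,2,3]],Ref.mk 1471 3698 [0,1,2,3] [[0,1,2,3,4],[0,1,2,3,4],[0,1,2,3,4],[0,1,2,3]],Ref.mk 1633 3554 [2,1,0,3] [[1,3,2,0,4],[0,2,1,4,3],[3,0,4,1],[2,3,0,1]],Ref.mk 1714 3702 [0,1,2,3] [[0,1,2,3,4],[0,1,2,3,4],[0,1,2,3,4],[0,1,2,3]],Ref.mk 1795 3365 [2,1,0,3] [[1,3,4,0],[0,2,1,4,3],[3,0,4,1],[2,3,0,1]],Ref.mk 1876 3554 [2,1,0,3] [[1,3,5,0,4],[0,2,1,4,3],[3,0,4,1],[2,3,0,1]],Ref.mk 1075 3705 [0,1,2,3] [[0,1,2,3,4],[0,1,2,3,4],[0,1,2,3,4],[0,1,2,3]]],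
Node.mk [0,820,182,1542,2448,1810,1092,2198,1057,1579] [(0,0),(1,2),(2,1),(2,3),(2,4),(3,3)] [],
Node.mk [0,820,182,1542,2448,1810,1092,2198,1057] [(0,0),(1,0),(2,0),(2,4),(3,0),(3,1)] [Ref.mk 2386 3301 [2,1,0,3] [[1,2,4,0,3],[1,2,0,4,3],[1,2,4,3,0],[1,0,3,2]],Ref.mk 1579 3707 [0,1,2,3] [[0,1,2,3,4],[0,1,2,3,4],[0,1,2,3,4],[0,1,2,3]]],
Node.mk [0,820,182,1542,2448,1810,1092,2198] [(0,0),(0,1),(0,2),(0,3),(1,2),(2,1)] [Ref.mk 2353 3614 [2,1,0,3] [[0,4,2,1,3],[1,3,0,4,2],[2,1,4,0,3],[3,2,1,0]],Ref.mk 1057 3708 [0,1,2,3] [[0,1,2,3,4],[0,1,2,3,4],[0,1,2,3,4],[0,1,2,3]],Ref.mk 256 3614 [2,1,0,3] [[0,4,3,1,2],[0,4,1,3,2],[0,3,4,2,1],[0,1,2,3]],Ref.mk 1795 3708 [0,1,2,3] [[2,3,0,1,4],[1,0,2,4,3],[0,1,3,2,4],[3,2,1,0]]],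
Node.mk [0,820,182,1542,2448,1810,1092,1795,1900,2216,1828,254] [(0,0),(0,1),(0,2),(0,3),(3,0),(3,2)] [],
Node.mk [0,820,182,1542,2448,1810,1092,1795,1900,2216,1828] [(0,0),(1,0),(1,2),(1,3),(3,1),(3,2)] [Ref.mk 2198 3708 [0,1,2,3] [[2,3,0,1,4],[1,0,2,4,3],[0,1,3,2,4],[3,2,1,0]],Ref.mk 254 3710 [0,1,2,3] [[0,1,2,3,4],[0,1,2,3,4,5],[0,1,2,3,4,5],[0,1,2,3]],Ref.mk 2225 3615 [0,1,2,3] [[0,1,2,3],[0,1,2,3,4],[0,1,2,3,4],[0,1,2,3]],Ref.mk 281 3679 [0,1,2,3] [[0,1,2,3],[0,1,2,3,4],[0,1,2,3,4],[0,1,2,3]],Ref.mk 2234 3615 [0,1,2,3] [[0,1,2,3],[0,1,2,3,5],[0,1,2,3,4],[0,1,2,3]],Ref.mk 290 3679 [0,1,2,3] [[0,1,2,3],[0,1,2,3,5],[0,1,2,3,4],[0,1,2,3]],Ref.mk 2243 3615 [0,1,2,3] [[0,1,2,3],[0,1,2,3,6],[0,1,2,3,4],[0,1,2,3]],Ref.mk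 299 3679 [0,1,2,3] [[0,1,2,3],[0,1,2,3,6],[0,1,2,3,4],[0,1,2,3]]]]

/-- nodes -/
noncomputable def c58 : List Node := [
Node.mk [0,820,182,1542,2448,1810,1092,1795,1900,2216] [(0,0),(1,0),(1,1),(1,2),(1,3),(1,4)] [Ref.mk 1828 3711 [0,1,2,3] [[0,1,2,3,4],[0,1,2,3,4,5],[0,1,2,3,4,5],[0,1,2,3]],Ref.mk 2234 3615 [0,1,2,3] [[0,1,2,3],[0,1,2,3,5],[0,1,2,3,4],[0,1,2,3]],Ref.mk 290 3679 [0,1,2,3] [[0,1,2,3],[0,1,2,3,5],[0,1,2,3,4],[0,1,2,3]],Ref.mk 1587 3691 [0,1,2,3] [[0,1,2,3],[0,1,2,3,5],[0,1,2,3,4],[0,1,2,3]]],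
Node.mk [0,820,182,1542,2448,1810,1092,1795,1900] [(0,0),(1,0),(1,2),(2,3),(3,1),(3,2)] [Ref.mk 2198 3708 [0,1,2,3] [[2,3,0,1,4],[1,0,2,4,3],[0,1,3,2,4],[3,2,1,0]],Ref.mk 2216 3712 [0,1,2,3] [[0,1,2,3,4],[0,1,2,3,4],[0,1,2,3,4,5],[0,1,2,3]],Ref.mk 2225 3678 [3,1,0,2] [[1,0,2,3],[4,2,1,0,3],[3,2,4,1,0],[4,2,0,1,5]],Ref.mk 2234 3614 [0,1,2,3] [[3,2,1,0,4],[0,5,4,2,1],[1,0,5,4,2],[2,3,0,1]]],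
Node.mk [0,820,182,1542,2448,1810,1092,1795,1875,3252,2216] [(0,0),(1,0),(1,1),(1,2),(1,3),(2,4)] [Ref.mk 2225 3615 [0,1,2,3] [[0,1,2,3],[0,1,2,3,4],[0,1,2,3,4],[0,1,2,3]],Ref.mk 281 3679 [0,1,2,3] [[0,1,2,3],[0,1,2,3,4],[0,1,2,3,4],[0,1,2,3]],Ref.mk 2234 3615 [0,1,2,3] [[0,1,2,3],[0,1,2,3,5],[0,1,2,3,4],[0,1,2,3]],Ref.mk 290 3679 [0,1,2,3] [[0,1,2,3],[0,1,2,3,5],[0,1,2,3,4],[0,1,2,3]],Ref.mk 1578 3691 [0,1,2,3] [[0,1,2,3],[0,1,2,3,4],[0,1,2,3,4],[0,1,2,3]],Ref.mk 1587 3691 [0,1,2,3] [[0,1,2,3],[0,1,2,3,5],[0,1,2,3,4],[0,1,2,3]]],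
Node.mk [0,820,182,1542,2448,1810,1092,1795,1875,3252,1569,289] [(0,0),(0,1),(0,2),(0,3),(1,1),(3,0)] [],
Node.mk [0,820,182,1542,2448,1810,1092,1795,1875,3252,1569,1828,3807] [(0,0),(0,1),(0,3),(1,0),(1,1),(1,2)] [],
Node.mk [0,820,182,1542,2448,1810,1092,1795,1875,3252,1569,1828,3816] [(0,0),(0,1),(0,3),(1,0),(1,1),(1,2)] [],
Node.mk [0,820,182,1542,2448,1810,1092,1795,1875,3252,1569,1828,3834] [(0,0),(1,0),(1,1),(1,2),(1,3),(2,4)] [Ref.mk 1578 3691 [0,1,2,3] [[0,1,2,3],[0,1,2,3,4],[0,1,2,3,4],[0,1,2,3]],Ref.mk 1587 3691 [0,1,2,3] [[0,1,2,3],[0,1,2,3,5],[0,1,2,3,4],[0,1,2,3]],Ref.mk 1596 3691 [0,1,2,3] [[0,1,2,3],[0,1,2,3,6],[0,1,2,3,4],[0,1,2,3]]],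
Node.mk [0,820,182,1542,2448,1810,1092,1795,1875,3252,1569,1828,3843,3890,283,284] [(0,0),(0,1),(0,2),(0,3),(1,1),(1,4)] [],
Node.mk [0,820,182,1542,2448,1810,1092,1795,1875,3252,1569,1828,3843,3890,283] [(0,0),(0,1),(0,2),(0,3),(0,4),(1,1)] [Ref.mk 284 3719 [0,1,2,3] [[0,1,2,3,4,5],[0,1,2,3,4,5],[0,1,2,3,4,5],[0,1,2,3,4,5]]],
Node.mk [0,820,182,1542,2448,1810,1092,1795,1875,3252,1569,1828,3843,3890,284,285] [(0,0),(0,1),(0,2),(0,3),(1,1),(1,4)] [],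
Node.mk [0,820,182,1542,2448,1810,1092,1795,1875,3252,1569,1828,3843,3890,284] [(0,0),(0,1),(0,2),(0,3),(0,5),(1,1)] [Ref.mk 283 3719 [0,1,2,3] [[0,1,2,3,4,5],[0,1,2,3,4,5],[0,1,2,3,4,5],[0,1,2,3,4,5]],Ref.mk 285 3721 [0,1,2,3] [[0,1,2,3,4,5,6],[0,1,2,3,4,5],[0,1,2,3,4,5],[0,1,2,3,4,5]]],
Node.mk [0,820,182,1542,2448,1810,1092,1795,1875,3252,1569,1828,3843,3890] [(0,0),(0,1),(0,3),(1,0),(1,1),(1,2)] [Ref.mk 2225 3714 [3,1,2,0] [[0,1,3,2,4],[0,1,2,4,3],[0,1,3,2,4,5],[0,1,3,2,4]],Ref.mk 281 3679 [0,1,2,3] [[0,1,2,3],[0,1,2,3,4],[0,1,2,3,4],[0,1,2,3]],Ref.mk 283 3720 [0,1,2,3] [[0,1,2,3,4],[0,1,2,3,4,5],[0,1,2,3,4,5],[0,1,2,3,4,5]],Ref.mk 284 3722 [0,1,2,3] [[0,1,2,3,4,5],[0,1,2,3,4,5],[0,1,2,3,4,5],[0,1,2,3,4,5]]],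
Node.mk [0,820,182,1542,2448,1810,1092,1795,1875,3252,1569,1828,3843] [(0,1),(0,3),(1,1),(1,2),(2,2),(3,0)] [Ref.mk 3890 3723 [0,1,2,3] [[0,1,2,3,4],[0,1,2,3,4,5],[0,1,2,3,4,5],[0,1,2,3,4,5]],Ref.mk 2225 3714 [3,1,2,0] [[0,1,3,2,4],[0,1,2,4,3],[0,1,3,2,4,5],[0,1,3,2,4]]],
Node.mk [0,820,182,1542,2448,1810,1092,1795,1875,3252,1569,1828,3890] [(0,1),(0,3),(1,0),(1,1),(1,2),(2,3)] [Ref.mk 3834 3718 [0,1,2,3] [[0,1,2,3,4],[0,1,2,3,4,5],[0,1,2,3,4,5],[0,1,2,3,4,5]],Ref.mk 3843 3723 [0,1,2,3] [[0,1,2,3,4],[0,1,2,3,4,5],[0,1,2,3,4,5],[0,1,2,3,4,5]],Ref.mk 3852 3602 [2,1,0,3] [[1,2,4,0,3],[0,5,1,2,4,3],[3,0,4,1,2],[2,5,0,1,3]],Ref.mk 3861 3602 [2,1,0,3] [[1,2,4,0,3],[0,6,1,2,4,3],[3,0,4,1,2],[2,5,0,1,3]],Ref.mk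 2216 3714 [0,1,2,3] [[0,1,2,3,4],[0,1,2,3,4],[0,1,2,3,4,5],[0,1,2,3,4]],Ref.mk 2225 3714 [3,1,2,0] [[0,1,3,2,4],[0,1,2,4,3],[0,1,3,2,4,5],[0,1,3,2,4]],Ref.mk 2234 3615 [0,1,2,3] [[0,1,2,3],[0,1,2,3,5],[0,1,2,3,4],[0,1,2,3]],Ref.mk 2243 3615 [0,1,2,3] [[0,1,2,3],[0,1,2,3,6],[0,1,2,3,4],[0,1,2,3]]],
Node.mk [0,820,182,1542,2448,1810,1092,1795,1875,3252,1569,1828,3981] [(0,3),(1,2),(3,0),(3,1),(3,2),(3,3)] [Ref.mk 3078 3716 [0,1,2,3] [[0,1,2,3,4],[0,1,2,3,4,5],[0,1,2,3,4,5],[0,1,2,3,5,4]],Ref.mk 3807 3716 [0,1,2,3] [[0,1,2,3,4],[0,1,2,3,4,5],[0,1,2,3,4,5],[0,1,2,3,4,5]],Ref.mk 4536 3716 [0,1,2,3] [[0,1,2,3,4],[0,1,2,3,4,5],[0,1,2,3,4,5],[0,1,2,3,5,6]],Ref.mk 3087 3717 [0,1,2,3] [[0,1,2,3,4],[0,1,2,3,4,5],[0,1,2,3,4,5],[0,1,2,3,5,4]],Ref.mk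 3816 3717 [0,1,2,3] [[0,1,2,3,4],[0,1,2,3,4,5],[0,1,2,3,4,5],[0,1,2,3,4,5]],Ref.mk 4545 3717 [0,1,2,3] [[0,1,2,3,4],[0,1,2,3,4,5],[0,1,2,3,4,5],[0,1,2,3,5,6]],Ref.mk 3105 3718 [0,1,2,3] [[0,1,2,3,4],[0,1,2,3,4,5],[0,1,2,3,4,5],[0,1,2,3,5,4]],Ref.mk 3834 3718 [0,1,2,3] [[0,1,2,3,4],[0,1,2,3,4,5],[0,1,2,3,4,5],[0,1,2,3,4,5]],Ref.mk 4563 3718 [0,1,2,3] [[0,1,2,3,4],[0,1,2,3,4,5],[0,1,2,3,4,5],[0,1,2,3,5,6]],Ref.mk 3114 3724 [0,1,2,3] [[0,1,2,3,4],[0,1,2,3,4,5],[0,1,2,3,4,5],[0,1,2,3,5,4]],Ref.mk 3843 3724 [0,1,2,3] [[0,1,2,3,4],[0,1,2,3,4,5],[0,1,2,3,4,5],[0,1,2,3,4,5]],Ref.mk 4572 3724 [0,1,2,3] [[0,1,2,3,4],[0,1,2,3,4,5],[0,1,2,3,4,5],[0,1,2,3,5,6]],Ref.mk 3123 3602 [2,1,0,3] [[1,2,4,0,3],[0,5,1,2,4,3],[3,0,4,1,2],[2,4,0,1,3]],Ref.mk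 3852 3602 [2,1,0,3] [[1,2,4,0,3],[0,5,1,2,4,3],[3,0,4,1,2],[2,5,0,1,3]],Ref.mk 4581 3602 [2,1,0,3] [[1,2,4,0,3],[0,5,1,2,4,3],[3,0,4,1,2],[2,6,0,1,3]],Ref.mk 3132 3602 [2,1,0,3] [[1,2,4,0,3],[0,6,1,2,4,3],[3,0,4,1,2],[2,4,0,1,3]],Ref.mk 3861 3602 [2,1,0,3] [[1,2,4,0,3],[0,6,1,2,4,3],[3,0,4,1,2],[2,5,0,1,3]],Ref.mk 4590 3602 [2,1,0,3] [[1,2,4,0,3],[0,6,1,2,4,3],[3,0,4,1,2],[2,6,0,1,3]],Ref.mk 3161 3725 [0,1,2,3] [[0,1,2,3,4],[0,1,2,3,4,5],[0,1,2,3,4,5],[0,1,2,3,5,4]],Ref.mk 3890 3725 [0,1,2,3] [[0,1,2,3,4],[0,1,2,3,4,5],[0,1,2,3,4,5],[0,1,2,3,4,5]],Ref.mk 4619 3725 [0,1,2,3] [[0,1,2,3,4],[0,1,2,3,4,5],[0,1,2,3,4,5],[0,1,2,3,5,6]]],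
Node.mk [0,820,182,1542,2448,1810,1092,1795,1875,3252,1569,1828] [(1,2),(3,0),(3,1),(3,2),(3,3),(3,4)] [Ref.mk 3807 3716 [0,1,2,3] [[0,1,2,3,4],[0,1,2,3,4,5],[0,1,2,3,4,5],[0,1,2,3,4,5]],Ref.mk 3816 3717 [0,1,2,3] [[0,1,2,3,4],[0,1,2,3,4,5],[0,1,2,3,4,5],[0,1,2,3,4,5]],Ref.mk 3834 3718 [0,1,2,3] [[0,1,2,3,4],[0,1,2,3,4,5],[0,1,2,3,4,5],[0,1,2,3,4,5]],Ref.mk 3843 3724 [0,1,2,3] [[0,1,2,3,4],[0,1,2,3,4,5],[0,1,2,3,4,5],[0,1,2,3,4,5]],Ref.mk 3852 3602 [2,1,0,3] [[1,2,4,0,3],[0,5,1,2,4,3],[3,0,4,1,2],[2,5,0,1,3]],Ref.mk 3861 3602 [2,1,0,3] [[1,2,4,0,3],[0,6,1,2,4,3],[3,0,4,1,2],[2,5,0,1,3]],Ref.mk 3890 3725 [0,1,2,3] [[0,1,2,3,4],[0,1,2,3,4,5],[0,1,2,3,4,5],[0,1,2,3,4,5]],Ref.mk 3981 3726 [0,1,2,3] [[0,1,2,3,4],[0,1,2,3,4,5],[0,1,2,3,4,5],[0,1,2,3,4,5]]],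
Node.mk [0,820,182,1542,2448,1810,1092,1795,1875,3252,1569,1101,283,1796,2353,249] [(0,0),(0,1),(0,3),(1,0),(1,1),(3,0)] [],
Node.mk [0,820,182,1542,2448,1810,1092,1795,1875,3252,1569,1101,283,1796,2353,1797,185] [(0,0),(0,1),(0,3),(0,4),(1,1),(3,0)] [],
Node.mk [0,820,182,1542,2448,1810,1092,1795,1875,3252,1569,1101,283,1796,2353,1797,187] [(0,0),(0,1),(0,3),(0,4),(1,1),(3,0)] [],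
Node.mk [0,820,182,1542,2448,1810,1092,1795,1875,3252,1569,1101,283,1796,2353,1797] [(0,0),(0,1),(0,2),(0,3),(0,4),(1,1)] [Ref.mk 248 3728 [0,1,2,3] [[0,1,2,3,4,6,5],[0,1,2,3,4,5],[0,1,2,3,4,5],[0,1,2,3,4]],Ref.mk 185 3729 [0,1,2,3] [[0,1,2,3,4,5,6],[0,1,2,3,4,5],[0,1,2,3,4,5],[0,1,2,3,4]],Ref.mk 249 3728 [0,1,2,3] [[0,1,2,3,4,5,6],[0,1,2,3,4,5],[0,1,2,3,4,5],[0,1,2,3,4]],Ref.mk 186 3729 [0,1,2,3] [[0,1,2,3,4,6,5],[0,1,2,3,4,5],[0,1,2,3,4,5],[0,1,2,3,4]],Ref.mk 250 3728 [0,1,2,3] [[0,1,2,3,4,6,7],[0,1,2,3,4,5],[0,1,2,3,4,5],[0,1,2,3,4]],Ref.mk 187 3730 [0,1,2,3] [[0,1,2,3,4,5,6,7],[0,1,2,3,4,5],[0,1,2,3,4,5],[0,1,2,3,4]]],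
Node.mk [0,820,182,1542,2448,1810,1092,1795,1875,3252,1569,1101,283,1796,2353,186] [(0,0),(0,1),(0,3),(0,4),(0,5),(1,2)] [Ref.mk 245 3728 [0,1,2,3] [[0,1,6,3,4,5,2],[0,1,2,3,4,5],[0,1,2,3,4,5],[0,1,2,3,4]],Ref.mk 1793 3729 [0,1,2,3] [[0,1,6,3,4,2,5],[0,1,2,3,4,5],[0,1,2,3,4,5],[0,1,2,3,4]],Ref.mk 249 3728 [0,1,2,3] [[0,1,2,3,4,5,6],[0,1,2,3,4,5],[0,1,2,3,4,5],[0,1,2,3,4]],Ref.mk 1797 3729 [0,1,2,3] [[0,1,2,3,4,6,5],[0,1,2,3,4,5],[0,1,2,3,4,5],[0,1,2,3,4]],Ref.mk 250 3728 [0,1,2,3] [[0,1,6,3,4,5,7],[0,1,2,3,4,5],[0,1,2,3,4,5],[0,1,2,3,4]],Ref.mk 1798 3730 [0,1,2,3] [[0,1,2,3,4,5,7,6],[0,1,2,3,4,5],[0,1,2,3,4,5],[0,1,2,3,4]]],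
Node.mk [0,820,182,1542,2448,1810,1092,1795,1875,3252,1569,1101,283,1796,2353] [(0,0),(0,1),(0,2),(0,3),(0,4),(0,5)] [Ref.mk 249 3728 [0,1,2,3] [[0,1,2,3,4,5,6],[0,1,2,3,4,5],[0,1,2,3,4,5],[0,1,2,3,4]],Ref.mk 1797 3731 [0,1,2,3] [[0,1,2,3,4,5,6],[0,1,2,3,4,5],[0,1,2,3,4,5],[0,1,2,3,4]],Ref.mk 186 3732 [0,1,2,3] [[0,1,2,3,4,5,6],[0,1,2,3,4,5],[0,1,2,3,4,5],[0,1,2,3,4]]],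
Node.mk [0,820,182,1542,2448,1810,1092,1795,1875,3252,1569,1101,283,1796] [(0,0),(0,1),(0,3),(1,1),(1,2),(2,3)] [Ref.mk 2225 3714 [3,1,2,0] [[0,1,3,2,4],[0,1,2,4,3],[0,1,3,2,4,5],[0,1,3,2,4]],Ref.mk 2353 3733 [0,1,2,3] [[0,1,2,3,4,5],[0,1,2,3,4,5],[0,1,2,3,4,5],[0,1,2,3,4]]],
Node.mk [0,820,182,1542,2448,1810,1092,1795,1875,3252,1569,1101,283] [(0,0),(0,1),(0,2),(0,3),(0,4),(3,0)] [Ref.mk 1796 3734 [0,1,2,3] [[0,1,2,3,4,5],[0,1,2,3,4,5],[0,1,2,3,4,5],[0,1,2,3,4]]],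
Node.mk [0,820,182,1542,2448,1810,1092,1795,1875,3252,1569,1101,301,1796,2353,2403] [(0,0),(0,1),(0,3),(1,1),(3,0),(3,3)] [],
Node.mk [0,820,182,1542,2448,1810,1092,1795,1875,3252,1569,1101,301,1796,2353] [(0,3),(0,4),(2,3),(3,0),(3,1),(3,2)] [Ref.mk 2403 3736 [0,1,2,3] [[0,1,2,3,4,5],[0,1,2,3,4,5,6],[0,1,2,3,4,5],[0,1,2,3,4]],Ref.mk 3132 3602 [2,1,0,3] [[1,2,4,0,3],[0,6,1,2,4,3],[3,0,4,1,2],[2,4,0,1,3]],Ref.mk 3861 3602 [2,1,0,3] [[1,2,4,0,3],[0,6,1,2,4,3],[3,0,4,1,2],[2,5,0,1,3]],Ref.mk 2243 3615 [0,1,2,3] [[0,1,2,3],[0,1,2,3,6],[0,1,2,3,4],[0,1,2,3]]],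
Node.mk [0,820,182,1542,2448,1810,1092,1795,1875,3252,1569,1101,301,1796] [(0,0),(0,1),(0,3),(1,1),(1,2),(2,3)] [Ref.mk 2243 3615 [0,1,2,3] [[0,1,2,3],[0,1,2,3,6],[0,1,2,3,4],[0,1,2,3]],Ref.mk 2353 3737 [0,1,2,3] [[0,1,2,3,4,5],[0,1,2,3,4,5,6],[0,1,2,3,4,5],[0,1,2,3,4]]],
Node.mk [0,820,182,1542,2448,1810,1092,1795,1875,3252,1569,1101,301] [(0,0),(0,1),(0,2),(0,3),(0,4),(3,0)] [Ref.mk 1796 3738 [0,1,2,3] [[0,1,2,3,4,5],[0,1,2,3,4,5,6],[0,1,2,3,4,5],[0,1,2,3,4]]],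
Node.mk [0,820,182,1542,2448,1810,1092,1795,1875,3252,1569,1101,284,2354,249] [(0,0),(0,1),(0,3),(1,0),(1,1),(3,0)] [],
Node.mk [0,820,182,1542,2448,1810,1092,1795,1875,3252,1569,1101,284,2354,1797,184] [(0,0),(0,1),(0,3),(0,5),(1,1),(3,0)] [],
Node.mk [0,820,182,1542,2448,1810,1092,1795,1875,3252,1569,1101,284,2354,1797,187] [(0,0),(0,1),(0,3),(0,5),(1,1),(3,0)] [],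
Node.mk [0,820,182,1542,2448,1810,1092,1795,1875,3252,1569,1101,284,2354,1797] [(0,0),(0,1),(0,2),(0,3),(0,5),(1,1)] [Ref.mk 247 3740 [0,1,2,3] [[0,1,2,3,6,5,4],[0,1,2,3,4,5],[0,1,2,3,4,5],[0,1,2,3,4]],Ref.mk 184 3741 [0,1,2,3] [[0,1,2,3,4,5,6],[0,1,2,3,4,5],[0,1,2,3,4,5],[0,1,2,3,4]],Ref.mk 249 3740 [0,1,2,3] [[0,1,2,3,4,5,6],[0,1,2,3,4,5],[0,1,2,3,4,5],[0,1,2,3,4]],Ref.mk 186 3741 [0,1,2,3] [[0,1,2,3,6,5,4],[0,1,2,3,4,5],[0,1,2,3,4,5],[0,1,2,3,4]],Ref.mk 250 3740 [0,1,2,3] [[0,1,2,3,6,5,7],[0,1,2,3,4,5],[0,1,2,3,4,5],[0,1,2,3,4]],Ref.mk 187 3742 [0,1,2,3] [[0,1,2,3,4,5,6,7],[0,1,2,3,4,5],[0,1,2,3,4,5],[0,1,2,3,4]]],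
Node.mk [0,820,182,1542,2448,1810,1092,1795,1875,3252,1569,1101,284,2354,186] [(0,0),(0,1),(0,3),(0,4),(0,5),(1,2)] [Ref.mk 245 3740 [0,1,2,3] [[0,1,6,3,4,5,2],[0,1,2,3,4,5],[0,1,2,3,4,5],[0,1,2,3,4]],Ref.mk 1793 3741 [0,1,2,3] [[0,1,6,3,2,5,4],[0,1,2,3,4,5],[0,1,2,3,4,5],[0,1,2,3,4]],Ref.mk 249 3740 [0,1,2,3] [[0,1,2,3,4,5,6],[0,1,2,3,4,5],[0,1,2,3,4,5],[0,1,2,3,4]],Ref.mk 1797 3741 [0,1,2,3] [[0,1,2,3,6,5,4],[0,1,2,3,4,5],[0,1,2,3,4,5],[0,1,2,3,4]],Ref.mk 250 3740 [0,1,2,3] [[0,1,6,3,4,5,7],[0,1,2,3,4,5],[0,1,2,3,4,5],[0,1,2,3,4]],Ref.mk 1798 3742 [0,1,2,3] [[0,1,2,3,4,5,7,6],[0,1,2,3,4,5],[0,1,2,3,4,5],[0,1,2,3,4]]],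
Node.mk [0,820,182,1542,2448,1810,1092,1795,1875,3252,1569,1101,284,2354] [(0,0),(0,1),(0,2),(0,3),(0,4),(0,5)] [Ref.mk 249 3740 [0,1,2,3] [[0,1,2,3,4,5,6],[0,1,2,3,4,5],[0,1,2,3,4,5],[0,1,2,3,4]],Ref.mk 1797 3743 [0,1,2,3] [[0,1,2,3,4,5,6],[0,1,2,3,4,5],[0,1,2,3,4,5],[0,1,2,3,4]],Ref.mk 186 3744 [0,1,2,3] [[0,1,2,3,4,5,6],[0,1,2,3,4,5],[0,1,2,3,4,5],[0,1,2,3,4]]],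
Node.mk [0,820,182,1542,2448,1810,1092,1795,1875,3252,1569,1101,284] [(0,0),(0,1),(0,3),(1,1),(1,2),(2,3)] [Ref.mk 2225 3714 [3,1,2,0] [[0,1,3,2,4],[0,1,2,4,3],[0,1,3,2,4,5],[0,1,3,2,4]],Ref.mk 2354 3745 [0,1,2,3] [[0,1,2,3,4,5],[0,1,2,3,4,5],[0,1,2,3,4,5],[0,1,2,3,4]]],
Node.mk [0,820,182,1542,2448,1810,1092,1795,1875,3252,1569,1101,302,2354,2403] [(0,0),(0,1),(0,3),(1,1),(3,0),(3,3)] [],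
Node.mk [0,820,182,1542,2448,1810,1092,1795,1875,3252,1569,1101,302,2354] [(0,3),(0,5),(2,3),(3,0),(3,1),(3,2)] [Ref.mk 2403 3747 [0,1,2,3] [[0,1,2,3,4,5],[0,1,2,3,4,5,6],[0,1,2,3,4,5],[0,1,2,3,4]],Ref.mk 3132 3602 [2,1,0,3] [[1,2,4,0,3],[0,6,1,2,4,3],[3,0,4,1,2],[2,4,0,1,3]],Ref.mk 3861 3602 [2,1,0,3] [[1,2,4,0,3],[0,6,1,2,4,3],[3,0,4,1,2],[2,5,0,1,3]],Ref.mk 2243 3615 [0,1,2,3] [[0,1,2,3],[0,1,2,3,6],[0,1,2,3,4],[0,1,2,3]]],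
Node.mk [0,820,182,1542,2448,1810,1092,1795,1875,3252,1569,1101,302] [(0,0),(0,1),(0,3),(1,1),(1,2),(2,3)] [Ref.mk 2243 3615 [0,1,2,3] [[0,1,2,3],[0,1,2,3,6],[0,1,2,3,4],[0,1,2,3]],Ref.mk 2354 3748 [0,1,2,3] [[0,1,2,3,4,5],[0,1,2,3,4,5,6],[0,1,2,3,4,5],[0,1,2,3,4]]],
Node.mk [0,820,182,1542,2448,1810,1092,1795,1875,3252,1569,1101] [(0,0),(0,3),(1,0),(1,1),(1,2),(1,3)] [Ref.mk 280 3715 [0,1,2,3] [[0,1,2,3,4],[0,1,2,3,5,4],[0,1,2,3,4,5],[0,1,2,3,4]],Ref.mk 1819 3727 [0,1,2,3] [[0,1,2,3,4],[0,1,2,3,5,4],[0,1,2,3,4,5],[0,1,2,3,4]],Ref.mk 289 3715 [0,1,2,3] [[0,1,2,3,4],[0,1,2,3,4,5],[0,1,2,3,4,5],[0,1,2,3,4]],Ref.mk 1828 3727 [0,1,2,3] [[0,1,2,3,4],[0,1,2,3,4,5],[0,1,2,3,4,5],[0,1,2,3,4]],Ref.mk 298 3715 [0,1,2,3]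 [[0,1,2,3,4],[0,1,2,3,5,6],[0,1,2,3,4,5],[0,1,2,3,4]],Ref.mk 1837 3727 [0,1,2,3] [[0,1,2,3,4],[0,1,2,3,5,6],[0,1,2,3,4,5],[0,1,2,3,4]],Ref.mk 2225 3714 [3,1,2,0] [[0,1,3,2,4],[0,1,2,4,3],[0,1,3,2,4,5],[0,1,3,2,4]],Ref.mk 281 3679 [0,1,2,3] [[0,1,2,3],[0,1,2,3,4],[0,1,2,3,4],[0,1,2,3]],Ref.mk 2234 3714 [3,1,2,0] [[0,1,3,2,4],[0,1,2,5,3],[0,1,3,2,4,5],[0,1,3,2,4]],Ref.mk 290 3679 [0,1,2,3] [[0,1,2,3],[0,1,2,3,5],[0,1,2,3,4],[0,1,2,3]],Ref.mk 2243 3615 [0,1,2,3] [[0,1,2,3],[0,1,2,3,6],[0,1,2,3,4],[0,1,2,3]],Ref.mk 299 3679 [0,1,2,3] [[0,1,2,3],[0,1,2,3,6],[0,1,2,3,4],[0,1,2,3]],Ref.mk 283 3735 [0,1,2,3] [[0,1,2,3,4],[0,1,2,3,4,5],[0,1,2,3,4,5],[0,1,2,3,4]],Ref.mk 292 3735 [0,1,2,3] [[0,1,2,3,4],[0,1,2,3,5,4],[0,1,2,3,4,5],[0,1,2,3,4]],Ref.mk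 301 3739 [0,1,2,3] [[0,1,2,3,4],[0,1,2,3,4,5,6],[0,1,2,3,4,5],[0,1,2,3,4]],Ref.mk 284 3746 [0,1,2,3] [[0,1,2,3,4,5],[0,1,2,3,4,5],[0,1,2,3,4,5],[0,1,2,3,4]],Ref.mk 293 3746 [0,1,2,3] [[0,1,2,3,4,5],[0,1,2,3,5,4],[0,1,2,3,4,5],[0,1,2,3,4]],Ref.mk 302 3749 [0,1,2,3] [[0,1,2,3,4,5],[0,1,2,3,4,5,6],[0,1,2,3,4,5],[0,1,2,3,4]]],
Node.mk [0,820,182,1542,2448,1810,1092,1795,1875,3252,1569,292,1796,2353,2394] [(0,0),(0,1),(0,3),(1,1),(3,0),(3,3)] [],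
Node.mk [0,820,182,1542,2448,1810,1092,1795,1875,3252,1569,292,1796,2353] [(0,3),(0,4),(2,3),(3,0),(3,1),(3,2)] [Ref.mk 2394 3751 [0,1,2,3] [[0,1,2,3,4,5],[0,1,2,3,4,5],[0,1,2,3,4,5],[0,1,2,3,4]],Ref.mk 3123 3602 [2,1,0,3] [[1,2,4,0,3],[0,5,1,2,4,3],[3,0,4,1,2],[2,4,0,1,3]],Ref.mk 3852 3602 [2,1,0,3] [[1,2,4,0,3],[0,5,1,2,4,3],[3,0,4,1,2],[2,5,0,1,3]],Ref.mk 2234 3615 [0,1,2,3] [[0,1,2,3],[0,1,2,3,5],[0,1,2,3,4],[0,1,2,3]]],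
Node.mk [0,820,182,1542,2448,1810,1092,1795,1875,3252,1569,292,1796] [(0,0),(0,1),(0,3),(1,1),(1,2),(2,3)] [Ref.mk 2234 3615 [0,1,2,3] [[0,1,2,3],[0,1,2,3,5],[0,1,2,3,4],[0,1,2,3]],Ref.mk 2353 3752 [0,1,2,3] [[0,1,2,3,4,5],[0,1,2,3,4,5],[0,1,2,3,4,5],[0,1,2,3,4]]],
Node.mk [0,820,182,1542,2448,1810,1092,1795,1875,3252,1569,292] [(0,0),(0,1),(0,2),(0,3),(0,4),(3,0)] [Ref.mk 1796 3753 [0,1,2,3] [[0,1,2,3,4,5],[0,1,2,3,4,5],[0,1,2,3,4,5],[0,1,2,3,4]]],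
Node.mk [0,820,182,1542,2448,1810,1092,1795,1875,3252,1569,293,2354,2394] [(0,0),(0,1),(0,3),(1,1),(3,0),(3,3)] [],
Node.mk [0,820,182,1542,2448,1810,1092,1795,1875,3252,1569,293,2354] [(0,3),(0,5),(2,3),(3,0),(3,1),(3,2)] [Ref.mk 2394 3755 [0,1,2,3] [[0,1,2,3,4,5],[0,1,2,3,4,5],[0,1,2,3,4,5],[0,1,2,3,4]],Ref.mk 3123 3602 [2,1,0,3] [[1,2,4,0,3],[0,5,1,2,4,3],[3,0,4,1,2],[2,4,0,1,3]],Ref.mk 3852 3602 [2,1,0,3] [[1,2,4,0,3],[0,5,1,2,4,3],[3,0,4,1,2],[2,5,0,1,3]],Ref.mk 2234 3615 [0,1,2,3] [[0,1,2,3],[0,1,2,3,5],[0,1,2,3,4],[0,1,2,3]]],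
Node.mk [0,820,182,1542,2448,1810,1092,1795,1875,3252,1569,293] [(0,0),(0,1),(0,3),(1,1),(1,2),(2,3)] [Ref.mk 2234 3615 [0,1,2,3] [[0,1,2,3],[0,1,2,3,5],[0,1,2,3,4],[0,1,2,3]],Ref.mk 2354 3756 [0,1,2,3] [[0,1,2,3,4,5],[0,1,2,3,4,5],[0,1,2,3,4,5],[0,1,2,3,4]]],
Node.mk [0,820,182,1542,2448,1810,1092,1795,1875,3252,1569] [(0,0),(1,0),(1,1),(1,2),(1,3),(1,4)] [Ref.mk 289 3715 [0,1,2,3] [[0,1,2,3,4],[0,1,2,3,4,5],[0,1,2,3,4,5],[0,1,2,3,4]],Ref.mk 1828 3727 [0,1,2,3] [[0,1,2,3,4],[0,1,2,3,4,5],[0,1,2,3,4,5],[0,1,2,3,4]],Ref.mk 2234 3615 [0,1,2,3] [[0,1,2,3],[0,1,2,3,5],[0,1,2,3,4],[0,1,2,3]],Ref.mk 290 3679 [0,1,2,3] [[0,1,2,3],[0,1,2,3,5],[0,1,2,3,4],[0,1,2,3]],Ref.mk 1587 3691 [0,1,2,3] [[0,1,2,3],[0,1,2,3,5],[0,1,2,3,4],[0,1,2,3]],Ref.mk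 291 3706 [0,1,2,3] [[0,1,2,3],[0,1,2,3,5],[0,1,2,3,4],[0,1,2,3]],Ref.mk 1101 3750 [0,1,2,3] [[0,1,2,3,4],[0,1,2,3,4,5],[0,1,2,3,4,5],[0,1,2,3,4]],Ref.mk 292 3754 [0,1,2,3] [[0,1,2,3,4],[0,1,2,3,4,5],[0,1,2,3,4,5],[0,1,2,3,4]],Ref.mk 293 3757 [0,1,2,3] [[0,1,2,3,4,5],[0,1,2,3,4,5],[0,1,2,3,4,5],[0,1,2,3,4]]],
Node.mk [0,820,182,1542,2448,1810,1092,1795,1875,3252] [(0,0),(1,0),(1,1),(1,2),(2,3),(2,4)] [Ref.mk 2216 3714 [0,1,2,3] [[0,1,2,3,4],[0,1,2,3,4],[0,1,2,3,4,5],[0,1,2,3,4]],Ref.mk 2225 3714 [3,1,2,0] [[0,1,3,2,4],[0,1,2,4,3],[0,1,3,2,4,5],[0,1,3,2,4]],Ref.mk 2234 3615 [0,1,2,3] [[0,1,2,3],[0,1,2,3,5],[0,1,2,3,4],[0,1,2,3]],Ref.mk 1569 3758 [0,1,2,3] [[0,1,2,3,4],[0,1,2,3,4],[0,1,2,3,4,5],[0,1,2,3,4]],Ref.mk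 1578 3758 [3,1,2,0] [[0,1,3,2,4],[0,1,2,4,3],[0,1,3,2,4,5],[0,1,3,2,4]],Ref.mk 1587 3691 [0,1,2,3] [[0,1,2,3],[0,1,2,3,5],[0,1,2,3,4],[0,1,2,3]]],
Node.mk [0,820,182,1542,2448,1810,1092,1795,1875] [(0,0),(1,0),(2,0),(3,0),(3,1),(3,2)] [Ref.mk 2522 3394 [0,1,2,3] [[2,3,0,1,4],[1,0,2,4,3],[4,1,3,2,5],[3,2,1,0]],Ref.mk 2523 3161 [0,3,1,2] [[3,2,1,0,4],[3,0,2,1],[1,2,3,0,4],[4,2,3,1,5]],Ref.mk 3252 3759 [0,1,2,3] [[0,1,2,3,4],[0,1,2,3,4],[0,1,2,3,4,5],[0,1,2,3,4]]],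
Node.mk [0,820,182,1542,2448,1810,1092,1795] [(0,0),(1,0),(2,0),(2,1),(2,4),(3,0)] [Ref.mk 1657 3187 [0,2,1,3] [[1,0,3,2,4],[2,3,1,4],[4,2,0,1,3],[2,3,0,1]],Ref.mk 1738 3187 [0,2,1,3] [[1,2,3,0,4],[3,2,1,4],[4,2,0,1,3],[2,0,3,1]],Ref.mk 1900 3713 [0,1,2,3] [[0,1,2,3,4],[0,1,2,3,4],[0,1,2,3,4,5],[0,1,2,3]],Ref.mk 1632 3162 [0,2,1,3] [[3,0,1,2,4],[2,3,4,1],[1,2,3,4,0],[2,3,0,1]],Ref.mk 1713 3162 [0,2,1,3] [[3,2,1,0,4],[3,2,4,1],[1,2,3,4,0],[2,0,3,1]],Ref.mk 1875 3760 [0,1,2,3] [[0,1,2,3,4],[0,1,2,3,4],[0,1,2,3,4,5],[0,1,2,3]]],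
Node.mk [0,820,182,1542,2448,1810,1092,841,3027,1164,1551,3664] [(0,0),(0,1),(0,2),(0,3),(1,2),(1,3)] [],
Node.mk [0,820,182,1542,2448,1810,1092,841,3027,1164,1551,3666] [(0,0),(0,1),(0,2),(0,3),(1,2),(1,3)] [],
Node.mk [0,820,182,1542,2448,1810,1092,841,3027,1164,1551,3756,856,2189] [(0,0),(1,0),(1,1),(1,2),(1,3),(3,1)] [Ref.mk 2225 3714 [3,1,2,0] [[3,2,0,1,4],[4,3,2,0,1],[0,4,2,3,1,5],[2,1,3,0,4]],Ref.mk 281 3679 [0,1,2,3] [[0,1,2,3],[0,1,2,3,4],[0,1,2,3,4],[0,1,2,3]],Ref.mk 2234 3615 [0,1,2,3] [[0,1,2,3],[0,1,2,3,5],[0,1,2,3,4],[0,1,2,3]],Ref.mk 290 3679 [0,1,2,3] [[0,1,2,3],[0,1,2,3,5],[0,1,2,3,4],[0,1,2,3]],Ref.mk 2243 3615 [0,1,2,3] [[0,1,2,3],[0,1,2,3,6],[0,1,2,3,4],[0,1,2,3]],Ref.mk 299 3679 [0,1,2,3]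 [[0,1,2,3],[0,1,2,3,6],[0,1,2,3,4],[0,1,2,3]],Ref.mk 1578 3691 [0,1,2,3] [[0,1,2,3],[0,1,2,3,4],[0,1,2,3,4],[0,1,2,3]],Ref.mk 1587 3691 [0,1,2,3] [[0,1,2,3],[0,1,2,3,5],[0,1,2,3,4],[0,1,2,3]],Ref.mk 1596 3691 [0,1,2,3] [[0,1,2,3],[0,1,2,3,6],[0,1,2,3,4],[0,1,2,3]]],
Node.mk [0,820,182,1542,2448,1810,1092,841,3027,1164,1551,3756,856,974] [(0,3),(1,0),(1,2),(1,3),(3,0),(3,1)] [Ref.mk 2198 3709 [0,1,2,3] [[0,1,2,3],[0,1,2,3,4],[0,1,2,3,4],[0,1,2,3]],Ref.mk 2225 3714 [3,1,2,0] [[3,2,0,1,4],[4,3,2,0,1],[0,4,2,3,1,5],[2,1,3,0,4]],Ref.mk 2234 3615 [0,1,2,3] [[0,1,2,3],[0,1,2,3,5],[0,1,2,3,4],[0,1,2,3]],Ref.mk 2243 3615 [0,1,2,3] [[0,1,2,3],[0,1,2,3,6],[0,1,2,3,4],[0,1,2,3]]],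
Node.mk [0,820,182,1542,2448,1810,1092,841,3027,1164,1551,3756,856,1703] [(0,2),(0,3),(1,0),(2,3),(3,1),(3,2)] [],
Node.mk [0,820,182,1542,2448,1810,1092,841,3027,1164,1551,3756,856,2432,2354] [(0,1),(0,3),(1,0),(1,3),(3,0),(3,3)] [],
Node.mk [0,820,182,1542,2448,1810,1092,841,3027,1164,1551,3756,856,2432,2210] [(0,1),(0,3),(1,2),(1,3),(3,0),(3,3)] [],
Node.mk [0,820,182,1542,2448,1810,1092,841,3027,1164,1551,3756,856,2432,842] [(0,0),(0,1),(0,2),(0,3),(1,3),(2,3)] [Ref.mk 2353 3767 [0,1,2,3] [[0,1,2,3,5,4],[0,1,2,3,4,5],[0,1,2,3,4,5],[0,1,2,3,4,5]],Ref.mk 2209 3768 [0,1,2,3] [[0,1,2,3,5,4],[0,1,2,3,4,5],[0,1,2,3,4,5],[0,1,2,3,4,5]],Ref.mk 2354 3767 [0,1,2,3] [[0,1,2,3,4,5],[0,1,2,3,4,5],[0,1,2,3,4,5],[0,1,2,3,4,5]],Ref.mk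 2210 3768 [0,1,2,3] [[0,1,2,3,4,5],[0,1,2,3,4,5],[0,1,2,3,4,5],[0,1,2,3,4,5]],Ref.mk 2355 3767 [0,1,2,3] [[0,1,2,3,5,6],[0,1,2,3,4,5],[0,1,2,3,4,5],[0,1,2,3,4,5]],Ref.mk 2211 3768 [0,1,2,3] [[0,1,2,3,5,6],[0,1,2,3,4,5],[0,1,2,3,4,5],[0,1,2,3,4,5]]],
Node.mk [0,820,182,1542,2448,1810,1092,841,3027,1164,1551,3756,856,2432] [(0,0),(0,1),(0,2),(0,3),(0,4),(2,3)] [Ref.mk 2354 3767 [0,1,2,3] [[0,1,2,3,4,5],[0,1,2,3,4,5],[0,1,2,3,4,5],[0,1,2,3,4,5]],Ref.mk 2210 3768 [0,1,2,3] [[0,1,2,3,4,5],[0,1,2,3,4,5],[0,1,2,3,4,5],[0,1,2,3,4,5]],Ref.mk 842 3769 [0,1,2,3] [[0,1,2,3,4,5],[0,1,2,3,4,5],[0,1,2,3,4,5],[0,1,2,3,4,5]]],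
Node.mk [0,820,182,1542,2448,1810,1092,841,3027,1164,1551,3756,856,2594] [(0,0),(1,0),(1,1),(1,2),(1,3),(3,1)] [Ref.mk 2225 3714 [3,1,2,0] [[3,2,0,1,4],[4,3,2,0,1],[0,4,2,3,1,5],[2,1,3,0,4]],Ref.mk 281 3679 [0,1,2,3] [[0,1,2,3],[0,1,2,3,4],[0,1,2,3,4],[0,1,2,3]],Ref.mk 2234 3615 [0,1,2,3] [[0,1,2,3],[0,1,2,3,5],[0,1,2,3,4],[0,1,2,3]],Ref.mk 290 3679 [0,1,2,3] [[0,1,2,3],[0,1,2,3,5],[0,1,2,3,4],[0,1,2,3]],Ref.mk 2243 3615 [0,1,2,3] [[0,1,2,3],[0,1,2,3,6],[0,1,2,3,4],[0,1,2,3]],Ref.mk 299 3679 [0,1,2,3] [[0,1,2,3],[0,1,2,3,6],[0,1,2,3,4],[0,1,2,3]],Ref.mk 1578 3691 [0,1,2,3] [[0,1,2,3],[0,1,2,3,4],[0,1,2,3,4],[0,1,2,3]],Ref.mk 1587 3691 [0,1,2,3] [[0,1,2,3],[0,1,2,3,5],[0,1,2,3,4],[0,1,2,3]],Ref.mk 1596 3691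 [0,1,2,3] [[0,1,2,3],[0,1,2,3,6],[0,1,2,3,4],[0,1,2,3]]],
Node.mk [0,820,182,1542,2448,1810,1092,841,3027,1164,1551,3756,856,2675] [(0,0),(1,0),(1,1),(1,2),(1,3),(3,1)] [Ref.mk 2225 3714 [3,1,2,0] [[3,2,0,1,4],[4,3,2,0,1],[0,4,2,3,1,5],[2,1,3,0,4]],Ref.mk 281 3679 [0,1,2,3] [[0,1,2,3],[0,1,2,3,4],[0,1,2,3,4],[0,1,2,3]],Ref.mk 2234 3615 [0,1,2,3] [[0,1,2,3],[0,1,2,3,5],[0,1,2,3,4],[0,1,2,3]],Ref.mk 290 3679 [0,1,2,3] [[0,1,2,3],[0,1,2,3,5],[0,1,2,3,4],[0,1,2,3]],Ref.mk 2243 3615 [0,1,2,3] [[0,1,2,3],[0,1,2,3,6],[0,1,2,3,4],[0,1,2,3]],Ref.mk 299 3679 [0,1,2,3] [[0,1,2,3],[0,1,2,3,6],[0,1,2,3,4],[0,1,2,3]],Ref.mk 1578 3691 [0,1,2,3] [[0,1,2,3],[0,1,2,3,4],[0,1,2,3,4],[0,1,2,3]],Ref.mk 1587 3691 [0,1,2,3] [[0,1,2,3],[0,1,2,3,5],[0,1,2,3,4],[0,1,2,3]],Ref.mk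 1596 3691 [0,1,2,3] [[0,1,2,3],[0,1,2,3,6],[0,1,2,3,4],[0,1,2,3]]],
Node.mk [0,820,182,1542,2448,1810,1092,841,3027,1164,1551,3756,856] [(1,2),(1,3),(2,1),(2,2),(2,4),(3,0)] [Ref.mk 2189 3764 [0,1,2,3] [[0,1,2,3,4],[0,1,2,3,4,5],[0,1,2,3,4,5],[0,1,2,3,4,5]],Ref.mk 974 3765 [0,1,2,3] [[0,1,2,3,4],[0,1,2,3,4,5],[0,1,2,3,4,5],[0,1,2,3,4,5]],Ref.mk 1703 3766 [0,1,2,3] [[0,1,2,3,4],[0,1,2,3,4,5],[0,1,2,3,4,5],[0,1,2,3,4,5]],Ref.mk 2432 3770 [0,1,2,3] [[0,1,2,3,4],[0,1,2,3,4,5],[0,1,2,3,4,5],[0,1,2,3,4,5]],Ref.mk 3161 3725 [0,1,3,2] [[2,1,0,3,4],[0,3,2,1,4,5],[4,2,3,0,1,5],[3,4,1,2,5,0]],Ref.mk 3890 3725 [0,1,3,2] [[2,1,0,3,4],[0,3,2,1,4,5],[5,2,3,0,1,4],[3,4,1,2,5,0]],Ref.mk 4619 3725 [0,1,3,2] [[2,1,0,3,4],[0,3,2,1,4,5],[6,2,3,0,1,5],[3,4,1,2,5,0]],Ref.mk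 2594 3771 [0,1,2,3] [[0,1,2,3,4],[0,1,2,3,4,5],[0,1,2,3,4,5],[0,1,2,3,4,5]],Ref.mk 2675 3772 [0,1,2,3] [[0,1,2,3,4],[0,1,2,3,4,5],[0,1,2,3,4,5,6],[0,1,2,3,4,5]],Ref.mk 2198 3709 [0,1,2,3] [[0,1,2,3],[0,1,2,3,4],[0,1,2,3,4],[0,1,2,3]],Ref.mk 2225 3714 [3,1,2,0] [[3,2,0,1,4],[4,3,2,0,1],[0,4,2,3,1,5],[2,1,3,0,4]],Ref.mk 2234 3615 [0,1,2,3] [[0,1,2,3],[0,1,2,3,5],[0,1,2,3,4],[0,1,2,3]],Ref.mk 2243 3615 [0,1,2,3] [[0,1,2,3],[0,1,2,3,6],[0,1,2,3,4],[0,1,2,3]]],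
Node.mk [0,820,182,1542,2448,1810,1092,841,3027,1164,1551,3756,289] [(0,0),(0,1),(0,2),(0,3),(1,3),(3,0)] [],
Node.mk [0,820,182,1542,2448,1810,1092,841,3027,1164,1551,3756,1101,283,842,2353,249] [(0,0),(0,1),(0,3),(1,0),(1,3),(3,0)] []]

/-- nodes -/
noncomputable def c59 : List Node := [
Node.mk [0,820,182,1542,2448,1810,1092,841,3027,1164,1551,3756,1101,283,842,2353,186] [(0,0),(0,1),(0,3),(0,4),(1,3),(3,0)] [],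
Node.mk [0,820,182,1542,2448,1810,1092,841,3027,1164,1551,3756,1101,283,842,2353,843] [(0,0),(0,1),(0,2),(0,3),(0,4),(1,3)] [Ref.mk 248 3775 [0,1,2,3] [[0,1,2,3,4,6,5],[0,1,2,3,4,5],[0,1,2,3,4,5],[0,1,2,3,4,5]],Ref.mk 185 3776 [0,1,2,3] [[0,1,2,3,4,6,5],[0,1,2,3,4,5],[0,1,2,3,4,5],[0,1,2,3,4,5]],Ref.mk 249 3775 [0,1,2,3] [[0,1,2,3,4,5,6],[0,1,2,3,4,5],[0,1,2,3,4,5],[0,1,2,3,4,5]],Ref.mk 186 3776 [0,1,2,3] [[0,1,2,3,4,5,6],[0,1,2,3,4,5],[0,1,2,3,4,5],[0,1,2,3,4,5]],Ref.mk 250 3775 [0,1,2,3] [[0,1,2,3,4,6,7],[0,1,2,3,4,5],[0,1,2,3,4,5],[0,1,2,3,4,5]],Ref.mk 187 3776 [0,1,2,3] [[0,1,2,3,4,6,7],[0,1,2,3,4,5],[0,1,2,3,4,5],[0,1,2,3,4,5]]],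
Node.mk [0,820,182,1542,2448,1810,1092,841,3027,1164,1551,3756,1101,283,842,2353] [(0,0),(0,1),(0,2),(0,3),(0,4),(0,5)] [Ref.mk 249 3775 [0,1,2,3] [[0,1,2,3,4,5,6],[0,1,2,3,4,5],[0,1,2,3,4,5],[0,1,2,3,4,5]],Ref.mk 186 3776 [0,1,2,3] [[0,1,2,3,4,5,6],[0,1,2,3,4,5],[0,1,2,3,4,5],[0,1,2,3,4,5]],Ref.mk 843 3777 [0,1,2,3] [[0,1,2,3,4,5,6],[0,1,2,3,4,5],[0,1,2,3,4,5],[0,1,2,3,4,5]]],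
Node.mk [0,820,182,1542,2448,1810,1092,841,3027,1164,1551,3756,1101,283,842] [(0,0),(0,1),(0,3),(1,2),(1,3),(2,3)] [Ref.mk 2225 3714 [3,1,2,0] [[3,2,0,1,4],[4,3,2,0,1],[0,4,2,3,1,5],[2,1,3,0,4]],Ref.mk 2353 3778 [0,1,2,3] [[0,1,2,3,4,5],[0,1,2,3,4,5],[0,1,2,3,4,5],[0,1,2,3,4,5]]],
Node.mk [0,820,182,1542,2448,1810,1092,841,3027,1164,1551,3756,1101,283] [(0,0),(0,1),(0,2),(0,3),(0,4),(3,0)] [Ref.mk 842 3779 [0,1,2,3] [[0,1,2,3,4,5],[0,1,2,3,4,5],[0,1,2,3,4,5],[0,1,2,3,4,5]]],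
Node.mk [0,820,182,1542,2448,1810,1092,841,3027,1164,1551,3756,1101,301,842,2353,2403] [(0,0),(0,1),(0,3),(1,3),(3,0),(3,3)] [],
Node.mk [0,820,182,1542,2448,1810,1092,841,3027,1164,1551,3756,1101,301,842,2353] [(0,3),(0,4),(2,3),(3,0),(3,1),(3,2)] [Ref.mk 2403 3781 [0,1,2,3] [[0,1,2,3,4,5],[0,1,2,3,4,5,6],[0,1,2,3,4,5],[0,1,2,3,4,5]],Ref.mk 3132 3600 [2,1,0,3] [[1,2,4,0,3],[0,6,3,2,4,1],[3,0,1,4,2],[2,4,0,1,3]],Ref.mk 3861 3600 [2,1,0,3] [[1,2,4,0,3],[0,6,3,2,4,1],[3,0,1,4,2],[2,5,0,1,3]],Ref.mk 4590 3600 [2,1,0,3] [[1,2,4,0,3],[0,6,3,2,4,1],[3,0,1,4,2],[2,6,0,1,3]],Ref.mk 2243 3615 [0,1,2,3] [[0,1,2,3],[0,1,2,3,6],[0,1,2,3,4],[0,1,2,3]]],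
Node.mk [0,820,182,1542,2448,1810,1092,841,3027,1164,1551,3756,1101,301,842] [(0,0),(0,1),(0,3),(1,2),(1,3),(2,3)] [Ref.mk 2243 3615 [0,1,2,3] [[0,1,2,3],[0,1,2,3,6],[0,1,2,3,4],[0,1,2,3]],Ref.mk 2353 3782 [0,1,2,3] [[0,1,2,3,4,5],[0,1,2,3,4,5,6],[0,1,2,3,4,5],[0,1,2,3,4,5]]],
Node.mk [0,820,182,1542,2448,1810,1092,841,3027,1164,1551,3756,1101,301] [(0,0),(0,1),(0,2),(0,3),(0,4),(3,0)] [Ref.mk 842 3783 [0,1,2,3] [[0,1,2,3,4,5],[0,1,2,3,4,5,6],[0,1,2,3,4,5],[0,1,2,3,4,5]]],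
Node.mk [0,820,182,1542,2448,1810,1092,841,3027,1164,1551,3756,1101,284,2354,249] [(0,0),(0,1),(0,3),(1,0),(1,3),(3,0)] [],
Node.mk [0,820,182,1542,2448,1810,1092,841,3027,1164,1551,3756,1101,284,2354,186] [(0,0),(0,1),(0,3),(0,5),(1,3),(3,0)] [],
Node.mk [0,820,182,1542,2448,1810,1092,841,3027,1164,1551,3756,1101,284,2354,843] [(0,0),(0,1),(0,2),(0,3),(0,5),(1,3)] [Ref.mk 247 3785 [0,1,2,3] [[0,1,2,3,6,5,4],[0,1,2,3,4,5],[0,1,2,3,4,5],[0,1,2,3,4,5]],Ref.mk 184 3786 [0,1,2,3] [[0,1,2,3,6,5,4],[0,1,2,3,4,5],[0,1,2,3,4,5],[0,1,2,3,4,5]],Ref.mk 249 3785 [0,1,2,3] [[0,1,2,3,4,5,6],[0,1,2,3,4,5],[0,1,2,3,4,5],[0,1,2,3,4,5]],Ref.mk 186 3786 [0,1,2,3] [[0,1,2,3,4,5,6],[0,1,2,3,4,5],[0,1,2,3,4,5],[0,1,2,3,4,5]],Ref.mk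 250 3785 [0,1,2,3] [[0,1,2,3,6,5,7],[0,1,2,3,4,5],[0,1,2,3,4,5],[0,1,2,3,4,5]],Ref.mk 187 3786 [0,1,2,3] [[0,1,2,3,6,5,7],[0,1,2,3,4,5],[0,1,2,3,4,5],[0,1,2,3,4,5]]],
Node.mk [0,820,182,1542,2448,1810,1092,841,3027,1164,1551,3756,1101,284,2354] [(0,0),(0,1),(0,2),(0,3),(0,4),(0,5)] [Ref.mk 249 3785 [0,1,2,3] [[0,1,2,3,4,5,6],[0,1,2,3,4,5],[0,1,2,3,4,5],[0,1,2,3,4,5]],Ref.mk 186 3786 [0,1,2,3] [[0,1,2,3,4,5,6],[0,1,2,3,4,5],[0,1,2,3,4,5],[0,1,2,3,4,5]],Ref.mk 843 3787 [0,1,2,3] [[0,1,2,3,4,5,6],[0,1,2,3,4,5],[0,1,2,3,4,5],[0,1,2,3,4,5]]],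
Node.mk [0,820,182,1542,2448,1810,1092,841,3027,1164,1551,3756,1101,284] [(0,0),(0,1),(0,3),(1,2),(1,3),(2,3)] [Ref.mk 2225 3714 [3,1,2,0] [[3,2,0,1,4],[4,3,2,0,1],[0,4,2,3,1,5],[2,1,3,0,4]],Ref.mk 2354 3788 [0,1,2,3] [[0,1,2,3,4,5],[0,1,2,3,4,5],[0,1,2,3,4,5],[0,1,2,3,4,5]]],
Node.mk [0,820,182,1542,2448,1810,1092,841,3027,1164,1551,3756,1101,302,2354,2403] [(0,0),(0,1),(0,3),(1,3),(3,0),(3,3)] [],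
Node.mk [0,820,182,1542,2448,1810,1092,841,3027,1164,1551,3756,1101,302,2354] [(0,3),(0,5),(2,3),(3,0),(3,1),(3,2)] [Ref.mk 2403 3790 [0,1,2,3] [[0,1,2,3,4,5],[0,1,2,3,4,5,6],[0,1,2,3,4,5],[0,1,2,3,4,5]],Ref.mk 3132 3600 [2,1,0,3] [[1,2,4,0,3],[0,6,3,2,4,1],[3,0,1,4,2],[2,4,0,1,3]],Ref.mk 3861 3600 [2,1,0,3] [[1,2,4,0,3],[0,6,3,2,4,1],[3,0,1,4,2],[2,5,0,1,3]],Ref.mk 4590 3600 [2,1,0,3] [[1,2,4,0,3],[0,6,3,2,4,1],[3,0,1,4,2],[2,6,0,1,3]],Ref.mk 2243 3615 [0,1,2,3] [[0,1,2,3],[0,1,2,3,6],[0,1,2,3,4],[0,1,2,3]]],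
Node.mk [0,820,182,1542,2448,1810,1092,841,3027,1164,1551,3756,1101,302] [(0,0),(0,1),(0,3),(1,2),(1,3),(2,3)] [Ref.mk 2243 3615 [0,1,2,3] [[0,1,2,3],[0,1,2,3,6],[0,1,2,3,4],[0,1,2,3]],Ref.mk 2354 3791 [0,1,2,3] [[0,1,2,3,4,5],[0,1,2,3,4,5,6],[0,1,2,3,4,5],[0,1,2,3,4,5]]],
Node.mk [0,820,182,1542,2448,1810,1092,841,3027,1164,1551,3756,1101] [(0,0),(0,3),(1,0),(1,1),(1,2),(1,3)] [Ref.mk 847 3773 [0,1,2,3] [[0,1,2,3,4],[0,1,2,3,5,4],[0,1,2,3,4,5],[0,1,2,3,4,5]],Ref.mk 280 3774 [0,1,2,3] [[0,1,2,3,4],[0,1,2,3,5,4],[0,1,2,3,4,5],[0,1,2,3,4,5]],Ref.mk 856 3773 [0,1,2,3] [[0,1,2,3,4],[0,1,2,3,4,5],[0,1,2,3,4,5],[0,1,2,3,4,5]],Ref.mk 289 3774 [0,1,2,3] [[0,1,2,3,4],[0,1,2,3,4,5],[0,1,2,3,4,5],[0,1,2,3,4,5]],Ref.mk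 865 3773 [0,1,2,3] [[0,1,2,3,4],[0,1,2,3,5,6],[0,1,2,3,4,5],[0,1,2,3,4,5]],Ref.mk 298 3774 [0,1,2,3] [[0,1,2,3,4],[0,1,2,3,5,6],[0,1,2,3,4,5],[0,1,2,3,4,5]],Ref.mk 2225 3714 [3,1,2,0] [[3,2,0,1,4],[4,3,2,0,1],[0,4,2,3,1,5],[2,1,3,0,4]],Ref.mk 281 3679 [0,1,2,3] [[0,1,2,3],[0,1,2,3,4],[0,1,2,3,4],[0,1,2,3]],Ref.mk 2234 3615 [0,1,2,3] [[0,1,2,3],[0,1,2,3,5],[0,1,2,3,4],[0,1,2,3]],Ref.mk 290 3679 [0,1,2,3] [[0,1,2,3],[0,1,2,3,5],[0,1,2,3,4],[0,1,2,3]],Ref.mk 2243 3615 [0,1,2,3] [[0,1,2,3],[0,1,2,3,6],[0,1,2,3,4],[0,1,2,3]],Ref.mk 299 3679 [0,1,2,3] [[0,1,2,3],[0,1,2,3,6],[0,1,2,3,4],[0,1,2,3]],Ref.mk 283 3780 [0,1,2,3] [[0,1,2,3,4],[0,1,2,3,4,5],[0,1,2,3,4,5],[0,1,2,3,4,5]],Ref.mk 292 3780 [0,1,2,3] [[0,1,2,3,4],[0,1,2,3,5,4],[0,1,2,3,4,5],[0,1,2,3,4,5]],Ref.mk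 301 3784 [0,1,2,3] [[0,1,2,3,4],[0,1,2,3,4,5,6],[0,1,2,3,4,5],[0,1,2,3,4,5]],Ref.mk 284 3789 [0,1,2,3] [[0,1,2,3,4,5],[0,1,2,3,4,5],[0,1,2,3,4,5],[0,1,2,3,4,5]],Ref.mk 293 3789 [0,1,2,3] [[0,1,2,3,4,5],[0,1,2,3,5,4],[0,1,2,3,4,5],[0,1,2,3,4,5]],Ref.mk 302 3792 [0,1,2,3] [[0,1,2,3,4,5],[0,1,2,3,4,5,6],[0,1,2,3,4,5],[0,1,2,3,4,5]]],
Node.mk [0,820,182,1542,2448,1810,1092,841,3027,1164,1551,3756,292,842,2353,2394] [(0,0),(0,1),(0,3),(1,3),(3,0),(3,3)] [],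
Node.mk [0,820,182,1542,2448,1810,1092,841,3027,1164,1551,3756,292,842,2353] [(0,3),(0,4),(2,3),(3,0),(3,1),(3,2)] [Ref.mk 2394 3794 [0,1,2,3] [[0,1,2,3,4,5],[0,1,2,3,4,5],[0,1,2,3,4,5],[0,1,2,3,4,5]],Ref.mk 3123 3600 [2,1,0,3] [[1,2,4,0,3],[0,5,3,2,4,1],[3,0,1,4,2],[2,4,0,1,3]],Ref.mk 3852 3600 [2,1,0,3] [[1,2,4,0,3],[0,5,3,2,4,1],[3,0,1,4,2],[2,5,0,1,3]],Ref.mk 4581 3600 [2,1,0,3] [[1,2,4,0,3],[0,5,3,2,4,1],[3,0,1,4,2],[2,6,0,1,3]],Ref.mk 2234 3615 [0,1,2,3] [[0,1,2,3],[0,1,2,3,5],[0,1,2,3,4],[0,1,2,3]]],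
Node.mk [0,820,182,1542,2448,1810,1092,841,3027,1164,1551,3756,292,842] [(0,0),(0,1),(0,3),(1,2),(1,3),(2,3)] [Ref.mk 2234 3615 [0,1,2,3] [[0,1,2,3],[0,1,2,3,5],[0,1,2,3,4],[0,1,2,3]],Ref.mk 2353 3795 [0,1,2,3] [[0,1,2,3,4,5],[0,1,2,3,4,5],[0,1,2,3,4,5],[0,1,2,3,4,5]]],
Node.mk [0,820,182,1542,2448,1810,1092,841,3027,1164,1551,3756,292] [(0,0),(0,1),(0,2),(0,3),(0,4),(3,0)] [Ref.mk 842 3796 [0,1,2,3] [[0,1,2,3,4,5],[0,1,2,3,4,5],[0,1,2,3,4,5],[0,1,2,3,4,5]]],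
Node.mk [0,820,182,1542,2448,1810,1092,841,3027,1164,1551,3756,293,2354,2394] [(0,0),(0,1),(0,3),(1,3),(3,0),(3,3)] [],
Node.mk [0,820,182,1542,2448,1810,1092,841,3027,1164,1551,3756,293,2354] [(0,3),(0,5),(2,3),(3,0),(3,1),(3,2)] [Ref.mk 2394 3798 [0,1,2,3] [[0,1,2,3,4,5],[0,1,2,3,4,5],[0,1,2,3,4,5],[0,1,2,3,4,5]],Ref.mk 3123 3600 [2,1,0,3] [[1,2,4,0,3],[0,5,3,2,4,1],[3,0,1,4,2],[2,4,0,1,3]],Ref.mk 3852 3600 [2,1,0,3] [[1,2,4,0,3],[0,5,3,2,4,1],[3,0,1,4,2],[2,5,0,1,3]],Ref.mk 4581 3600 [2,1,0,3] [[1,2,4,0,3],[0,5,3,2,4,1],[3,0,1,4,2],[2,6,0,1,3]],Ref.mk 2234 3615 [0,1,2,3] [[0,1,2,3],[0,1,2,3,5],[0,1,2,3,4],[0,1,2,3]]],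
Node.mk [0,820,182,1542,2448,1810,1092,841,3027,1164,1551,3756,293] [(0,0),(0,1),(0,3),(1,2),(1,3),(2,3)] [Ref.mk 2234 3615 [0,1,2,3] [[0,1,2,3],[0,1,2,3,5],[0,1,2,3,4],[0,1,2,3]],Ref.mk 2354 3799 [0,1,2,3] [[0,1,2,3,4,5],[0,1,2,3,4,5],[0,1,2,3,4,5],[0,1,2,3,4,5]]],
Node.mk [0,820,182,1542,2448,1810,1092,841,3027,1164,1551,3756] [(0,0),(1,0),(1,1),(1,2),(1,3),(1,4)] [Ref.mk 856 3773 [0,1,2,3] [[0,1,2,3,4],[0,1,2,3,4,5],[0,1,2,3,4,5],[0,1,2,3,4,5]],Ref.mk 289 3774 [0,1,2,3] [[0,1,2,3,4],[0,1,2,3,4,5],[0,1,2,3,4,5],[0,1,2,3,4,5]],Ref.mk 2234 3615 [0,1,2,3] [[0,1,2,3],[0,1,2,3,5],[0,1,2,3,4],[0,1,2,3]],Ref.mk 290 3679 [0,1,2,3] [[0,1,2,3],[0,1,2,3,5],[0,1,2,3,4],[0,1,2,3]],Ref.mk 1587 3691 [0,1,2,3] [[0,1,2,3],[0,1,2,3,5],[0,1,2,3,4],[0,1,2,3]],Ref.mk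 291 3706 [0,1,2,3] [[0,1,2,3],[0,1,2,3,5],[0,1,2,3,4],[0,1,2,3]],Ref.mk 1101 3793 [0,1,2,3] [[0,1,2,3,4],[0,1,2,3,4,5],[0,1,2,3,4,5],[0,1,2,3,4,5]],Ref.mk 292 3797 [0,1,2,3] [[0,1,2,3,4],[0,1,2,3,4,5],[0,1,2,3,4,5],[0,1,2,3,4,5]],Ref.mk 293 3800 [0,1,2,3] [[0,1,2,3,4,5],[0,1,2,3,4,5],[0,1,2,3,4,5],[0,1,2,3,4,5]]],
Node.mk [0,820,182,1542,2448,1810,1092,841,3027,1164,1551,3667,842,292] [(0,1),(0,3),(0,4),(1,3),(2,3),(3,0)] [Ref.mk 3852 3600 [2,1,0,3] [[1,2,4,0,3],[0,5,3,2,4,1],[3,0,1,4,2],[2,5,0,1,3]],Ref.mk 2234 3615 [0,1,2,3] [[0,1,2,3],[0,1,2,3,5],[0,1,2,3,4],[0,1,2,3]]],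
Node.mk [0,820,182,1542,2448,1810,1092,841,3027,1164,1551,3667,842] [(1,0),(1,1),(1,2),(1,3),(1,4),(3,1)] [Ref.mk 45 2306 [0,1,2,3] [[0,1,2,3],[0,1,2,5],[0,1,2,3],[0,1,2,3]],Ref.mk 3852 3600 [2,1,0,3] [[1,2,4,0,3],[0,5,3,2,4,1],[3,0,1,4,2],[2,5,0,1,3]],Ref.mk 2234 3757 [0,1,3,2] [[0,1,4,3,5,2],[0,3,2,1,4,5],[0,2,5,3,1,4],[0,4,1,3,5]],Ref.mk 1587 3691 [0,1,2,3] [[0,1,2,3],[0,1,2,3,5],[0,1,2,3,4],[0,1,2,3]],Ref.mk 292 3802 [0,1,2,3] [[0,1,2,3,4,5],[0,1,2,3,4,5],[0,1,2,3,4,5],[0,1,2,3,4,5]]],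
Node.mk [0,820,182,1542,2448,1810,1092,841,3027,1164,1551,3667] [(0,0),(0,1),(0,2),(0,3),(0,4),(1,2)] [Ref.mk 842 3803 [0,1,2,3] [[0,1,2,3,4,5],[0,1,2,3,4],[0,1,2,3,4,5],[0,1,2,3,4,5]]],
Node.mk [0,820,182,1542,2448,1810,1092,841,3027,1164,1551] [(0,0),(3,0),(3,1),(3,2),(3,3),(3,4)] [Ref.mk 3664 3762 [0,1,2,3] [[0,1,2,3,4],[0,1,2,3,4],[0,1,2,3,4,5],[0,1,2,3,4,5]],Ref.mk 3890 3758 [0,1,3,2] [[2,1,0,3,4],[0,3,2,1,4],[5,2,3,0,1,4],[3,4,1,2,5]],Ref.mk 3665 3758 [0,1,3,2] [[0,1,2,3,4],[0,3,2,1,4],[0,2,5,3,1,4],[0,4,1,3,5]],Ref.mk 3666 3763 [0,1,2,3] [[0,1,2,3,4],[0,1,2,3,4],[0,1,2,3,4,5],[0,1,2,3,4,5]],Ref.mk 3756 3801 [0,1,2,3] [[0,1,2,3,4],[0,1,2,3,4],[0,1,2,3,4,5],[0,1,2,3,4,5]],Ref.mk 3667 3804 [0,1,2,3]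 [[0,1,2,3,4],[0,1,2,3,4],[0,1,2,3,4,5],[0,1,2,3,4,5]],Ref.mk 3668 3758 [0,1,3,2] [[0,1,5,3,4],[0,3,2,1,4],[0,2,5,3,1,4],[0,4,1,3,5]]],
Node.mk [0,820,182,1542,2448,1810,1092,841,3027,1164] [(0,0),(1,0),(1,2),(1,3),(2,3),(3,1)] [Ref.mk 2198 3709 [0,1,2,3] [[0,1,2,3],[0,1,2,3,4],[0,1,2,3,4],[0,1,2,3]],Ref.mk 2225 3714 [3,1,2,0] [[3,2,0,1,4],[4,3,2,0,1],[0,4,2,3,1,5],[2,1,3,0,4]],Ref.mk 2234 3615 [0,1,2,3] [[0,1,2,3],[0,1,2,3,5],[0,1,2,3,4],[0,1,2,3]],Ref.mk 1551 3805 [0,1,2,3] [[0,1,2,3,4],[0,1,2,3,4],[0,1,2,3,4,5],[0,1,2,3,4]],Ref.mk 1578 3691 [0,1,2,3] [[0,1,2,3],[0,1,2,3,4],[0,1,2,3,4],[0,1,2,3]],Ref.mk 1587 3691 [0,1,2,3] [[0,1,2,3],[0,1,2,3,5],[0,1,2,3,4],[0,1,2,3]]],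
Node.mk [0,820,182,1542,2448,1810,1092,841,3027] [(0,0),(1,0),(2,0),(2,1),(2,4),(3,0)] [Ref.mk 1001 3394 [0,1,3,2] [[2,3,0,1,4],[3,0,2,4,1],[1,2,3,0,4],[3,1,4,2]],Ref.mk 921 3161 [0,2,1,3] [[3,0,1,2,4],[2,3,1,4],[3,2,1,0,4],[1,3,0,2,4]],Ref.mk 1002 3161 [0,2,1,3] [[3,2,1,0,4],[3,2,1,4],[3,2,1,0,4],[1,0,3,2,4]],Ref.mk 1164 3806 [0,1,2,3] [[0,1,2,3,4],[0,1,2,3,4],[0,1,2,3,4,5],[0,1,2,3,4]]],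
Node.mk [0,820,182,1542,2448,1810,1092,841,2938,292] [(0,1),(0,3),(1,0),(1,2),(2,1),(3,0)] [Ref.mk 3123 3571 [2,0,3,1] [[3,4,2,1,0],[4,3,0,1,2],[0,1,4,3,2],[5,4,3,2,0,1]],Ref.mk 2234 3571 [3,0,2,1] [[0,2,3,1,4],[4,3,2,1,0],[3,1,0,2,4],[5,0,3,2,4,1]],Ref.mk 1795 3761 [0,1,2,3] [[0,1,2,3,4],[0,1,2,3,4],[0,1,2,3,4],[0,1,2,3]]],
Node.mk [0,820,182,1542,2448,1810,1092,841,2938] [(1,0),(1,1),(1,2),(1,3),(1,4),(3,1)] [Ref.mk 45 3603 [3,0,1,2] [[1,0,2,4,3],[4,2,3,0,1],[3,2,0,4,5],[1,2,0,4,3]],Ref.mk 3123 3600 [2,1,0,3] [[1,2,4,0,3],[0,5,3,2,4,1],[3,0,1,4,2],[2,4,0,1,3]],Ref.mk 2234 3603 [3,0,1,2] [[1,3,2,4,0],[4,0,3,2,1],[3,2,0,4,5],[1,3,0,4,2]],Ref.mk 1587 3603 [3,0,1,2] [[1,0,2,4,3],[4,2,3,0,1],[3,2,5,4,0],[1,2,0,4,3]],Ref.mk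 292 3808 [0,1,2,3] [[0,1,2,3,4],[0,1,2,3,4,5],[0,1,2,3,4],[0,1,2,3,4]]],
Node.mk [0,820,182,1542,2448,1810,1092,841] [(0,0),(0,1),(3,0),(3,1),(3,2),(3,3)] [Ref.mk 3161 3761 [0,1,3,2] [[2,1,0,3,4],[0,3,2,1,4],[4,2,3,0,1],[3,4,1,2]],Ref.mk 2936 3761 [0,1,3,2] [[0,1,2,3,4],[0,3,2,1,4],[0,2,4,3,1],[0,4,1,3]],Ref.mk 2937 3364 [3,0,1,2] [[2,0,1,4,3],[3,2,1,0,4],[0,2,1,3],[1,2,0,4,3]],Ref.mk 3027 3807 [0,1,2,3] [[0,1,2,3,4],[0,1,2,3,4],[0,1,2,3,4],[0,1,2,3,4]],Ref.mk 2938 3809 [0,1,2,3] [[0,1,2,3,4],[0,1,2,3,4],[0,1,2,3,4],[0,1,2,3,4]],Ref.mk 2939 3761 [0,1,3,2] [[0,1,5,3,4],[0,3,2,1,4],[0,2,4,3,1],[0,4,1,3]]],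
Node.mk [0,820,182,1542,2448,1810,1092,1579,3027,1875,289] [(0,0),(0,1),(0,2),(0,3),(1,4),(3,0)] [],
Node.mk [0,820,182,1542,2448,1810,1092,1579,3027,1875,293,2354,216] [(0,0),(0,1),(0,3),(0,5),(1,4),(3,0)] [],
Node.mk [0,820,182,1542,2448,1810,1092,1579,3027,1875,293,2354,302] [(0,1),(0,3),(0,5),(1,4),(2,3),(3,0)] [],
Node.mk [0,820,182,1542,2448,1810,1092,1579,3027,1875,293,2354] [(1,0),(1,1),(1,2),(1,3),(1,4),(1,5)] [Ref.mk 216 3812 [0,1,2,3] [[0,1,2,3,4,5],[0,1,2,3,4,5,6],[0,1,2,3,4,5],[0,1,2,3,4]],Ref.mk 1596 3691 [0,1,2,3] [[0,1,2,3],[0,1,2,3,6],[0,1,2,3,4],[0,1,2,3]],Ref.mk 302 3813 [0,1,2,3] [[0,1,2,3,4,5],[0,1,2,3,4,5,6],[0,1,2,3,4,5],[0,1,2,3,4]]],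
Node.mk [0,820,182,1542,2448,1810,1092,1579,3027,1875,293] [(0,0),(0,1),(0,3),(1,2),(1,4),(2,3)] [Ref.mk 2234 3615 [0,1,2,3] [[0,1,2,3],[0,1,2,3,5],[0,1,2,3,4],[0,1,2,3]],Ref.mk 2354 3814 [0,1,2,3] [[0,1,2,3,4,5],[0,1,2,3,4,5],[0,1,2,3,4,5],[0,1,2,3,4]]],
Node.mk [0,820,182,1542,2448,1810,1092,1579,3027,1875] [(0,0),(1,0),(1,1),(1,2),(1,3),(1,4)] [Ref.mk 289 3811 [0,1,2,3] [[0,1,2,3,4],[0,1,2,3,4,5],[0,1,2,3,4,5],[0,1,2,3,4]],Ref.mk 2234 3615 [0,1,2,3] [[0,1,2,3],[0,1,2,3,5],[0,1,2,3,4],[0,1,2,3]],Ref.mk 290 3679 [0,1,2,3] [[0,1,2,3],[0,1,2,3,5],[0,1,2,3,4],[0,1,2,3]],Ref.mk 1587 3691 [0,1,2,3] [[0,1,2,3],[0,1,2,3,5],[0,1,2,3,4],[0,1,2,3]],Ref.mk 291 3706 [0,1,2,3] [[0,1,2,3],[0,1,2,3,5],[0,1,2,3,4],[0,1,2,3]],Ref.mk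 292 3609 [1,0,2,3] [[4,2,1,5,3,0],[4,0,3,2,1],[1,3,5,4,2],[2,3,0,1,4]],Ref.mk 293 3815 [0,1,2,3] [[0,1,2,3,4,5],[0,1,2,3,4,5],[0,1,2,3,4,5],[0,1,2,3,4]]],
Node.mk [0,820,182,1542,2448,1810,1092,1579,3027] [(0,0),(1,0),(2,0),(2,1),(2,4),(3,0)] [Ref.mk 1632 3186 [0,2,1,3] [[3,0,1,2,4],[2,3,4,1],[1,2,3,4,0],[2,3,0,1,4]],Ref.mk 1713 3186 [0,2,1,3] [[3,2,1,0,4],[3,2,4,1],[1,2,3,4,0],[2,0,3,1,4]],Ref.mk 1875 3816 [0,1,2,3] [[0,1,2,3,4],[0,1,2,3,4],[0,1,2,3,4,5],[0,1,2,3,4]]],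
Node.mk [0,820,182,1542,2448,1810,1092,1579] [(0,0),(1,0),(2,0),(3,0),(3,1),(3,2)] [Ref.mk 2305 3162 [0,3,1,2] [[1,2,3,0,4],[3,0,2,1],[4,2,0,3,1],[1,2,3,4]],Ref.mk 3034 3807 [3,1,2,0] [[0,1,3,2,4],[0,1,2,4,3],[0,1,3,2,4],[0,1,3,2,4]],Ref.mk 2386 3531 [0,2,3,1] [[1,0,4,2,3],[2,0,1,3,4],[3,0,2,1],[4,0,2,1,3]],Ref.mk 2298 3187 [0,3,1,2] [[3,2,1,0,4],[3,0,1,2],[3,2,1,4,0],[1,2,3,4]],Ref.mk 3027 3817 [0,1,2,3] [[0,1,2,3,4],[0,1,2,3,4],[0,1,2,3,4],[0,1,2,3,4]]],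
Node.mk [0,820,182,1542,2448,1810,1092] [(0,0),(0,1),(0,3),(1,0),(1,2),(2,3)] [Ref.mk 2198 3709 [0,1,2,3] [[0,1,2,3],[0,1,2,3,4],[0,1,2,3,4],[0,1,2,3]],Ref.mk 1793 3188 [2,0,1,3] [[4,3,1,2],[2,0,3,1],[1,2,0,4,3],[2,3,0,1]],Ref.mk 2522 3421 [0,1,2,3] [[2,3,0,1],[1,0,2,4,3],[4,1,3,2],[3,2,1,0]],Ref.mk 2216 3615 [3,1,2,0] [[3,1,0,2],[3,4,2,1,0],[0,4,2,3,1],[2,3,1,0]],Ref.mk 839 3188 [2,0,1,3] [[1,3,4,2],[2,0,3,1],[3,2,4,0,1],[1,3,0,2]],Ref.mk 2225 3615 [0,1,2,3] [[2,1,0,3],[4,3,2,1,0],[0,4,3,2,1],[3,2,1,0]],Ref.mk 1577 3188 [2,0,1,3] [[1,3,4,2],[2,0,1,3],[4,2,3,1,0],[2,3,0,1]],Ref.mk 2234 3615 [3,1,2,0] [[0,1,3,2],[0,1,2,4,5],[0,1,3,2,4],[0,1,3,2]],Ref.mk 1795 3761 [0,1,2,3] [[0,1,2,3,4],[0,1,2,3,4],[0,1,2,3,4],[0,1,2,3]],Ref.mk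 841 3810 [0,1,2,3] [[0,1,2,3,4],[0,1,2,3,4],[0,1,2,3,4],[0,1,2,3]],Ref.mk 1579 3818 [0,1,2,3] [[0,1,2,3,4],[0,1,2,3,4],[0,1,2,3,4],[0,1,2,3]]],
Node.mk [0,820,182,1542,2448,1810,1579] [(0,0),(1,2),(2,1),(2,3),(3,2),(3,3)] [Ref.mk 1092 3818 [0,1,2,3] [[0,1,2,3,4],[0,1,2,3,4],[0,1,2,3,4],[0,1,2,3]],Ref.mk 1057 3819 [0,1,2,3] [[0,1,2,4],[0,3,2,1,4],[0,4,2,3,1],[0,2,1,3]]],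
Node.mk [0,820,182,1542,2448,1810,283,3177,2385,2432] [(1,0),(2,1),(2,2),(2,3),(2,4),(3,2)] [Ref.mk 759 3315 [3,2,1,0] [[0,2,3,1,4],[0,4,2,1,3],[0,3,4,2,1],[0,1,3,2]],Ref.mk 1164 3664 [3,1,2,0] [[0,1,3,2,4],[0,1,2,3,4],[0,1,3,2,5,4],[0,1,3,2,4]],Ref.mk 2209 3558 [0,1,3,2] [[0,1,4,3,2],[0,3,2,1,4],[0,2,3,4,1],[0,4,1,3,2]]],
Node.mk [0,820,182,1542,2448,1810,283,3177,2385,2209] [(0,3),(1,0),(1,2),(1,4),(2,1),(3,2)] [Ref.mk 9 3670 [3,1,2,0] [[0,2,3,1,4],[1,0,2,3,4],[0,1,3,2,4],[0,3,1,2,4]],Ref.mk 27 2303 [2,1,0,3] [[0,1,2,4,3],[3,1,2,0,4],[0,1,2,4],[0,1,2,3,4]],Ref.mk 45 2303 [2,1,3,0] [[0,4,3,1,2],[0,3,2,5,4],[0,2,4,3],[0,1,3,4,2]]],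
Node.mk [0,820,182,1542,2448,1810,283,3177,2385] [(0,0),(0,1),(1,1),(2,1),(3,0),(3,1)] [Ref.mk 2432 3821 [0,1,2,3] [[0,1,2,3,4],[0,1,2,3,4],[0,1,2,3,4],[0,1,2,3,4]],Ref.mk 2209 3822 [0,1,2,3] [[0,1,2,3,4],[0,1,2,3,4],[0,1,2,3,4],[0,1,2,3,4]]],
Node.mk [0,820,182,1542,2448,1810,283,3177,3843,3890] [(1,0),(2,1),(2,2),(2,3),(2,4),(3,2)] [Ref.mk 759 3612 [3,1,0,2] [[5,1,0,2,3,4],[0,3,4,1,2],[2,3,4,0,1],[3,0,1,2,4]],Ref.mk 1164 3612 [3,1,0,2] [[5,1,0,2,3,4],[0,3,4,1,2],[2,3,4,0,1],[3,5,1,2,4]],Ref.mk 3667 3558 [0,1,3,2] [[0,1,4,3,2],[0,3,2,1,4],[0,2,5,4,1],[0,4,1,3,2]]],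
Node.mk [0,820,182,1542,2448,1810,283,3177,3843,3667] [(0,3),(1,0),(1,2),(1,4),(2,1),(3,2)] [Ref.mk 9 3611 [3,1,2,0] [[0,2,5,1,3,4],[1,0,4,3,2],[0,1,2,3,4],[0,3,1,4,2]],Ref.mk 27 2301 [3,1,2,0] [[0,1,3,2,5,4],[0,1,2,3,4],[0,1,3,2],[0,1,3,2,4]],Ref.mk 45 2301 [3,1,2,0] [[0,1,3,2,5,4],[0,1,2,5,4],[0,1,3,2],[0,1,3,2,4]]],
Node.mk [0,820,182,1542,2448,1810,283,3177,3843] [(0,0),(0,1),(1,1),(2,1),(3,0),(3,1)] [Ref.mk 3890 3824 [0,1,2,3] [[0,1,2,3,4],[0,1,2,3,4],[0,1,2,3,4],[0,1,2,3,4,5]],Ref.mk 3667 3825 [0,1,2,3] [[0,1,2,3,4],[0,1,2,3,4],[0,1,2,3,4],[0,1,2,3,4,5]]],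
Node.mk [0,820,182,1542,2448,1810,283,3177] [(1,0),(1,2),(2,1),(3,0),(3,1),(3,2)] [Ref.mk 2385 3823 [0,1,2,3] [[0,1,2,3,4],[0,1,2,3,4],[0,1,2,3,4],[0,1,2,3,4]],Ref.mk 3114 3823 [0,1,2,3] [[0,1,2,3,4],[0,1,2,3,4],[0,1,2,3,4],[0,1,2,4,3]],Ref.mk 3843 3826 [0,1,2,3] [[0,1,2,3,4],[0,1,2,3,4],[0,1,2,3,4],[0,1,2,3,4,5]],Ref.mk 2523 3603 [2,1,3,0] [[1,3,4,0,2],[0,4,1,2,3],[2,0,3,1,4],[3,4,0,1,2]],Ref.mk 3252 3603 [2,1,3,0] [[1,3,4,0,2],[0,4,1,2,3],[2,0,4,1,3],[3,4,0,1,2]],Ref.mk 3981 3603 [2,1,3,0] [[1,3,4,0,2],[0,4,1,2,3],[2,0,5,1,4],[3,4,0,1,2]]],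
Node.mk [0,820,182,1542,2448,1810,283,3114] [(0,0),(0,1),(1,1),(2,1),(3,0),(3,1)] [Ref.mk 3161 3614 [0,1,3,2] [[2,1,0,3,4],[0,3,2,1,4],[4,2,3,0,1],[3,4,1,2]],Ref.mk 2225 3614 [0,1,2,3] [[0,1,2,3,4],[0,1,2,3,4],[0,1,2,3,4],[0,1,2,3]],Ref.mk 2353 3614 [0,1,3,2] [[4,1,0,3,2],[0,3,4,1,2],[3,2,4,0,1],[2,4,1,3]],Ref.mk 2938 3614 [0,1,2,3] [[0,1,4,3,2],[0,1,4,3,2],[0,1,3,2,4],[0,1,2,4]]],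
Node.mk [0,820,182,1542,2448,1810,283,3161,2353] [(0,1),(1,0),(1,1),(1,2),(2,1),(2,3)] [Ref.mk 3114 3563 [0,1,3,2] [[2,1,0,3,4],[0,3,2,1,4],[4,2,3,0,1],[3,4,1,2,0]],Ref.mk 2225 3563 [0,1,2,3] [[0,1,2,3,4],[0,1,2,3,4],[0,1,2,3,4],[0,1,2,3,4]],Ref.mk 759 3573 [3,1,0,2] [[3,1,0,2,4],[0,3,2,1,4],[4,3,2,0,1],[2,0,1,3,4]],Ref.mk 921 3574 [0,2,1,3] [[4,1,0,3,2],[2,4,3,1,0],[0,3,2,4,1],[3,2,1,0,4]],Ref.mk 1083 3564 [3,1,0,2] [[3,1,0,2,4],[0,3,2,1,4],[4,3,2,0,1],[2,4,1,3,0]],Ref.mk 1164 3573 [3,1,0,2] [[3,1,0,2,4],[0,3,2,1,4],[4,3,2,0,1],[2,5,1,3,4]],Ref.mk 1092 3614 [0,1,3,2] [[4,1,2,3,0],[4,1,0,3,2],[0,1,4,3,2],[3,1,4,2]],Ref.mk 1101 3564 [2,1,0,3] [[2,4,3,1,0],[0,5,2,3,4],[4,3,0,2,1],[3,1,2,0,4]]],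
Node.mk [0,820,182,1542,2448,1810,283,3161] [(0,1),(1,1),(2,1),(2,3),(3,0),(3,1)] [Ref.mk 3114 3614 [0,1,3,2] [[2,1,0,3,4],[0,3,2,1,4],[4,2,3,0,1],[3,4,1,2]],Ref.mk 2225 3828 [0,1,3,2] [[2,1,0,3,4],[0,3,2,1,4],[4,2,3,0,1],[3,4,1,2,0]],Ref.mk 2353 3829 [0,1,2,3] [[0,1,2,3,4],[0,1,2,3,4],[0,1,2,3,4],[0,1,2,3,4]],Ref.mk 2938 3574 [0,1,2,3] [[2,1,4,3,0],[0,1,2,3,4],[3,1,0,2,4],[4,1,2,0,3]]],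
Node.mk [0,820,182,1542,2448,1810,283] [(0,1),(2,1),(3,0),(3,1),(3,2),(3,3)] [Ref.mk 3177 3827 [0,1,2,3] [[0,1,2,3,4],[0,1,2,3,4],[0,1,2,3,4],[0,1,2,3,4]],Ref.mk 3114 3828 [0,1,2,3] [[0,1,2,3,4],[0,1,2,3,4],[0,1,2,3,4],[0,1,2,3,4]],Ref.mk 3161 3830 [0,1,2,3] [[0,1,2,3,4],[0,1,2,3,4],[0,1,2,3,4],[0,1,2,3,4]],Ref.mk 3252 3603 [2,1,3,0] [[1,3,4,0,2],[0,4,1,2,3],[2,0,4,1,3],[3,4,0,1,2]],Ref.mk 2938 3615 [0,1,3,2] [[0,1,4,3],[0,3,2,1,4],[0,2,4,3,1],[0,4,1,3]]],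
Node.mk [0,820,182,1542,2448,1810] [(0,0),(0,1),(1,0),(1,1),(1,2),(1,3)] [Ref.mk 2225 3615 [0,1,2,3] [[0,1,2,3],[0,1,2,3,4],[0,1,2,3,4],[0,1,2,3]],Ref.mk 1577 3189 [2,0,1,3] [[1,3,4,2],[2,0,1,3],[4,2,3,1,0],[2,3,0,1]],Ref.mk 281 3679 [0,1,2,3] [[0,1,2,3],[0,1,2,3,4],[0,1,2,3,4],[0,1,2,3]],Ref.mk 1578 3691 [0,1,2,3] [[0,1,2,3],[0,1,2,3,4],[0,1,2,3,4],[0,1,2,3]],Ref.mk 282 3706 [0,1,2,3] [[0,1,2,3],[0,1,2,3,4],[0,1,2,3,4],[0,1,2,3]],Ref.mk 1092 3819 [0,1,2,3] [[0,1,2,3],[0,1,2,3,4],[0,1,2,3,4],[0,1,2,3]],Ref.mk 1579 3820 [0,1,2,3] [[0,1,2,3,4],[0,1,2,3,4],[0,1,2,3,4],[0,1,2,3]],Ref.mk 283 3831 [0,1,2,3] [[0,1,2,3,4],[0,1,2,3,4],[0,1,2,3,4],[0,1,2,3]]],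
Node.mk [0,820,182,1542,2448,2216,2385,1471,2529,2934,2208,918] [(1,0),(1,1),(1,2),(1,3),(2,1),(2,2)] [Ref.mk 36 2306 [0,1,2,3] [[0,1,2,3],[0,1,2,4],[0,1,2,3],[0,1,2,3]],Ref.mk 45 2306 [0,1,2,3] [[0,1,2,3],[0,1,2,5],[0,1,2,3],[0,1,2,3]],Ref.mk 1495 3317 [0,1,2,3] [[0,1,2,3],[0,1,2,4,3],[0,1,2,3],[0,1,2,3]],Ref.mk 1504 3317 [0,1,2,3] [[0,1,2,3],[0,1,2,5,3],[0,1,2,3],[0,1,2,3]],Ref.mk 768 3284 [3,1,2,0] [[0,1,3,2,4],[0,1,2,4,3],[0,1,3,2,4],[0,1,3,2,4]],Ref.mk 777 3284 [3,1,2,0] [[0,1,3,2,4],[0,1,2,5,3],[0,1,3,2,4],[0,1,3,2,4]]],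
Node.mk [0,820,182,1542,2448,2216,2385,1471,2529,2934,2208] [(0,1),(1,0),(1,1),(1,2),(2,1),(3,3)] [Ref.mk 27 2306 [0,1,2,3] [[0,1,2,3],[0,1,2,3],[0,1,2,3],[0,1,2,3]],Ref.mk 918 3833 [0,1,2,3] [[0,1,2,3,4],[0,1,2,3,4],[0,1,2,3,4],[0,1,2,3,4]],Ref.mk 36 2306 [0,1,2,3] [[0,1,2,3],[0,1,2,4],[0,1,2,3],[0,1,2,3]],Ref.mk 45 2306 [0,1,2,3] [[0,1,2,3],[0,1,2,5],[0,1,2,3],[0,1,2,3]],Ref.mk 759 3555 [3,1,2,0] [[0,1,3,2],[0,1,2,3],[0,1,3,2],[0,1,3,2]],Ref.mk 768 3317 [3,1,2,0] [[0,1,3,2],[0,1,2,4,3],[0,1,3,2],[0,1,3,2]],Ref.mk 777 3317 [3,1,2,0] [[0,1,3,2],[0,1,2,5,3],[0,1,3,2],[0,1,3,2]]],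
Node.mk [0,820,182,1542,2448,2216,2385,1471,2529,2934,2209] [(0,1),(1,0),(1,1),(1,2),(2,1),(3,3)] [Ref.mk 27 2306 [0,1,2,3] [[0,1,2,3],[0,1,2,3],[0,1,2,3],[0,1,2,3]],Ref.mk 36 2306 [0,1,2,3] [[0,1,2,3],[0,1,2,4],[0,1,2,3],[0,1,2,3]],Ref.mk 45 2306 [0,1,2,3] [[0,1,2,3],[0,1,2,5],[0,1,2,3],[0,1,2,3]],Ref.mk 759 3555 [3,1,2,0] [[0,1,3,2],[0,1,2,3],[0,1,3,2],[0,1,3,2]],Ref.mk 768 3317 [3,1,2,0] [[0,1,3,2],[0,1,2,4,3],[0,1,3,2],[0,1,3,2]],Ref.mk 777 3317 [3,1,2,0] [[0,1,3,2],[0,1,2,5,3],[0,1,3,2],[0,1,3,2]]],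
Node.mk [0,820,182,1542,2448,2216,2385,1471,2529,2934,2210] [(0,1),(1,0),(1,1),(1,2),(2,1),(3,3)] [Ref.mk 27 2306 [0,1,2,3] [[0,1,2,3],[0,1,2,3],[0,1,2,3],[0,1,2,3]],Ref.mk 36 2306 [0,1,2,3] [[0,1,2,3],[0,1,2,4],[0,1,2,3],[0,1,2,3]],Ref.mk 45 2306 [0,1,2,3] [[0,1,2,3],[0,1,2,5],[0,1,2,3],[0,1,2,3]],Ref.mk 759 3555 [3,1,2,0] [[0,1,3,2],[0,1,2,3],[0,1,3,2],[0,1,3,2]],Ref.mk 768 3317 [3,1,2,0] [[0,1,3,2],[0,1,2,4,3],[0,1,3,2],[0,1,3,2]],Ref.mk 777 3317 [3,1,2,0] [[0,1,3,2],[0,1,2,5,3],[0,1,3,2],[0,1,3,2]]],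
Node.mk [0,820,182,1542,2448,2216,2385,1471,2529,2934] [(0,0),(0,1),(0,2),(1,1),(2,1),(3,1)] [Ref.mk 2208 3834 [0,1,2,3] [[0,1,2,3,4],[0,1,2,3,4],[0,1,2,3,4],[0,1,2,3,4]],Ref.mk 2209 3835 [0,1,2,3] [[0,1,2,3,4],[0,1,2,3,4],[0,1,2,3,4],[0,1,2,3,4]],Ref.mk 2210 3836 [0,1,2,3] [[0,1,2,3,4,5],[0,1,2,3,4],[0,1,2,3,4],[0,1,2,3,4]]],
Node.mk [0,820,182,1542,2448,2216,2385,1471,2529,3105,2297] [(1,0),(1,1),(1,2),(1,3),(2,1),(2,2)] [Ref.mk 36 2306 [0,1,2,3] [[0,1,2,3],[0,1,2,4],[0,1,2,3],[0,1,2,3]],Ref.mk 45 2306 [0,1,2,3] [[0,1,2,3],[0,1,2,5],[0,1,2,3],[0,1,2,3]],Ref.mk 1495 3317 [0,1,2,3] [[0,1,2,3],[0,1,2,4,3],[0,1,2,3],[0,1,2,3]],Ref.mk 1504 3317 [0,1,2,3] [[0,1,2,3],[0,1,2,5,3],[0,1,2,3],[0,1,2,3]],Ref.mk 768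 3317 [3,1,2,0] [[0,1,3,2],[0,1,2,4,3],[0,1,3,2],[0,1,3,2]],Ref.mk 777 3317 [3,1,2,0] [[0,1,3,2],[0,1,2,5,3],[0,1,3,2],[0,1,3,2]]],
Node.mk [0,820,182,1542,2448,2216,2385,1471,2529,3105] [(0,0),(0,4),(1,1),(2,0),(2,2),(3,2)] [Ref.mk 2297 3838 [0,1,2,3] [[0,1,2,3,4],[0,1,2,3,4],[0,1,2,3,4],[0,1,2,3,4]]]]

/-- nodes -/
noncomputable def c60 : List Node := [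
Node.mk [0,820,182,1542,2448,2216,2385,1471,2529,2917,270] [(0,0),(0,1),(0,2),(1,0),(2,0),(3,4)] [],
Node.mk [0,820,182,1542,2448,2216,2385,1471,2529,2917,3171] [(0,0),(1,1),(2,0),(2,1),(2,2),(2,3)] [Ref.mk 2513 2405 [0,1,2,3] [[2,1,0,3],[0,1,2,3],[4,1,3,2,0],[3,1,2,0]],Ref.mk 2594 2405 [0,1,2,3] [[2,1,0,3],[0,1,2,3],[5,1,3,2,0],[3,1,2,0]]],
Node.mk [0,820,182,1542,2448,2216,2385,1471,2529,2917] [(0,1),(1,0),(2,0),(2,1),(2,2),(3,3)] [Ref.mk 270 3840 [0,1,2,3] [[0,1,2,3,4],[0,1,2,3,4],[0,1,2,3,4],[0,1,2,3,4]],Ref.mk 351 3840 [0,1,2,3] [[0,1,2,3,4],[0,1,2,3,4],[0,1,2,4,3],[0,1,2,3,4]],Ref.mk 432 3188 [0,1,2,3] [[0,1,2,3],[0,1,2,3],[0,1,2,3,5],[0,1,2,3]],Ref.mk 3171 3841 [0,1,2,3] [[0,1,2,3,4],[0,1,2,3,4],[0,1,2,3,4],[0,1,2,3,4]],Ref.mk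 3252 3841 [0,1,2,3] [[0,1,2,3,4],[0,1,2,3,4],[0,1,2,4,3],[0,1,2,3,4]],Ref.mk 3333 3587 [1,2,3,0] [[0,2,1,3,4],[0,4,1,2,5],[4,3,1,2,0],[1,0,2,3,4]]],
Node.mk [0,820,182,1542,2448,2216,2385,1471,2529] [(0,3),(2,1),(3,0),(3,1),(3,2),(3,3)] [Ref.mk 2934 3837 [0,1,2,3] [[0,1,2,3,4],[0,1,2,3,4],[0,1,2,3,4],[0,1,2,3,4]],Ref.mk 3105 3839 [0,1,2,3] [[0,1,2,3,4],[0,1,2,3,4],[0,1,2,3,4],[0,1,2,3,4]],Ref.mk 2917 3842 [0,1,2,3] [[0,1,2,3,4],[0,1,2,3,4],[0,1,2,3,4],[0,1,2,3,4]]],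
Node.mk [0,820,182,1542,2448,2216,2385,1471,2513] [(0,1),(1,1),(2,1),(3,0),(3,1),(3,3)] [],
Node.mk [0,820,182,1542,2448,2216,2385,1471,1057] [(0,0),(2,1),(3,0),(3,1),(3,2),(3,3)] [Ref.mk 2917 3344 [3,2,1,0] [[0,1,3,2,4],[0,1,2,4,3],[0,1,4,2],[0,1,4,2,3]],Ref.mk 3252 3584 [1,2,3,0] [[1,2,0,3,4],[0,3,4,2,1],[2,3,1,4,0],[4,0,2,3,1]]],
Node.mk [0,820,182,1542,2448,2216,2385,1471] [(0,1),(1,1),(2,0),(2,1),(2,2),(2,3)] [Ref.mk 2529 3843 [0,1,2,3] [[0,1,2,3,4],[0,1,2,3,4],[0,1,2,3,4],[0,1,2,3]],Ref.mk 351 3761 [1,2,0,3] [[1,2,0,3,4],[0,2,1,3,4],[4,2,3,1,0],[2,0,3,1]],Ref.mk 2513 3844 [0,1,2,3] [[0,1,2,3,4],[0,1,2,3,4],[0,1,2,3,4],[0,1,2,3]],Ref.mk 1057 3845 [0,1,2,3] [[0,1,2,3,4],[0,1,2,3,4],[0,1,2,3,4],[0,1,2,3]]],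
Node.mk [0,820,182,1542,2448,2216,2385,2362] [(0,2),(1,0),(1,1),(1,2),(2,1),(2,2)] [Ref.mk 1486 3555 [0,1,2,3] [[0,1,2,3],[0,1,2,3],[0,1,2,3],[0,1,2,3]],Ref.mk 1495 3317 [0,1,2,3] [[0,1,2,3],[0,1,2,4,3],[0,1,2,3],[0,1,2,3]],Ref.mk 1504 3317 [0,1,2,3] [[0,1,2,3],[0,1,2,5,3],[0,1,2,3],[0,1,2,3]],Ref.mk 759 3386 [2,0,3,1] [[0,2,1,3],[0,4,3,2,1],[0,3,2,1],[0,1,2,3]],Ref.mk 768 3386 [2,0,3,1] [[0,2,1,3],[0,4,3,2,1],[0,3,2,1],[0,1,2,4]],Ref.mk 777 3386 [2,0,3,1] [[0,2,1,3],[0,4,3,2,1],[0,3,2,1],[0,1,2,5]]],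
Node.mk [0,820,182,1542,2448,2216,2385,2209,9,1476,747,2529,2934,921,1729] [(0,3),(1,2),(1,3),(2,0),(2,2),(3,1)] [],
Node.mk [0,820,182,1542,2448,2216,2385,2209,9,1476,747,2529,2934,921] [(0,0),(0,3),(2,0),(2,1),(2,2),(3,1)] [Ref.mk 1729 3848 [0,1,2,3] [[0,1,2,3,4],[0,1,2,3,4],[0,1,2,3,4],[0,1,2,3,4]],Ref.mk 1810 3848 [0,1,2,3] [[0,1,2,3,4],[0,1,2,3,4],[0,1,2,4,3],[0,1,2,3,4]],Ref.mk 1891 3832 [0,1,2,3] [[0,1,2,3],[0,1,2,3],[0,1,2,3,5],[0,1,2,3]]],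
Node.mk [0,820,182,1542,2448,2216,2385,2209,9,1476,747,2529,2934,1002,930] [(0,0),(0,1),(0,2),(0,3),(1,2),(3,1)] [],
Node.mk [0,820,182,1542,2448,2216,2385,2209,9,1476,747,2529,2934,1002,939] [(0,0),(0,1),(0,2),(0,3),(1,2),(3,1)] [],
Node.mk [0,820,182,1542,2448,2216,2385,2209,9,1476,747,2529,2934,1002] [(1,0),(1,1),(1,2),(2,1),(2,3),(3,3)] [Ref.mk 27 2306 [0,1,2,3] [[0,1,2,3],[0,1,2,3],[0,1,2,3],[0,1,2,3]],Ref.mk 36 2306 [0,1,2,3] [[0,1,2,3],[0,1,2,4],[0,1,2,3],[0,1,2,3]],Ref.mk 45 2306 [0,1,2,3] [[0,1,2,3],[0,1,2,5],[0,1,2,3],[0,1,2,3]],Ref.mk 1486 3555 [0,1,2,3] [[0,1,2,3],[0,1,2,3],[0,1,2,3],[0,1,2,3]],Ref.mk 1648 3848 [0,1,2,3] [[0,3,2,1,4],[1,0,2,3,4],[0,1,2,3,4],[0,2,1,3,4]],Ref.mk 1810 3832 [0,1,2,3]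 [[0,1,2,3],[0,1,2,3],[0,1,2,3,4],[0,1,2,3]],Ref.mk 1891 3832 [0,1,2,3] [[0,1,2,3],[0,1,2,3],[0,1,2,3,5],[0,1,2,3]],Ref.mk 759 3555 [3,1,2,0] [[0,1,3,2],[0,1,2,3],[0,1,3,2],[0,1,3,2]],Ref.mk 921 3849 [0,1,2,3] [[0,1,2,3,4],[0,1,2,3,4],[0,1,2,3,4],[0,1,2,3,4]],Ref.mk 1083 3832 [3,1,2,0] [[0,1,3,2],[0,1,2,3],[0,1,3,2,4],[0,1,3,2]],Ref.mk 1164 3832 [3,1,2,0] [[0,1,3,2],[0,1,2,3],[0,1,3,2,5],[0,1,3,2]],Ref.mk 768 3317 [3,1,2,0] [[0,1,3,2],[0,1,2,4,3],[0,1,3,2],[0,1,3,2]],Ref.mk 930 3850 [0,1,2,3] [[0,1,2,3,4],[0,1,2,3,4],[0,1,2,3,4],[0,1,2,3,4]],Ref.mk 1092 3615 [3,1,2,0] [[0,1,3,2],[0,1,2,4,3],[0,1,3,2,4],[0,1,3,2]],Ref.mk 1173 3615 [3,1,2,0] [[0,1,3,2],[0,1,2,4,3],[0,1,3,2,5],[0,1,3,2]],Ref.mk 777 3317 [3,1,2,0]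 [[0,1,3,2],[0,1,2,5,3],[0,1,3,2],[0,1,3,2]],Ref.mk 939 3851 [0,1,2,3] [[0,1,2,3,4],[0,1,2,3,4,5],[0,1,2,3,4],[0,1,2,3,4]],Ref.mk 1101 3615 [3,1,2,0] [[0,1,3,2],[0,1,2,5,3],[0,1,3,2,4],[0,1,3,2]],Ref.mk 1182 3615 [3,1,2,0] [[0,1,3,2],[0,1,2,5,3],[0,1,3,2,5],[0,1,3,2]]],
Node.mk [0,820,182,1542,2448,2216,2385,2209,9,1476,747,2529,2934,930,101,1738] [(0,0),(0,1),(2,0),(2,1),(2,2),(2,3)] [Ref.mk 1092 3615 [3,1,2,0] [[0,1,3,2],[0,1,2,4,3],[0,1,3,2,4],[0,1,3,2]],Ref.mk 1173 3615 [3,1,2,0] [[0,1,3,2],[0,1,2,4,3],[0,1,3,2,5],[0,1,3,2]]],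
Node.mk [0,820,182,1542,2448,2216,2385,2209,9,1476,747,2529,2934,930,101] [(0,0),(0,2),(0,3),(1,2),(2,1),(2,2)] [Ref.mk 1495 3317 [0,1,2,3] [[0,1,2,3],[0,1,2,4,3],[0,1,2,3],[0,1,2,3]],Ref.mk 1738 3853 [0,1,2,3] [[0,1,2,3,4],[0,1,2,3,4],[0,1,2,3,4],[0,1,2,3,4]],Ref.mk 1819 3853 [0,1,2,3] [[0,1,2,3,4],[0,1,2,3,4],[0,1,2,4,3],[0,1,2,3,4]],Ref.mk 1900 3615 [0,1,2,3] [[0,1,2,3],[0,1,2,4,3],[0,1,2,3,5],[0,1,2,3]]],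
Node.mk [0,820,182,1542,2448,2216,2385,2209,9,1476,747,2529,2934,930] [(0,0),(0,3),(1,4),(2,0),(2,2),(3,1)] [Ref.mk 101 3854 [0,1,2,3] [[0,1,2,3,4],[0,1,2,3,4],[0,1,2,3,4],[0,1,2,3,4]]],
Node.mk [0,820,182,1542,2448,2216,2385,2209,9,1476,747,2529,2934,1011,939] [(0,0),(0,1),(0,2),(0,3),(1,2),(3,1)] [],
Node.mk [0,820,182,1542,2448,2216,2385,2209,9,1476,747,2529,2934,1011] [(1,0),(1,1),(1,2),(2,1),(2,3),(3,3)] [Ref.mk 27 2306 [0,1,2,3] [[0,1,2,3],[0,1,2,3],[0,1,2,3],[0,1,2,3]],Ref.mk 36 2306 [0,1,2,3] [[0,1,2,3],[0,1,2,4],[0,1,2,3],[0,1,2,3]],Ref.mk 45 2306 [0,1,2,3] [[0,1,2,3],[0,1,2,5],[0,1,2,3],[0,1,2,3]],Ref.mk 1495 3317 [0,1,2,3] [[0,1,2,3],[0,1,2,4,3],[0,1,2,3],[0,1,2,3]],Ref.mk 1657 3855 [0,1,2,3]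 [[0,3,2,1,4],[1,0,2,3,4],[0,1,2,3,4],[0,2,1,3,4]],Ref.mk 1819 3615 [0,1,2,3] [[0,1,2,3],[0,1,2,4,3],[0,1,2,3,4],[0,1,2,3]],Ref.mk 1900 3615 [0,1,2,3] [[0,1,2,3],[0,1,2,4,3],[0,1,2,3,5],[0,1,2,3]],Ref.mk 759 3555 [3,1,2,0] [[0,1,3,2],[0,1,2,3],[0,1,3,2],[0,1,3,2]],Ref.mk 921 3849 [0,1,2,3] [[0,1,2,3,4],[0,1,2,3,4],[0,1,2,3,4],[0,1,2,3,4]],Ref.mk 1083 3852 [0,1,2,3] [[0,1,2,3,4],[0,1,2,3,4],[0,1,2,4,3],[0,1,2,3,4]],Ref.mk 1164 3832 [3,1,2,0] [[0,1,3,2],[0,1,2,3],[0,1,3,2,5],[0,1,3,2]],Ref.mk 768 3317 [3,1,2,0] [[0,1,3,2],[0,1,2,4,3],[0,1,3,2],[0,1,3,2]],Ref.mk 930 3855 [0,1,2,3] [[0,1,2,3,4],[0,1,2,3,4],[0,1,2,3,4],[0,1,2,3,4]],Ref.mk 1092 3615 [3,1,2,0] [[0,1,3,2],[0,1,2,4,3],[0,1,3,2,4],[0,1,3,2]],Ref.mk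 1173 3615 [3,1,2,0] [[0,1,3,2],[0,1,2,4,3],[0,1,3,2,5],[0,1,3,2]],Ref.mk 777 3317 [3,1,2,0] [[0,1,3,2],[0,1,2,5,3],[0,1,3,2],[0,1,3,2]],Ref.mk 939 3856 [0,1,2,3] [[0,1,2,3,4],[0,1,2,3,4,5],[0,1,2,3,4],[0,1,2,3,4]],Ref.mk 1101 3615 [3,1,2,0] [[0,1,3,2],[0,1,2,5,3],[0,1,3,2,4],[0,1,3,2]],Ref.mk 1182 3615 [3,1,2,0] [[0,1,3,2],[0,1,2,5,3],[0,1,3,2,5],[0,1,3,2]]],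
Node.mk [0,820,182,1542,2448,2216,2385,2209,9,1476,747,2529,2934,939,101] [(0,0),(0,2),(0,3),(1,2),(2,1),(2,2)] [],
Node.mk [0,820,182,1542,2448,2216,2385,2209,9,1476,747,2529,2934,939] [(0,0),(0,3),(1,5),(2,0),(2,2),(3,1)] [Ref.mk 101 3858 [0,1,2,3] [[0,1,2,3,4],[0,1,2,3,4,5],[0,1,2,3,4],[0,1,2,3,4]]],
Node.mk [0,820,182,1542,2448,2216,2385,2209,9,1476,747,2529,2934,1020] [(1,0),(1,1),(1,2),(2,1),(2,3),(3,3)] [Ref.mk 27 2306 [0,1,2,3] [[0,1,2,3],[0,1,2,3],[0,1,2,3],[0,1,2,3]],Ref.mk 36 2306 [0,1,2,3] [[0,1,2,3],[0,1,2,4],[0,1,2,3],[0,1,2,3]],Ref.mk 45 2306 [0,1,2,3] [[0,1,2,3],[0,1,2,5],[0,1,2,3],[0,1,2,3]],Ref.mk 54 2306 [0,1,2,3] [[0,1,2,3],[0,1,2,6],[0,1,2,3],[0,1,2,3]],Ref.mk 1504 3317 [0,1,2,3] [[0,1,2,3],[0,1,2,5,3],[0,1,2,3],[0,1,2,3]],Ref.mk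 1666 3859 [0,1,2,3] [[0,3,2,1,4],[1,0,2,3,4,5],[0,1,2,3,4],[0,2,1,3,4]],Ref.mk 1828 2757 [3,2,1,0] [[3,1,0,2,4],[4,3,0,2,1],[2,5,0,3,4,1],[0,3,1,2,4]],Ref.mk 1909 3615 [0,1,2,3] [[0,1,2,3],[0,1,2,5,3],[0,1,2,3,5],[0,1,2,3]],Ref.mk 759 3555 [3,1,2,0] [[0,1,3,2],[0,1,2,3],[0,1,3,2],[0,1,3,2]],Ref.mk 921 3849 [0,1,2,3] [[0,1,2,3,4],[0,1,2,3,4],[0,1,2,3,4],[0,1,2,3,4]],Ref.mk 1083 3852 [0,1,2,3] [[0,1,2,3,4],[0,1,2,3,4],[0,1,2,4,3],[0,1,2,3,4]],Ref.mk 1164 3832 [3,1,2,0] [[0,1,3,2],[0,1,2,3],[0,1,3,2,5],[0,1,3,2]],Ref.mk 768 3317 [3,1,2,0] [[0,1,3,2],[0,1,2,4,3],[0,1,3,2],[0,1,3,2]],Ref.mk 930 3855 [0,1,2,3] [[0,1,2,3,4],[0,1,2,3,4],[0,1,2,3,4],[0,1,2,3,4]],Ref.mk 1092 3857 [0,1,2,3] [[0,1,2,3,4],[0,1,2,3,4],[0,1,2,4,3],[0,1,2,3,4]],Ref.mk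 1173 3615 [3,1,2,0] [[0,1,3,2],[0,1,2,4,3],[0,1,3,2,5],[0,1,3,2]],Ref.mk 777 3317 [3,1,2,0] [[0,1,3,2],[0,1,2,5,3],[0,1,3,2],[0,1,3,2]],Ref.mk 939 3859 [0,1,2,3] [[0,1,2,3,4],[0,1,2,3,4,5],[0,1,2,3,4],[0,1,2,3,4]],Ref.mk 1101 3615 [3,1,2,0] [[0,1,3,2],[0,1,2,5,3],[0,1,3,2,4],[0,1,3,2]],Ref.mk 1182 3615 [3,1,2,0] [[0,1,3,2],[0,1,2,5,3],[0,1,3,2,5],[0,1,3,2]],Ref.mk 786 3317 [3,1,2,0] [[0,1,3,2],[0,1,2,6,3],[0,1,3,2],[0,1,3,2]],Ref.mk 948 3859 [0,1,2,3] [[0,1,2,3,4],[0,1,2,3,4,6],[0,1,2,3,4],[0,1,2,3,4]],Ref.mk 1110 3615 [3,1,2,0] [[0,1,3,2],[0,1,2,6,3],[0,1,3,2,4],[0,1,3,2]],Ref.mk 1191 3615 [3,1,2,0] [[0,1,3,2],[0,1,2,6,3],[0,1,3,2,5],[0,1,3,2]]],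
Node.mk [0,820,182,1542,2448,2216,2385,2209,9,1476,747,2529,2934] [(0,1),(1,0),(1,1),(1,2),(2,1),(3,3)] [Ref.mk 27 2306 [0,1,2,3] [[0,1,2,3],[0,1,2,3],[0,1,2,3],[0,1,2,3]],Ref.mk 36 2306 [0,1,2,3] [[0,1,2,3],[0,1,2,4],[0,1,2,3],[0,1,2,3]],Ref.mk 45 2306 [0,1,2,3] [[0,1,2,3],[0,1,2,5],[0,1,2,3],[0,1,2,3]],Ref.mk 759 3555 [3,1,2,0] [[0,1,3,2],[0,1,2,3],[0,1,3,2],[0,1,3,2]],Ref.mk 921 3849 [0,1,2,3] [[0,1,2,3,4],[0,1,2,3,4],[0,1,2,3,4],[0,1,2,3,4]],Ref.mk 1002 3852 [0,1,2,3] [[0,1,2,3,4],[0,1,2,3,4],[0,1,2,3,4],[0,1,2,3,4]],Ref.mk 1083 3852 [0,1,2,3] [[0,1,2,3,4],[0,1,2,3,4],[0,1,2,4,3],[0,1,2,3,4]],Ref.mk 1164 3832 [3,1,2,0] [[0,1,3,2],[0,1,2,3],[0,1,3,2,5],[0,1,3,2]],Ref.mk 768 3317 [3,1,2,0] [[0,1,3,2],[0,1,2,4,3],[0,1,3,2],[0,1,3,2]],Ref.mk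 930 3855 [0,1,2,3] [[0,1,2,3,4],[0,1,2,3,4],[0,1,2,3,4],[0,1,2,3,4]],Ref.mk 1011 3857 [0,1,2,3] [[0,1,2,3,4],[0,1,2,3,4],[0,1,2,3,4],[0,1,2,3,4]],Ref.mk 1092 3857 [0,1,2,3] [[0,1,2,3,4],[0,1,2,3,4],[0,1,2,4,3],[0,1,2,3,4]],Ref.mk 1173 3615 [3,1,2,0] [[0,1,3,2],[0,1,2,4,3],[0,1,3,2,5],[0,1,3,2]],Ref.mk 777 3317 [3,1,2,0] [[0,1,3,2],[0,1,2,5,3],[0,1,3,2],[0,1,3,2]],Ref.mk 939 3859 [0,1,2,3] [[0,1,2,3,4],[0,1,2,3,4,5],[0,1,2,3,4],[0,1,2,3,4]],Ref.mk 1020 3860 [0,1,2,3] [[0,1,2,3,4],[0,1,2,3,4,5],[0,1,2,3,4],[0,1,2,3,4]],Ref.mk 1101 3860 [0,1,2,3] [[0,1,2,3,4],[0,1,2,3,4,5],[0,1,2,4,3],[0,1,2,3,4]],Ref.mk 1182 3615 [3,1,2,0] [[0,1,3,2],[0,1,2,5,3],[0,1,3,2,5],[0,1,3,2]]],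
Node.mk [0,820,182,1542,2448,2216,2385,2209,9,1476,747,2529,2928] [(0,3),(1,0),(1,1),(1,2),(2,1),(3,3)] [Ref.mk 27 2306 [0,1,2,3] [[0,1,2,3],[0,1,2,3],[0,1,2,3],[0,1,2,3]],Ref.mk 36 2306 [0,1,2,3] [[0,1,2,3],[0,1,2,4],[0,1,2,3],[0,1,2,3]],Ref.mk 45 2306 [0,1,2,3] [[0,1,2,3],[0,1,2,5],[0,1,2,3],[0,1,2,3]],Ref.mk 1486 3555 [0,1,2,3] [[0,1,2,3],[0,1,2,3],[0,1,2,3],[0,1,2,3]],Ref.mk 1495 3317 [0,1,2,3] [[0,1,2,3],[0,1,2,4,3],[0,1,2,3],[0,1,2,3]],Ref.mk 1504 3317 [0,1,2,3] [[0,1,2,3],[0,1,2,5,3],[0,1,2,3],[0,1,2,3]]],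
Node.mk [0,820,182,1542,2448,2216,2385,2209,9,1476,747,2529,3090,101] [(0,0),(0,2),(0,3),(1,2),(2,1),(2,2)] [],
Node.mk [0,820,182,1542,2448,2216,2385,2209,9,1476,747,2529,3090] [(0,0),(0,3),(1,1),(2,0),(2,2),(3,4)] [Ref.mk 101 3863 [0,1,2,3] [[0,1,2,3,4],[0,1,2,3,4],[0,1,2,3,4],[0,1,2,3,4]]],
Node.mk [0,820,182,1542,2448,2216,2385,2209,9,1476,747,2529,3171,3241] [(0,1),(1,0),(1,1),(1,2),(2,1),(3,3)] [Ref.mk 27 2306 [0,1,2,3] [[0,1,2,3],[0,1,2,3],[0,1,2,3],[0,1,2,3]],Ref.mk 36 2306 [0,1,2,3] [[0,1,2,3],[0,1,2,4],[0,1,2,3],[0,1,2,3]],Ref.mk 45 2306 [0,1,2,3] [[0,1,2,3],[0,1,2,5],[0,1,2,3],[0,1,2,3]],Ref.mk 1083 3832 [3,1,2,0] [[0,1,3,2],[0,1,2,3],[0,1,3,2,4],[0,1,3,2]],Ref.mk 1092 3615 [3,1,2,0] [[0,1,3,2],[0,1,2,4,3],[0,1,3,2,4],[0,1,3,2]],Ref.mk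 1101 3615 [3,1,2,0] [[0,1,3,2],[0,1,2,5,3],[0,1,3,2,4],[0,1,3,2]]],
Node.mk [0,820,182,1542,2448,2216,2385,2209,9,1476,747,2529,3171,3322] [(0,1),(1,0),(1,1),(1,2),(2,1),(3,3)] [Ref.mk 27 2306 [0,1,2,3] [[0,1,2,3],[0,1,2,3],[0,1,2,3],[0,1,2,3]],Ref.mk 36 2306 [0,1,2,3] [[0,1,2,3],[0,1,2,4],[0,1,2,3],[0,1,2,3]],Ref.mk 45 2306 [0,1,2,3] [[0,1,2,3],[0,1,2,5],[0,1,2,3],[0,1,2,3]],Ref.mk 1164 3832 [3,1,2,0] [[0,1,3,2],[0,1,2,3],[0,1,3,2,5],[0,1,3,2]],Ref.mk 1173 3615 [3,1,2,0] [[0,1,3,2],[0,1,2,4,3],[0,1,3,2,5],[0,1,3,2]],Ref.mk 1182 3615 [3,1,2,0] [[0,1,3,2],[0,1,2,5,3],[0,1,3,2,5],[0,1,3,2]]],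
Node.mk [0,820,182,1542,2448,2216,2385,2209,9,1476,747,2529,3171] [(2,1),(2,3),(3,0),(3,1),(3,2),(3,3)] [Ref.mk 2934 3861 [0,1,2,3] [[0,1,2,3,4],[0,1,2,3,4],[0,1,2,3,4],[0,1,2,3,4]],Ref.mk 3663 3861 [0,1,2,3] [[0,1,2,3,4],[0,1,2,3,4],[0,1,2,3,4],[0,1,2,3,5]],Ref.mk 2917 3862 [0,1,2,3] [[0,3,2,1,4],[1,0,2,3,4],[0,1,2,3,4],[0,2,1,3,4]],Ref.mk 3079 3864 [0,1,2,3] [[0,3,2,1,4],[1,0,2,3,4],[0,1,2,3,4],[0,2,1,3,4]],Ref.mk 3241 3865 [0,1,2,3] [[0,1,2,3,4],[0,1,2,3,4],[0,1,2,3,4],[0,1,2,3,4]],Ref.mk 3322 3866 [0,1,2,3] [[0,1,2,3,4],[0,1,2,3,4],[0,1,2,3,4,5],[0,1,2,3,4]],Ref.mk 2928 3862 [0,1,2,3] [[0,1,2,3,4],[0,1,2,3,4],[0,1,2,3,4],[0,1,2,3,4]],Ref.mk 3657 3862 [0,1,2,3] [[0,1,2,3,4],[0,1,2,3,4],[0,1,2,3,4],[0,1,2,3,5]],Ref.mk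 3090 3864 [0,1,2,3] [[0,1,2,3,4],[0,1,2,3,4],[0,1,2,3,4],[0,1,2,3,4]],Ref.mk 3819 3864 [0,1,2,3] [[0,1,2,3,4],[0,1,2,3,4],[0,1,2,3,4],[0,1,2,3,5]],Ref.mk 3252 3761 [2,1,3,0] [[1,2,4,0,3],[0,2,1,4,3],[2,0,4,1,3],[3,2,0,1]],Ref.mk 3981 3761 [2,1,3,0] [[1,2,4,0,3],[0,2,1,4,3],[2,0,5,1,3],[3,2,0,1]],Ref.mk 3333 3761 [2,1,3,0] [[1,2,5,0,3],[0,2,1,4,3],[2,0,4,1,3],[3,2,0,1]],Ref.mk 4062 3761 [2,1,3,0] [[1,2,5,0,3],[0,2,1,4,3],[2,0,5,1,3],[3,2,0,1]]],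
Node.mk [0,820,182,1542,2448,2216,2385,2209,9,1476,747,2529] [(0,1),(2,1),(3,0),(3,1),(3,2),(3,3)] [Ref.mk 2934 3861 [0,1,2,3] [[0,1,2,3,4],[0,1,2,3,4],[0,1,2,3,4],[0,1,2,3,4]],Ref.mk 2928 3862 [0,1,2,3] [[0,1,2,3,4],[0,1,2,3,4],[0,1,2,3,4],[0,1,2,3,4]],Ref.mk 3090 3864 [0,1,2,3] [[0,1,2,3,4],[0,1,2,3,4],[0,1,2,3,4],[0,1,2,3,4]],Ref.mk 3171 3867 [0,1,2,3] [[0,1,2,3,4],[0,1,2,3,4],[0,1,2,3,4],[0,1,2,3,4]],Ref.mk 3252 3867 [0,1,2,3] [[0,1,2,3,4],[0,1,2,3,4],[0,1,2,4,3],[0,1,2,3,4]],Ref.mk 3333 3761 [2,1,3,0] [[1,2,5,0,3],[0,2,1,4,3],[2,0,4,1,3],[3,2,0,1]]],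
Node.mk [0,820,182,1542,2448,2216,2385,2209,9,1476,747,1801] [(0,1),(1,0),(1,1),(1,2),(2,1),(3,3)] [Ref.mk 27 2306 [0,1,2,3] [[0,1,2,3],[0,1,2,3],[0,1,2,3],[0,1,2,3]],Ref.mk 36 2306 [0,1,2,3] [[0,1,2,3],[0,1,2,4],[0,1,2,3],[0,1,2,3]],Ref.mk 45 2306 [0,1,2,3] [[0,1,2,3],[0,1,2,5],[0,1,2,3],[0,1,2,3]],Ref.mk 1083 3832 [3,1,2,0] [[0,1,3,2],[0,1,2,3],[0,1,3,2,4],[0,1,3,2]],Ref.mk 768 3317 [3,1,2,0] [[0,1,3,2],[0,1,2,4,3],[0,1,3,2],[0,1,3,2]],Ref.mk 1092 3615 [3,1,2,0] [[0,1,3,2],[0,1,2,4,3],[0,1,3,2,4],[0,1,3,2]],Ref.mk 1101 3615 [3,1,2,0] [[0,1,3,2],[0,1,2,5,3],[0,1,3,2,4],[0,1,3,2]]],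
Node.mk [0,820,182,1542,2448,2216,2385,2209,9,1476,747] [(1,0),(1,1),(2,0),(2,1),(2,2),(2,3)] [Ref.mk 2529 3868 [0,1,2,3] [[0,1,2,3,4],[0,1,2,3,4],[0,1,2,3,4],[0,1,2,3]],Ref.mk 1801 3869 [0,1,2,3] [[0,1,2,3,4],[0,1,2,3,4],[0,1,2,3,4],[0,1,2,3]],Ref.mk 1810 3832 [0,1,2,3] [[0,1,2,3],[0,1,2,3],[0,1,2,3,4],[0,1,2,3]],Ref.mk 1819 3615 [0,1,2,3] [[0,1,2,3],[0,1,2,4,3],[0,1,2,3,4],[0,1,2,3]],Ref.mk 1828 3615 [0,1,2,3] [[0,1,2,3],[0,1,2,5,3],[0,1,2,3,4],[0,1,2,3]],Ref.mk 1074 3869 [0,1,2,3] [[0,3,2,1,4],[1,0,2,3,4],[0,1,2,3,4],[0,2,1,3]],Ref.mk 1083 3832 [3,1,2,0] [[0,1,3,2],[0,1,2,3],[0,1,3,2,4],[0,1,3,2]],Ref.mk 1092 3615 [3,1,2,0] [[0,1,3,2],[0,1,2,4,3],[0,1,3,2,4],[0,1,3,2]],Ref.mk 1101 3615 [3,1,2,0] [[0,1,3,2],[0,1,2,5,3],[0,1,3,2,4],[0,1,3,2]]],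
Node.mk [0,820,182,1542,2448,2216,2385,2209,9,1476,2934,2529,921,1729] [(0,3),(1,2),(1,3),(2,0),(2,2),(3,1)] [],
Node.mk [0,820,182,1542,2448,2216,2385,2209,9,1476,2934,2529,921] [(0,0),(0,3),(2,0),(2,1),(2,2),(3,1)] [Ref.mk 1729 3871 [0,1,2,3] [[0,1,2,3,4],[0,1,2,3,4],[0,1,2,3,4],[0,1,2,3,4]],Ref.mk 1810 3871 [0,1,2,3] [[0,1,2,3,4],[0,1,2,3,4],[0,1,2,4,3],[0,1,2,3,4]],Ref.mk 1891 3832 [0,1,2,3] [[0,1,2,3],[0,1,2,3],[0,1,2,3,5],[0,1,2,3]]],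
Node.mk [0,820,182,1542,2448,2216,2385,2209,9,1476,2934,2529,1002,1648] [(0,1),(1,2),(1,3),(2,0),(2,2),(3,2)] [],
Node.mk [0,820,182,1542,2448,2216,2385,2209,9,1476,2934,2529,1002,930] [(0,0),(0,1),(0,2),(0,3),(1,2),(3,1)] [],
Node.mk [0,820,182,1542,2448,2216,2385,2209,9,1476,2934,2529,1002,939] [(0,0),(0,1),(0,2),(0,3),(1,2),(3,1)] [],
Node.mk [0,820,182,1542,2448,2216,2385,2209,9,1476,2934,2529,1002] [(1,0),(1,1),(1,2),(2,1),(2,3),(3,3)] [Ref.mk 27 2306 [0,1,2,3] [[0,1,2,3],[0,1,2,3],[0,1,2,3],[0,1,2,3]],Ref.mk 36 2306 [0,1,2,3] [[0,1,2,3],[0,1,2,4],[0,1,2,3],[0,1,2,3]],Ref.mk 45 2306 [0,1,2,3] [[0,1,2,3],[0,1,2,5],[0,1,2,3],[0,1,2,3]],Ref.mk 1486 3555 [0,1,2,3] [[0,1,2,3],[0,1,2,3],[0,1,2,3],[0,1,2,3]],Ref.mk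 1648 3873 [0,1,2,3] [[0,1,2,3,4],[0,1,2,3,4],[0,1,2,3,4],[0,1,2,3,4]],Ref.mk 1810 3832 [0,1,2,3] [[0,1,2,3],[0,1,2,3],[0,1,2,3,4],[0,1,2,3]],Ref.mk 1891 3832 [0,1,2,3] [[0,1,2,3],[0,1,2,3],[0,1,2,3,5],[0,1,2,3]],Ref.mk 759 3555 [3,1,2,0] [[0,1,3,2],[0,1,2,3],[0,1,3,2],[0,1,3,2]],Ref.mk 921 3872 [0,1,2,3] [[0,1,2,3,4],[0,1,2,3,4],[0,1,2,3,4],[0,1,2,3,4]],Ref.mk 1083 3832 [3,1,2,0] [[0,1,3,2],[0,1,2,3],[0,1,3,2,4],[0,1,3,2]],Ref.mk 1164 3832 [3,1,2,0] [[0,1,3,2],[0,1,2,3],[0,1,3,2,5],[0,1,3,2]],Ref.mk 768 3317 [3,1,2,0] [[0,1,3,2],[0,1,2,4,3],[0,1,3,2],[0,1,3,2]],Ref.mk 930 3874 [0,1,2,3] [[0,1,2,3,4],[0,1,2,3,4],[0,1,2,3,4],[0,1,2,3,4]],Ref.mk 1092 3615 [3,1,2,0] [[0,1,3,2],[0,1,2,4,3],[0,1,3,2,4],[0,1,3,2]],Ref.mk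 1173 3615 [3,1,2,0] [[0,1,3,2],[0,1,2,4,3],[0,1,3,2,5],[0,1,3,2]],Ref.mk 777 3317 [3,1,2,0] [[0,1,3,2],[0,1,2,5,3],[0,1,3,2],[0,1,3,2]],Ref.mk 939 3875 [0,1,2,3] [[0,1,2,3,4],[0,1,2,3,4,5],[0,1,2,3,4],[0,1,2,3,4]],Ref.mk 1101 3615 [3,1,2,0] [[0,1,3,2],[0,1,2,5,3],[0,1,3,2,4],[0,1,3,2]],Ref.mk 1182 3615 [3,1,2,0] [[0,1,3,2],[0,1,2,5,3],[0,1,3,2,5],[0,1,3,2]]],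
Node.mk [0,820,182,1542,2448,2216,2385,2209,9,1476,2934,2529,930,101,1738] [(0,0),(0,1),(2,0),(2,1),(2,2),(2,3)] [Ref.mk 1092 3615 [3,1,2,0] [[0,1,3,2],[0,1,2,4,3],[0,1,3,2,4],[0,1,3,2]],Ref.mk 1173 3615 [3,1,2,0] [[0,1,3,2],[0,1,2,4,3],[0,1,3,2,5],[0,1,3,2]]],
Node.mk [0,820,182,1542,2448,2216,2385,2209,9,1476,2934,2529,930,101] [(0,0),(0,2),(0,3),(1,2),(2,1),(2,2)] [Ref.mk 1495 3317 [0,1,2,3] [[0,1,2,3],[0,1,2,4,3],[0,1,2,3],[0,1,2,3]],Ref.mk 1738 3877 [0,1,2,3] [[0,1,2,3,4],[0,1,2,3,4],[0,1,2,3,4],[0,1,2,3,4]],Ref.mk 1819 3877 [0,1,2,3] [[0,1,2,3,4],[0,1,2,3,4],[0,1,2,4,3],[0,1,2,3,4]],Ref.mk 1900 3615 [0,1,2,3] [[0,1,2,3],[0,1,2,4,3],[0,1,2,3,5],[0,1,2,3]]],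
Node.mk [0,820,182,1542,2448,2216,2385,2209,9,1476,2934,2529,930] [(0,0),(0,3),(1,4),(2,0),(2,2),(3,1)] [Ref.mk 101 3878 [0,1,2,3] [[0,1,2,3,4],[0,1,2,3,4],[0,1,2,3,4],[0,1,2,3,4]]],
Node.mk [0,820,182,1542,2448,2216,2385,2209,9,1476,2934,2529,1011,1657] [(0,1),(1,2),(1,4),(2,0),(2,2),(3,2)] [],
Node.mk [0,820,182,1542,2448,2216,2385,2209,9,1476,2934,2529,1011,939] [(0,0),(0,1),(0,2),(0,3),(1,2),(3,1)] [],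
Node.mk [0,820,182,1542,2448,2216,2385,2209,9,1476,2934,2529,1011] [(1,0),(1,1),(1,2),(2,1),(2,3),(3,3)] [Ref.mk 27 2306 [0,1,2,3] [[0,1,2,3],[0,1,2,3],[0,1,2,3],[0,1,2,3]],Ref.mk 36 2306 [0,1,2,3] [[0,1,2,3],[0,1,2,4],[0,1,2,3],[0,1,2,3]],Ref.mk 45 2306 [0,1,2,3] [[0,1,2,3],[0,1,2,5],[0,1,2,3],[0,1,2,3]],Ref.mk 1495 3317 [0,1,2,3] [[0,1,2,3],[0,1,2,4,3],[0,1,2,3],[0,1,2,3]],Ref.mk 1657 3880 [0,1,2,3] [[0,1,2,3,4],[0,1,2,3,4],[0,1,2,3,4],[0,1,2,3,4]],Ref.mk 1819 3615 [0,1,2,3] [[0,1,2,3],[0,1,2,4,3],[0,1,2,3,4],[0,1,2,3]],Ref.mk 1900 3615 [0,1,2,3] [[0,1,2,3],[0,1,2,4,3],[0,1,2,3,5],[0,1,2,3]],Ref.mk 759 3555 [3,1,2,0] [[0,1,3,2],[0,1,2,3],[0,1,3,2],[0,1,3,2]],Ref.mk 921 3872 [0,1,2,3] [[0,1,2,3,4],[0,1,2,3,4],[0,1,2,3,4],[0,1,2,3,4]],Ref.mk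 1083 3876 [0,1,2,3] [[0,1,2,3,4],[0,1,2,3,4],[0,1,2,4,3],[0,1,2,3,4]],Ref.mk 1164 3832 [3,1,2,0] [[0,1,3,2],[0,1,2,3],[0,1,3,2,5],[0,1,3,2]],Ref.mk 768 3317 [3,1,2,0] [[0,1,3,2],[0,1,2,4,3],[0,1,3,2],[0,1,3,2]],Ref.mk 930 3879 [0,1,2,3] [[0,1,2,3,4],[0,1,2,3,4],[0,1,2,3,4],[0,1,2,3,4]],Ref.mk 1092 3615 [3,1,2,0] [[0,1,3,2],[0,1,2,4,3],[0,1,3,2,4],[0,1,3,2]],Ref.mk 1173 3615 [3,1,2,0] [[0,1,3,2],[0,1,2,4,3],[0,1,3,2,5],[0,1,3,2]],Ref.mk 777 3317 [3,1,2,0] [[0,1,3,2],[0,1,2,5,3],[0,1,3,2],[0,1,3,2]],Ref.mk 939 3881 [0,1,2,3] [[0,1,2,3,4],[0,1,2,3,4,5],[0,1,2,3,4],[0,1,2,3,4]],Ref.mk 1101 3615 [3,1,2,0] [[0,1,3,2],[0,1,2,5,3],[0,1,3,2,4],[0,1,3,2]],Ref.mk 1182 3615 [3,1,2,0] [[0,1,3,2],[0,1,2,5,3],[0,1,3,2,5],[0,1,3,2]]],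
Node.mk [0,820,182,1542,2448,2216,2385,2209,9,1476,2934,2529,939,101] [(0,0),(0,2),(0,3),(1,2),(2,1),(2,2)] [],
Node.mk [0,820,182,1542,2448,2216,2385,2209,9,1476,2934,2529,939] [(0,0),(0,3),(1,5),(2,0),(2,2),(3,1)] [Ref.mk 101 3883 [0,1,2,3] [[0,1,2,3,4],[0,1,2,3,4,5],[0,1,2,3,4],[0,1,2,3,4]]],
Node.mk [0,820,182,1542,2448,2216,2385,2209,9,1476,2934,2529,1020,1666] [(0,0),(0,1),(1,5),(2,0),(2,2),(3,2)] [],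
Node.mk [0,820,182,1542,2448,2216,2385,2209,9,1476,2934,2529,1020] [(1,0),(1,1),(1,2),(2,1),(2,3),(3,3)] [Ref.mk 27 2306 [0,1,2,3] [[0,1,2,3],[0,1,2,3],[0,1,2,3],[0,1,2,3]],Ref.mk 36 2306 [0,1,2,3] [[0,1,2,3],[0,1,2,4],[0,1,2,3],[0,1,2,3]],Ref.mk 45 2306 [0,1,2,3] [[0,1,2,3],[0,1,2,5],[0,1,2,3],[0,1,2,3]],Ref.mk 54 2306 [0,1,2,3] [[0,1,2,3],[0,1,2,6],[0,1,2,3],[0,1,2,3]],Ref.mk 1504 3317 [0,1,2,3] [[0,1,2,3],[0,1,2,5,3],[0,1,2,3],[0,1,2,3]],Ref.mk 1666 3885 [0,1,2,3] [[0,1,2,3,4],[0,1,2,3,4,5],[0,1,2,3,4],[0,1,2,3,4]],Ref.mk 1828 2864 [3,2,1,0] [[3,1,0,2,4],[4,3,0,2,1],[2,5,0,3,4,1],[0,3,1,2,4]],Ref.mk 1909 3615 [0,1,2,3] [[0,1,2,3],[0,1,2,5,3],[0,1,2,3,5],[0,1,2,3]],Ref.mk 759 3555 [3,1,2,0] [[0,1,3,2],[0,1,2,3],[0,1,3,2],[0,1,3,2]],Ref.mk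 921 3872 [0,1,2,3] [[0,1,2,3,4],[0,1,2,3,4],[0,1,2,3,4],[0,1,2,3,4]],Ref.mk 1083 3876 [0,1,2,3] [[0,1,2,3,4],[0,1,2,3,4],[0,1,2,4,3],[0,1,2,3,4]],Ref.mk 1164 3832 [3,1,2,0] [[0,1,3,2],[0,1,2,3],[0,1,3,2,5],[0,1,3,2]],Ref.mk 768 3317 [3,1,2,0] [[0,1,3,2],[0,1,2,4,3],[0,1,3,2],[0,1,3,2]],Ref.mk 930 3879 [0,1,2,3] [[0,1,2,3,4],[0,1,2,3,4],[0,1,2,3,4],[0,1,2,3,4]],Ref.mk 1092 3882 [0,1,2,3] [[0,1,2,3,4],[0,1,2,3,4],[0,1,2,4,3],[0,1,2,3,4]],Ref.mk 1173 3615 [3,1,2,0] [[0,1,3,2],[0,1,2,4,3],[0,1,3,2,5],[0,1,3,2]],Ref.mk 777 3317 [3,1,2,0] [[0,1,3,2],[0,1,2,5,3],[0,1,3,2],[0,1,3,2]],Ref.mk 939 3884 [0,1,2,3] [[0,1,2,3,4],[0,1,2,3,4,5],[0,1,2,3,4],[0,1,2,3,4]],Ref.mk 1101 3615 [3,1,2,0] [[0,1,3,2],[0,1,2,5,3],[0,1,3,2,4],[0,1,3,2]],Ref.mk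 1182 3615 [3,1,2,0] [[0,1,3,2],[0,1,2,5,3],[0,1,3,2,5],[0,1,3,2]],Ref.mk 786 3317 [3,1,2,0] [[0,1,3,2],[0,1,2,6,3],[0,1,3,2],[0,1,3,2]],Ref.mk 948 3884 [0,1,2,3] [[0,1,2,3,4],[0,1,2,3,4,6],[0,1,2,3,4],[0,1,2,3,4]],Ref.mk 1110 3615 [3,1,2,0] [[0,1,3,2],[0,1,2,6,3],[0,1,3,2,4],[0,1,3,2]],Ref.mk 1191 3615 [3,1,2,0] [[0,1,3,2],[0,1,2,6,3],[0,1,3,2,5],[0,1,3,2]]],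
Node.mk [0,820,182,1542,2448,2216,2385,2209,9,1476,2934,2529] [(0,1),(1,0),(1,1),(1,2),(2,1),(3,3)] [Ref.mk 27 2306 [0,1,2,3] [[0,1,2,3],[0,1,2,3],[0,1,2,3],[0,1,2,3]],Ref.mk 36 2306 [0,1,2,3] [[0,1,2,3],[0,1,2,4],[0,1,2,3],[0,1,2,3]],Ref.mk 45 2306 [0,1,2,3] [[0,1,2,3],[0,1,2,5],[0,1,2,3],[0,1,2,3]],Ref.mk 759 3555 [3,1,2,0] [[0,1,3,2],[0,1,2,3],[0,1,3,2],[0,1,3,2]],Ref.mk 921 3872 [0,1,2,3] [[0,1,2,3,4],[0,1,2,3,4],[0,1,2,3,4],[0,1,2,3,4]],Ref.mk 1002 3876 [0,1,2,3] [[0,1,2,3,4],[0,1,2,3,4],[0,1,2,3,4],[0,1,2,3,4]],Ref.mk 1083 3876 [0,1,2,3] [[0,1,2,3,4],[0,1,2,3,4],[0,1,2,4,3],[0,1,2,3,4]],Ref.mk 1164 3832 [3,1,2,0] [[0,1,3,2],[0,1,2,3],[0,1,3,2,5],[0,1,3,2]],Ref.mk 768 3317 [3,1,2,0] [[0,1,3,2],[0,1,2,4,3],[0,1,3,2],[0,1,3,2]],Ref.mk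 930 3879 [0,1,2,3] [[0,1,2,3,4],[0,1,2,3,4],[0,1,2,3,4],[0,1,2,3,4]],Ref.mk 1011 3882 [0,1,2,3] [[0,1,2,3,4],[0,1,2,3,4],[0,1,2,3,4],[0,1,2,3,4]],Ref.mk 1092 3882 [0,1,2,3] [[0,1,2,3,4],[0,1,2,3,4],[0,1,2,4,3],[0,1,2,3,4]],Ref.mk 1173 3615 [3,1,2,0] [[0,1,3,2],[0,1,2,4,3],[0,1,3,2,5],[0,1,3,2]],Ref.mk 777 3317 [3,1,2,0] [[0,1,3,2],[0,1,2,5,3],[0,1,3,2],[0,1,3,2]],Ref.mk 939 3884 [0,1,2,3] [[0,1,2,3,4],[0,1,2,3,4,5],[0,1,2,3,4],[0,1,2,3,4]],Ref.mk 1020 3886 [0,1,2,3] [[0,1,2,3,4],[0,1,2,3,4,5],[0,1,2,3,4],[0,1,2,3,4]],Ref.mk 1101 3886 [0,1,2,3] [[0,1,2,3,4],[0,1,2,3,4,5],[0,1,2,4,3],[0,1,2,3,4]],Ref.mk 1182 3615 [3,1,2,0] [[0,1,3,2],[0,1,2,5,3],[0,1,3,2,5],[0,1,3,2]]],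
Node.mk [0,820,182,1542,2448,2216,2385,2209,9,1476,2934,1801] [(0,1),(1,0),(1,1),(1,2),(2,1),(3,3)] [Ref.mk 27 2306 [0,1,2,3] [[0,1,2,3],[0,1,2,3],[0,1,2,3],[0,1,2,3]],Ref.mk 36 2306 [0,1,2,3] [[0,1,2,3],[0,1,2,4],[0,1,2,3],[0,1,2,3]],Ref.mk 45 2306 [0,1,2,3] [[0,1,2,3],[0,1,2,5],[0,1,2,3],[0,1,2,3]],Ref.mk 1083 3832 [3,1,2,0] [[0,1,3,2],[0,1,2,3],[0,1,3,2,4],[0,1,3,2]],Ref.mk 768 3317 [3,1,2,0] [[0,1,3,2],[0,1,2,4,3],[0,1,3,2],[0,1,3,2]],Ref.mk 1092 3615 [3,1,2,0] [[0,1,3,2],[0,1,2,4,3],[0,1,3,2,4],[0,1,3,2]],Ref.mk 1101 3615 [3,1,2,0] [[0,1,3,2],[0,1,2,5,3],[0,1,3,2,4],[0,1,3,2]]],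
Node.mk [0,820,182,1542,2448,2216,2385,2209,9,1476,2934,1074] [(0,0),(0,1),(0,2),(0,3),(1,2),(3,1)] [Ref.mk 1795 3810 [2,1,0,3] [[1,2,4,0,3],[0,4,1,2,3],[3,0,4,1,2],[2,3,0,1]],Ref.mk 1796 3810 [2,1,0,3] [[1,2,4,0,3],[0,4,1,2,3],[3,0,5,1,2],[2,3,0,1]]],
Node.mk [0,820,182,1542,2448,2216,2385,2209,9,1476,2934] [(1,0),(1,1),(2,0),(2,1),(2,2),(2,3)] [Ref.mk 2529 3887 [0,1,2,3] [[0,1,2,3,4],[0,1,2,3,4],[0,1,2,3,4],[0,1,2,3,4]],Ref.mk 1801 3888 [0,1,2,3] [[0,1,2,3,4],[0,1,2,3,4],[0,1,2,3,4],[0,1,2,3,4]],Ref.mk 1810 3832 [0,1,2,3] [[0,1,2,3],[0,1,2,3],[0,1,2,3,4],[0,1,2,3]],Ref.mk 1819 3615 [0,1,2,3] [[0,1,2,3],[0,1,2,4,3],[0,1,2,3,4],[0,1,2,3]],Ref.mk 1828 3615 [0,1,2,3] [[0,1,2,3],[0,1,2,5,3],[0,1,2,3,4],[0,1,2,3]],Ref.mk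 1074 3889 [0,1,2,3] [[0,1,2,3,4],[0,1,2,3,4],[0,1,2,3,4],[0,1,2,3,4]],Ref.mk 1083 3832 [3,1,2,0] [[0,1,3,2],[0,1,2,3],[0,1,3,2,4],[0,1,3,2]],Ref.mk 1092 3615 [3,1,2,0] [[0,1,3,2],[0,1,2,4,3],[0,1,3,2,4],[0,1,3,2]],Ref.mk 1101 3615 [3,1,2,0] [[0,1,3,2],[0,1,2,5,3],[0,1,3,2,4],[0,1,3,2]]],
Node.mk [0,820,182,1542,2448,2216,2385,2209,9,1476] [(0,3),(1,0),(2,1),(3,0),(3,2),(3,3)] [Ref.mk 747 3870 [0,1,2,3] [[0,1,2,3,4],[0,1,2,3,4],[0,1,2,3],[0,1,2,3]],Ref.mk 2934 3890 [0,1,2,3] [[0,1,2,3,4],[0,1,2,3,4],[0,1,2,3],[0,1,2,3,4]]],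
Node.mk [0,820,182,1542,2448,2216,2385,2209,9,2934,2529,921,1729] [(0,3),(1,2),(1,3),(2,0),(2,2),(3,1)] [],
Node.mk [0,820,182,1542,2448,2216,2385,2209,9,2934,2529,921] [(0,0),(0,3),(2,0),(2,1),(2,2),(3,1)] [Ref.mk 1729 3892 [0,1,2,3] [[0,1,2,3,4],[0,1,2,3,4],[0,1,2,3,4],[0,1,2,3,4]],Ref.mk 1810 3892 [0,1,2,3] [[0,1,2,3,4],[0,1,2,3,4],[0,1,2,4,3],[0,1,2,3,4]],Ref.mk 1891 3832 [0,1,2,3] [[0,1,2,3],[0,1,2,3],[0,1,2,3,5],[0,1,2,3]]],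
Node.mk [0,820,182,1542,2448,2216,2385,2209,9,2934,2529,1002,930] [(0,0),(0,1),(0,2),(0,3),(1,2),(3,1)] [],
Node.mk [0,820,182,1542,2448,2216,2385,2209,9,2934,2529,1002,939] [(0,0),(0,1),(0,2),(0,3),(1,2),(3,1)] [],
Node.mk [0,820,182,1542,2448,2216,2385,2209,9,2934,2529,1002] [(1,0),(1,1),(1,2),(2,1),(2,3),(3,3)] [Ref.mk 27 2306 [0,1,2,3] [[0,1,2,3],[0,1,2,3],[0,1,2,3],[0,1,2,3]],Ref.mk 36 2306 [0,1,2,3] [[0,1,2,3],[0,1,2,4],[0,1,2,3],[0,1,2,3]],Ref.mk 45 2306 [0,1,2,3] [[0,1,2,3],[0,1,2,5],[0,1,2,3],[0,1,2,3]],Ref.mk 1486 3555 [0,1,2,3] [[0,1,2,3],[0,1,2,3],[0,1,2,3],[0,1,2,3]],Ref.mk 1648 3892 [0,1,2,3] [[0,3,2,1,4],[1,0,2,3,4],[0,1,2,3,4],[0,2,1,3,4]],Ref.mk 1810 3832 [0,1,2,3] [[0,1,2,3],[0,1,2,3],[0,1,2,3,4],[0,1,2,3]],Ref.mk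 1891 3832 [0,1,2,3] [[0,1,2,3],[0,1,2,3],[0,1,2,3,5],[0,1,2,3]],Ref.mk 759 3555 [3,1,2,0] [[0,1,3,2],[0,1,2,3],[0,1,3,2],[0,1,3,2]],Ref.mk 921 3893 [0,1,2,3] [[0,1,2,3,4],[0,1,2,3,4],[0,1,2,3,4],[0,1,2,3,4]],Ref.mk 1083 3832 [3,1,2,0] [[0,1,3,2],[0,1,2,3],[0,1,3,2,4],[0,1,3,2]],Ref.mk 1164 3832 [3,1,2,0] [[0,1,3,2],[0,1,2,3],[0,1,3,2,5],[0,1,3,2]],Ref.mk 768 3317 [3,1,2,0] [[0,1,3,2],[0,1,2,4,3],[0,1,3,2],[0,1,3,2]],Ref.mk 930 3894 [0,1,2,3] [[0,1,2,3,4],[0,1,2,3,4],[0,1,2,3,4],[0,1,2,3,4]],Ref.mk 1092 3615 [3,1,2,0] [[0,1,3,2],[0,1,2,4,3],[0,1,3,2,4],[0,1,3,2]],Ref.mk 1173 3615 [3,1,2,0] [[0,1,3,2],[0,1,2,4,3],[0,1,3,2,5],[0,1,3,2]],Ref.mk 777 3317 [3,1,2,0] [[0,1,3,2],[0,1,2,5,3],[0,1,3,2],[0,1,3,2]],Ref.mk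 939 3895 [0,1,2,3] [[0,1,2,3,4],[0,1,2,3,4,5],[0,1,2,3,4],[0,1,2,3,4]],Ref.mk 1101 3615 [3,1,2,0] [[0,1,3,2],[0,1,2,5,3],[0,1,3,2,4],[0,1,3,2]],Ref.mk 1182 3615 [3,1,2,0] [[0,1,3,2],[0,1,2,5,3],[0,1,3,2,5],[0,1,3,2]]],
Node.mk [0,820,182,1542,2448,2216,2385,2209,9,2934,2529,930,101,1738] [(0,0),(0,1),(2,0),(2,1),(2,2),(2,3)] [Ref.mk 1092 3615 [3,1,2,0] [[0,1,3,2],[0,1,2,4,3],[0,1,3,2,4],[0,1,3,2]],Ref.mk 1173 3615 [3,1,2,0] [[0,1,3,2],[0,1,2,4,3],[0,1,3,2,5],[0,1,3,2]]],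
Node.mk [0,820,182,1542,2448,2216,2385,2209,9,2934,2529,930,101] [(0,0),(0,2),(0,3),(1,2),(2,1),(2,2)] [Ref.mk 1495 3317 [0,1,2,3] [[0,1,2,3],[0,1,2,4,3],[0,1,2,3],[0,1,2,3]],Ref.mk 1738 3897 [0,1,2,3] [[0,1,2,3,4],[0,1,2,3,4],[0,1,2,3,4],[0,1,2,3,4]],Ref.mk 1819 3897 [0,1,2,3] [[0,1,2,3,4],[0,1,2,3,4],[0,1,2,4,3],[0,1,2,3,4]],Ref.mk 1900 3615 [0,1,2,3] [[0,1,2,3],[0,1,2,4,3],[0,1,2,3,5],[0,1,2,3]]],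
Node.mk [0,820,182,1542,2448,2216,2385,2209,9,2934,2529,930] [(0,0),(0,3),(1,4),(2,0),(2,2),(3,1)] [Ref.mk 101 3898 [0,1,2,3] [[0,1,2,3,4],[0,1,2,3,4],[0,1,2,3,4],[0,1,2,3,4]]],
Node.mk [0,820,182,1542,2448,2216,2385,2209,9,2934,2529,1011,939] [(0,0),(0,1),(0,2),(0,3),(1,2),(3,1)] [],
Node.mk [0,820,182,1542,2448,2216,2385,2209,9,2934,2529,1011] [(1,0),(1,1),(1,2),(2,1),(2,3),(3,3)] [Ref.mk 27 2306 [0,1,2,3] [[0,1,2,3],[0,1,2,3],[0,1,2,3],[0,1,2,3]],Ref.mk 36 2306 [0,1,2,3] [[0,1,2,3],[0,1,2,4],[0,1,2,3],[0,1,2,3]],Ref.mk 45 2306 [0,1,2,3] [[0,1,2,3],[0,1,2,5],[0,1,2,3],[0,1,2,3]],Ref.mk 1495 3317 [0,1,2,3] [[0,1,2,3],[0,1,2,4,3],[0,1,2,3],[0,1,2,3]],Ref.mk 1657 3899 [0,1,2,3] [[0,3,2,1,4],[1,0,2,3,4],[0,1,2,3,4],[0,2,1,3,4]],Ref.mk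 1819 3615 [0,1,2,3] [[0,1,2,3],[0,1,2,4,3],[0,1,2,3,4],[0,1,2,3]],Ref.mk 1900 3615 [0,1,2,3] [[0,1,2,3],[0,1,2,4,3],[0,1,2,3,5],[0,1,2,3]],Ref.mk 759 3555 [3,1,2,0] [[0,1,3,2],[0,1,2,3],[0,1,3,2],[0,1,3,2]],Ref.mk 921 3893 [0,1,2,3] [[0,1,2,3,4],[0,1,2,3,4],[0,1,2,3,4],[0,1,2,3,4]],Ref.mk 1083 3896 [0,1,2,3] [[0,1,2,3,4],[0,1,2,3,4],[0,1,2,4,3],[0,1,2,3,4]],Ref.mk 1164 3832 [3,1,2,0] [[0,1,3,2],[0,1,2,3],[0,1,3,2,5],[0,1,3,2]],Ref.mk 768 3317 [3,1,2,0] [[0,1,3,2],[0,1,2,4,3],[0,1,3,2],[0,1,3,2]],Ref.mk 930 3899 [0,1,2,3] [[0,1,2,3,4],[0,1,2,3,4],[0,1,2,3,4],[0,1,2,3,4]],Ref.mk 1092 3615 [3,1,2,0] [[0,1,3,2],[0,1,2,4,3],[0,1,3,2,4],[0,1,3,2]],Ref.mk 1173 3615 [3,1,2,0] [[0,1,3,2],[0,1,2,4,3],[0,1,3,2,5],[0,1,3,2]],Ref.mk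 777 3317 [3,1,2,0] [[0,1,3,2],[0,1,2,5,3],[0,1,3,2],[0,1,3,2]],Ref.mk 939 3900 [0,1,2,3] [[0,1,2,3,4],[0,1,2,3,4,5],[0,1,2,3,4],[0,1,2,3,4]],Ref.mk 1101 3615 [3,1,2,0] [[0,1,3,2],[0,1,2,5,3],[0,1,3,2,4],[0,1,3,2]],Ref.mk 1182 3615 [3,1,2,0] [[0,1,3,2],[0,1,2,5,3],[0,1,3,2,5],[0,1,3,2]]],
Node.mk [0,820,182,1542,2448,2216,2385,2209,9,2934,2529,939,101] [(0,0),(0,2),(0,3),(1,2),(2,1),(2,2)] [],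
Node.mk [0,820,182,1542,2448,2216,2385,2209,9,2934,2529,939] [(0,0),(0,3),(1,5),(2,0),(2,2),(3,1)] [Ref.mk 101 3902 [0,1,2,3] [[0,1,2,3,4],[0,1,2,3,4,5],[0,1,2,3,4],[0,1,2,3,4]]]]

/-- nodes -/
noncomputable def c61 : List Node := [
Node.mk [0,820,182,1542,2448,2216,2385,2209,9,2934,2529,1020] [(1,0),(1,1),(1,2),(2,1),(2,3),(3,3)] [Ref.mk 27 2306 [0,1,2,3] [[0,1,2,3],[0,1,2,3],[0,1,2,3],[0,1,2,3]],Ref.mk 36 2306 [0,1,2,3] [[0,1,2,3],[0,1,2,4],[0,1,2,3],[0,1,2,3]],Ref.mk 45 2306 [0,1,2,3] [[0,1,2,3],[0,1,2,5],[0,1,2,3],[0,1,2,3]],Ref.mk 54 2306 [0,1,2,3] [[0,1,2,3],[0,1,2,6],[0,1,2,3],[0,1,2,3]],Ref.mk 1504 3317 [0,1,2,3] [[0,1,2,3],[0,1,2,5,3],[0,1,2,3],[0,1,2,3]],Ref.mk 1666 3903 [0,1,2,3] [[0,3,2,1,4],[1,0,2,3,4,5],[0,1,2,3,4],[0,2,1,3,4]],Ref.mk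 1828 3138 [3,2,1,0] [[3,1,0,2,4],[4,3,0,2,1],[2,5,0,3,4,1],[0,3,1,2,4]],Ref.mk 1909 3615 [0,1,2,3] [[0,1,2,3],[0,1,2,5,3],[0,1,2,3,5],[0,1,2,3]],Ref.mk 759 3555 [3,1,2,0] [[0,1,3,2],[0,1,2,3],[0,1,3,2],[0,1,3,2]],Ref.mk 921 3893 [0,1,2,3] [[0,1,2,3,4],[0,1,2,3,4],[0,1,2,3,4],[0,1,2,3,4]],Ref.mk 1083 3896 [0,1,2,3] [[0,1,2,3,4],[0,1,2,3,4],[0,1,2,4,3],[0,1,2,3,4]],Ref.mk 1164 3832 [3,1,2,0] [[0,1,3,2],[0,1,2,3],[0,1,3,2,5],[0,1,3,2]],Ref.mk 768 3317 [3,1,2,0] [[0,1,3,2],[0,1,2,4,3],[0,1,3,2],[0,1,3,2]],Ref.mk 930 3899 [0,1,2,3] [[0,1,2,3,4],[0,1,2,3,4],[0,1,2,3,4],[0,1,2,3,4]],Ref.mk 1092 3901 [0,1,2,3] [[0,1,2,3,4],[0,1,2,3,4],[0,1,2,4,3],[0,1,2,3,4]],Ref.mk 1173 3615 [3,1,2,0] [[0,1,3,2],[0,1,2,4,3],[0,1,3,2,5],[0,1,3,2]],Ref.mk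 777 3317 [3,1,2,0] [[0,1,3,2],[0,1,2,5,3],[0,1,3,2],[0,1,3,2]],Ref.mk 939 3903 [0,1,2,3] [[0,1,2,3,4],[0,1,2,3,4,5],[0,1,2,3,4],[0,1,2,3,4]],Ref.mk 1101 3615 [3,1,2,0] [[0,1,3,2],[0,1,2,5,3],[0,1,3,2,4],[0,1,3,2]],Ref.mk 1182 3615 [3,1,2,0] [[0,1,3,2],[0,1,2,5,3],[0,1,3,2,5],[0,1,3,2]],Ref.mk 786 3317 [3,1,2,0] [[0,1,3,2],[0,1,2,6,3],[0,1,3,2],[0,1,3,2]],Ref.mk 948 3903 [0,1,2,3] [[0,1,2,3,4],[0,1,2,3,4,6],[0,1,2,3,4],[0,1,2,3,4]],Ref.mk 1110 3615 [3,1,2,0] [[0,1,3,2],[0,1,2,6,3],[0,1,3,2,4],[0,1,3,2]],Ref.mk 1191 3615 [3,1,2,0] [[0,1,3,2],[0,1,2,6,3],[0,1,3,2,5],[0,1,3,2]]],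
Node.mk [0,820,182,1542,2448,2216,2385,2209,9,2934,2529] [(0,1),(1,0),(1,1),(1,2),(2,1),(3,3)] [Ref.mk 27 2306 [0,1,2,3] [[0,1,2,3],[0,1,2,3],[0,1,2,3],[0,1,2,3]],Ref.mk 36 2306 [0,1,2,3] [[0,1,2,3],[0,1,2,4],[0,1,2,3],[0,1,2,3]],Ref.mk 45 2306 [0,1,2,3] [[0,1,2,3],[0,1,2,5],[0,1,2,3],[0,1,2,3]],Ref.mk 759 3555 [3,1,2,0] [[0,1,3,2],[0,1,2,3],[0,1,3,2],[0,1,3,2]],Ref.mk 921 3893 [0,1,2,3] [[0,1,2,3,4],[0,1,2,3,4],[0,1,2,3,4],[0,1,2,3,4]],Ref.mk 1002 3896 [0,1,2,3] [[0,1,2,3,4],[0,1,2,3,4],[0,1,2,3,4],[0,1,2,3,4]],Ref.mk 1083 3896 [0,1,2,3] [[0,1,2,3,4],[0,1,2,3,4],[0,1,2,4,3],[0,1,2,3,4]],Ref.mk 1164 3832 [3,1,2,0] [[0,1,3,2],[0,1,2,3],[0,1,3,2,5],[0,1,3,2]],Ref.mk 768 3317 [3,1,2,0] [[0,1,3,2],[0,1,2,4,3],[0,1,3,2],[0,1,3,2]],Ref.mk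 930 3899 [0,1,2,3] [[0,1,2,3,4],[0,1,2,3,4],[0,1,2,3,4],[0,1,2,3,4]],Ref.mk 1011 3901 [0,1,2,3] [[0,1,2,3,4],[0,1,2,3,4],[0,1,2,3,4],[0,1,2,3,4]],Ref.mk 1092 3901 [0,1,2,3] [[0,1,2,3,4],[0,1,2,3,4],[0,1,2,4,3],[0,1,2,3,4]],Ref.mk 1173 3615 [3,1,2,0] [[0,1,3,2],[0,1,2,4,3],[0,1,3,2,5],[0,1,3,2]],Ref.mk 777 3317 [3,1,2,0] [[0,1,3,2],[0,1,2,5,3],[0,1,3,2],[0,1,3,2]],Ref.mk 939 3903 [0,1,2,3] [[0,1,2,3,4],[0,1,2,3,4,5],[0,1,2,3,4],[0,1,2,3,4]],Ref.mk 1020 3904 [0,1,2,3] [[0,1,2,3,4],[0,1,2,3,4,5],[0,1,2,3,4],[0,1,2,3,4]],Ref.mk 1101 3904 [0,1,2,3] [[0,1,2,3,4],[0,1,2,3,4,5],[0,1,2,4,3],[0,1,2,3,4]],Ref.mk 1182 3615 [3,1,2,0] [[0,1,3,2],[0,1,2,5,3],[0,1,3,2,5],[0,1,3,2]]],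
Node.mk [0,820,182,1542,2448,2216,2385,2209,9,2934,1801] [(0,1),(1,0),(1,1),(1,2),(2,1),(3,3)] [Ref.mk 27 2306 [0,1,2,3] [[0,1,2,3],[0,1,2,3],[0,1,2,3],[0,1,2,3]],Ref.mk 36 2306 [0,1,2,3] [[0,1,2,3],[0,1,2,4],[0,1,2,3],[0,1,2,3]],Ref.mk 45 2306 [0,1,2,3] [[0,1,2,3],[0,1,2,5],[0,1,2,3],[0,1,2,3]],Ref.mk 1083 3832 [3,1,2,0] [[0,1,3,2],[0,1,2,3],[0,1,3,2,4],[0,1,3,2]],Ref.mk 768 3317 [3,1,2,0] [[0,1,3,2],[0,1,2,4,3],[0,1,3,2],[0,1,3,2]],Ref.mk 1092 3615 [3,1,2,0] [[0,1,3,2],[0,1,2,4,3],[0,1,3,2,4],[0,1,3,2]],Ref.mk 1101 3615 [3,1,2,0] [[0,1,3,2],[0,1,2,5,3],[0,1,3,2,4],[0,1,3,2]]],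
Node.mk [0,820,182,1542,2448,2216,2385,2209,9,2934] [(1,0),(1,1),(2,0),(2,1),(2,2),(2,3)] [Ref.mk 2529 3905 [0,1,2,3] [[0,1,2,3,4],[0,1,2,3,4],[0,1,2,3,4],[0,1,2,3,4]],Ref.mk 1801 3906 [0,1,2,3] [[0,1,2,3,4],[0,1,2,3,4],[0,1,2,3,4],[0,1,2,3,4]],Ref.mk 1810 3832 [0,1,2,3] [[0,1,2,3],[0,1,2,3],[0,1,2,3,4],[0,1,2,3]],Ref.mk 1819 3615 [0,1,2,3] [[0,1,2,3],[0,1,2,4,3],[0,1,2,3,4],[0,1,2,3]],Ref.mk 1828 3615 [0,1,2,3] [[0,1,2,3],[0,1,2,5,3],[0,1,2,3,4],[0,1,2,3]],Ref.mk 1074 3906 [0,1,2,3] [[0,3,2,1,4],[1,0,2,3,4],[0,1,2,3,4],[0,2,1,3,4]],Ref.mk 1083 3832 [3,1,2,0] [[0,1,3,2],[0,1,2,3],[0,1,3,2,4],[0,1,3,2]],Ref.mk 1092 3615 [3,1,2,0] [[0,1,3,2],[0,1,2,4,3],[0,1,3,2,4],[0,1,3,2]],Ref.mk 1101 3615 [3,1,2,0] [[0,1,3,2],[0,1,2,5,3],[0,1,3,2,4],[0,1,3,2]]],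
Node.mk [0,820,182,1542,2448,2216,2385,2209,9] [(0,1),(1,1),(2,1),(3,0),(3,1),(3,3)] [Ref.mk 1476 3891 [0,1,2,3] [[0,1,2,3,4],[0,1,2,3,4],[0,1,2,3],[0,1,2,3]],Ref.mk 2934 3907 [0,1,2,3] [[0,1,2,3,4],[0,1,2,3,4],[0,1,2,3],[0,1,2,3,4]]],
Node.mk [0,820,182,1542,2448,2216,2385,2209] [(0,3),(1,0),(1,2),(2,1),(3,2),(3,3)] [Ref.mk 9 3908 [0,1,2,3] [[0,1,2,3,4],[0,1,2,3,4],[0,1,2,3],[0,1,2,3]],Ref.mk 27 2306 [0,1,2,3] [[0,1,2,3],[0,1,2,3],[0,1,2,3],[0,1,2,3]],Ref.mk 36 2306 [0,1,2,3] [[0,1,2,3],[0,1,2,4],[0,1,2,3],[0,1,2,3]],Ref.mk 45 2306 [0,1,2,3] [[0,1,2,3],[0,1,2,5],[0,1,2,3],[0,1,2,3]]],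
Node.mk [0,820,182,1542,2448,2216,2385] [(0,0),(0,1),(0,2),(0,3),(1,0),(2,1)] [Ref.mk 1471 3846 [0,1,2,3] [[0,1,2,3,4],[0,1,2,3,4],[0,1,2,3],[0,1,2,3]],Ref.mk 1633 2405 [0,2,1,3] [[0,1,2,4],[2,1,0,3],[4,1,3,0,2],[3,1,2,0]],Ref.mk 2362 3847 [0,1,2,3] [[0,1,2,3,4],[0,1,2,3,4],[0,1,2,3],[0,1,2,3]],Ref.mk 1714 3188 [0,2,1,3] [[0,1,2,4],[3,1,0,2],[2,1,3,0,4],[3,1,2,0]],Ref.mk 1795 3810 [2,1,0,3] [[1,2,4,0,3],[0,4,1,2,3],[3,0,4,1,2],[2,3,0,1]],Ref.mk 2209 3909 [0,1,2,3] [[0,1,2,3,4],[0,1,2,3,4],[0,1,2,3],[0,1,2,3]]],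
Node.mk [0,820,182,1542,2448,2216,2386,2529,189,19,911,1011] [(0,0),(0,1),(0,2),(0,3),(1,0),(1,4)] [],
Node.mk [0,820,182,1542,2448,2216,2386,2529,189,19,911] [(0,2),(1,0),(1,1),(1,2),(2,1),(2,2)] [Ref.mk 1486 3555 [0,1,2,3] [[0,1,2,3],[0,1,2,3],[0,1,2,3],[0,1,2,3]],Ref.mk 1495 3317 [0,1,2,3] [[0,1,2,3],[0,1,2,4,3],[0,1,2,3],[0,1,2,3]],Ref.mk 1504 3317 [0,1,2,3] [[0,1,2,3],[0,1,2,5,3],[0,1,2,3],[0,1,2,3]],Ref.mk 759 3555 [3,1,2,0] [[0,1,3,2],[0,1,2,3],[0,1,3,2],[0,1,3,2]],Ref.mk 768 3317 [3,1,2,0] [[0,1,3,2],[0,1,2,4,3],[0,1,3,2],[0,1,3,2]],Ref.mk 1011 3911 [0,1,2,3] [[0,1,2,3],[0,1,2,3,4],[0,1,2,3,4],[0,1,2,3]],Ref.mk 1092 3911 [0,1,2,3] [[0,1,2,3],[0,1,2,3,4],[0,1,2,4,3],[0,1,2,3]],Ref.mk 1173 3615 [3,1,2,0]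 [[0,1,3,2],[0,1,2,4,3],[0,1,3,2,5],[0,1,3,2]],Ref.mk 777 3317 [3,1,2,0] [[0,1,3,2],[0,1,2,5,3],[0,1,3,2],[0,1,3,2]]],
Node.mk [0,820,182,1542,2448,2216,2386,2529,189,19] [(0,3),(1,0),(2,1),(3,0),(3,2),(3,3)] [Ref.mk 911 3912 [0,1,2,3] [[0,1,2,3],[0,1,2,3,4],[0,1,2,3,4],[0,1,2,3]]],
Node.mk [0,820,182,1542,2448,2216,2386,2529,189] [(0,3),(1,0),(2,1),(2,2),(3,2),(3,3)] [Ref.mk 36 2306 [0,1,2,3] [[0,1,2,3],[0,1,2,4],[0,1,2,3],[0,1,2,3]],Ref.mk 19 3913 [0,1,2,3] [[0,1,2,3],[0,1,2,3,4],[0,1,2,3,4],[0,1,2,3]]],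
Node.mk [0,820,182,1542,2448,2216,2386,2529,918,748,1471] [(0,1),(1,0),(1,1),(1,2),(1,3),(2,1)] [Ref.mk 36 2306 [0,1,2,3] [[0,1,2,3],[0,1,2,4],[0,1,2,3],[0,1,2,3]],Ref.mk 768 3317 [3,1,2,0] [[0,1,3,2],[0,1,2,4,3],[0,1,3,2],[0,1,3,2]],Ref.mk 777 3317 [3,1,2,0] [[0,1,3,2],[0,1,2,5,3],[0,1,3,2],[0,1,3,2]]],
Node.mk [0,820,182,1542,2448,2216,2386,2529,918,748,1633,3079] [(0,1),(1,0),(2,0),(2,1),(2,2),(3,3)] [],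
Node.mk [0,820,182,1542,2448,2216,2386,2529,918,748,1633] [(0,3),(2,1),(3,0),(3,1),(3,2),(3,3)] [Ref.mk 3079 3916 [0,1,2,3] [[0,1,2,3,4],[0,1,2,3,4],[0,1,2,3,4],[0,1,2,3,4]]],
Node.mk [0,820,182,1542,2448,2216,2386,2529,918,748,1480] [(0,0),(0,1),(2,0),(2,1),(2,2),(3,1)] [],
Node.mk [0,820,182,1542,2448,2216,2386,2529,918,748] [(0,0),(0,1),(0,2),(0,3),(1,0),(2,1)] [Ref.mk 1471 3915 [0,1,2,3] [[0,1,2,3,4],[0,1,2,3,4],[0,1,2,3,4],[0,1,2,3]],Ref.mk 1633 3917 [0,1,2,3] [[0,1,2,3,4],[0,1,2,3,4],[0,1,2,3,4],[0,1,2,3]],Ref.mk 1480 3918 [0,1,2,3] [[0,1,2,3,4],[0,1,2,3,4],[0,1,2,3,4],[0,1,2,3]]],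
Node.mk [0,820,182,1542,2448,2216,2386,2529,918] [(0,3),(1,0),(2,1),(2,2),(3,2),(3,3)] [Ref.mk 36 2306 [0,1,2,3] [[0,1,2,3],[0,1,2,4],[0,1,2,3],[0,1,2,3]],Ref.mk 748 3919 [0,1,2,3] [[0,1,2,3],[0,1,2,3,4],[0,1,2,3,4],[0,1,2,3]]],
Node.mk [0,820,182,1542,2448,2216,2386,2529,3105,2935,1471] [(0,1),(1,0),(1,1),(1,2),(1,3),(2,1)] [Ref.mk 36 2306 [0,1,2,3] [[0,1,2,3],[0,1,2,4],[0,1,2,3],[0,1,2,3]],Ref.mk 768 3317 [3,1,2,0] [[0,1,3,2],[0,1,2,4,3],[0,1,3,2],[0,1,3,2]],Ref.mk 777 3317 [3,1,2,0] [[0,1,3,2],[0,1,2,5,3],[0,1,3,2],[0,1,3,2]]],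
Node.mk [0,820,182,1542,2448,2216,2386,2529,3105,2935] [(0,0),(0,1),(0,2),(0,3),(2,1),(2,2)] [Ref.mk 733 3241 [1,0,2,3] [[2,0,3,1,4],[1,3,0,4,2],[0,1,2,3,4],[4,2,1,3,0]],Ref.mk 976 3557 [1,0,2,3] [[2,0,3,1,4],[1,3,0,4,2],[0,1,2,4,3],[4,2,1,3,0]],Ref.mk 1057 3557 [1,0,2,3] [[2,0,3,1,4],[1,3,0,4,2],[0,1,2,3,4],[4,2,1,3,0]],Ref.mk 1138 3557 [1,0,2,3] [[2,0,3,1,4],[1,3,0,4,2],[0,1,2,4,5],[4,2,1,3,0]],Ref.mk 1471 3921 [0,1,2,3] [[0,1,2,3,4],[0,1,2,3,4],[0,1,2,3,4],[0,1,2,3,4]]],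
Node.mk [0,820,182,1542,2448,2216,2386,2529,3105] [(0,3),(1,0),(2,1),(2,2),(3,2),(3,3)] [Ref.mk 36 2306 [0,1,2,3] [[0,1,2,3],[0,1,2,4],[0,1,2,3],[0,1,2,3]],Ref.mk 2935 3922 [0,1,2,3] [[0,1,2,3],[0,1,2,3,4],[0,1,2,3,4],[0,1,2,3,4]]],
Node.mk [0,820,182,1542,2448,2216,2386,2529] [(0,3),(1,0),(1,2),(2,1),(3,2),(3,3)] [Ref.mk 189 3914 [0,1,2,3] [[0,1,2,3],[0,1,2,3,4],[0,1,2,3,4],[0,1,2,3]],Ref.mk 918 3920 [0,1,2,3] [[0,1,2,3],[0,1,2,3,4],[0,1,2,3,4],[0,1,2,3]],Ref.mk 3105 3923 [0,1,2,3] [[0,1,2,3],[0,1,2,3,4],[0,1,2,3,4],[0,1,2,3,4]],Ref.mk 36 2306 [0,1,2,3] [[0,1,2,3],[0,1,2,4],[0,1,2,3],[0,1,2,3]]],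
Node.mk [0,820,182,1542,2448,2216,2386,1801,2353,336] [(0,0),(0,1),(3,0),(3,1),(3,2),(3,3)] [],
Node.mk [0,820,182,1542,2448,2216,2386,1801,2353] [(0,1),(1,0),(1,2),(1,3),(3,2),(3,3)] [Ref.mk 336 3925 [0,1,2,3] [[0,1,2,3,4],[0,1,2,3,4],[0,1,2,3,4],[0,1,2,3]],Ref.mk 1092 3615 [3,1,2,0] [[0,1,3,2],[0,1,2,4,3],[0,1,3,2,4],[0,1,3,2]]],
Node.mk [0,820,182,1542,2448,2216,2386,1801,1633] [(1,0),(1,1),(1,2),(1,3),(3,2),(3,3)] [Ref.mk 36 3297 [0,2,1,3] [[2,1,0,4],[2,1,0,4,3],[2,1,0,3,4],[0,1,2,3]],Ref.mk 281 3910 [3,1,2,0] [[0,1,3,2],[0,1,2,3,4],[0,1,3,2],[0,1,3,2]]],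
Node.mk [0,820,182,1542,2448,2216,2386,1801] [(0,0),(0,1),(0,2),(0,3),(2,0),(2,1)] [Ref.mk 2353 3926 [0,1,2,3] [[0,1,2,3,4],[0,1,2,3,4],[0,1,2,3,4],[0,1,2,3]],Ref.mk 1057 3302 [3,1,0,2] [[2,3,1,0],[2,3,0,4,1],[1,2,4,3,0],[4,0,2,1]],Ref.mk 1633 3927 [0,1,2,3] [[0,1,2,3,4],[0,1,2,3,4],[0,1,2,3,4],[0,1,2,3]]],
Node.mk [0,820,182,1542,2448,2216,2386,2530] [(0,3),(1,0),(1,2),(2,1),(3,2),(3,3)] [Ref.mk 271 2401 [1,0,2,3] [[2,0,3,1,4],[1,3,2,0],[4,1,0,2,3],[3,2,1,0]]],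
Node.mk [0,820,182,1542,2448,2216,2386,1810,2353] [(0,1),(1,0),(1,3),(3,0),(3,2),(3,3)] [Ref.mk 1092 3367 [0,2,3,1] [[1,0,3,2,4],[2,0,4,3,1],[3,0,1,2],[4,0,2,3]]],
Node.mk [0,820,182,1542,2448,2216,2386,1810,1633] [(1,0),(1,1),(1,2),(1,3),(3,2),(3,3)] [Ref.mk 36 2058 [0,1,2,3] [[0,1,2,3,4],[0,1,2,4],[0,1,2,3],[0,1,2,3]],Ref.mk 281 3910 [3,1,2,0] [[0,1,3,2],[0,1,2,3,4],[0,1,3,2],[0,1,3,2]]],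
Node.mk [0,820,182,1542,2448,2216,2386,1810] [(0,0),(0,1),(0,2),(0,3),(1,2),(2,1)] [Ref.mk 2353 3930 [0,1,2,3] [[0,1,2,3,4],[0,1,2,3,4],[0,1,2,3,4],[0,1,2,3]],Ref.mk 1057 3301 [2,1,0,3] [[4,2,1,0,3],[3,2,0,4,1],[1,2,3,4,0],[2,0,3,1]],Ref.mk 1471 3702 [1,2,0,3] [[1,2,0,3,4],[0,2,1,3,4],[4,2,3,1,0],[2,0,3,1]],Ref.mk 1633 3931 [0,1,2,3] [[0,1,2,3,4],[0,1,2,3,4],[0,1,2,3,4],[0,1,2,3]]],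
Node.mk [0,820,182,1542,2448,2216,2386] [(1,0),(1,1),(2,0),(2,1),(2,2),(2,3)] [Ref.mk 2529 3924 [0,1,2,3] [[0,1,2,3],[0,1,2,3,4],[0,1,2,3,4],[0,1,2,3]],Ref.mk 1801 3928 [0,1,2,3] [[0,1,2,3],[0,1,2,3,4],[0,1,2,3,4],[0,1,2,3]],Ref.mk 2530 3929 [0,1,2,3] [[0,1,2,3],[0,1,2,3,4],[0,1,2,3,4],[0,1,2,3]],Ref.mk 1810 3932 [0,1,2,3] [[0,1,2,3],[0,1,2,3,4],[0,1,2,3,4],[0,1,2,3]],Ref.mk 1819 3615 [0,1,2,3] [[0,1,2,3],[0,1,2,4,3],[0,1,2,3,4],[0,1,2,3]],Ref.mk 1828 3615 [0,1,2,3] [[0,1,2,3],[0,1,2,5,3],[0,1,2,3,4],[0,1,2,3]],Ref.mk 1092 3554 [2,1,0,3] [[2,1,3,4,0],[4,0,2,1,3],[1,3,0,2],[3,2,1,0]]],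
Node.mk [0,820,182,1542,2448,2216] [(0,2),(1,0),(1,1),(1,2),(1,3),(2,1)] [Ref.mk 36 2306 [0,1,2,3] [[0,1,2,3],[0,1,2,4],[0,1,2,3],[0,1,2,3]],Ref.mk 2385 3910 [0,1,2,3] [[0,1,2,3],[0,1,2,3,4],[0,1,2,3],[0,1,2,3]],Ref.mk 1495 3317 [0,1,2,3] [[0,1,2,3],[0,1,2,4,3],[0,1,2,3],[0,1,2,3]],Ref.mk 1657 3832 [3,2,1,0] [[2,3,1,0],[2,3,1,0],[4,2,1,0,3],[1,0,2,3]],Ref.mk 2386 3933 [0,1,2,3] [[0,1,2,3],[0,1,2,3,4],[0,1,2,3],[0,1,2,3]],Ref.mk 1738 3832 [0,2,1,3] [[1,2,3,0],[3,2,1,0],[4,2,0,1,3],[2,0,3,1]],Ref.mk 1819 3615 [0,1,2,3] [[0,1,2,3],[0,1,2,4,3],[0,1,2,3,4],[0,1,2,3]],Ref.mk 768 3317 [3,1,2,0] [[0,1,3,2],[0,1,2,4,3],[0,1,3,2],[0,1,3,2]],Ref.mk 930 3832 [3,2,1,0] [[1,3,2,0],[2,3,1,0],[4,2,0,1,3],[3,0,2,1]],Ref.mk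 1011 3832 [0,2,1,3] [[3,2,1,0],[3,2,1,0],[4,2,1,0,3],[1,0,3,2]],Ref.mk 1092 3615 [3,1,2,0] [[0,1,3,2],[0,1,2,4,3],[0,1,3,2,4],[0,1,3,2]]],
Node.mk [0,820,182,1542,2448] [(1,0),(1,1),(1,2),(2,1),(2,2),(2,3)] [Ref.mk 27 2306 [0,1,2,3] [[0,1,2,3],[0,1,2,3],[0,1,2,3],[0,1,2,3]],Ref.mk 351 3189 [0,1,2,3] [[0,1,2,3],[0,1,2,3],[0,1,2,3,4],[0,1,2,3]],Ref.mk 1486 3555 [0,1,2,3] [[0,1,2,3],[0,1,2,3],[0,1,2,3],[0,1,2,3]],Ref.mk 1810 3832 [0,1,2,3] [[0,1,2,3],[0,1,2,3],[0,1,2,3,4],[0,1,2,3]],Ref.mk 2216 3934 [0,1,2,3] [[0,1,2,3],[0,1,2,3],[0,1,2,3],[0,1,2,3]],Ref.mk 759 3555 [3,1,2,0] [[0,1,3,2],[0,1,2,3],[0,1,3,2],[0,1,3,2]],Ref.mk 1083 3832 [3,1,2,0] [[0,1,3,2],[0,1,2,3],[0,1,3,2,4],[0,1,3,2]]],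
Node.mk [0,820,182,1542,2431,1710,2295,2936] [(0,0),(0,1),(0,2),(0,3),(2,0),(2,1)] [Ref.mk 3082 3935 [0,1,3,2] [[1,2,0,4],[0,2,1],[3,4,2,1],[3,0,2,1]],Ref.mk 3091 3935 [0,3,2,1] [[0,4,1,2],[0,4,3],[0,2,3,1],[0,1,2,3]],Ref.mk 184 3935 [2,1,0,3] [[0,1,2,3],[0,1,2],[0,1,4,2],[0,1,3,4]],Ref.mk 913 3933 [2,3,1,0] [[1,0,3,2],[1,4,3,2,0],[1,2,0,3],[1,2,4,0]],Ref.mk 265 3935 [0,2,1,3] [[1,2,0,4],[3,0,1],[0,2,3,1],[3,4,0,1]],Ref.mk 994 3935 [0,2,1,3] [[0,2,3,4],[3,2,1],[1,2,0,3],[2,0,1,3]],Ref.mk 346 3935 [2,1,0,3] [[0,1,4,3],[0,1,2],[0,1,4,2],[0,1,3,4]],Ref.mk 1075 3933 [2,3,1,0] [[1,0,3,4],[1,4,3,2,0],[1,2,0,3],[1,2,4,0]]],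
Node.mk [0,820,182,1542,2431,1710,2295] [(2,1),(2,2),(3,0),(3,1),(3,2),(3,3)] [Ref.mk 2934 3935 [2,0,1,3] [[1,2,3,0],[0,2,1],[3,2,0,1],[3,0,4,1]],Ref.mk 3177 3935 [0,1,2,3] [[0,1,2,3],[0,1,2],[0,1,2,3],[0,1,2,4]],Ref.mk 3258 3935 [0,1,2,3] [[0,1,2,3],[0,1,2],[0,1,2,4],[0,1,2,4]],Ref.mk 2935 3934 [2,0,1,3] [[3,2,1,0],[1,2,0,3],[0,2,3,1],[3,0,4,2]],Ref.mk 3178 3935 [0,2,1,3] [[0,2,3,1],[3,2,1],[1,2,0,3],[2,0,4,3]],Ref.mk 3259 3934 [2,0,1,3] [[3,2,1,4],[1,2,0,3],[0,2,3,1],[3,0,4,2]],Ref.mk 2918 3935 [2,1,0,3] [[1,2,3,0],[0,2,1],[3,2,0,1],[2,0,4,1]],Ref.mk 3161 3935 [1,0,2,3] [[0,1,2,3],[0,1,2],[0,1,2,3],[0,1,3,4]],Ref.mk 3242 3935 [1,0,2,3] [[0,1,2,3],[0,1,2],[0,1,2,4],[0,1,3,4]],Ref.mk 2927 3934 [2,1,0,3]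 [[3,2,1,0],[1,2,0,3],[0,2,3,1],[2,0,4,3]],Ref.mk 3170 3935 [1,2,0,3] [[0,2,3,1],[3,2,1],[1,2,0,3],[3,0,4,2]],Ref.mk 3251 3934 [2,1,0,3] [[3,2,1,4],[1,2,0,3],[0,2,3,1],[2,0,4,3]],Ref.mk 2936 3936 [0,1,2,3] [[0,1,2,3],[0,1,2,3],[0,1,2,3],[0,1,2,3,4]],Ref.mk 2945 3934 [2,1,0,3] [[1,2,3,0],[3,2,0,1],[0,2,1,3],[3,0,4,2]],Ref.mk 2954 3555 [2,0,1,3] [[0,1,2,3],[0,1,2,3],[0,1,2,4],[0,1,2,4]],Ref.mk 2937 3934 [2,0,1,3] [[1,2,3,0],[3,2,0,1],[0,2,1,3],[2,0,4,3]],Ref.mk 2938 3555 [2,1,0,3] [[0,1,2,3],[0,1,2,3],[0,1,2,4],[0,1,3,4]]],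
Node.mk [0,820,182,1542,2431,1710,2297,1002] [(0,0),(0,1),(0,2),(0,3),(1,0),(3,0)] [Ref.mk 1480 3933 [3,0,1,2] [[3,2,1,0],[2,4,1,3,0],[3,2,1,0],[1,0,2,3]],Ref.mk 2209 3935 [2,1,0,3] [[0,3,2,1],[0,3,2],[0,3,2,4],[0,1,2,3]],Ref.mk 832 3935 [1,2,0,3] [[3,0,2,1],[3,0,1],[3,0,4,2],[1,0,2,3]],Ref.mk 922 3935 [2,1,0,3] [[1,0,2,3],[1,0,3],[1,0,4,2],[1,0,2,3]]],
Node.mk [0,820,182,1542,2431,1710,2297] [(0,0),(0,1),(0,2),(2,1),(3,0),(3,3)] [Ref.mk 1623 3935 [0,1,2,3] [[0,2,3,1],[1,3,0],[3,1,2,0],[2,3,1,0]],Ref.mk 975 3935 [1,2,0,3] [[1,2,0,3],[1,2,3],[1,2,3,0],[1,0,3,2]],Ref.mk 1479 3935 [2,1,0,3] [[0,1,2,3],[0,1,2],[0,1,2,3],[0,1,3,2]],Ref.mk 921 3935 [2,1,0,3] [[1,0,2,3],[1,0,3],[1,0,3,2],[1,0,2,3]],Ref.mk 1002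 3938 [0,1,2,3] [[0,1,2,3],[0,1,2,3],[0,1,2,3],[0,1,2,3]],Ref.mk 1624 3935 [0,1,2,3] [[0,2,4,1],[1,3,0],[3,1,2,0],[2,3,1,0]],Ref.mk 976 3935 [1,2,0,3] [[1,2,0,3],[1,2,3],[1,2,4,0],[1,0,3,2]],Ref.mk 1480 3935 [2,1,0,3] [[0,1,2,3],[0,1,2],[0,1,2,4],[0,1,3,2]],Ref.mk 922 3935 [2,1,0,3] [[1,0,2,3],[1,0,3],[1,0,4,2],[1,0,2,3]]],
Node.mk [0,820,182,1542,2431,1710,1002] [(2,0),(2,1),(2,2),(2,3),(3,0),(3,1)] [Ref.mk 1800 3934 [0,3,1,2] [[3,2,1,0],[2,0,1,3],[0,2,1,3],[1,2,4,3]],Ref.mk 2529 3934 [2,0,1,3] [[3,2,1,4],[0,2,3,1],[1,2,0,3],[2,0,3,1]],Ref.mk 3258 3934 [2,0,1,3] [[3,2,1,4],[0,2,3,1],[1,2,0,3],[2,0,4,1]],Ref.mk 1810 3935 [0,1,3,2] [[1,2,3,0],[0,2,3],[3,0,1,2],[3,2,0,4]],Ref.mk 1784 3935 [1,3,0,2] [[1,2,3,0],[2,0,1],[0,2,3,1],[3,2,4,1]],Ref.mk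 2513 3934 [2,1,0,3] [[1,2,3,4],[0,2,1,3],[3,2,0,1],[2,0,3,1]],Ref.mk 3242 3934 [2,1,0,3] [[1,2,3,4],[0,2,1,3],[3,2,0,1],[2,0,4,1]],Ref.mk 2523 3935 [0,1,3,2] [[3,2,1,0],[0,2,1],[2,0,1,3],[1,2,0,4]]],
Node.mk [0,820,182,1542,2431,1710] [(1,0),(1,1),(1,2),(2,2),(3,0),(3,2)] [Ref.mk 2295 3937 [0,1,2,3] [[0,1,2,3],[0,1,2,3],[0,1,2,3],[0,1,2,3]],Ref.mk 758 3934 [1,3,0,2] [[1,2,0,3],[1,0,2,3],[1,2,3,0],[1,2,0,3]],Ref.mk 2216 3934 [1,3,0,2] [[0,2,1,3],[3,0,2,1],[1,2,0,3],[3,2,0,1]],Ref.mk 2945 3555 [2,0,1,3] [[0,1,2,3],[0,1,2,3],[0,1,2,3],[0,1,2,4]],Ref.mk 839 3935 [1,2,0,3] [[0,2,1,3],[1,2,3],[3,2,0,1],[2,0,1,3]],Ref.mk 2297 3939 [0,1,2,3] [[0,1,2,3],[0,1,2,3],[0,1,2,3],[0,1,2,3]],Ref.mk 3026 3935 [1,2,0,3] [[0,2,1,3],[1,2,3],[3,2,0,1],[2,0,4,3]],Ref.mk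 1001 3939 [3,2,1,0] [[1,2,0,3],[3,1,2,0],[3,0,2,1],[2,3,1,0]],Ref.mk 1082 3934 [1,3,0,2] [[1,2,0,3],[1,0,2,3],[1,2,3,0],[1,2,4,3]],Ref.mk 1002 3940 [0,1,2,3] [[0,1,2,3],[0,1,2,3],[0,1,2,3],[0,1,2,3]]],
Node.mk [0,820,182,1542,2431,1476,2298,2362] [(0,0),(0,1),(0,2),(1,1),(1,2),(2,1)] [Ref.mk 3 3935 [2,1,0,3] [[0,1,2,3],[0,1,2],[3,1,2,0],[0,1,3,2]],Ref.mk 732 3935 [0,2,1,3] [[3,2,1,0],[0,2,1],[0,2,1,3],[1,0,2,3]],Ref.mk 894 3935 [0,2,1,3] [[3,0,1,2],[2,0,1],[0,2,1,3],[1,2,0,3]],Ref.mk 1623 3935 [2,1,0,3] [[2,1,0,3],[0,1,2],[3,1,0,2],[2,1,3,0]],Ref.mk 30 3386 [1,0,3,2] [[0,2,1,3],[3,2,1,0,4],[2,0,1,3],[1,2,0,3]],Ref.mk 39 3386 [1,0,3,2] [[0,2,1,4],[3,2,1,0,4],[2,0,1,3],[1,2,0,3]],Ref.mk 4 3935 [2,1,0,3] [[0,1,2,3],[0,1,2],[4,1,2,0],[0,1,3,2]],Ref.mk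 1624 3935 [2,1,0,3] [[2,1,0,3],[0,1,2],[4,1,0,2],[2,1,3,0]],Ref.mk 31 3500 [1,0,2,3] [[1,2,0,3],[4,0,1,2,3],[2,0,3,1],[3,2,0,1]],Ref.mk 40 3554 [1,0,2,3] [[1,2,0,4,3],[4,0,1,2,3],[2,0,3,1],[3,2,0,1]],Ref.mk 5 3935 [2,1,0,3] [[0,1,2,3],[0,1,2],[5,1,2,0],[0,1,3,2]],Ref.mk 1625 3935 [2,1,0,3] [[2,1,0,3],[0,1,2],[5,1,0,2],[2,1,3,0]]],
Node.mk [0,820,182,1542,2431,1476,2298,2209] [(0,0),(0,1),(1,1),(1,2),(2,0),(2,1)] [Ref.mk 894 3935 [0,2,1,3] [[3,0,1,2],[2,0,1],[0,2,1,3],[1,2,0,3]],Ref.mk 975 3935 [0,3,1,2] [[3,2,1,4],[3,0,1],[3,2,1,0],[1,2,0,3]],Ref.mk 1056 3935 [0,3,1,2] [[3,2,1,4],[3,0,1],[3,2,1,0],[1,2,0,4]],Ref.mk 1002 3935 [2,1,0,3] [[0,3,2,1],[0,3,2],[0,3,2,4],[0,1,2,3]],Ref.mk 1011 2405 [0,3,1,2] [[3,2,1,4],[3,0,1,2],[3,2,1,4,0],[1,2,0,3]],Ref.mk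 1624 3935 [2,1,0,3] [[2,1,0,3],[0,1,2],[4,1,0,2],[2,1,3,0]]],
Node.mk [0,820,182,1542,2431,1476,2298] [(0,0),(0,1),(0,2),(0,3),(2,1),(3,0)] [Ref.mk 1624 3832 [2,1,0,3] [[2,1,0,3],[0,1,2,3],[4,1,0,2,3],[2,1,3,0]],Ref.mk 2362 3942 [0,1,2,3] [[0,1,2,3,4],[0,1,2,3],[0,1,2,3],[0,1,2,3]],Ref.mk 751 3935 [0,3,1,2] [[1,2,3,4],[1,0,3],[1,2,3,0],[1,2,0,3]],Ref.mk 1480 3832 [2,1,0,3] [[0,1,2,3],[0,1,2,3],[0,1,2,4,3],[0,1,3,2]],Ref.mk 2209 3943 [0,1,2,3] [[0,1,2,3,4],[0,1,2,3],[0,1,2,3],[0,1,2,3]],Ref.mk 2938 3832 [2,1,0,3] [[0,1,2,3],[0,1,2,3],[0,1,2,4,3],[0,1,3,4]]],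
Node.mk [0,820,182,1542,2431,1476,31] [(0,0),(0,1),(2,0),(2,1),(3,0),(3,1)] [Ref.mk 1712 3317 [2,0,3,1] [[3,0,1,2],[2,4,1,0,3],[2,0,1,3],[1,3,2,0]],Ref.mk 2361 3934 [0,3,2,1] [[3,4,1,0],[2,0,3,1],[1,0,3,2],[0,3,2,1]],Ref.mk 1713 3935 [0,1,3,2] [[1,2,3,0],[0,2,1],[3,0,2,1],[3,2,0,1]],Ref.mk 2442 3832 [1,3,0,2] [[2,1,3,0],[2,3,0,1],[0,3,4,2,1],[0,3,1,2]],Ref.mk 3171 3819 [1,3,0,2] [[2,1,3,0],[2,4,0,1,3],[0,3,4,2,1],[0,3,1,2]],Ref.mk 2523 3934 [0,3,2,1] [[3,4,1,0],[2,0,3,1],[1,0,3,4],[0,3,2,1]],Ref.mk 1624 3934 [2,1,0,3] [[2,1,0,3],[0,1,2,3],[4,1,0,2],[2,1,3,0]],Ref.mk 1633 3934 [2,1,0,3] [[2,3,0,1],[1,0,2,3],[4,1,0,2],[2,3,1,0]],Ref.mk 2362 3386 [1,0,2,3] [[1,2,0,3],[4,0,1,2,3],[2,0,3,1],[3,2,0,1]],Ref.mk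 1714 3317 [1,0,3,2] [[1,2,0,3],[4,2,1,0,3],[2,0,3,1],[3,2,0,1]],Ref.mk 1715 3935 [0,1,3,2] [[1,2,5,0],[0,2,1],[3,0,2,1],[3,2,0,1]]],
Node.mk [0,820,182,1542,2431,1476,2299] [(0,0),(0,1),(0,2),(1,0),(1,2),(3,3)] [Ref.mk 12 3832 [3,1,0,2] [[0,3,2,1],[1,0,2,3],[3,1,0,2,4],[0,3,1,2]],Ref.mk 30 3500 [1,0,3,2] [[0,2,1,3],[3,2,1,0,4],[2,0,1,3],[1,2,0,3]],Ref.mk 1002 3934 [0,3,1,2] [[3,2,1,0],[2,0,1,3],[0,2,1,3],[1,2,0,3]],Ref.mk 39 3554 [1,0,3,2] [[0,2,1,4,3],[3,2,1,0,4],[2,0,1,3],[1,2,0,3]],Ref.mk 13 3555 [3,1,0,2] [[0,3,2,1],[1,0,2,3],[4,1,0,2],[0,3,1,2]],Ref.mk 1633 3555 [3,1,0,2] [[2,3,0,1],[1,0,2,3],[4,1,2,0],[2,3,1,0]],Ref.mk 256 3941 [1,2,0,3] [[0,1,2,3],[1,3,0],[3,4,0,1],[2,0,3,1]],Ref.mk 1714 3934 [0,3,1,2]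 [[4,2,1,0],[2,0,3,1],[1,2,0,3],[3,2,0,1]],Ref.mk 31 3945 [0,1,2,3] [[0,1,2,3,4],[0,1,2,3],[0,1,2,3],[0,1,2,3]],Ref.mk 40 3945 [0,1,2,3] [[0,1,2,3,4],[0,1,2,4],[0,1,2,3],[0,1,2,3]],Ref.mk 14 3832 [3,1,0,2] [[0,3,2,1],[1,0,2,3],[5,1,0,2,4],[0,3,1,2]],Ref.mk 32 3945 [0,1,2,3] [[0,1,2,3,5],[0,1,2,3],[0,1,2,3],[0,1,2,3]],Ref.mk 41 3945 [0,1,2,3] [[0,1,2,3,5],[0,1,2,4],[0,1,2,3],[0,1,2,3]]],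
Node.mk [0,820,182,1542,2431,1476] [(0,0),(0,1),(0,2),(1,0),(1,1),(1,2)] [Ref.mk 30 3555 [1,0,3,2] [[0,2,1,3],[3,2,1,0],[2,0,1,3],[1,2,0,3]],Ref.mk 2298 3944 [0,1,2,3] [[0,1,2,3],[0,1,2,3],[0,1,2,3],[0,1,2,3]],Ref.mk 1002 3934 [0,3,1,2] [[3,2,1,0],[2,0,1,3],[0,2,1,3],[1,2,0,3]],Ref.mk 31 3945 [0,1,2,3] [[0,1,2,3,4],[0,1,2,3],[0,1,2,3],[0,1,2,3]],Ref.mk 2299 3946 [0,1,2,3] [[0,1,2,3,4],[0,1,2,3],[0,1,2,3],[0,1,2,3]]],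
Node.mk [0,820,182,1542,2431,2934,2281] [(0,0),(1,0),(1,1),(1,2),(2,0),(2,1)] [],
Node.mk [0,820,182,1542,2431,2934,31] [(0,0),(0,1),(2,0),(2,1),(3,0),(3,1)] [Ref.mk 1712 3615 [2,0,3,1] [[3,0,1,2],[2,4,1,0,3],[2,0,1,3,4],[1,3,2,0]],Ref.mk 2361 3832 [1,2,0,3] [[2,0,3,1],[2,1,0,3],[2,3,4,0,1],[0,2,3,4]],Ref.mk 1713 3935 [0,1,3,2] [[1,2,3,0],[0,2,1],[3,0,2,1],[3,2,0,1]],Ref.mk 2442 3935 [0,1,3,2] [[3,2,1,0],[0,2,1],[2,0,1,3],[1,2,0,3]],Ref.mk 3171 3819 [1,3,0,2] [[2,0,3,1],[4,2,0,3,1],[0,3,4,2,1],[0,1,3,2]],Ref.mk 3900 3935 [0,1,3,2] [[3,2,1,0],[0,2,1],[2,0,1,5],[1,2,0,3]],Ref.mk 2523 3935 [0,1,3,2] [[3,2,1,0],[0,2,1],[2,0,1,3],[1,2,0,4]],Ref.mk 3082 3934 [2,1,0,3] [[2,1,0,3],[0,1,2,3],[4,1,0,2],[4,1,3,0]],Ref.mk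 3091 3832 [2,1,3,0] [[1,0,3,2],[1,2,0,3],[1,4,3,2,0],[1,0,4,3]],Ref.mk 1714 3615 [1,0,3,2] [[1,2,0,3],[4,2,1,0,3],[2,0,3,1,4],[3,2,0,1]],Ref.mk 1715 3935 [0,1,3,2] [[1,2,5,0],[0,2,1],[3,0,2,1],[3,2,0,1]]],
Node.mk [0,820,182,1542,2431,2934,2299] [(0,0),(0,1),(0,2),(1,0),(1,2),(2,1)] [Ref.mk 12 3832 [3,1,0,2] [[0,3,4,1],[1,0,2,3],[3,1,0,2,4],[0,3,1,2]],Ref.mk 2199 3941 [2,1,0,3] [[0,1,2,3],[0,1,2],[0,1,2,3],[0,1,3,2]],Ref.mk 2361 3935 [0,2,1,3] [[3,0,4,2],[2,0,1],[1,2,3,0],[3,4,0,2]],Ref.mk 2442 3935 [0,1,3,2] [[3,2,1,0],[0,2,1],[2,0,1,3],[1,2,0,3]],Ref.mk 2523 3935 [0,1,3,2] [[3,2,1,0],[0,2,1],[2,0,1,3],[1,2,0,4]],Ref.mk 30 3706 [1,0,3,2] [[0,2,1,3],[3,2,1,0,4],[2,0,1,3,4],[1,2,0,3]],Ref.mk 1002 3935 [0,1,3,2]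 [[3,2,4,0],[0,2,3],[2,0,3,1],[1,2,0,3]],Ref.mk 39 3831 [1,0,3,2] [[0,2,1,4,3],[3,2,1,0,4],[2,0,1,3,4],[1,2,0,3]],Ref.mk 13 3555 [3,1,0,2] [[0,3,4,1],[1,0,2,3],[4,1,0,2],[0,3,1,2]],Ref.mk 3091 3555 [3,1,0,2] [[4,3,0,1],[1,0,2,3],[4,1,2,0],[2,3,1,0]],Ref.mk 1714 3934 [0,1,3,2] [[1,2,4,0],[0,2,1,3],[3,0,2,1],[3,2,0,1]],Ref.mk 31 3949 [0,1,2,3] [[0,1,2,3,4],[0,1,2,3],[0,1,2,3],[0,1,2,3,4]],Ref.mk 40 3949 [0,1,2,3] [[0,1,2,3,4],[0,1,2,4],[0,1,2,3],[0,1,2,3,4]],Ref.mk 14 3832 [3,1,0,2] [[0,3,4,1],[1,0,2,3],[5,1,0,2,4],[0,3,1,2]],Ref.mk 32 3949 [0,1,2,3] [[0,1,2,3,5],[0,1,2,3],[0,1,2,3],[0,1,2,3,4]],Ref.mk 41 3949 [0,1,2,3] [[0,1,2,3,5],[0,1,2,4],[0,1,2,3],[0,1,2,3,4]]],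
Node.mk [0,820,182,1542,2431,2934] [(0,0),(0,1),(0,2),(0,3),(1,0),(1,2)] [Ref.mk 13 3935 [2,1,0,3] [[0,3,2,1],[1,0,2],[4,1,2,0],[0,3,1,4]],Ref.mk 2281 3948 [0,1,2,3] [[0,1,2,3,4],[0,1,2],[0,1,2,3],[0,1,2,3,4]],Ref.mk 3091 3935 [0,1,3,2] [[1,0,3,4],[1,2,0],[1,4,2,3],[1,0,2,3]],Ref.mk 1714 3935 [0,1,3,2] [[1,2,4,0],[0,2,1],[3,0,2,1],[3,2,0,1]],Ref.mk 31 3949 [0,1,2,3] [[0,1,2,3,4],[0,1,2,3],[0,1,2,3],[0,1,2,3,4]],Ref.mk 2299 3950 [0,1,2,3] [[0,1,2,3,4],[0,1,2,3],[0,1,2,3],[0,1,2,3,4]]],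
Node.mk [0,820,182,1542,2431,1719,111,1074] [(0,1),(1,2),(2,1),(2,2),(2,3),(3,0)] [Ref.mk 729 3935 [0,1,3,2] [[0,3,1,2],[2,3,0],[2,0,3,1],[3,1,2,0]],Ref.mk 1053 3935 [0,1,3,2] [[0,3,1,2],[2,3,0],[2,0,3,1],[3,1,2,4]],Ref.mk 1134 3935 [0,1,3,2] [[0,3,1,2],[2,3,0],[2,0,3,1],[3,1,2,5]],Ref.mk 1460 3935 [0,3,2,1] [[2,1,0,3],[0,1,2],[2,1,3,0],[2,1,3,0]],Ref.mk 1784 3935 [0,3,2,1] [[0,1,2,3],[0,1,2],[0,1,4,3],[0,1,3,2]],Ref.mk 1865 3935 [0,3,2,1] [[0,1,2,3],[0,1,2],[0,1,5,3],[0,1,3,2]],Ref.mk 758 3935 [2,1,0,3] [[3,0,1,2],[2,3,0],[0,2,3,1],[2,1,0,3]],Ref.mk 1082 3935 [1,0,3,2] [[0,3,2,1],[1,2,0],[3,1,2,0],[3,4,1,0]],Ref.mk 1163 3935 [1,0,3,2] [[0,3,2,1],[1,2,0],[3,1,2,0],[3,5,1,0]],Ref.mk 732 3935 [0,3,1,2] [[3,0,1,2],[0,2,1],[3,2,1,0],[1,3,2,0]],Ref.mk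 1056 3935 [0,3,1,2] [[3,0,1,2],[0,2,1],[3,2,1,0],[1,3,2,4]],Ref.mk 1137 3935 [0,3,1,2] [[3,0,1,2],[0,2,1],[3,2,1,0],[1,3,2,5]],Ref.mk 2199 3941 [2,1,0,3] [[0,1,2,3],[0,1,2],[0,1,2,3],[0,1,3,2]],Ref.mk 2523 3935 [0,1,3,2] [[3,2,1,0],[0,2,1],[2,0,1,3],[1,2,0,4]],Ref.mk 2604 3935 [0,1,3,2] [[3,2,1,0],[0,2,1],[2,0,1,3],[1,2,0,5]]],
Node.mk [0,820,182,1542,2431,1719,111] [(0,1),(2,0),(2,1),(2,2),(2,3),(3,0)] [Ref.mk 1053 3935 [0,1,3,2] [[0,3,1,2],[2,3,0],[2,0,3,1],[3,1,2,4]],Ref.mk 2529 3935 [0,1,2,3] [[0,1,2,3],[0,1,2],[0,1,2,4],[0,1,2,3]],Ref.mk 1784 3935 [0,3,2,1] [[0,1,2,3],[0,1,2],[0,1,4,3],[0,1,3,2]],Ref.mk 1082 3935 [1,0,3,2] [[0,3,2,1],[1,2,0],[3,1,2,0],[3,4,1,0]],Ref.mk 1056 3935 [0,3,1,2] [[3,0,1,2],[0,2,1],[3,2,1,0],[1,3,2,4]],Ref.mk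 2523 3935 [0,1,3,2] [[3,2,1,0],[0,2,1],[2,0,1,3],[1,2,0,4]],Ref.mk 1074 3952 [0,1,2,3] [[0,1,2,3],[0,1,2,3],[0,1,2,3,4],[0,1,2,3]]],
Node.mk [0,820,182,1542,2431,1719,273,2376] [(0,0),(0,1),(0,2),(0,3),(2,1),(2,2)] [Ref.mk 733 3935 [0,3,2,1] [[1,2,4,0],[3,0,1],[3,2,0,1],[0,2,3,1]],Ref.mk 976 3935 [0,2,3,1] [[0,1,2,4],[3,1,2],[2,1,0,3],[2,1,0,3]],Ref.mk 1057 3935 [0,3,2,1] [[1,2,4,0],[3,0,1],[3,2,4,1],[0,2,3,1]],Ref.mk 1714 3935 [0,1,3,2] [[1,2,4,0],[0,2,1],[3,0,2,1],[3,2,0,1]],Ref.mk 274 3935 [0,1,2,3] [[0,1,4,3],[0,1,3],[0,1,3,2],[0,1,2,3]]],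
Node.mk [0,820,182,1542,2431,1719,273,2208] [(0,1),(0,3),(1,0),(1,1),(1,2),(2,1)] [Ref.mk 27 3935 [0,3,2,1] [[0,1,2,3],[2,1,0],[3,1,2,0],[2,1,0,3]],Ref.mk 918 3935 [0,1,2,3] [[3,0,1,2],[2,3,0],[0,2,3,1],[3,1,0,2]],Ref.mk 2376 3954 [0,1,2,3] [[0,1,2,3],[0,1,2,3],[0,1,2,3],[0,1,2,3]],Ref.mk 36 3935 [0,3,2,1] [[0,1,2,3],[2,1,0],[3,1,2,0],[2,1,0,4]],Ref.mk 927 3935 [1,0,3,2] [[2,1,3,4],[0,1,3],[2,1,0,3],[3,1,2,0]],Ref.mk 758 3935 [2,1,0,3] [[3,0,1,2],[2,3,0],[0,2,3,1],[2,1,0,3]],Ref.mk 1487 3954 [2,1,0,3] [[0,1,2,3],[0,1,2,3],[0,1,2,3],[0,1,3,2]],Ref.mk 920 3935 [0,2,3,1] [[3,2,0,1],[1,2,0],[2,1,0,3],[0,3,1,2]],Ref.mk 1001 3935 [0,2,3,1] [[3,2,0,1],[1,3,0],[2,1,0,3],[0,3,1,2]],Ref.mk 1082 3933 [0,2,3,1] [[3,2,0,1],[1,4,0,3,2],[2,1,0,3],[0,3,1,2]],Ref.mk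 767 3935 [0,2,3,1] [[3,1,0,2],[0,1,3],[3,1,2,0],[2,1,4,3]],Ref.mk 929 3935 [0,2,3,1] [[3,2,0,1],[1,2,0],[2,1,0,3],[0,4,1,2]],Ref.mk 1010 3935 [0,2,3,1] [[3,2,0,1],[1,3,0],[2,1,0,3],[0,4,1,2]],Ref.mk 1091 3937 [1,3,2,0] [[2,0,4,3],[0,3,1,2],[2,3,4,0],[2,1,3,0]],Ref.mk 922 3933 [2,0,3,1] [[3,2,0,1],[1,4,0,3,2],[3,1,0,2],[0,3,1,2]],Ref.mk 931 3937 [1,3,0,2] [[2,0,4,3],[0,2,1,3],[2,3,4,0],[2,1,3,0]]],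
Node.mk [0,820,182,1542,2431,1719,273] [(0,1),(1,1),(2,1),(2,3),(3,0),(3,1)] [Ref.mk 1647 3935 [1,2,0,3] [[3,1,2,0],[3,1,2],[3,1,2,0],[0,1,3,2]],Ref.mk 2376 3954 [0,1,2,3] [[0,1,2,3],[0,1,2,3],[0,1,2,3],[0,1,2,3]],Ref.mk 3105 3935 [1,2,0,3] [[3,1,2,0],[3,1,2],[3,1,2,0],[0,1,3,4]],Ref.mk 1487 3940 [1,2,3,0] [[0,3,1,2],[3,0,1,2],[3,2,1,0],[1,2,0,3]],Ref.mk 1623 3937 [1,2,3,0] [[0,2,1,3],[3,2,1,0],[3,0,1,2],[1,2,3,0]],Ref.mk 1479 3935 [2,1,0,3] [[0,1,2,3],[0,1,2],[0,1,2,3],[0,1,3,2]],Ref.mk 2208 3955 [0,1,2,3] [[0,1,2,3],[0,1,2,3],[0,1,2,3],[0,1,2,3]],Ref.mk 2937 3935 [2,1,0,3] [[0,1,2,3],[0,1,2],[0,1,2,3],[0,1,3,4]]],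
Node.mk [0,820,182,1542,2431,1719,112] [(1,2),(2,1),(2,2),(2,3),(3,0),(3,2)] [Ref.mk 729 3935 [0,1,3,2] [[0,4,1,2],[2,3,0],[2,0,3,1],[3,1,2,0]],Ref.mk 1053 3935 [0,1,3,2] [[0,4,1,2],[2,3,0],[2,0,3,1],[3,1,2,4]],Ref.mk 758 3935 [2,1,0,3] [[3,0,1,2],[2,3,0],[0,2,3,1],[2,1,0,3]],Ref.mk 1082 3935 [1,0,3,2] [[0,3,2,1],[1,2,0],[3,1,2,0],[3,4,1,0]],Ref.mk 733 3935 [0,3,1,2] [[4,0,1,2],[0,2,1],[3,2,1,0],[1,3,2,0]],Ref.mk 1057 3935 [0,3,1,2] [[4,0,1,2],[0,2,1],[3,2,1,0],[1,3,2,4]]],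
Node.mk [0,820,182,1542,2431,1719] [(0,0),(0,1),(0,2),(1,0),(1,1),(1,2)] [Ref.mk 111 3953 [0,1,2,3] [[0,1,2,3],[0,1,2,3],[0,1,2,3],[0,1,2,3]],Ref.mk 2298 3555 [3,2,1,0] [[3,0,1,2],[3,2,1,0],[0,2,1,3],[1,2,0,3]],Ref.mk 921 3935 [1,0,3,2] [[0,3,2,1],[1,3,0],[3,1,2,0],[3,2,1,0]],Ref.mk 273 3956 [0,1,2,3] [[0,1,2,3],[0,1,2,3],[0,1,2,3],[0,1,2,3]],Ref.mk 1002 3941 [3,2,0,1] [[2,1,0,3],[3,1,2],[0,1,2,3],[2,1,0,3]],Ref.mk 112 3957 [0,1,2,3] [[0,1,2,3,4],[0,1,2,3],[0,1,2,3],[0,1,2,3]],Ref.mk 2299 3555 [3,2,1,0] [[3,0,1,2],[3,2,1,0],[0,2,1,3],[1,2,0,4]],Ref.mk 922 3935 [1,0,3,2] [[0,3,2,1],[1,4,0],[3,1,2,0],[3,2,1,0]],Ref.mk 274 3935 [0,2,3,1] [[1,2,3,4],[3,2,1],[3,0,2,1],[0,2,3,1]]],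
Node.mk [0,820,182,1542,2431,1800,2298,2935] [(0,0),(0,1),(0,2),(0,3),(1,2),(2,1)] [],
Node.mk [0,820,182,1542,2431,1800,2298] [(0,0),(2,1),(3,0),(3,1),(3,2),(3,3)] [Ref.mk 2935 3959 [0,1,2,3] [[0,1,2,3],[0,1,2,3],[0,1,2,3,4],[0,1,2,3,4]],Ref.mk 3106 3832 [0,2,3,1] [[1,0,3,2],[2,0,1,4],[4,0,3,1,2],[3,0,2,1]],Ref.mk 3242 3832 [2,1,3,0] [[4,1,2,3],[0,3,2,1],[4,3,0,2,1],[2,3,1,0]],Ref.mk 2936 3832 [2,1,3,0] [[0,1,4,3],[0,3,2,1],[0,3,2,4,1],[0,3,1,2]],Ref.mk 3171 2405 [0,1,3,2] [[3,2,1,0],[0,2,1,3],[2,0,1,4,3],[1,2,0,3]],Ref.mk 2937 3935 [2,1,0,3] [[0,1,2,3],[0,1,2],[0,1,2,3],[0,1,3,4]],Ref.mk 2938 3832 [2,1,3,0] [[0,1,4,3],[0,3,2,1],[0,3,2,4,1],[0,3,1,4]]],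
Node.mk [0,820,182,1542,2431,1800,2299] [(0,1),(1,0),(1,2),(3,0),(3,2),(3,3)] [Ref.mk 900 3832 [2,3,0,1] [[1,2,3,4],[2,1,3,0],[3,0,1,4,2],[0,1,2,3]],Ref.mk 3087 3832 [2,3,0,1] [[1,2,3,4],[2,4,3,0],[3,0,1,4,2],[0,1,2,3]],Ref.mk 918 3555 [0,1,3,2] [[0,1,2,4],[3,0,2,1],[1,3,0,2],[2,3,1,4]],Ref.mk 3105 3832 [0,1,3,2] [[0,1,2,4],[3,0,2,1],[4,3,0,2,1],[2,3,1,4]],Ref.mk 927 3832 [2,3,0,1] [[1,2,3,4],[2,1,3,0],[3,0,1,4,2],[0,4,2,3]],Ref.mk 3114 3832 [2,3,0,1] [[1,2,3,4],[2,4,3,0],[3,0,1,4,2],[0,4,2,3]],Ref.mk 1001 3933 [3,0,1,2] [[1,2,3,0],[2,0,1,4,3],[3,2,0,1],[3,4,2,1]],Ref.mk 1082 3386 [3,2,0,1] [[1,0,3,2],[4,0,1,2,3],[2,0,4,1],[3,0,2,1]],Ref.mk 1002 3934 [0,3,1,2] [[3,2,1,0],[2,0,1,3],[0,2,1,3],[1,2,4,3]]],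
Node.mk [0,820,182,1542,2431,1800,355] [(0,0),(0,1),(1,0),(1,1),(1,2),(2,4)] [Ref.mk 1487 3832 [0,3,2,1] [[2,1,4,3],[2,1,0,3],[0,1,4,2,3],[3,1,0,2]],Ref.mk 1568 3933 [1,2,0,3] [[3,0,2,1],[1,3,4,2,0],[2,1,0,4],[2,3,1,0]],Ref.mk 2297 3555 [2,0,1,3] [[1,4,3,2],[2,0,1,4],[3,2,0,1],[3,2,0,1]],Ref.mk 1001 3386 [2,0,1,3] [[3,4,1,2],[2,0,1,4,3],[3,2,1,0],[1,2,0,3]],Ref.mk 2306 3832 [2,0,1,3] [[1,4,3,2],[2,0,1,4],[4,2,0,1,3],[3,2,0,1]],Ref.mk 2298 3960 [0,1,2,3] [[0,1,2,3],[0,1,2,3],[0,1,2,3,4],[0,1,2,3]],Ref.mk 1002 3934 [0,1,3,2] [[3,2,1,4],[3,2,0,1],[1,0,3,2],[3,2,4,1]],Ref.mk 2307 3960 [0,1,2,3] [[0,1,2,3],[0,1,2,4],[0,1,2,3,4],[0,1,2,3]],Ref.mk 1011 3832 [2,3,0,1] [[4,3,2,1],[2,1,0,3],[0,3,2,4,1],[2,4,0,3]],Ref.mk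 2299 3961 [0,1,2,3] [[0,1,2,3,4],[0,1,2,3],[0,1,2,3,4],[0,1,2,3]],Ref.mk 2308 3961 [0,1,2,3] [[0,1,2,3,4],[0,1,2,4],[0,1,2,3,4],[0,1,2,3]],Ref.mk 2300 3961 [0,1,2,3] [[0,1,2,3,5],[0,1,2,3],[0,1,2,3,4],[0,1,2,3]],Ref.mk 2309 3961 [0,1,2,3] [[0,1,2,3,5],[0,1,2,4],[0,1,2,3,4],[0,1,2,3]]],
Node.mk [0,820,182,1542,2431,1800] [(0,0),(0,1),(0,2),(1,0),(1,1),(1,2)] [Ref.mk 2298 3960 [0,1,2,3] [[0,1,2,3],[0,1,2,3],[0,1,2,3,4],[0,1,2,3]],Ref.mk 1002 3934 [0,3,1,2] [[3,2,1,0],[2,0,1,3],[0,2,1,3],[1,2,4,3]],Ref.mk 354 3555 [1,0,3,2] [[0,2,1,3],[3,2,1,0],[2,0,1,3],[1,2,4,3]],Ref.mk 2299 3961 [0,1,2,3] [[0,1,2,3,4],[0,1,2,3],[0,1,2,3,4],[0,1,2,3]],Ref.mk 355 3962 [0,1,2,3] [[0,1,2,3,4],[0,1,2,3],[0,1,2,3,4],[0,1,2,3]]],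
Node.mk [0,820,182,1542,2431] [(0,1),(0,2),(2,1),(2,2),(3,0),(3,1)] [Ref.mk 1710 3941 [0,1,2,3] [[0,1,2,3],[0,1,2],[0,1,2,3],[0,1,2,3]],Ref.mk 1476 3947 [0,1,2,3] [[0,1,2,3],[0,1,2],[0,1,2,3],[0,1,2,3]],Ref.mk 2205 3947 [2,1,0,3] [[0,1,2,3],[0,1,2],[0,1,2,3],[0,1,3,2]],Ref.mk 2934 3951 [0,1,2,3] [[0,1,2,3],[0,1,2],[0,1,2,3],[0,1,2,3,4]],Ref.mk 1719 3958 [0,1,2,3] [[0,1,2,3],[0,1,2],[0,1,2,3],[0,1,2,3]],Ref.mk 2448 3935 [0,1,2,3] [[0,1,2,3],[0,1,2],[0,1,2,3],[0,1,2,3]],Ref.mk 3177 3935 [0,1,2,3] [[0,1,2,3],[0,1,2],[0,1,2,3],[0,1,2,4]],Ref.mk 1800 3963 [0,1,2,3] [[0,1,2,3],[0,1,2],[0,1,2,3,4],[0,1,2,3]],Ref.mk 2529 3935 [0,1,2,3] [[0,1,2,3],[0,1,2],[0,1,2,4],[0,1,2,3]],Ref.mk 3258 3935 [0,1,2,3] [[0,1,2,3],[0,1,2],[0,1,2,4],[0,1,2,4]],Ref.mk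 2199 3941 [2,1,0,3] [[0,1,2,3],[0,1,2],[0,1,2,3],[0,1,3,2]],Ref.mk 1713 3935 [0,1,3,2] [[1,2,3,0],[0,2,1],[3,0,2,1],[3,2,0,1]],Ref.mk 2442 3935 [0,1,3,2] [[3,2,1,0],[0,2,1],[2,0,1,3],[1,2,0,3]],Ref.mk 3171 3935 [0,1,3,2] [[1,2,3,0],[0,2,1],[3,0,4,1],[3,2,0,1]],Ref.mk 2523 3935 [0,1,3,2] [[3,2,1,0],[0,2,1],[2,0,1,3],[1,2,0,4]],Ref.mk 1479 3935 [2,1,0,3] [[0,1,2,3],[0,1,2],[0,1,2,3],[0,1,3,2]],Ref.mk 2208 3958 [2,1,0,3] [[0,1,2,3],[0,1,2],[0,1,2,3],[0,1,3,2]],Ref.mk 2937 3935 [2,1,0,3] [[0,1,2,3],[0,1,2],[0,1,2,3],[0,1,3,4]],Ref.mk 1714 3935 [0,1,3,2] [[1,2,4,0],[0,2,1],[3,0,2,1],[3,2,0,1]],Ref.mk 1480 3935 [2,1,0,3] [[0,1,2,3],[0,1,2],[0,1,2,4],[0,1,3,2]],Ref.mk 2209 3963 [2,1,0,3] [[0,1,2,3],[0,1,2],[0,1,2,3,4],[0,1,3,2]],Ref.mk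 2938 3935 [2,1,0,3] [[0,1,2,3],[0,1,2],[0,1,2,4],[0,1,3,4]]],
Node.mk [0,820,182,1542,2449,272,1719] [(0,1),(0,2),(2,1),(3,0),(3,1),(3,2)] [Ref.mk 2448 3935 [0,1,2,3] [[0,1,2,3],[0,1,2],[0,1,2,3],[0,1,2,3]],Ref.mk 3177 3935 [0,1,2,3] [[0,1,2,3],[0,1,2],[0,1,2,3],[0,1,2,4]],Ref.mk 2376 3935 [0,1,2,3] [[0,1,2,3],[0,1,3],[0,1,3,2],[0,1,2,3]],Ref.mk 2199 3935 [0,2,1,3] [[0,1,2,3],[0,1,3],[0,1,3,2],[0,1,3,2]],Ref.mk 2928 3935 [0,2,1,3] [[0,1,2,3],[0,1,3],[0,1,3,2],[0,1,4,2]],Ref.mk 2361 3555 [2,1,3,0] [[1,3,2,0],[0,3,1,2],[2,0,3,1],[3,2,0,1]],Ref.mk 2442 3935 [0,1,3,2] [[3,2,1,0],[0,2,1],[2,0,1,3],[1,2,0,3]],Ref.mk 3171 3935 [0,1,3,2] [[3,2,1,0],[0,2,1],[2,0,1,4],[1,2,0,3]],Ref.mk 2523 3555 [2,1,3,0] [[1,3,4,0],[0,3,1,2],[2,0,3,1],[3,2,0,1]]],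
Node.mk [0,820,182,1542,2449,272,1647] [(0,0),(0,1),(1,0),(1,1),(1,2),(1,3)] [Ref.mk 1496 3941 [1,3,0,2] [[0,3,1,4],[2,0,1],[3,2,1,0],[1,3,0,2]],Ref.mk 2306 3964 [0,2,3,1] [[3,1,0,2],[1,3,0],[2,3,0,1],[0,2,4,1]],Ref.mk 1010 3555 [1,2,3,0] [[2,0,4,3],[2,1,3,0],[0,2,1,3],[2,3,0,1]],Ref.mk 2307 3832 [0,2,1,3] [[1,0,3,2],[3,2,1,0],[2,3,4,1,0],[3,2,0,1]],Ref.mk 201 3941 [1,3,0,2] [[3,0,2,4],[0,2,3],[2,3,1,0],[3,1,2,0]],Ref.mk 1011 3947 [3,2,0,1] [[0,1,2,3],[3,1,2],[2,1,0,3],[3,1,2,4]],Ref.mk 2308 3832 [0,2,1,3] [[1,0,4,2],[3,2,1,0],[2,3,4,1,0],[3,2,0,1]]],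
Node.mk [0,820,182,1542,2449,272] [(0,1),(0,2),(1,1),(2,1),(3,0),(3,1)] [Ref.mk 1719 3965 [0,1,2,3] [[0,1,2,3],[0,1,2,3],[0,1,2,3],[0,1,2,3]],Ref.mk 2448 3935 [0,1,2,3] [[0,1,2,3],[0,1,2],[0,1,2,3],[0,1,2,3]],Ref.mk 3177 3935 [0,1,2,3] [[0,1,2,3],[0,1,2],[0,1,2,3],[0,1,2,4]],Ref.mk 1647 3966 [0,1,2,3] [[0,1,2,3],[0,1,2,3],[0,1,2,3],[0,1,2,3]],Ref.mk 2376 3935 [0,1,2,3] [[0,1,2,3],[0,1,3],[0,1,3,2],[0,1,2,3]]]]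

/-- nodes -/
noncomputable def c62 : List Node := [
Node.mk [0,820,182,1542,2449,274] [(0,0),(0,1),(2,0),(2,1),(3,0),(3,1)] [Ref.mk 1703 3964 [1,2,3,0] [[2,0,1,3],[3,0,1],[3,0,1,2],[1,0,4,2]],Ref.mk 2432 3964 [0,1,3,2] [[3,2,1,0],[0,2,1],[2,0,1,3],[1,2,0,3]],Ref.mk 3161 3964 [1,2,3,0] [[2,0,1,3],[3,0,1],[3,0,1,4],[1,0,4,2]],Ref.mk 1712 3964 [0,2,1,3] [[4,1,0,2],[3,1,0],[3,1,0,2],[0,1,2,3]],Ref.mk 2441 3964 [0,3,2,1] [[0,2,3,4],[0,3,2],[0,3,1,2],[0,1,3,2]],Ref.mk 3170 3964 [0,3,2,1] [[0,2,3,4],[0,4,2],[0,3,1,2],[0,1,3,2]],Ref.mk 2361 3935 [0,2,3,1] [[3,4,1,2],[2,3,1],[3,0,1,2],[1,3,2,0]],Ref.mk 1713 3964 [0,2,1,3] [[4,1,0,3],[3,1,0],[3,1,0,2],[0,1,2,3]],Ref.mk 2442 3935 [0,2,3,1] [[3,2,1,4],[3,2,1],[3,0,1,2],[1,2,3,0]],Ref.mk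 3171 3964 [1,2,3,0] [[1,2,0,3],[3,2,1],[4,0,2,3],[3,2,4,1]],Ref.mk 2523 3555 [2,3,0,1] [[3,1,2,4],[3,2,0,1],[1,3,2,4],[2,0,1,3]],Ref.mk 1624 3935 [2,1,0,3] [[2,1,0,3],[2,1,0],[2,1,0,4],[0,1,3,2]],Ref.mk 2353 3964 [0,1,3,2] [[3,4,1,0],[0,3,1],[2,0,1,3],[1,3,0,2]],Ref.mk 3082 3964 [0,1,3,2] [[3,4,1,0],[0,3,1],[2,0,1,4],[1,3,0,2]],Ref.mk 2362 3935 [0,3,1,2] [[4,3,1,0],[0,2,3],[3,0,2,1],[3,1,0,2]],Ref.mk 1714 3935 [0,1,3,2] [[1,0,4,2],[2,0,1],[3,0,2,1],[3,0,2,1]],Ref.mk 1715 3964 [0,2,1,3] [[4,1,0,5],[3,1,0],[3,1,0,2],[0,1,2,3]]],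
Node.mk [0,820,182,1542,2449] [(0,0),(0,1),(0,3),(1,0),(1,1),(1,2)] [Ref.mk 1487 3935 [1,2,0,3] [[0,2,3,1],[1,3,0],[3,1,2,0],[2,3,1,0]],Ref.mk 2216 3935 [1,0,2,3] [[2,0,3,1],[1,3,2],[3,1,0,2],[3,2,1,0]],Ref.mk 110 3964 [1,2,3,0] [[1,0,2,3],[1,0,3],[1,0,3,2],[1,0,2,3]],Ref.mk 2297 3964 [0,2,3,1] [[3,1,0,2],[1,3,0],[2,3,0,1],[0,2,3,1]],Ref.mk 272 3967 [0,1,2,3] [[0,1,2,3],[0,1,2,3],[0,1,2,3],[0,1,2,3]],Ref.mk 1001 3935 [0,2,1,3] [[1,0,2,3],[1,0,3],[1,0,3,2],[1,0,2,3]],Ref.mk 112 3964 [1,2,3,0] [[1,0,2,3],[1,0,3],[1,0,3,2],[1,0,4,3]],Ref.mk 2299 3964 [0,2,3,1] [[3,1,0,4],[1,3,0],[2,3,0,1],[0,2,3,1]],Ref.mk 274 3968 [0,1,2,3] [[0,1,2,3,4],[0,1,2,3],[0,1,2,3],[0,1,2,3]]],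
Node.mk [0,820,182,1542] [(2,0),(2,1),(2,2),(3,0),(3,1),(3,2)] [Ref.mk 2448 3935 [0,1,2,3] [[0,1,2,3],[0,1,2],[0,1,2,3],[0,1,2,3]],Ref.mk 2431 3964 [0,1,2,3] [[0,1,2,3],[0,1,2],[0,1,2,3],[0,1,2,3]],Ref.mk 2449 3969 [0,1,2,3] [[0,1,2,3],[0,1,2],[0,1,2,3],[0,1,2,3]],Ref.mk 2432 3964 [0,1,3,2] [[3,2,1,0],[0,2,1],[2,0,1,3],[1,2,0,3]],Ref.mk 2441 3969 [0,1,3,2] [[3,2,1,0],[0,2,1],[2,0,1,3],[1,2,0,3]],Ref.mk 2442 3935 [0,1,3,2] [[3,2,1,0],[0,2,1],[2,0,1,3],[1,2,0,3]]],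
Node.mk [0,820,182,1623,1000,2443,1496,1800,3114,1625,2301,859] [(0,0),(0,2),(1,0),(2,1),(3,1),(3,3)] [],
Node.mk [0,820,182,1623,1000,2443,1496,1800,3114,1625,2301] [(0,0),(0,1),(0,2),(1,0),(1,1),(1,3)] [Ref.mk 832 3824 [3,1,2,0] [[2,3,0,1,4],[2,3,0,1,4],[4,1,0,2,3],[0,6,4,3,5,2]],Ref.mk 850 3824 [2,1,3,0] [[2,3,0,1,4],[4,3,0,1,2],[4,1,0,2,3],[0,1,4,3,5,2]],Ref.mk 859 3971 [0,1,2,3] [[0,1,2,3,4,5,6],[0,1,2,3,4,5],[0,1,2,3,4],[0,1,2,3,4]],Ref.mk 996 3824 [3,1,2,0] [[2,3,0,1,4],[2,1,0,3,4],[4,3,0,2,1],[0,4,6,3,5,2]],Ref.mk 1014 3824 [2,1,3,0] [[2,1,0,3,4],[4,1,0,3,2],[4,1,0,2,3],[0,1,6,3,5,2]],Ref.mk 1023 3971 [0,1,2,3] [[0,1,2,3,6,5,4],[0,3,2,1,4,5],[0,3,2,1,4],[0,1,2,3,4]]],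
Node.mk [0,820,182,1623,1000,2443,1496,1800,3114,1625,1005] [(0,0),(0,2),(1,0),(1,3),(2,3),(3,1)] [],
Node.mk [0,820,182,1623,1000,2443,1496,1800,3114,1625,1023] [(0,0),(0,1),(0,2),(1,0),(1,1),(3,1)] [Ref.mk 2301 3971 [0,1,2,3] [[0,1,2,3,6,5,4],[0,3,2,1,4,5],[0,3,2,1,4],[0,1,2,3,4]]],
Node.mk [0,820,182,1623,1000,2443,1496,1800,3114,1625] [(0,0),(0,1),(0,2),(0,4),(1,0),(1,1)] [Ref.mk 993 3970 [2,0,1,3] [[3,0,1,2],[3,0,1],[2,0,1],[1,0,2]],Ref.mk 2298 2303 [1,0,3,2] [[0,1,4,3,2],[3,4,0,5,2],[2,3,4,0],[2,3,1,0,4]],Ref.mk 1002 2303 [1,0,2,3] [[0,1,2,3,4],[3,4,0,5,2],[2,3,4,0],[2,3,1,0,4]],Ref.mk 1011 3970 [2,0,1,3] [[3,0,1,2],[3,0,1],[4,0,1],[1,0,2]],Ref.mk 1020 2303 [1,0,2,3] [[0,1,2,5,4],[3,4,0,5,2],[2,3,4,0],[2,3,1,0,4]],Ref.mk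 995 3935 [2,1,0,3] [[3,0,1,4],[2,0,1],[5,0,1,4],[1,0,2,3]],Ref.mk 2300 2303 [1,0,3,2] [[0,1,4,3,2],[5,4,0,3,2],[2,3,4,0],[2,3,1,0,4]],Ref.mk 1004 2303 [1,0,2,3] [[0,1,2,3,4],[5,4,0,3,2],[2,3,4,0],[2,3,1,0,4]],Ref.mk 1013 3935 [0,1,3,2] [[0,1,3,5],[4,1,0],[4,1,2,0],[2,1,3,0]],Ref.mk 1022 2303 [1,0,2,3] [[0,1,2,5,4],[5,4,0,3,2],[2,3,4,0],[2,3,1,0,4]],Ref.mk 996 3935 [2,1,0,3] [[3,0,1,4],[2,0,1],[6,0,1,4],[1,0,2,3]],Ref.mk 2301 3972 [0,1,2,3] [[0,1,2,3,4,5,6],[0,1,2,3,4],[0,1,2,3,4],[0,1,2,3,4]],Ref.mk 1005 3973 [0,1,2,3] [[0,1,2,3,4,5,6],[0,1,2,3,4],[0,1,2,3,4],[0,1,2,3,4]],Ref.mk 1014 3935 [0,1,3,2] [[0,1,3,6],[4,1,0],[4,1,2,0],[2,1,3,0]],Ref.mk 1023 3974 [0,1,2,3] [[0,1,2,3,4,5,6],[0,1,2,3,4,5],[0,1,2,3,4],[0,1,2,3,4]]],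
Node.mk [0,820,182,1623,1000,2443,1496,1800,3114,2300,859] [(0,0),(0,2),(0,3),(2,1),(3,1),(3,3)] [Ref.mk 1621 3935 [1,0,2,3] [[0,3,2,1],[1,5,0],[2,1,4,0],[2,3,1,0]],Ref.mk 1624 3975 [0,1,2,3] [[0,1,2,3,5,4],[0,3,2,1,4],[0,3,2,1,4],[0,1,2,3,4]],Ref.mk 1625 3975 [0,1,2,3] [[0,1,2,3,4,5],[0,1,2,3,4],[0,1,2,3,4],[0,1,2,3,4]],Ref.mk 1626 3971 [0,1,2,3] [[0,1,2,3,4,6,5],[0,1,2,3,4,5],[0,1,2,3,4],[0,1,2,3,4]]],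
Node.mk [0,820,182,1623,1000,2443,1496,1800,3114,2300] [(0,0),(0,1),(0,2),(0,3),(1,1),(1,3)] [Ref.mk 814 3964 [2,1,3,0] [[1,2,3,0],[0,2,1],[1,0,3,2],[4,2,0,3]],Ref.mk 1624 3975 [0,1,2,3] [[0,1,2,3,5,4],[0,3,2,1,4],[0,3,2,1,4],[0,1,2,3,4]],Ref.mk 832 3573 [2,1,3,0] [[2,3,0,1,4],[2,3,4,1,0],[0,1,2,4,3],[2,1,4,0,5]],Ref.mk 850 3573 [3,1,2,0] [[2,3,0,1,4],[4,3,2,1,0],[0,1,2,4,3],[2,5,4,0,1]],Ref.mk 859 3976 [0,1,2,3] [[0,1,2,3,4,5],[0,1,2,3,4,5],[0,1,2,3,4],[0,1,2,3,4]],Ref.mk 1625 3975 [0,1,2,3] [[0,1,2,3,4,5],[0,1,2,3,4],[0,1,2,3,4],[0,1,2,3,4]],Ref.mk 977 3964 [0,1,2,3] [[5,0,1,3],[0,4,1],[3,2,1,0],[1,4,2,0]],Ref.mk 995 3573 [2,1,3,0] [[2,1,0,3,4],[2,1,4,3,0],[0,1,2,4,3],[2,1,5,0,4]],Ref.mk 1013 3559 [3,1,0,2]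 [[2,3,0,1,4],[4,3,0,1,2],[2,5,0,3,4],[0,1,3,2,4]],Ref.mk 1022 3976 [0,1,2,3] [[0,1,2,3,5,4],[0,3,2,1,4,5],[0,3,2,1,4],[0,1,2,3,4]],Ref.mk 1626 3972 [0,1,2,3] [[0,1,2,3,4,6,5],[0,1,2,3,4],[0,1,2,3,4],[0,1,2,3,4]]],
Node.mk [0,820,182,1623,1000,2443,1496,1800,3114,1004] [(0,0),(0,1),(0,2),(0,3),(1,1),(3,1)] [Ref.mk 1624 2303 [1,0,2,3] [[0,3,2,1,4],[4,5,0,3,2],[2,3,4,0],[2,1,3,0,4]],Ref.mk 112 3572 [1,3,2,0] [[2,1,4,3,0],[0,1,2,3,4],[2,1,0,4,3],[2,1,4,0,5,3]],Ref.mk 1570 3564 [2,3,1,0] [[0,3,2,1,4],[2,1,0,3,4],[4,3,2,0,1],[2,5,4,0,3]],Ref.mk 2299 3977 [0,1,2,3] [[0,4,2,3,1,5],[0,1,2,3,4],[0,3,2,1,4],[0,3,2,1,4]],Ref.mk 3028 3970 [1,3,0,2] [[3,0,1,4],[4,0,1],[4,0,1],[1,0,2]],Ref.mk 3757 3977 [3,1,2,0] [[2,1,0,4,3,5],[4,1,2,3,0],[0,1,2,3,4],[2,1,0,4,3]],Ref.mk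 1625 3975 [0,1,2,3] [[0,1,2,3,4,5],[0,1,2,3,4],[0,1,2,3,4],[0,1,2,3,4]],Ref.mk 2300 3977 [0,1,2,3] [[0,1,2,3,4,5],[0,1,2,3,4],[0,1,2,3,4],[0,1,2,3,4]],Ref.mk 1626 3973 [0,1,2,3] [[0,1,2,3,4,6,5],[0,1,2,3,4],[0,1,2,3,4],[0,1,2,3,4]],Ref.mk 2301 3977 [0,1,2,3] [[0,1,2,3,4,6],[0,1,2,3,4],[0,1,2,3,4],[0,1,2,3,4]]],
Node.mk [0,820,182,1623,1000,2443,1496,1800,3114,1022] [(0,0),(0,1),(0,2),(0,3),(1,1),(3,1)] [Ref.mk 1624 2303 [1,0,2,3] [[0,5,2,1,4],[4,5,0,3,2],[2,3,4,0],[2,1,3,0,4]],Ref.mk 1625 3975 [0,1,2,3] [[0,1,2,3,4,5],[0,1,2,3,4],[0,1,2,3,4],[0,1,2,3,4]],Ref.mk 2300 3976 [0,1,2,3] [[0,1,2,3,5,4],[0,3,2,1,4,5],[0,3,2,1,4],[0,1,2,3,4]],Ref.mk 1626 3974 [0,1,2,3] [[0,1,2,3,4,6,5],[0,1,2,3,4,5],[0,1,2,3,4],[0,1,2,3,4]]],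
Node.mk [0,820,182,1623,1000,2443,1496,1800,3114] [(0,0),(0,1),(0,2),(0,3),(0,4),(1,1)] [Ref.mk 1625 3975 [0,1,2,3] [[0,1,2,3,4,5],[0,1,2,3,4],[0,1,2,3,4],[0,1,2,3,4]],Ref.mk 977 3964 [0,1,2,3] [[5,0,1,3],[0,4,1],[3,2,1,0],[1,4,2,0]],Ref.mk 995 3935 [2,1,0,3] [[3,0,1,4],[2,0,1],[5,0,1,4],[1,0,2,3]],Ref.mk 2300 3977 [0,1,2,3] [[0,1,2,3,4,5],[0,1,2,3,4],[0,1,2,3,4],[0,1,2,3,4]],Ref.mk 1004 3978 [0,1,2,3] [[0,1,2,3,4,5],[0,1,2,3,4],[0,1,2,3,4],[0,1,2,3,4]],Ref.mk 1013 3935 [0,1,3,2] [[0,1,3,5],[4,1,0],[4,1,2,0],[2,1,3,0]],Ref.mk 1022 3979 [0,1,2,3] [[0,1,2,3,4,5],[0,1,2,3,4,5],[0,1,2,3,4],[0,1,2,3,4]]],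
Node.mk [0,820,182,1623,1000,2443,1496,1800,2937,3757,2300] [(0,3),(1,1),(1,2),(1,3),(2,0),(2,1)] [Ref.mk 3114 3977 [0,1,2,3] [[0,1,3,2,4,5],[4,1,2,3,0],[2,1,0,3,4],[4,1,2,3,0]],Ref.mk 3242 3977 [0,2,1,3] [[2,1,3,0,5,4],[4,1,0,3,2],[0,1,2,3,4],[4,1,2,3,0]]],
Node.mk [0,820,182,1623,1000,2443,1496,1800,2937,3757,1004] [(0,1),(0,3),(0,4),(1,2),(2,0),(3,1)] [Ref.mk 3897 3970 [2,0,1,3] [[0,1,2,3],[0,1,2],[0,1,2],[0,1,5]],Ref.mk 2295 3970 [1,0,2,3] [[0,1,2,3],[0,1,2],[0,1,2],[0,1,3]],Ref.mk 3114 3978 [0,1,2,3] [[0,1,3,2,4,5],[4,1,2,3,0],[2,1,0,3,4],[4,1,2,3,0]],Ref.mk 3242 3978 [0,2,1,3] [[2,1,3,0,4,5],[4,1,0,3,2],[0,1,2,3,4],[4,1,2,5,0]],Ref.mk 3899 3970 [2,0,1,3] [[2,1,0,3],[2,1,0],[2,1,0],[0,1,5]],Ref.mk 2297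 3970 [1,0,2,3] [[2,1,0,3],[2,1,0],[2,1,0],[0,1,3]],Ref.mk 3902 3981 [0,1,2,3] [[0,1,2,3,4,5],[0,3,2,1,4],[0,3,2,1,4],[0,1,2,5,4,3]],Ref.mk 2300 3981 [0,1,2,3] [[0,1,2,3,4,5],[0,1,2,3,4],[0,1,2,3,4],[0,1,2,3,4,5]],Ref.mk 3903 3981 [0,1,2,3] [[0,1,2,3,4,6],[0,3,2,1,4],[0,3,2,1,4],[0,1,2,5,4,3]],Ref.mk 2301 3981 [0,1,2,3] [[0,1,2,3,4,6],[0,1,2,3,4],[0,1,2,3,4],[0,1,2,3,4,5]]],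
Node.mk [0,820,182,1623,1000,2443,1496,1800,2937,3757] [(0,0),(0,1),(0,4),(1,1),(1,2),(3,2)] [Ref.mk 3242 3977 [3,2,1,0] [[2,1,4,0,5,3],[2,1,0,3,4],[0,1,2,3,4],[3,1,2,4,0]],Ref.mk 2297 3559 [1,0,2,3] [[2,1,0,3,4],[2,1,0,4,3],[2,1,0,4,3],[0,1,3,2,4]],Ref.mk 1001 3573 [1,0,2,3] [[2,1,0,3,4],[2,4,0,1,3],[2,3,0,4,1],[0,3,1,2,5]],Ref.mk 2298 3970 [3,0,1,2] [[3,0,1,2],[3,0,1],[3,0,1],[1,0,2]],Ref.mk 1002 3970 [2,0,1,3] [[3,0,1,2],[3,0,1],[3,0,1],[1,0,2]],Ref.mk 363 3977 [3,2,1,0] [[2,1,0,4,5,3],[0,1,2,3,4],[4,1,2,3,0],[2,1,3,4,0]],Ref.mk 2300 3981 [0,1,2,3] [[0,1,2,3,4,5],[0,1,2,3,4],[0,1,2,3,4],[0,1,2,3,4,5]],Ref.mk 1004 3982 [0,1,2,3] [[0,1,2,3,4,5],[0,1,2,3,4],[0,1,2,3,4],[0,1,2,3,4,5]]],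
Node.mk [0,820,182,1623,1000,2443,1496,1800,2937,1183,1481] [(0,0),(0,1),(0,4),(1,2),(3,1),(3,2)] [],
Node.mk [0,820,182,1623,1000,2443,1496,1800,2937,1183] [(0,0),(0,1),(0,2),(0,3),(0,4),(3,1)] [Ref.mk 1481 3984 [0,1,2,3] [[0,1,2,3,4,5],[0,1,2,3,4,5],[0,1,2,3,4,5],[0,1,2,3,4]]],
Node.mk [0,820,182,1623,1000,2443,1496,1800,2937] [(0,0),(1,1),(1,2),(2,3),(3,2),(3,3)] [Ref.mk 3242 3980 [0,2,1,3] [[2,1,3,0,4],[4,3,0,1,2],[0,3,2,1,4],[4,1,2,3,0]],Ref.mk 363 3980 [0,2,1,3] [[3,1,2,0,4],[4,3,2,1,0],[4,3,2,1,0],[0,1,2,3,4]],Ref.mk 733 3344 [0,1,2,3] [[4,2,1,3,0],[0,2,1,4,3],[0,2,1,3],[1,0,2,3,4]],Ref.mk 814 3964 [2,1,3,0] [[1,2,3,0],[0,2,1],[1,0,3,2],[4,2,0,3]],Ref.mk 895 3350 [0,2,1,3] [[4,0,1,2,3],[2,4,3,0,1],[0,2,3,1],[1,2,0,3,4]],Ref.mk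 1057 3363 [0,2,1,3] [[4,3,1,0,2],[4,0,3,2,1],[0,2,3,1],[1,4,2,3,0]],Ref.mk 1138 3587 [2,1,3,0] [[2,3,0,5,1],[0,3,2,1,4],[2,1,4,0,3],[3,1,4,2,0]],Ref.mk 760 3564 [1,2,0,3] [[0,1,2,3,4],[0,3,2,1,4],[0,4,2,3,1],[0,3,1,2,4]],Ref.mk 112 3964 [0,3,1,2] [[4,0,1,2],[0,2,1],[3,2,1,0],[1,4,2,0]],Ref.mk 841 3980 [1,0,2,3] [[2,3,0,4,1],[2,4,0,1,3],[2,1,0,3,4],[0,1,2,3,4]],Ref.mk 3028 3828 [2,3,0,1] [[0,3,2,1,4],[4,3,0,1,2],[3,4,2,0,1],[2,1,3,0,4]],Ref.mk 3757 3983 [0,1,2,3] [[0,1,2,3,4],[0,1,2,3,4],[0,1,2,3,4],[0,1,2,3,4,5]],Ref.mk 922 3970 [0,2,1,3] [[4,0,1,3],[2,0,1],[3,0,1],[1,0,2]],Ref.mk 1084 3828 [1,2,0,3] [[2,1,0,3,4],[4,3,2,1,0],[0,4,3,2,1],[2,3,1,0,4]],Ref.mk 1165 3980 [1,0,2,3] [[2,3,0,4,1],[2,4,0,1,3],[2,5,0,3,4],[0,1,2,3,4]],Ref.mk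 769 3970 [0,2,1,3] [[4,3,1,0],[0,2,1],[4,0,1],[1,2,0]],Ref.mk 850 3828 [2,1,0,3] [[0,3,2,1,4],[4,1,0,3,2],[2,4,3,0,1],[2,3,1,0,4]],Ref.mk 931 3587 [1,2,3,0] [[0,1,2,4,3],[2,1,0,3,4],[2,1,4,0,3],[3,1,4,0,2]],Ref.mk 1093 3584 [1,2,3,0] [[2,1,0,4,3],[4,1,0,3,2],[2,1,0,4,3],[0,1,4,3,2]],Ref.mk 1174 3584 [2,1,3,0] [[0,3,2,5,1],[4,3,2,1,0],[2,1,0,4,3],[2,1,4,3,0]],Ref.mk 778 3564 [1,2,0,3] [[0,1,2,5,4],[0,3,2,1,4],[0,4,2,3,1],[0,3,1,2,4]],Ref.mk 859 3980 [2,0,1,3] [[0,1,2,4,3],[0,4,2,1,3],[0,5,2,1,4],[0,1,2,3,4]],Ref.mk 940 3587 [1,2,3,0] [[0,1,2,5,3],[2,1,0,3,4],[2,1,4,0,3],[3,1,4,0,2]],Ref.mk 1102 3584 [1,2,3,0] [[2,1,0,5,3],[4,1,0,3,2],[2,1,0,4,3],[0,1,4,3,2]],Ref.mk 1183 3985 [0,1,2,3] [[0,1,2,3,4],[0,1,2,3,4,5],[0,1,2,3,4,5],[0,1,2,3,4]]],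
Node.mk [0,820,182,1623,1000,2443,1496,1800] [(0,1),(1,1),(2,1),(3,0),(3,1),(3,2)] [Ref.mk 2385 3935 [0,3,1,2] [[0,1,2,4],[3,1,0],[4,1,2,0],[2,1,3,0]],Ref.mk 3114 3980 [0,1,2,3] [[0,1,2,3,4],[0,1,2,3,4],[0,1,2,3,4],[0,1,2,3,4]],Ref.mk 2513 3935 [0,3,2,1] [[2,1,0,4],[3,1,0],[4,3,0,2],[0,3,1,2]],Ref.mk 3242 3980 [0,2,1,3] [[2,1,0,3,4],[2,3,0,1,4],[2,3,0,1,4],[0,1,2,3,4]],Ref.mk 2208 3970 [0,3,1,2] [[3,1,0,4],[3,1,0],[2,1,0],[0,1,3]],Ref.mk 2937 3986 [0,1,2,3] [[0,1,2,3,4],[0,1,2,3,4],[0,1,2,3,4],[0,1,2,3,4]]],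
Node.mk [0,820,182,1623,1000,2443,1496,2300,859,3007] [(0,1),(0,2),(1,1),(2,0),(2,1),(2,2)] [Ref.mk 1719 3970 [3,2,0,1] [[3,0,1,2],[3,0,1],[4,0,1],[1,0,2]],Ref.mk 1800 3987 [0,1,2,3] [[0,1,2,3,4],[0,1,2,3,4],[0,1,2,3,4],[0,1,2,3]],Ref.mk 282 3970 [0,2,1,3] [[3,1,0,4],[3,1,0],[4,1,0],[0,1,3]],Ref.mk 363 3987 [0,1,2,3] [[3,1,2,0,4],[0,1,4,3,2],[2,1,0,3,4],[2,1,0,3]]],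
Node.mk [0,820,182,1623,1000,2443,1496,2300,859,3028] [(0,2),(0,4),(1,3),(2,0),(2,1),(2,2)] [Ref.mk 1719 3970 [3,2,0,1] [[3,0,1,2],[3,0,1],[4,0,1],[1,0,2]],Ref.mk 1800 3987 [0,1,2,3] [[0,1,2,3,4],[0,1,2,3,4],[0,1,2,3,4],[0,1,2,3]],Ref.mk 282 3970 [0,2,1,3] [[3,1,0,4],[3,1,0],[4,1,0],[0,1,3]],Ref.mk 363 3987 [0,1,2,3] [[3,1,2,0,4],[0,1,4,3,2],[2,1,0,3,4],[2,1,0,3]]],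
Node.mk [0,820,182,1623,1000,2443,1496,2300,859] [(0,0),(1,0),(2,0),(3,0),(3,1),(3,3)] [Ref.mk 1549 3935 [1,3,0,2] [[0,3,2,1],[2,1,0],[3,1,2,0],[2,3,1,0]],Ref.mk 3007 3988 [0,1,2,3] [[0,1,2,3,4,5],[0,1,2,3,4,5],[0,1,2,3],[0,1,2,3,4]],Ref.mk 1570 3970 [0,3,1,2] [[4,0,1,3],[2,0,1],[3,0,1],[1,0,2]],Ref.mk 3028 3989 [0,1,2,3] [[0,1,2,3,4,5],[0,1,2,3,4,5],[0,1,2,3],[0,1,2,3,4]]],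
Node.mk [0,820,182,1623,1000,2443,1496,2300] [(0,1),(0,2),(1,1),(1,3),(2,0),(2,2)] [Ref.mk 1557 3970 [3,2,0,1] [[1,0,3,2],[1,0,3],[1,0,4],[1,0,2]],Ref.mk 1719 3970 [3,2,0,1] [[3,0,1,2],[3,0,1],[4,0,1],[1,0,2]],Ref.mk 1800 3987 [0,1,2,3] [[0,1,2,3,5],[0,3,2,1,4],[0,3,2,1,4],[0,1,2,3]],Ref.mk 120 3970 [0,2,1,3] [[3,4,0,1],[1,3,0],[4,1,0],[0,3,1]],Ref.mk 282 3970 [0,2,1,3] [[3,1,0,4],[3,1,0],[4,1,0],[0,1,3]],Ref.mk 363 3987 [0,1,2,3] [[3,1,2,0,5],[0,3,4,1,2],[2,3,0,1,4],[2,1,0,3]],Ref.mk 814 3964 [2,1,3,0] [[1,2,3,0],[0,2,1],[1,0,3,2],[4,2,0,3]],Ref.mk 832 3615 [3,1,0,2] [[1,2,3,0],[2,4,3,0,1],[4,2,5,1,3],[1,0,2,3]],Ref.mk 850 3615 [2,1,0,3] [[1,2,3,0],[4,2,3,0,1],[4,2,1,5,3],[1,0,2,3]],Ref.mk 859 3990 [0,1,2,3]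 [[0,1,2,3,4,5],[0,1,2,3,4,5],[0,1,2,3],[0,1,2,3]],Ref.mk 977 3970 [0,1,2,3] [[5,2,1,0],[0,4,1],[3,0,1],[1,2,0]],Ref.mk 995 3615 [3,1,0,2] [[1,2,3,0],[2,4,1,0,3],[5,2,4,1,3],[3,0,2,1]],Ref.mk 1013 3615 [2,1,0,3] [[3,2,1,0],[4,2,1,0,3],[5,2,1,4,3],[1,0,2,3]],Ref.mk 1022 3990 [0,1,2,3] [[0,1,2,3,5,4],[0,3,2,1,4,5],[0,3,2,1],[0,1,2,3]]],
Node.mk [0,820,182,1623,1000,2443,1496,1004] [(0,2),(1,3),(2,0),(2,2),(2,3),(3,1)] [Ref.mk 1557 3970 [3,2,0,1] [[1,0,3,2],[1,0,3],[1,0,4],[1,0,2]],Ref.mk 1800 3987 [0,1,2,3] [[0,1,2,3,4],[0,1,2,3,4],[0,1,2,3,4],[0,1,2,3]],Ref.mk 120 3970 [0,2,1,3] [[3,4,0,1],[1,3,0],[4,1,0],[0,3,1]],Ref.mk 363 3987 [0,1,2,3] [[3,1,2,0,4],[0,1,4,3,2],[2,1,0,3,4],[2,1,0,3]]],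
Node.mk [0,820,182,1623,1000,2443,1496,1022] [(0,1),(0,2),(1,1),(2,0),(2,2),(3,1)] [Ref.mk 1557 3970 [3,2,0,1] [[1,0,3,2],[1,0,3],[1,0,4],[1,0,2]],Ref.mk 1719 3970 [3,2,0,1] [[3,0,1,2],[3,0,1],[4,0,1],[1,0,2]],Ref.mk 1800 3987 [0,1,2,3] [[0,1,2,3,4],[0,1,2,3,4],[0,1,2,3,4],[0,1,2,3]],Ref.mk 120 3970 [0,2,1,3] [[3,4,0,1],[1,3,0],[4,1,0],[0,3,1]],Ref.mk 282 3970 [0,2,1,3] [[3,1,0,4],[3,1,0],[4,1,0],[0,1,3]],Ref.mk 363 3987 [0,1,2,3] [[3,1,2,0,4],[0,1,4,3,2],[2,1,0,3,4],[2,1,0,3]],Ref.mk 2300 3990 [0,1,2,3] [[0,1,2,3,5,4],[0,3,2,1,4,5],[0,3,2,1],[0,1,2,3]]],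
Node.mk [0,820,182,1623,1000,2443,1496] [(0,1),(0,2),(0,4),(1,1),(2,0),(2,2)] [Ref.mk 972 3970 [0,1,2,3] [[0,2,1,3],[0,2,1],[3,2,1],[1,0,2]],Ref.mk 1557 3934 [0,2,1,3] [[0,4,2,1],[1,3,0,2],[2,1,4,0],[2,3,1,0]],Ref.mk 990 3832 [3,1,0,2] [[1,2,3,0],[2,4,1,0],[0,2,4,1,3],[3,0,2,1]],Ref.mk 1719 3934 [0,2,1,3] [[0,1,2,4],[3,1,0,2],[2,1,4,0],[2,1,3,0]],Ref.mk 1800 3987 [0,1,2,3] [[0,1,2,3,4],[0,1,2,3,4],[0,1,2,3,4],[0,1,2,3]],Ref.mk 2295 3615 [2,0,1,3] [[0,3,2,1],[0,1,2,4,3],[0,3,2,4,1],[0,1,3,2]],Ref.mk 999 3970 [2,0,1,3] [[3,2,1,0],[0,3,1],[3,0,1],[1,2,0]],Ref.mk 1008 3832 [2,1,0,3] [[3,2,1,0],[4,2,1,0],[0,2,1,4,3],[1,0,2,3]],Ref.mk 1017 3970 [2,0,1,3] [[3,2,1,0],[0,3,1],[5,0,1],[1,2,0]],Ref.mk 975 3970 [0,1,2,3]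 [[3,2,1,0],[0,4,1],[3,0,1],[1,2,0]],Ref.mk 993 3555 [3,1,0,2] [[1,2,3,0],[2,4,1,0],[3,2,4,1],[3,0,2,1]],Ref.mk 2298 3615 [2,0,1,3] [[2,3,0,1],[3,1,2,4,0],[0,3,4,2,1],[2,1,3,0]],Ref.mk 1002 3970 [2,0,1,3] [[3,0,1,2],[3,0,1],[3,0,1],[1,0,2]],Ref.mk 120 3934 [0,2,1,3] [[3,4,2,1],[1,3,2,0],[4,1,2,0],[0,3,1,2]],Ref.mk 282 3934 [0,2,1,3] [[3,1,2,4],[3,1,2,0],[4,1,2,0],[0,1,3,2]],Ref.mk 1011 3555 [2,1,0,3] [[3,2,1,0],[4,2,1,0],[3,2,1,4],[1,0,2,3]],Ref.mk 363 3987 [0,1,2,3] [[3,1,2,0,4],[0,1,4,3,2],[2,1,0,3,4],[2,1,0,3]],Ref.mk 1020 3970 [2,0,1,3] [[3,0,1,2],[3,0,1],[5,0,1],[1,0,2]],Ref.mk 977 3970 [0,1,2,3] [[5,2,1,0],[0,4,1],[3,0,1],[1,2,0]],Ref.mk 995 3832 [3,1,0,2] [[1,2,3,0],[2,4,1,0],[5,2,4,1,3],[3,0,2,1]],Ref.mk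 2300 3991 [0,1,2,3] [[0,1,2,3,4,5],[0,1,2,3,4],[0,1,2,3],[0,1,2,3]],Ref.mk 1004 3992 [0,1,2,3] [[0,1,2,3,4,5],[0,1,2,3,4],[0,1,2,3],[0,1,2,3]],Ref.mk 1013 3832 [2,1,0,3] [[3,2,1,0],[4,2,1,0],[5,2,1,4,3],[1,0,2,3]],Ref.mk 1022 3993 [0,1,2,3] [[0,1,2,3,4,5],[0,1,2,3,4,5],[0,1,2,3],[0,1,2,3]]],
Node.mk [0,820,182,1623,1000,2443,39,824] [(1,1),(2,0),(2,1),(2,2),(3,0),(3,1)] [],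
Node.mk [0,820,182,1623,1000,2443,39,1067] [(1,1),(2,0),(2,2),(3,0),(3,1),(3,3)] [],
Node.mk [0,820,182,1623,1000,2443,39,2300] [(0,1),(2,0),(2,1),(2,2),(2,3),(3,0)] [Ref.mk 1084 3996 [0,1,2,3] [[0,1,2,3,5,4],[0,3,2,1,4],[0,3,2,1,4],[0,1,2,3]],Ref.mk 1067 3996 [0,1,2,3] [[0,1,2,3,4,5],[0,1,2,3,4],[0,1,2,3,4],[0,1,2,3]]],
Node.mk [0,820,182,1623,1000,2443,39] [(0,1),(0,4),(2,0),(2,2),(2,3),(3,0)] [Ref.mk 819 3970 [2,0,1,3] [[0,3,2,1],[0,4,2],[0,1,2],[0,3,1]],Ref.mk 1062 3970 [2,0,1,3] [[0,3,2,4],[0,4,2],[0,1,2],[0,3,1]],Ref.mk 2295 3970 [1,0,2,3] [[0,1,2,3],[0,1,2],[0,1,2],[0,1,3]],Ref.mk 821 3679 [2,0,1,3] [[2,3,0,1],[2,4,3,1,0],[2,1,4,0,3],[0,3,1,2]],Ref.mk 1064 3679 [2,0,1,3] [[2,3,0,4],[2,4,3,1,0],[2,1,4,0,3],[0,3,1,2]],Ref.mk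 2297 3679 [2,0,1,3] [[2,3,0,1],[2,1,3,4,0],[2,3,4,0,1],[0,1,3,2]],Ref.mk 822 3970 [2,0,1,3] [[1,0,3,2],[3,0,1],[1,0,3],[1,0,2]],Ref.mk 1065 3970 [2,0,1,3] [[4,0,3,2],[3,0,1],[1,0,3],[1,0,2]],Ref.mk 2298 3970 [3,0,1,2] [[3,0,1,2],[3,0,1],[3,0,1],[1,0,2]],Ref.mk 824 3995 [0,1,2,3] [[0,1,2,3,4,5],[0,1,2,3,4],[0,1,2,3],[0,1,2,3]],Ref.mk 1067 3996 [0,1,2,3] [[0,1,2,3,4,5],[0,1,2,3,4],[0,1,2,3,4],[0,1,2,3]],Ref.mk 2300 3997 [0,1,2,3] [[0,1,2,3,4,5],[0,1,2,3,4],[0,1,2,3],[0,1,2,3]]],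
Node.mk [0,820,182,1623,1000,2443,363,1656] [(0,1),(1,1),(2,1),(2,2),(3,0),(3,1)] [Ref.mk 1800 3987 [0,1,2,3] [[0,1,3,2,4],[2,1,0,3,4],[4,1,2,3,0],[2,1,0,3]],Ref.mk 1784 3987 [0,1,2,3] [[0,1,2,3,4],[4,1,0,3,2],[2,1,4,3,0],[2,1,0,3]],Ref.mk 1496 3987 [0,1,2,3] [[3,1,2,0,4],[0,1,4,3,2],[2,1,0,3,4],[2,1,0,3]],Ref.mk 1479 3987 [0,1,2,3] [[3,1,0,2,4],[2,1,4,3,0],[0,1,2,3,4],[2,1,0,3]]],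
Node.mk [0,820,182,1623,1000,2443,363] [(0,1),(0,3),(1,1),(2,1),(3,0),(3,1)] [Ref.mk 1800 3987 [0,1,2,3] [[0,1,3,2,4],[2,1,0,3,4],[4,1,2,3,0],[2,1,0,3]],Ref.mk 1656 3999 [0,1,2,3] [[0,1,2,3,4],[0,1,2,3,4],[0,1,2,3,4],[0,1,2,3]],Ref.mk 2385 3934 [0,3,2,1] [[0,1,3,4],[3,1,0,2],[2,3,4,0],[4,3,1,0]],Ref.mk 3114 3994 [3,2,1,0] [[4,1,0,2,3],[2,3,0,1,4],[4,3,0,1],[0,1,3,4]],Ref.mk 1784 3999 [0,2,1,3] [[2,1,0,3,4],[2,3,0,1,4],[2,3,0,1,4],[0,1,2,3]],Ref.mk 2513 3934 [0,3,1,2] [[2,1,3,4],[3,1,0,2],[0,1,4,2],[4,1,3,2]],Ref.mk 3242 3994 [3,1,2,0] [[4,1,0,2,3],[0,1,2,3,4],[4,1,2,3],[2,1,3,4]],Ref.mk 1496 3987 [0,1,2,3] [[3,1,2,0,4],[0,1,4,3,2],[2,1,0,3,4],[2,1,0,3]]],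
Node.mk [0,820,182,1623,1000,2443,2300,850,372] [(0,3),(1,0),(2,1),(2,2),(3,1),(3,3)] [Ref.mk 1800 3990 [0,1,2,3] [[2,1,3,0,4,5],[2,1,5,3,0,4],[2,1,4,3],[0,1,2,3]],Ref.mk 1505 3990 [0,1,2,3] [[0,1,2,3,4,5],[0,1,2,3,5,4],[0,1,2,3],[0,1,2,3]]],
Node.mk [0,820,182,1623,1000,2443,2300,850] [(1,0),(1,2),(2,1),(2,2),(3,1),(3,3)] [Ref.mk 1469 3615 [2,1,0,3] [[3,2,1,0],[1,2,3,0,4],[4,2,5,1,3],[3,0,2,1]],Ref.mk 1487 3679 [3,1,0,2] [[3,0,1,2],[3,2,1,0,4],[5,2,1,4,0],[1,2,0,3]],Ref.mk 1496 3991 [0,1,2,3] [[0,1,2,3,4,5],[0,1,2,3,4],[0,1,2,3],[0,1,2,3]],Ref.mk 1505 3990 [0,1,2,3] [[0,1,2,3,4,5],[0,1,2,3,5,4],[0,1,2,3],[0,1,2,3]],Ref.mk 12 3615 [2,1,0,3] [[3,2,1,0],[1,0,3,2,4],[4,3,5,1,2],[3,2,0,1]],Ref.mk 255 3935 [0,1,2,3]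 [[3,5,0,1],[1,3,0],[3,1,0,2],[0,3,1,2]],Ref.mk 336 3615 [2,1,0,3] [[3,2,1,4],[1,0,3,2,4],[4,3,5,1,2],[3,2,0,1]],Ref.mk 30 3970 [0,1,2,3] [[3,1,2,5],[3,1,2],[0,1,2],[0,1,3]],Ref.mk 273 3554 [0,1,2,3] [[3,4,0,5,2],[3,4,0,1,2],[3,1,0,2],[0,1,3,2]],Ref.mk 354 3831 [0,1,2,3] [[3,4,0,5,2],[3,4,0,1,2],[4,1,0,2,3],[0,1,3,2]],Ref.mk 39 3997 [0,1,2,3] [[0,1,2,3,4,5],[0,1,2,3,4],[0,1,2,3],[0,1,2,3]],Ref.mk 282 3970 [0,2,1,3] [[3,1,0,4],[3,1,0],[4,1,0],[0,1,3]],Ref.mk 363 3615 [2,1,0,3] [[1,2,3,4],[4,0,3,2,1],[4,3,1,5,2],[1,2,0,3]],Ref.mk 48 3997 [0,1,2,3] [[0,1,2,3,4,5],[0,1,2,3,5],[0,1,2,3],[0,1,2,3]],Ref.mk 291 3970 [0,2,1,3] [[3,1,0,4],[3,1,0],[5,1,0],[0,1,3]],Ref.mk 372 4001 [0,1,2,3] [[0,1,2,3,4,5],[0,1,2,3,4,5],[0,1,2,3,4],[0,1,2,3]]],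
Node.mk [0,820,182,1623,1000,2443,2300] [(0,1),(1,0),(1,1),(1,2),(1,3),(2,2)] [Ref.mk 1496 3991 [0,1,2,3] [[0,1,2,3,4,5],[0,1,2,3,4],[0,1,2,3],[0,1,2,3]],Ref.mk 39 3997 [0,1,2,3] [[0,1,2,3,4,5],[0,1,2,3,4],[0,1,2,3],[0,1,2,3]],Ref.mk 120 3832 [1,2,0,3] [[3,0,1,4],[1,2,3,0],[5,3,4,1,0],[3,2,0,1]],Ref.mk 282 3832 [1,2,0,3] [[1,0,3,4],[3,2,1,0],[4,3,5,1,0],[3,2,0,1]],Ref.mk 363 4000 [0,1,2,3] [[0,1,2,3,5],[0,3,2,1,4],[0,3,2,1,4],[0,1,2,3]],Ref.mk 850 4002 [0,1,2,3] [[0,1,2,3,4,5],[0,1,2,3,4],[0,1,2,3],[0,1,2,3]],Ref.mk 1013 4002 [0,1,2,3] [[0,1,2,3,5,4],[0,3,2,1,4],[0,3,2,1],[0,1,2,3]]],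
Node.mk [0,820,182,1623,1000,2443,1004] [(1,0),(1,2),(1,3),(2,2),(2,3),(3,1)] [Ref.mk 1469 3970 [0,1,2,3] [[1,0,5,2],[1,0,3],[1,0,3],[1,0,2]],Ref.mk 1496 3992 [0,1,2,3] [[0,1,2,3,4,5],[0,1,2,3,4],[0,1,2,3],[0,1,2,3]],Ref.mk 12 3951 [2,1,3,0] [[0,3,2,1],[1,3,0],[0,1,2,3],[3,5,1,4,0]],Ref.mk 93 3935 [0,1,2,3] [[3,1,0,4],[1,3,0],[1,3,0,2],[0,1,3,2]],Ref.mk 336 3935 [0,1,2,3] [[3,1,0,4],[1,3,0],[4,3,0,2],[0,1,3,2]],Ref.mk 39 3998 [0,1,2,3] [[0,1,2,3,4],[0,1,2,3,4],[0,1,2,3],[0,1,2,3]],Ref.mk 120 3832 [1,2,0,3] [[1,0,3,4],[1,2,3,0],[1,3,5,4,0],[1,2,0,3]],Ref.mk 363 4000 [0,1,2,3] [[0,1,2,3,4],[0,1,2,3,4],[0,1,2,3,4],[0,1,2,3]]],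
Node.mk [0,820,182,1623,1000,2443,1013] [(0,1),(1,0),(1,1),(1,2),(2,2),(3,1)] [Ref.mk 1487 3970 [3,1,0,2] [[1,0,3,2],[3,2,1],[1,2,4],[3,2,0]],Ref.mk 1496 3994 [0,1,2,3] [[0,1,2,3,4],[0,1,2,3,4],[0,1,2,3],[0,1,2,3]],Ref.mk 1505 3993 [0,1,2,3] [[0,1,2,3,4,5],[0,1,2,3,5,4],[0,1,2,3],[0,1,2,3]],Ref.mk 30 3970 [0,1,2,3] [[3,4,2,1],[3,1,2],[0,3,2],[0,3,1]],Ref.mk 111 3832 [1,2,0,3] [[1,0,4,3],[1,2,3,0],[1,3,5,4,0],[1,2,0,3]],Ref.mk 273 3970 [0,2,1,3] [[3,1,0,4],[3,1,0],[3,1,0],[0,1,3]],Ref.mk 354 3935 [0,1,2,3] [[3,4,0,1],[3,1,0],[4,3,0,2],[0,3,1,2]],Ref.mk 39 3998 [0,1,2,3] [[0,1,2,3,4],[0,1,2,3,4],[0,1,2,3],[0,1,2,3]],Ref.mk 120 3970 [0,2,1,3] [[3,4,0,1],[1,3,0],[4,1,0],[0,3,1]],Ref.mk 282 3970 [0,2,1,3] [[3,1,0,4],[3,1,0],[4,1,0],[0,1,3]],Ref.mk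 363 4000 [0,1,2,3] [[0,1,2,3,4],[0,1,2,3,4],[0,1,2,3,4],[0,1,2,3]],Ref.mk 48 3998 [0,1,2,3] [[0,1,2,3,4],[0,1,2,3,5],[0,1,2,3],[0,1,2,3]],Ref.mk 129 3832 [1,2,0,3] [[1,0,4,5],[1,2,3,0],[1,3,5,4,0],[1,2,0,3]],Ref.mk 291 3970 [0,2,1,3] [[3,1,0,4],[3,1,0],[5,1,0],[0,1,3]],Ref.mk 372 4000 [0,1,2,3] [[0,1,2,3,4],[0,1,2,3,5],[0,1,2,3,4],[0,1,2,3]],Ref.mk 2300 4002 [0,1,2,3] [[0,1,2,3,5,4],[0,3,2,1,4],[0,3,2,1],[0,1,2,3]]],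
Node.mk [0,820,182,1623,1000,2443] [(0,1),(0,4),(1,0),(1,1),(1,2),(2,2)] [Ref.mk 2295 3970 [1,0,2,3] [[0,1,2,3],[0,1,2],[0,1,2],[0,1,3]],Ref.mk 999 3970 [2,0,1,3] [[3,2,1,0],[0,3,1],[3,0,1],[1,2,0]],Ref.mk 1008 3970 [2,0,1,3] [[3,2,1,0],[0,3,1],[4,0,1],[1,2,0]],Ref.mk 1487 3970 [3,1,0,2] [[1,0,3,2],[3,2,1],[1,2,4],[3,2,0]],Ref.mk 2297 3970 [1,0,2,3] [[2,1,0,3],[2,1,0],[2,1,0],[0,1,3]],Ref.mk 1001 3970 [1,0,2,3] [[2,1,0,3],[2,4,0],[2,3,0],[0,3,1]],Ref.mk 1496 3994 [0,1,2,3] [[0,1,2,3,4],[0,1,2,3,4],[0,1,2,3],[0,1,2,3]],Ref.mk 1010 3970 [1,0,2,3] [[2,1,0,4],[2,4,0],[2,3,0],[0,3,1]],Ref.mk 30 3970 [0,1,2,3] [[3,4,2,1],[3,1,2],[0,3,2],[0,3,1]],Ref.mk 111 3935 [0,2,1,3] [[3,4,2,1],[1,3,2],[3,1,2,0],[0,3,1,2]],Ref.mk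 2298 3970 [3,0,1,2] [[3,0,1,2],[3,0,1],[3,0,1],[1,0,2]],Ref.mk 273 3935 [0,2,1,3] [[3,1,2,4],[3,1,2],[3,1,2,0],[0,1,3,2]],Ref.mk 1002 3970 [2,0,1,3] [[3,0,1,2],[3,0,1],[3,0,1],[1,0,2]],Ref.mk 354 3935 [0,1,2,3] [[3,4,0,1],[3,1,0],[4,3,0,2],[0,3,1,2]],Ref.mk 39 3998 [0,1,2,3] [[0,1,2,3,4],[0,1,2,3,4],[0,1,2,3],[0,1,2,3]],Ref.mk 120 3935 [0,2,1,3] [[3,4,2,1],[1,3,2],[4,1,2,0],[0,3,1,2]],Ref.mk 282 3935 [0,2,1,3] [[3,1,2,4],[3,1,2],[4,1,2,0],[0,1,3,2]],Ref.mk 1011 3970 [2,0,1,3] [[3,0,1,2],[3,0,1],[4,0,1],[1,0,2]],Ref.mk 363 4000 [0,1,2,3] [[0,1,2,3,4],[0,1,2,3,4],[0,1,2,3,4],[0,1,2,3]],Ref.mk 2300 4003 [0,1,2,3] [[0,1,2,3,4,5],[0,1,2,3],[0,1,2,3],[0,1,2,3]],Ref.mk 1004 4004 [0,1,2,3] [[0,1,2,3,4,5],[0,1,2,3],[0,1,2,3],[0,1,2,3]],Ref.mk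 1013 4005 [0,1,2,3] [[0,1,2,3,4,5],[0,1,2,3,4],[0,1,2,3],[0,1,2,3]]],
Node.mk [0,820,182,1623,1000] [(0,1),(0,3),(1,0),(2,2),(3,1),(3,2)] [Ref.mk 252 3970 [0,3,1,2] [[2,1,3,0],[0,1,2],[2,1,0],[2,1,3]],Ref.mk 2439 3970 [3,0,1,2] [[3,2,1,0],[0,3,1],[1,0,3],[3,2,0]],Ref.mk 108 3970 [0,3,1,2] [[2,1,3,0],[0,1,2],[2,3,0],[2,3,1]],Ref.mk 2295 3970 [2,0,1,3] [[0,3,2,1],[0,1,2],[0,3,2],[0,1,3]],Ref.mk 254 3970 [0,3,1,2] [[2,3,1,0],[0,2,1],[1,0,3],[3,2,0]],Ref.mk 2441 3970 [3,0,1,2] [[0,1,2,3],[2,1,3],[2,1,0],[2,1,3]],Ref.mk 110 3970 [0,3,1,2] [[2,3,1,0],[0,2,1],[3,0,1],[1,2,0]],Ref.mk 2297 3970 [3,0,1,2] [[0,1,2,3],[2,1,3],[2,3,0],[2,3,1]],Ref.mk 256 3970 [0,3,1,2] [[2,1,3,4],[0,1,2],[2,1,0],[2,1,3]],Ref.mk 2443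 4006 [0,1,2,3] [[0,1,2,3,4],[0,1,2,3],[0,1,2,3],[0,1,2,3]],Ref.mk 112 3970 [0,3,1,2] [[2,1,3,4],[0,1,2],[2,3,0],[2,3,1]],Ref.mk 2299 4006 [0,1,2,3] [[0,1,2,3,4],[0,3,2,1],[0,3,2,1],[0,1,2,3]]],
Node.mk [0,820,182,1623,2458,1496,1800,3114,1624,2318,2607,2608] [(0,0),(0,1),(0,2),(0,5),(1,0),(3,3)] [],
Node.mk [0,820,182,1623,2458,1496,1800,3114,1624,2318,2607,2320] [(0,0),(0,1),(0,2),(0,6),(1,0),(1,5)] [Ref.mk 2199 3443 [3,0,2,1] [[3,0,1,2,4],[3,2,1,0,4],[0,2,1,3,4],[1,2,0,3,4]],Ref.mk 2280 4007 [1,0,3,2] [[4,1,0,2],[2,1,0,3],[2,1,0,3],[0,1,2]],Ref.mk 2361 3970 [0,2,1,3] [[2,1,0,3],[2,1,0],[2,1,0],[0,1,3]],Ref.mk 2442 4007 [2,0,1,3] [[0,3,2,4],[0,1,2,3],[0,3,2,1],[0,3,2]],Ref.mk 2523 3832 [3,0,2,1] [[3,0,1,2],[3,2,1,0],[4,2,1,3,0],[1,2,0,3]],Ref.mk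 2604 3832 [3,0,2,1] [[3,0,1,2],[3,2,1,0],[5,2,1,3,0],[1,2,0,3]],Ref.mk 2685 3832 [3,0,2,1] [[3,0,1,2],[3,2,1,0],[6,2,1,3,0],[1,2,0,3]],Ref.mk 2289 3442 [3,0,1,2] [[3,0,1,2,4],[3,0,1,2,4],[2,0,1,3,4],[1,0,2,3,4]],Ref.mk 2298 3970 [3,0,1,2] [[3,0,1,2],[3,0,1],[3,0,1],[1,0,2]],Ref.mk 2307 3442 [2,0,1,3] [[1,0,3,2,4],[3,0,1,2,4],[4,0,3,1,2],[3,0,2,1,4]],Ref.mk 2325 3832 [3,0,1,2] [[3,0,1,2],[3,0,1,2],[6,0,1,3,2],[1,0,2,3]],Ref.mk 2200 3443 [3,0,2,1] [[3,0,1,2,4],[4,2,1,0,3],[0,2,1,3,4],[1,2,0,3,4]],Ref.mk 2281 3986 [1,0,3,2] [[4,1,0,2,3],[2,1,0,4,3],[2,1,0,3,4],[0,1,2,3,4]],Ref.mk 2362 3564 [0,2,1,3] [[2,1,0,4,3],[2,1,0,3,4],[2,1,0,4,3],[0,1,3,2,4]],Ref.mk 2443 3980 [2,1,0,3] [[2,3,0,4,1],[2,1,0,3,4],[2,4,0,1,3],[0,3,2,1,4]],Ref.mk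 2524 3614 [0,2,1,3] [[0,1,2,4,3],[4,1,0,3,2],[2,1,4,0,3],[2,1,3,0]],Ref.mk 2605 3935 [1,0,3,2] [[0,3,4,1],[4,1,0],[2,3,4,0],[2,3,5,0]],Ref.mk 2686 4007 [1,0,2,3] [[2,1,0,4],[2,6,0,4],[2,5,0,6],[0,3,2]],Ref.mk 2290 3442 [3,0,1,2] [[3,0,1,2,4],[4,0,1,2,3],[2,0,1,3,4],[1,0,2,3,4]],Ref.mk 2299 3986 [1,0,2,3] [[2,3,0,4,1],[2,1,0,4,3],[2,3,0,1,4],[0,3,2,1,4]],Ref.mk 2308 3442 [2,0,1,3] [[1,0,3,2,4],[4,0,1,2,3],[4,0,3,1,2],[3,0,2,1,4]],Ref.mk 2326 3935 [2,0,1,3] [[1,0,3,2],[4,0,1],[6,0,3,1],[3,0,2,1]],Ref.mk 2201 3970 [0,2,1,3] [[0,1,2,5],[0,1,2],[0,1,2],[0,1,3]],Ref.mk 2282 3986 [1,0,3,2] [[4,1,0,2,3],[2,1,0,5,3],[2,1,0,3,4],[0,1,2,3,4]],Ref.mk 2363 3564 [0,2,1,3] [[2,1,0,5,3],[2,1,0,3,4],[2,1,0,4,3],[0,1,3,2,4]],Ref.mk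 2444 3973 [0,1,2,3] [[0,5,2,3,1,4,7],[0,1,2,5,4],[0,3,2,1,4],[0,3,2,1,4]],Ref.mk 2525 3611 [0,2,1,3] [[0,1,2,5,3,4],[4,1,0,3,2],[2,1,4,0,3],[2,1,3,0,4]],Ref.mk 2606 4008 [0,1,2,3] [[0,1,2,3,4,7,6,5],[0,1,2,3,4,5],[0,1,2,3,4,5],[0,1,2,3,4]],Ref.mk 2687 3973 [0,1,2,3] [[0,5,2,3,1,4,7],[0,1,2,5,4],[0,6,2,1,4],[0,3,2,1,4]],Ref.mk 2291 3970 [0,1,2,3] [[2,1,0,5],[2,1,0],[2,1,0],[0,1,3]],Ref.mk 2300 3986 [1,0,2,3] [[2,3,0,4,1],[2,1,0,5,3],[2,3,0,1,4],[0,3,2,1,4]],Ref.mk 2309 3614 [0,1,2,3] [[2,1,0,5,3],[4,1,2,3,0],[0,1,4,2,3],[2,1,3,0]],Ref.mk 2327 4007 [2,0,1,3] [[0,1,2,4],[0,7,2,5],[0,5,2,6],[0,3,2]],Ref.mk 2203 3970 [0,2,1,3] [[0,1,2,7],[0,1,2],[0,1,2],[0,1,3]],Ref.mk 2284 3986 [1,0,3,2] [[4,1,0,2,3],[2,1,0,7,3],[2,1,0,3,4],[0,1,2,3,4]],Ref.mk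 2365 3564 [0,2,1,3] [[2,1,0,7,3],[2,1,0,3,4],[2,1,0,4,3],[0,1,3,2,4]],Ref.mk 2446 3973 [0,1,2,3] [[0,7,2,3,1,4,5],[0,1,2,5,4],[0,3,2,1,4],[0,3,2,1,4]],Ref.mk 2527 3611 [0,2,1,3] [[0,1,2,7,3,4],[4,1,0,3,2],[2,1,4,0,3],[2,1,3,0,4]],Ref.mk 2608 4008 [0,1,2,3] [[0,1,2,3,4,5,6,7],[0,1,2,3,4,5],[0,1,2,3,4,5],[0,1,2,3,4]],Ref.mk 2689 3973 [0,1,2,3] [[0,7,2,3,1,4,5],[0,1,2,5,4],[0,6,2,1,4],[0,3,2,1,4]],Ref.mk 2293 3970 [0,1,2,3] [[2,1,0,7],[2,1,0],[2,1,0],[0,1,3]],Ref.mk 2302 3986 [1,0,2,3] [[2,3,0,4,1],[2,1,0,7,3],[2,3,0,1,4],[0,3,2,1,4]],Ref.mk 2311 3614 [0,1,2,3] [[2,1,0,7,3],[4,1,2,3,0],[0,1,4,2,3],[2,1,3,0]],Ref.mk 2329 4007 [2,0,1,3] [[0,1,2,4],[0,5,2,7],[0,5,2,6],[0,3,2]],Ref.mk 2204 3970 [0,2,1,3] [[0,1,2,8],[0,1,2],[0,1,2],[0,1,3]],Ref.mk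 2285 3986 [1,0,3,2] [[4,1,0,2,3],[2,1,0,8,3],[2,1,0,3,4],[0,1,2,3,4]],Ref.mk 2366 3564 [0,2,1,3] [[2,1,0,8,3],[2,1,0,3,4],[2,1,0,4,3],[0,1,3,2,4]],Ref.mk 2447 3980 [2,1,0,3] [[2,3,0,4,1],[2,1,0,3,4],[2,8,0,1,3],[0,3,2,1,4]],Ref.mk 2528 3611 [0,2,1,3] [[0,1,2,8,3,4],[4,1,0,3,2],[2,1,4,0,3],[2,1,3,0,4]],Ref.mk 2609 4008 [0,1,2,3] [[0,1,2,3,4,7,6,8],[0,1,2,3,4,5],[0,1,2,3,4,5],[0,1,2,3,4]],Ref.mk 2690 4007 [1,0,2,3] [[2,1,0,4],[2,6,0,8],[2,5,0,6],[0,3,2]],Ref.mk 2294 3970 [0,1,2,3] [[2,1,0,8],[2,1,0],[2,1,0],[0,1,3]],Ref.mk 2303 3986 [1,0,2,3] [[2,3,0,4,1],[2,1,0,8,3],[2,3,0,1,4],[0,3,2,1,4]],Ref.mk 2312 3614 [0,1,2,3] [[2,1,0,8,3],[4,1,2,3,0],[0,1,4,2,3],[2,1,3,0]],Ref.mk 2330 4007 [2,0,1,3] [[0,1,2,4],[0,5,2,8],[0,5,2,6],[0,3,2]]],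
Node.mk [0,820,182,1623,2458,1496,1800,3114,1624,2318,2607] [(0,0),(0,1),(0,2),(0,5),(0,6),(1,0)] [Ref.mk 2199 3443 [3,0,2,1] [[3,0,1,2,4],[3,2,1,0,4],[0,2,1,3,4],[1,2,0,3,4]],Ref.mk 2280 4007 [1,0,3,2] [[4,1,0,2],[2,1,0,3],[2,1,0,3],[0,1,2]],Ref.mk 2361 3970 [0,2,1,3] [[2,1,0,3],[2,1,0],[2,1,0],[0,1,3]],Ref.mk 2442 4007 [2,0,1,3] [[0,3,2,4],[0,1,2,3],[0,3,2,1],[0,3,2]],Ref.mk 2523 3832 [3,0,2,1] [[3,0,1,2],[3,2,1,0],[4,2,1,3,0],[1,2,0,3]],Ref.mk 2604 3832 [3,0,2,1] [[3,0,1,2],[3,2,1,0],[5,2,1,3,0],[1,2,0,3]],Ref.mk 2685 3832 [3,0,2,1] [[3,0,1,2],[3,2,1,0],[6,2,1,3,0],[1,2,0,3]],Ref.mk 2289 3442 [3,0,1,2] [[3,0,1,2,4],[3,0,1,2,4],[2,0,1,3,4],[1,0,2,3,4]],Ref.mk 2298 3985 [1,0,2,3] [[2,3,0,4,1],[2,1,0,3,4,6],[2,3,0,1,4,5],[0,3,2,1,4]],Ref.mk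 2307 3442 [2,0,1,3] [[1,0,3,2,4],[3,0,1,2,4],[4,0,3,1,2],[3,0,2,1,4]],Ref.mk 2316 3832 [3,0,1,2] [[3,0,1,2],[3,0,1,2],[5,0,1,3,2],[1,0,2,3]],Ref.mk 2325 3832 [3,0,1,2] [[3,0,1,2],[3,0,1,2],[6,0,1,3,2],[1,0,2,3]],Ref.mk 2200 3443 [3,0,2,1] [[3,0,1,2,4],[4,2,1,0,3],[0,2,1,3,4],[1,2,0,3,4]],Ref.mk 2281 3986 [1,0,3,2] [[4,1,0,2,3],[2,1,0,4,3],[2,1,0,3,4],[0,1,2,3,4]],Ref.mk 2362 3564 [0,2,1,3] [[2,1,0,4,3],[2,1,0,3,4],[2,1,0,4,3],[0,1,3,2,4]],Ref.mk 2443 3980 [2,1,0,3] [[2,3,0,4,1],[2,1,0,3,4],[2,4,0,1,3],[0,3,2,1,4]],Ref.mk 2524 3614 [0,2,1,3] [[0,1,2,4,3],[4,1,0,3,2],[2,1,4,0,3],[2,1,3,0]],Ref.mk 2605 3935 [1,0,3,2] [[0,3,4,1],[4,1,0],[2,3,4,0],[2,3,5,0]],Ref.mk 2686 4007 [1,0,2,3] [[2,1,0,4],[2,6,0,4],[2,5,0,6],[0,3,2]],Ref.mk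 2290 3442 [3,0,1,2] [[3,0,1,2,4],[4,0,1,2,3],[2,0,1,3,4],[1,0,2,3,4]],Ref.mk 2299 3985 [1,0,2,3] [[2,3,0,4,1],[2,1,0,4,3,6],[2,3,0,1,4,5],[0,3,2,1,4]],Ref.mk 2308 3442 [2,0,1,3] [[1,0,3,2,4],[4,0,1,2,3],[4,0,3,1,2],[3,0,2,1,4]],Ref.mk 2317 3935 [2,0,1,3] [[1,0,3,2],[4,0,1],[5,0,3,1],[3,0,2,1]],Ref.mk 2326 3935 [2,0,1,3] [[1,0,3,2],[4,0,1],[6,0,3,1],[3,0,2,1]],Ref.mk 2203 3970 [0,2,1,3] [[0,1,2,7],[0,1,2],[0,1,2],[0,1,3]],Ref.mk 2284 3986 [1,0,3,2] [[4,1,0,2,3],[2,1,0,7,3],[2,1,0,3,4],[0,1,2,3,4]],Ref.mk 2365 3564 [0,2,1,3] [[2,1,0,7,3],[2,1,0,3,4],[2,1,0,4,3],[0,1,3,2,4]],Ref.mk 2446 3980 [2,1,0,3] [[2,3,0,4,1],[2,1,0,3,4],[2,7,0,1,3],[0,3,2,1,4]],Ref.mk 2527 3611 [0,2,1,3] [[0,1,2,7,3,4],[4,1,0,3,2],[2,1,4,0,3],[2,1,3,0,4]],Ref.mk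 2608 4008 [0,1,2,3] [[0,1,2,3,4,5,6,7],[0,1,2,3,4,5],[0,1,2,3,4,5],[0,1,2,3,4]],Ref.mk 2689 4007 [1,0,2,3] [[2,1,0,4],[2,6,0,7],[2,5,0,6],[0,3,2]],Ref.mk 2293 3970 [0,1,2,3] [[2,1,0,7],[2,1,0],[2,1,0],[0,1,3]],Ref.mk 2302 3985 [1,0,2,3] [[2,3,0,4,1],[2,1,0,7,4,6],[2,3,0,1,4,5],[0,3,2,1,4]],Ref.mk 2311 3614 [0,1,2,3] [[2,1,0,7,3],[4,1,2,3,0],[0,1,4,2,3],[2,1,3,0]],Ref.mk 2320 4009 [0,1,2,3] [[0,1,2,3,4,5,6,7],[0,1,2,3,4,5],[0,1,2,3,4,5],[0,1,2,3,4]],Ref.mk 2329 4007 [2,0,1,3] [[0,1,2,4],[0,5,2,7],[0,5,2,6],[0,3,2]]],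
Node.mk [0,820,182,1623,2458,1496,1800,3114,1624,2318] [(0,0),(0,1),(0,2),(0,5),(1,0),(1,5)] [Ref.mk 2199 3443 [3,0,2,1] [[3,0,1,2,4],[3,2,1,0,4],[0,2,1,3,4],[1,2,0,3,4]],Ref.mk 2280 2303 [1,0,3,2] [[0,3,4,1,2],[3,1,0,4,2],[2,3,4,0],[2,3,1,0,4]],Ref.mk 2361 3564 [0,2,1,3] [[2,1,0,3,4],[2,1,0,3,4],[2,1,0,4,3],[0,1,3,2,4]],Ref.mk 2442 2303 [1,0,3,2] [[0,5,4,1,2],[3,5,0,4,2],[2,3,4,0],[2,1,3,0,4]],Ref.mk 2523 3832 [3,0,2,1] [[3,0,1,2],[3,2,1,0],[4,2,1,3,0],[1,2,0,3]],Ref.mk 2604 2303 [1,0,3,2] [[0,5,4,1,2],[3,5,0,4,2],[2,3,4,0],[2,1,5,0,4]],Ref.mk 2289 3442 [3,0,1,2] [[3,0,1,2,4],[3,0,1,2,4],[2,0,1,3,4],[1,0,2,3,4]],Ref.mk 111 3443 [2,0,3,1] [[1,0,3,2,4],[3,2,1,0,4],[0,2,3,1,4],[3,4,0,1,2]],Ref.mk 840 2303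 [1,0,2,3] [[0,5,2,3,4],[3,5,0,4,2],[2,1,4,0],[2,3,1,0,4]],Ref.mk 1569 3564 [0,3,1,2] [[2,1,0,3,4],[2,3,0,1,4],[4,3,0,2,1],[0,3,1,2,4]],Ref.mk 2298 3986 [1,0,2,3] [[2,3,0,4,1],[2,1,0,3,4],[2,3,0,1,4],[0,3,2,1,4]],Ref.mk 3027 3970 [3,0,1,2] [[4,0,1,2],[3,0,1],[3,0,1],[1,0,2]],Ref.mk 3756 2303 [1,0,2,3] [[0,5,2,3,4],[3,5,0,4,2],[2,1,4,0],[2,3,5,0,4]],Ref.mk 2307 3442 [2,0,1,3] [[1,0,3,2,4],[3,0,1,2,4],[4,0,3,1,2],[3,0,2,1,4]],Ref.mk 2325 2303 [1,0,3,2] [[0,3,4,6,2],[3,1,0,4,2],[2,3,4,0],[2,3,1,0,4]],Ref.mk 2200 3443 [3,0,2,1] [[3,0,1,2,4],[4,2,1,0,3],[0,2,1,3,4],[1,2,0,3,4]],Ref.mk 2281 2303 [1,0,3,2] [[0,3,4,1,2],[4,1,0,3,2],[2,3,4,0],[2,3,1,0,4]],Ref.mk 2362 3564 [0,2,1,3] [[2,1,0,4,3],[2,1,0,3,4],[2,1,0,4,3],[0,1,3,2,4]],Ref.mk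 2443 2303 [1,0,3,2] [[0,5,4,1,2],[4,5,0,3,2],[2,3,4,0],[2,1,3,0,4]],Ref.mk 2524 3614 [0,2,1,3] [[0,1,2,4,3],[4,1,0,3,2],[2,1,4,0,3],[2,1,3,0]],Ref.mk 2605 2303 [1,0,3,2] [[0,5,4,1,2],[4,5,0,3,2],[2,3,4,0],[2,1,5,0,4]],Ref.mk 2290 3442 [3,0,1,2] [[3,0,1,2,4],[4,0,1,2,3],[2,0,1,3,4],[1,0,2,3,4]],Ref.mk 112 3443 [2,0,3,1] [[1,0,3,2,4],[4,2,1,0,3],[0,2,3,1,4],[3,4,0,1,2]],Ref.mk 841 2303 [1,0,2,3] [[0,5,2,3,4],[4,5,0,3,2],[2,1,4,0],[2,3,1,0,4]],Ref.mk 1570 3564 [0,3,1,2] [[2,1,0,4,3],[2,3,0,1,4],[4,3,0,2,1],[0,3,1,2,4]],Ref.mk 2299 2303 [1,0,2,3] [[0,1,2,3,4],[4,1,0,3,2],[2,1,4,0],[2,1,3,0,4]],Ref.mk 3028 3935 [1,0,2,3] [[0,1,2,3],[4,1,0],[2,1,4,0],[2,1,4,0]],Ref.mk 3757 2303 [1,0,2,3] [[0,5,2,3,4],[4,5,0,3,2],[2,1,4,0],[2,3,5,0,4]],Ref.mk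 2308 3442 [2,0,1,3] [[1,0,3,2,4],[4,0,1,2,3],[4,0,3,1,2],[3,0,2,1,4]],Ref.mk 2326 2303 [1,0,3,2] [[0,3,4,6,2],[4,1,0,3,2],[2,3,4,0],[2,3,1,0,4]],Ref.mk 2202 3970 [0,2,1,3] [[0,1,2,6],[0,1,2],[0,1,2],[0,1,3]],Ref.mk 2283 3986 [1,0,3,2] [[4,1,0,2,3],[2,1,0,6,4],[2,1,0,3,4],[0,1,2,3,4]],Ref.mk 2364 3564 [0,2,1,3] [[2,1,0,6,4],[2,1,0,3,4],[2,1,0,4,3],[0,1,3,2,4]],Ref.mk 2445 3980 [2,1,0,3] [[2,3,0,4,1],[2,1,0,3,4],[2,6,0,1,4],[0,3,2,1,4]],Ref.mk 2526 3611 [0,2,1,3] [[0,1,2,6,3,4],[4,1,0,3,2],[2,1,4,0,3],[2,1,3,0,4]],Ref.mk 2607 4010 [0,1,2,3] [[0,1,2,3,4,5,6],[0,1,2,3,4,5],[0,1,2,3,4,5],[0,1,2,3,4]],Ref.mk 2292 3613 [0,1,3,2] [[2,1,0,6,3,4],[2,3,4,1,0],[0,3,4,2,1],[2,3,1,0]],Ref.mk 114 3964 [0,3,1,2] [[6,0,1,2],[0,2,1],[3,2,1,0],[1,4,2,0]],Ref.mk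 843 3980 [2,1,0,3] [[2,1,0,4,3],[2,3,0,1,4],[2,6,0,1,4],[0,1,2,3,4]],Ref.mk 1572 3564 [0,3,1,2] [[2,1,0,6,4],[2,3,0,1,4],[4,3,0,2,1],[0,3,1,2,4]],Ref.mk 2301 3986 [1,0,2,3] [[2,3,0,4,1],[2,1,0,6,4],[2,3,0,1,4],[0,3,2,1,4]],Ref.mk 3030 3611 [0,3,1,2] [[0,1,2,6,3,4],[4,3,0,1,2],[4,3,2,0,1],[2,3,1,0,4]],Ref.mk 3759 4010 [0,1,3,2] [[0,1,2,3,4,5,6],[0,3,4,1,2,5],[0,3,2,1,4,5],[0,3,2,1,4]],Ref.mk 2310 3613 [0,1,2,3] [[2,1,0,6,3,4],[4,1,2,3,0],[0,1,4,2,3],[2,1,3,0]],Ref.mk 2328 4007 [2,0,1,3] [[0,1,2,4],[0,5,2,6],[0,5,2,6],[0,3,2]]],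
Node.mk [0,820,182,1623,2458,1496,1800,3114,1624] [(0,0),(0,1),(0,2),(1,0),(1,1),(1,3)] [Ref.mk 2289 3442 [3,0,1,2] [[3,0,1,2,4],[3,0,1,2,4],[2,0,1,3,4],[1,0,2,3,4]],Ref.mk 993 3442 [3,0,1,2] [[1,0,3,2,4],[3,0,1,2,4],[2,0,3,1,4],[3,0,2,1,4]],Ref.mk 2307 3442 [2,0,1,3] [[1,0,3,2,4],[3,0,1,2,4],[4,0,3,1,2],[3,0,2,1,4]],Ref.mk 1011 3442 [2,0,1,3] [[3,0,1,2,4],[3,0,1,2,4],[4,0,1,3,2],[1,0,2,3,4]],Ref.mk 2316 2303 [1,0,3,2] [[0,3,4,5,2],[3,1,0,4,2],[2,3,4,0],[2,3,1,0,4]],Ref.mk 1020 2303 [1,0,2,3] [[0,3,2,5,4],[3,1,0,4,2],[2,3,4,0],[2,3,1,0,4]],Ref.mk 2290 3442 [3,0,1,2] [[3,0,1,2,4],[4,0,1,2,3],[2,0,1,3,4],[1,0,2,3,4]],Ref.mk 994 3442 [3,0,1,2] [[1,0,3,2,4],[4,0,1,2,3],[2,0,3,1,4],[3,0,2,1,4]],Ref.mk 2308 3442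 [2,0,1,3] [[1,0,3,2,4],[4,0,1,2,3],[4,0,3,1,2],[3,0,2,1,4]],Ref.mk 1012 3442 [2,0,1,3] [[3,0,1,2,4],[4,0,1,2,3],[4,0,1,3,2],[1,0,2,3,4]],Ref.mk 2317 2303 [1,0,3,2] [[0,3,4,5,2],[4,1,0,3,2],[2,3,4,0],[2,3,1,0,4]],Ref.mk 1021 2303 [1,0,2,3] [[0,3,2,5,4],[4,1,0,3,2],[2,3,4,0],[2,3,1,0,4]],Ref.mk 2291 3613 [0,1,3,2] [[2,1,0,5,3,4],[2,3,4,1,0],[0,3,4,2,1],[2,3,1,0]],Ref.mk 995 3613 [0,1,3,2] [[2,1,0,5,3,4],[2,1,4,3,0],[0,1,4,2,3],[2,1,3,0]],Ref.mk 2309 3613 [0,1,2,3] [[2,1,0,5,3,4],[4,1,2,3,0],[0,1,4,2,3],[2,1,3,0]],Ref.mk 1013 3613 [0,1,2,3] [[2,1,0,5,3,4],[4,3,2,1,0],[0,3,4,2,1],[2,3,1,0]],Ref.mk 2318 4011 [0,1,2,3] [[0,1,2,3,4,5],[0,1,2,3,4,5],[0,1,2,3,4],[0,1,2,3,4]],Ref.mk 1022 4011 [0,1,2,3] [[0,1,2,3,4,5],[0,3,2,1,4,5],[0,3,2,1,4],[0,3,2,1,4]]],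
Node.mk [0,820,182,1623,2458,1496,1800,3114,2317,2606,2607] [(0,0),(0,1),(0,2),(0,3),(0,4),(3,3)] [Ref.mk 1625 4010 [0,1,2,3] [[0,1,2,3,5,4,6],[0,1,2,3,4,5],[0,1,2,3,4,5],[0,1,2,3,4]],Ref.mk 1626 4010 [0,1,2,3] [[0,1,2,3,6,4,5],[0,1,2,3,4,5],[0,1,2,3,4,5],[0,1,2,3,4]],Ref.mk 1627 4008 [0,1,2,3] [[0,1,2,3,7,4,5,6],[0,1,2,3,4,5],[0,1,2,3,4,5],[0,1,2,3,4]]],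
Node.mk [0,820,182,1623,2458,1496,1800,3114,2317,2606,2319] [(0,0),(0,1),(0,2),(0,3),(0,5),(1,5)] [Ref.mk 2272 3559 [0,1,2,3] [[0,1,2,4,3],[0,1,2,3,4],[0,1,2,4,3],[0,1,3,2,4]],Ref.mk 1624 4010 [0,1,2,3] [[0,1,2,3,4,6,5],[0,1,2,3,4,5],[0,1,2,3,4,5],[0,1,2,3,4]],Ref.mk 2200 3970 [0,2,1,3] [[0,1,2,4],[0,1,2],[0,1,2],[0,1,3]],Ref.mk 2281 3986 [1,0,3,2] [[4,1,0,2,3],[2,1,0,4,3],[2,1,0,3,4],[0,1,2,3,4]],Ref.mk 2362 3564 [0,2,1,3] [[2,1,0,4,3],[2,1,0,3,4],[2,1,0,4,3],[0,1,3,2,4]],Ref.mk 2443 3978 [0,1,2,3] [[0,4,2,3,1,6],[0,1,2,5,4],[0,3,2,1,4],[0,3,2,1,4]],Ref.mk 2524 3614 [0,2,1,3] [[0,1,2,4,3],[4,1,0,3,2],[2,1,4,0,3],[2,1,3,0]],Ref.mk 2605 4013 [0,1,2,3] [[0,1,2,3,6,5,4],[0,1,2,3,4,5],[0,1,2,3,4,5],[0,1,2,3,4]],Ref.mk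 2686 3978 [0,1,2,3] [[0,4,2,3,1,6],[0,1,2,5,4],[0,6,2,1,4],[0,3,2,1,4]],Ref.mk 2290 3970 [0,1,2,3] [[2,1,0,4],[2,1,0],[2,1,0],[0,1,3]],Ref.mk 2299 3985 [1,0,2,3] [[2,3,0,4,1],[2,1,0,4,3,5],[2,3,0,1,4,5],[0,3,2,1,4]],Ref.mk 2308 3614 [0,1,2,3] [[2,1,0,4,3],[4,1,2,3,0],[0,1,4,2,3],[2,1,3,0]],Ref.mk 2326 4007 [2,0,1,3] [[0,1,2,4],[0,6,2,4],[0,5,2,6],[0,3,2]],Ref.mk 2274 3559 [0,1,2,3] [[0,1,2,6,3],[0,1,2,3,4],[0,1,2,4,3],[0,1,3,2,4]],Ref.mk 1626 4010 [0,1,2,3] [[0,1,2,3,6,4,5],[0,1,2,3,4,5],[0,1,2,3,4,5],[0,1,2,3,4]],Ref.mk 2202 3970 [0,2,1,3] [[0,1,2,6],[0,1,2],[0,1,2],[0,1,3]],Ref.mk 2283 3986 [1,0,3,2] [[4,1,0,2,3],[2,1,0,6,3],[2,1,0,3,4],[0,1,2,3,4]],Ref.mk 2364 3564 [0,2,1,3] [[2,1,0,6,3],[2,1,0,3,4],[2,1,0,4,3],[0,1,3,2,4]],Ref.mk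 2445 3978 [0,1,2,3] [[0,6,2,3,1,4],[0,1,2,5,4],[0,3,2,1,4],[0,3,2,1,4]],Ref.mk 2526 3614 [0,2,1,3] [[0,1,2,6,3],[4,1,0,3,2],[2,1,4,0,3],[2,1,3,0]],Ref.mk 2607 4013 [0,1,2,3] [[0,1,2,3,4,5,6],[0,1,2,3,4,5],[0,1,2,3,4,5],[0,1,2,3,4]],Ref.mk 2688 3978 [0,1,2,3] [[0,6,2,3,1,4],[0,1,2,5,4],[0,6,2,1,4],[0,3,2,1,4]],Ref.mk 2292 3970 [0,1,2,3] [[2,1,0,6],[2,1,0],[2,1,0],[0,1,3]],Ref.mk 2301 3985 [1,0,2,3] [[2,3,0,4,1],[2,1,0,6,3,5],[2,3,0,1,4,5],[0,3,2,1,4]],Ref.mk 2310 3614 [0,1,2,3] [[2,1,0,6,3],[4,1,2,3,0],[0,1,4,2,3],[2,1,3,0]],Ref.mk 2328 4007 [2,0,1,3] [[0,1,2,4],[0,4,2,6],[0,5,2,6],[0,3,2]],Ref.mk 2275 3559 [0,1,2,3] [[0,1,2,7,3],[0,1,2,3,4],[0,1,2,4,3],[0,1,3,2,4]],Ref.mk 1627 4009 [0,1,2,3] [[0,1,2,3,7,4,5,6],[0,1,2,3,4,5],[0,1,2,3,4,5],[0,1,2,3,4]],Ref.mk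 2203 3970 [0,2,1,3] [[0,1,2,7],[0,1,2],[0,1,2],[0,1,3]],Ref.mk 2284 3986 [1,0,3,2] [[4,1,0,2,3],[2,1,0,7,3],[2,1,0,3,4],[0,1,2,3,4]],Ref.mk 2365 3564 [0,2,1,3] [[2,1,0,7,3],[2,1,0,3,4],[2,1,0,4,3],[0,1,3,2,4]],Ref.mk 2446 3980 [2,1,0,3] [[2,3,0,4,1],[2,1,0,3,4],[2,7,0,1,3],[0,3,2,1,4]],Ref.mk 2527 3614 [0,2,1,3] [[0,1,2,7,3],[4,1,0,3,2],[2,1,4,0,3],[2,1,3,0]],Ref.mk 2608 4013 [0,1,2,3] [[0,1,2,3,6,5,7],[0,1,2,3,4,5],[0,1,2,3,4,5],[0,1,2,3,4]],Ref.mk 2689 4007 [1,0,2,3] [[2,1,0,4],[2,5,0,7],[2,5,0,6],[0,3,2]],Ref.mk 2293 3970 [0,1,2,3] [[2,1,0,7],[2,1,0],[2,1,0],[0,1,3]],Ref.mk 2302 3985 [1,0,2,3] [[2,3,0,4,1],[2,1,0,7,3,5],[2,3,0,1,4,5],[0,3,2,1,4]],Ref.mk 2311 3614 [0,1,2,3] [[2,1,0,7,3],[4,1,2,3,0],[0,1,4,2,3],[2,1,3,0]],Ref.mk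 2329 4007 [2,0,1,3] [[0,1,2,4],[0,4,2,7],[0,5,2,6],[0,3,2]]],
Node.mk [0,820,182,1623,2458,1496,1800,3114,2317,2606] [(0,0),(0,1),(0,2),(0,3),(0,4),(0,5)] [Ref.mk 2274 3559 [0,1,2,3] [[0,1,2,6,3],[0,1,2,3,4],[0,1,2,4,3],[0,1,3,2,4]],Ref.mk 1626 4010 [0,1,2,3] [[0,1,2,3,6,4,5],[0,1,2,3,4,5],[0,1,2,3,4,5],[0,1,2,3,4]],Ref.mk 2202 3970 [0,2,1,3] [[0,1,2,6],[0,1,2],[0,1,2],[0,1,3]],Ref.mk 2283 3986 [1,0,3,2] [[4,1,0,2,3],[2,1,0,6,3],[2,1,0,3,4],[0,1,2,3,4]],Ref.mk 2364 3564 [0,2,1,3] [[2,1,0,6,3],[2,1,0,3,4],[2,1,0,4,3],[0,1,3,2,4]],Ref.mk 2445 3980 [2,1,0,3] [[2,3,0,4,1],[2,1,0,3,4],[2,6,0,1,3],[0,3,2,1,4]],Ref.mk 2526 3614 [0,2,1,3] [[0,1,2,6,3],[4,1,0,3,2],[2,1,4,0,3],[2,1,3,0]],Ref.mk 2607 4013 [0,1,2,3]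 [[0,1,2,3,4,5,6],[0,1,2,3,4,5],[0,1,2,3,4,5],[0,1,2,3,4]],Ref.mk 2688 4007 [1,0,2,3] [[2,1,0,4],[2,5,0,6],[2,5,0,6],[0,3,2]],Ref.mk 2292 3970 [0,1,2,3] [[2,1,0,6],[2,1,0],[2,1,0],[0,1,3]],Ref.mk 2301 3985 [1,0,2,3] [[2,3,0,4,1],[2,1,0,6,3,5],[2,3,0,1,4,5],[0,3,2,1,4]],Ref.mk 2310 3614 [0,1,2,3] [[2,1,0,6,3],[4,1,2,3,0],[0,1,4,2,3],[2,1,3,0]],Ref.mk 2319 4014 [0,1,2,3] [[0,1,2,3,4,5,6],[0,1,2,3,4,5],[0,1,2,3,4,5],[0,1,2,3,4]],Ref.mk 2328 4007 [2,0,1,3] [[0,1,2,4],[0,4,2,6],[0,5,2,6],[0,3,2]]],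
Node.mk [0,820,182,1623,2458,1496,1800,3114,2317] [(0,0),(0,1),(0,2),(0,3),(0,4),(1,5)] [Ref.mk 2273 3559 [0,1,2,3] [[0,1,2,5,3],[0,1,2,3,4],[0,1,2,4,3],[0,1,3,2,4]],Ref.mk 1625 4011 [0,1,2,3] [[0,1,2,3,5,4],[0,1,2,3,4,5],[0,1,2,3,4],[0,1,2,3,4]],Ref.mk 2201 3603 [0,2,3,1] [[2,1,0,5,4],[0,3,2,1,4],[2,3,4,0,1],[4,3,1,2,5]],Ref.mk 2282 3986 [1,0,3,2] [[4,1,0,2,3],[2,1,0,5,3],[2,1,0,3,4],[0,1,2,3,4]],Ref.mk 2363 3564 [0,2,1,3] [[2,1,0,5,3],[2,1,0,3,4],[2,1,0,4,3],[0,1,3,2,4]],Ref.mk 2444 3980 [2,1,0,3] [[2,3,0,4,1],[2,1,0,3,4],[2,5,0,1,3],[0,3,2,1,4]],Ref.mk 2525 3603 [0,2,3,1] [[0,1,2,5,4],[4,3,2,1,0],[2,3,0,4,1],[2,3,1,4,5]],Ref.mk 2606 4015 [0,1,2,3] [[0,1,2,3,4,5],[0,1,2,3,4,5],[0,1,2,3,4,5],[0,1,2,3,4]],Ref.mk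 2291 3830 [0,1,2,3] [[0,1,2,5,3],[2,1,4,3,0],[4,1,0,2,3],[2,1,3,4,0]],Ref.mk 113 3603 [0,3,2,1] [[2,1,0,5,4],[0,1,2,3,4],[2,1,4,0,3],[2,1,3,4,5]],Ref.mk 842 3980 [2,1,0,3] [[2,1,0,4,3],[2,3,0,1,4],[2,5,0,1,3],[0,1,2,3,4]],Ref.mk 1571 3564 [0,3,1,2] [[2,1,0,5,3],[2,3,0,1,4],[4,3,0,2,1],[0,3,1,2,4]],Ref.mk 2300 3986 [1,0,2,3] [[2,3,0,4,1],[2,1,0,5,3],[2,3,0,1,4],[0,3,2,1,4]],Ref.mk 3029 3603 [0,3,2,1] [[0,1,2,5,4],[4,1,2,3,0],[2,1,0,4,3],[4,1,3,2,5]],Ref.mk 3758 4015 [0,1,3,2] [[0,1,2,3,4,5],[0,3,4,1,2,5],[0,3,2,1,4,5],[0,3,2,1,4]],Ref.mk 2309 3830 [0,1,2,3] [[2,1,0,5,3],[4,1,2,3,0],[0,1,4,2,3],[2,1,3,0,4]],Ref.mk 2327 4007 [2,0,1,3] [[0,1,2,4],[0,4,2,5],[0,5,2,6],[0,3,2]]],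
Node.mk [0,820,182,1623,2458,1496,1800,3114] [(0,0),(0,1),(0,2),(0,3),(1,1),(1,3)] [Ref.mk 2272 3559 [0,1,2,3] [[0,1,2,4,3],[0,1,2,3,4],[0,1,2,4,3],[0,1,3,2,4]],Ref.mk 1624 4012 [0,1,2,3] [[0,1,2,3,4],[0,1,2,3,4],[0,1,2,3,4],[0,1,2,3,4]],Ref.mk 976 3559 [0,1,2,3] [[0,1,2,4,3],[0,3,2,1,4],[0,3,2,4,1],[0,3,1,2,4]],Ref.mk 2290 3830 [0,1,2,3] [[0,1,2,4,3],[2,1,4,3,0],[4,1,0,2,3],[2,1,3,4,0]],Ref.mk 994 3830 [0,1,2,3] [[0,1,2,4,3],[2,3,4,1,0],[4,3,0,2,1],[2,3,1,4,0]],Ref.mk 2308 3830 [0,1,2,3] [[2,1,0,4,3],[4,1,2,3,0],[0,1,4,2,3],[2,1,3,0,4]],Ref.mk 1012 3830 [0,1,2,3] [[2,1,0,4,3],[4,3,2,1,0],[0,3,4,2,1],[2,3,1,0,4]],Ref.mk 2317 4016 [0,1,2,3] [[0,1,2,3,4],[0,1,2,3,4,5],[0,1,2,3,4],[0,1,2,3,4]],Ref.mk 1021 4016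 [0,1,2,3] [[0,1,2,3,4],[0,3,2,1,4,5],[0,3,2,1,4],[0,3,2,1,4]]],
Node.mk [0,820,182,1623,2458,1496,1800,2937] [(0,0),(0,1),(0,2),(0,3),(1,0),(1,2)] [Ref.mk 2200 3829 [0,2,1,3] [[2,1,3,4,0],[0,1,2,3,4],[4,1,0,2,3],[2,1,3,0,4]],Ref.mk 2281 3980 [1,0,3,2] [[2,1,0,4,3],[2,1,3,4,0],[0,1,2,3,4],[2,1,0,3,4]],Ref.mk 2362 3574 [0,2,1,3] [[2,1,0,4,3],[2,1,0,3,4],[2,1,0,4,3],[0,1,3,2,4]],Ref.mk 256 3574 [0,3,1,2] [[2,1,3,4,0],[0,1,2,3,4],[2,1,0,4,3],[2,1,3,0,4]],Ref.mk 985 3980 [1,0,2,3] [[2,1,0,4,3],[2,1,0,4,3],[2,1,0,3,4],[0,1,2,3,4]],Ref.mk 1714 3829 [0,3,1,2] [[2,1,0,4,3],[2,1,0,3,4],[4,1,0,2,3],[0,1,3,2,4]],Ref.mk 2443 3980 [2,0,1,3] [[0,3,2,4,1],[0,1,2,4,3],[0,3,2,1,4],[0,3,2,1,4]],Ref.mk 3172 3614 [0,3,2,1] [[3,1,0,4,2],[4,3,2,1,0],[0,3,4,2,1],[2,3,1,0]],Ref.mk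 3901 4017 [2,0,1,3] [[0,3,2,4],[0,1,2,4,3],[0,3,2,1,4],[0,3,2,5,4]],Ref.mk 2524 3614 [0,2,3,1] [[0,1,3,4,2],[4,3,0,1,2],[2,3,4,0,1],[2,3,1,0]],Ref.mk 2605 4017 [3,0,1,2] [[2,3,0,4],[3,1,2,4,0],[0,3,2,1,4],[2,3,0,5,4]],Ref.mk 760 3829 [0,2,1,3] [[2,1,3,4,0],[0,3,2,1,4],[4,3,0,2,1],[2,3,1,0,4]],Ref.mk 112 3574 [0,3,1,2] [[2,1,3,4,0],[0,3,2,1,4],[2,3,0,4,1],[2,3,1,0,4]],Ref.mk 841 3980 [2,0,1,3] [[0,1,2,4,3],[0,1,2,4,3],[0,1,2,3,4],[0,1,2,3,4]],Ref.mk 1570 3829 [0,3,1,2] [[2,1,0,4,3],[2,3,0,1,4],[4,3,0,2,1],[0,3,1,2,4]],Ref.mk 2299 3980 [1,0,2,3] [[2,3,0,4,1],[2,1,0,4,3],[2,3,0,1,4],[0,3,2,1,4]],Ref.mk 3028 3614 [0,3,2,1] [[3,1,0,4,2],[4,1,2,3,0],[0,1,4,2,3],[2,1,3,0]],Ref.mk 3757 4017 [1,0,2,3] [[2,3,0,4],[2,1,0,4,3],[2,3,0,1,4],[0,3,2,5,4]],Ref.mk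 922 3574 [0,2,1,3] [[2,1,0,4,3],[2,3,0,1,4],[2,3,0,4,1],[0,3,1,2,4]],Ref.mk 1003 3980 [1,0,3,2] [[2,3,0,4,1],[2,1,3,4,0],[0,3,2,1,4],[2,3,0,1,4]],Ref.mk 1084 3614 [0,2,3,1] [[0,1,3,4,2],[4,1,0,3,2],[2,1,4,0,3],[2,1,3,0]],Ref.mk 1165 4017 [1,0,2,3] [[2,3,0,4],[2,1,0,4,3],[2,3,0,5,4],[0,3,2,1,4]],Ref.mk 2308 3614 [0,1,3,2] [[2,1,3,4,0],[4,3,2,1,0],[2,3,4,0,1],[0,3,1,2]],Ref.mk 1012 3614 [0,1,3,2] [[2,1,3,4,0],[4,1,2,3,0],[2,1,4,0,3],[0,1,3,2]],Ref.mk 2317 4017 [3,0,1,2] [[2,3,0,4],[3,1,2,4,0],[0,3,2,5,4],[2,3,0,1,4]],Ref.mk 1021 4017 [2,0,1,3] [[0,3,2,4],[0,1,2,4,3],[0,3,2,5,4],[0,3,2,1,4]]],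
Node.mk [0,820,182,1623,2458,1496,1800] [(0,1),(1,1),(2,1),(3,0),(3,1),(3,2)] [Ref.mk 2385 3934 [1,3,0,2] [[4,1,0,3],[3,1,2,0],[0,1,3,2],[2,1,3,0]],Ref.mk 3114 4017 [0,1,2,3] [[0,1,2,3],[0,1,2,3,4],[0,1,2,3,4],[0,1,2,3,4]],Ref.mk 2513 3934 [1,3,0,2] [[0,1,2,3],[3,1,2,0],[2,1,0,3],[4,1,3,2]],Ref.mk 3242 4017 [0,2,1,3] [[2,1,0,3],[2,1,0,3,4],[2,1,0,3,4],[0,1,2,3,4]],Ref.mk 2208 3934 [1,3,0,2] [[2,1,0,3],[3,1,0,2],[3,1,0,2],[0,1,3,2]],Ref.mk 2937 4018 [0,1,2,3] [[0,1,2,3],[0,1,2,3,4],[0,1,2,3,4],[0,1,2,3,4]]],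
Node.mk [0,820,182,1623,2458,1496,2317,3242] [(0,1),(0,2),(1,0),(1,1),(2,1),(3,1)] [Ref.mk 1800 4017 [3,2,0,1] [[2,3,0,4],[4,3,2,1,0],[0,1,2,4,3],[2,3,0,5,4]],Ref.mk 3114 4018 [3,0,1,2] [[0,3,2,4],[0,1,2,4,3],[0,3,4,5,2],[0,3,2,1,4]],Ref.mk 2937 4018 [3,0,1,2] [[2,3,0,4],[3,1,2,4,0],[0,3,2,5,4],[2,3,0,1,4]],Ref.mk 363 4017 [3,2,0,1] [[0,3,2,4],[4,3,0,1,2],[3,1,2,4,0],[4,3,0,5,2]]],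
Node.mk [0,820,182,1623,2458,1496,2317] [(0,1),(1,1),(2,0),(2,1),(2,2),(3,1)] [Ref.mk 1719 4019 [2,0,1,3] [[0,1,2,3],[0,1,2,4,3],[0,1,2,5,4],[0,1,2,3]],Ref.mk 1800 4019 [2,0,1,3] [[0,1,2,4],[0,1,2,4,3],[0,1,2,5,4],[0,1,2,3]],Ref.mk 245 3832 [3,2,1,0] [[3,2,1,0],[3,2,1,0],[3,0,1,5,4],[1,3,2,4]],Ref.mk 1703 3832 [3,2,1,0] [[3,0,1,2],[3,0,1,2],[3,0,1,5,2],[1,0,2,4]],Ref.mk 2432 3935 [0,3,2,1] [[2,1,0,4],[3,1,0],[3,1,0,2],[0,1,5,2]],Ref.mk 3161 3832 [3,2,1,0] [[3,2,1,4],[3,2,1,0],[3,0,1,5,4],[1,3,2,4]],Ref.mk 326 4005 [1,2,0,3] [[5,0,3,1,4,2],[1,0,3,4,2],[4,0,1,2],[3,0,1,2]],Ref.mk 1784 4005 [1,2,0,3] [[5,0,3,1,2,4],[1,2,3,4,0],[4,3,1,2],[3,2,1,0]],Ref.mk 2513 3935 [0,3,2,1] [[2,1,0,4],[3,1,0],[4,1,0,2],[0,1,5,2]],Ref.mk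 3242 4020 [0,1,2,3] [[0,1,2,3,4],[0,1,2,3,4,5],[0,1,2,3,4],[0,1,2,3,4]],Ref.mk 282 4019 [2,0,1,3] [[2,1,0,3],[3,1,2,4,0],[0,1,4,5,2],[2,1,0,3]],Ref.mk 363 4019 [2,0,1,3] [[2,1,0,4],[3,1,2,4,0],[0,1,4,5,2],[2,1,0,3]]],
Node.mk [0,820,182,1623,2458,1496] [(0,1),(0,2),(1,1),(1,3),(2,0),(2,2)] [Ref.mk 2268 3970 [0,1,2,3] [[3,1,2,0],[0,1,4],[2,1,0],[2,1,3]],Ref.mk 972 3970 [0,1,2,3] [[0,2,1,3],[0,2,1],[3,2,1],[1,0,2]],Ref.mk 1557 3934 [1,2,0,3] [[2,3,0,1],[1,3,2,0],[0,1,3,2],[2,3,1,0]],Ref.mk 2286 3832 [3,0,1,2] [[3,2,1,0],[0,3,1,2],[2,0,1,3,4],[1,2,0,3]],Ref.mk 990 3832 [3,0,1,2] [[1,2,3,0],[0,3,1,2],[2,0,3,1,4],[3,2,0,1]],Ref.mk 1719 3934 [1,2,0,3] [[2,1,0,3],[3,1,2,0],[0,1,3,2],[2,1,3,0]],Ref.mk 1800 4019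 [0,1,2,3] [[0,1,2,3],[0,1,2,3,4],[0,1,2,3,4],[0,1,2,3]],Ref.mk 2304 3555 [3,0,1,2] [[3,2,1,0],[0,3,1,2],[4,0,1,3],[1,2,0,3]],Ref.mk 1008 3555 [3,0,1,2] [[1,2,3,0],[0,3,1,2],[4,0,3,1],[3,2,0,1]],Ref.mk 2313 3832 [3,0,1,2] [[3,2,1,0],[0,3,1,2],[5,0,1,3,4],[1,2,0,3]],Ref.mk 1017 3832 [3,0,1,2] [[1,2,3,0],[0,3,1,2],[5,0,3,1,4],[3,2,0,1]],Ref.mk 2271 3970 [0,1,2,3] [[0,1,2,3],[0,1,2],[0,1,2],[0,1,3]],Ref.mk 975 3970 [0,1,2,3] [[3,2,1,0],[0,4,1],[3,0,1],[1,2,0]],Ref.mk 2289 3832 [2,0,1,3] [[1,0,3,2],[3,0,1,2],[2,0,3,1,4],[3,0,2,1]],Ref.mk 993 3832 [2,0,1,3] [[3,0,1,2],[3,0,1,2],[2,0,1,3,4],[1,0,2,3]],Ref.mk 120 3934 [1,2,0,3] [[4,3,0,1],[1,3,0,2],[3,1,0,2],[0,3,1,2]],Ref.mk 2307 3555 [2,0,1,3] [[1,0,3,2],[3,0,1,2],[4,0,3,1],[3,0,2,1]],Ref.mk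 282 3934 [1,2,0,3] [[4,1,0,3],[3,1,0,2],[3,1,0,2],[0,1,3,2]],Ref.mk 1011 3555 [2,0,1,3] [[3,0,1,2],[3,0,1,2],[4,0,1,3],[1,0,2,3]],Ref.mk 363 4019 [0,1,2,3] [[3,1,2,0],[0,1,4,3,2],[2,1,0,3,4],[2,1,0,3]],Ref.mk 2316 3832 [2,0,1,3] [[1,0,3,2],[3,0,1,2],[5,0,3,1,4],[3,0,2,1]],Ref.mk 1020 3832 [2,0,1,3] [[3,0,1,2],[3,0,1,2],[5,0,1,3,4],[1,0,2,3]],Ref.mk 2272 3970 [0,1,2,3] [[0,1,2,4],[0,1,2],[0,1,2],[0,1,3]],Ref.mk 976 3970 [0,1,2,3] [[4,2,1,0],[0,4,1],[3,0,1],[1,2,0]],Ref.mk 2290 3970 [0,1,2,3] [[2,1,0,4],[2,1,0],[2,1,0],[0,1,3]],Ref.mk 994 3970 [0,1,2,3] [[2,1,0,4],[2,3,0],[2,3,0],[0,3,1]],Ref.mk 2308 3970 [0,1,2,3] [[4,0,1,2],[4,0,3],[1,0,3],[3,0,2]],Ref.mk 1012 3970 [0,1,2,3] [[4,0,1,2],[4,0,1],[3,0,1],[1,0,2]],Ref.mk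 2317 4021 [0,1,2,3] [[0,1,2,3,4],[0,1,2,3,4,5],[0,1,2,3],[0,1,2,3]],Ref.mk 1021 4021 [0,1,2,3] [[0,1,2,3,4],[0,3,2,1,4,5],[0,3,2,1],[0,3,2,1]]],
Node.mk [0,820,182,1623,2458,39] [(0,1),(2,0),(2,1),(2,2),(2,3),(3,0)] [Ref.mk 2520 3970 [2,0,1,3] [[0,1,2,4],[0,1,2],[0,1,2],[0,1,3]],Ref.mk 1080 3970 [2,0,1,3] [[4,2,1,0],[0,3,1],[3,0,1],[1,2,0]],Ref.mk 2522 4006 [2,0,1,3] [[3,0,4,1,2],[1,3,2,0],[3,4,1,0],[3,0,1,2]],Ref.mk 1082 4006 [2,0,1,3] [[1,0,4,3,2],[1,3,2,0],[1,4,3,0],[1,0,3,2]],Ref.mk 2523 3832 [3,0,2,1] [[3,0,1,2],[3,2,1,0],[4,2,1,3,0],[1,2,0,3]],Ref.mk 1083 3832 [3,0,2,1] [[1,0,3,2],[3,2,1,0],[4,2,3,1,0],[3,2,0,1]],Ref.mk 2524 4006 [2,0,1,3] [[3,0,4,1,2],[1,3,4,0],[3,4,1,0],[3,0,1,2]],Ref.mk 1084 4006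 [2,0,1,3] [[1,0,4,3,2],[1,3,4,0],[1,4,3,0],[1,0,3,2]]],
Node.mk [0,820,182,1623,2458,363,3172] [(0,1),(0,3),(0,4),(1,1),(2,3),(3,0)] [Ref.mk 1800 4019 [2,0,1,3] [[4,3,2,0],[0,1,3,4,2],[2,3,0,1,4],[2,3,0,4]],Ref.mk 3024 3603 [2,0,3,1] [[1,2,3,0,4],[0,2,1,3,4],[4,0,3,1,2],[3,2,0,1,4]],Ref.mk 927 3832 [2,3,0,1] [[2,3,4,1],[1,3,0,4],[0,1,3,2,4],[4,3,1,2]],Ref.mk 1656 4006 [3,0,1,2] [[3,2,4,1,0],[1,3,4,0],[3,0,1,4],[3,2,1,4]],Ref.mk 2385 3831 [1,3,0,2] [[4,1,2,3,0],[3,1,0,4,2],[0,1,2,3,4],[2,1,3,4]],Ref.mk 3114 3615 [0,3,2,1] [[0,1,3,4],[4,3,0,1,2],[2,3,4,0,1],[4,3,1,0]],Ref.mk 3843 4020 [2,3,0,1] [[0,3,2,4,1],[0,3,2,4,5,1],[0,1,3,4,2],[0,3,4,1,2]],Ref.mk 1055 3615 [2,3,1,0] [[4,3,2,1],[1,4,0,3,2],[0,1,2,4,3],[2,4,1,3]],Ref.mk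 1784 4006 [3,0,2,1] [[1,2,4,3,0],[1,3,4,2],[1,2,3,4],[1,0,3,4]],Ref.mk 2513 4022 [1,3,0,2] [[2,1,0,4],[0,1,2,4,3],[2,1,3,4],[2,1,4,3]],Ref.mk 3242 3615 [0,3,1,2] [[2,1,3,4],[4,1,0,3,2],[0,1,4,2,3],[4,1,3,2]],Ref.mk 3971 4020 [1,3,0,2] [[2,1,0,4,3],[0,1,2,4,5,3],[2,1,3,4,0],[2,1,4,3,0]],Ref.mk 3026 3603 [1,0,3,2] [[3,0,1,2,4],[2,0,1,3,4],[4,0,1,3,2],[1,0,2,3,4]],Ref.mk 1496 4019 [2,0,1,3] [[2,3,0,4],[3,1,2,4,0],[0,3,4,1,2],[2,3,0,4]],Ref.mk 3029 4021 [3,0,1,2] [[3,0,4,1,2],[1,0,4,2,5,3],[3,0,1,2],[3,0,1,2]]],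
Node.mk [0,820,182,1623,2458,363] [(0,1),(0,3),(1,0),(2,2),(3,1),(3,3)] [Ref.mk 252 3964 [0,3,2,1] [[0,3,1,2],[0,2,1],[3,2,1,4],[1,0,2,4]],Ref.mk 1710 3832 [0,3,1,2] [[3,1,2,0],[2,1,0,3],[0,1,2,4,3],[2,1,3,4]],Ref.mk 3168 3832 [2,0,3,1] [[3,2,1,0],[0,2,1,3],[4,0,1,3,2],[1,2,0,3]],Ref.mk 1800 4019 [0,1,2,3] [[0,1,3,2],[2,1,0,3,4],[4,1,2,3,0],[2,1,0,3]],Ref.mk 108 3964 [0,3,2,1] [[0,3,1,2],[0,2,3],[1,2,3,4],[3,0,2,4]],Ref.mk 1566 3832 [0,3,1,2] [[3,1,2,0],[2,3,0,1],[0,3,2,4,1],[2,3,1,4]],Ref.mk 3024 3832 [2,0,3,1] [[1,2,3,0],[0,2,1,3],[4,0,3,1,2],[3,2,0,1]],Ref.mk 254 3964 [0,3,1,2] [[2,3,1,0],[0,2,3],[1,0,3,4],[3,2,0,4]],Ref.mk 1712 3832 [0,3,2,1] [[3,1,0,2],[2,3,0,1],[2,3,0,4,1],[0,3,1,4]],Ref.mk 3170 3832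 [1,0,3,2] [[1,0,3,2],[2,0,1,3],[4,0,3,1,2],[3,0,2,1]],Ref.mk 110 3964 [0,3,1,2] [[2,3,1,0],[0,2,1],[3,0,1,4],[1,2,0,4]],Ref.mk 1568 3832 [0,3,2,1] [[3,1,0,2],[2,1,0,3],[2,1,0,4,3],[0,1,3,4]],Ref.mk 3026 3832 [1,0,3,2] [[3,0,1,2],[2,0,1,3],[4,0,1,3,2],[1,0,2,3]],Ref.mk 1496 4019 [0,1,2,3] [[3,1,2,0],[0,1,4,3,2],[2,1,0,3,4],[2,1,0,3]],Ref.mk 256 3964 [0,3,2,1] [[4,3,1,2],[0,2,1],[3,2,1,4],[1,0,2,4]],Ref.mk 1714 3832 [0,3,1,2] [[3,1,2,4],[2,1,0,3],[0,1,2,4,3],[2,1,3,4]],Ref.mk 3172 4024 [0,1,2,3] [[0,1,2,3,4],[0,1,2,3,4],[0,1,2,3,4],[0,1,2,3,4]],Ref.mk 112 3964 [0,3,2,1] [[4,3,1,2],[0,2,3],[1,2,3,4],[3,0,2,4]],Ref.mk 1570 3832 [0,3,1,2] [[3,1,2,4],[2,3,0,1],[0,3,2,4,1],[2,3,1,4]],Ref.mk 3028 4024 [0,1,2,3]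 [[0,1,2,3,4],[0,3,2,1,4],[0,3,2,1,4],[0,3,2,1,4]]],
Node.mk [0,820,182,1623,2458,2308] [(0,0),(0,1),(0,4),(2,0),(2,1),(2,2)] [Ref.mk 245 3935 [0,2,1,3] [[1,3,4,2],[3,2,1],[3,0,4,1],[3,2,0,1]],Ref.mk 974 3935 [0,2,3,1] [[2,4,3,1],[3,1,2],[1,3,2,0],[0,4,3,2]],Ref.mk 1703 3832 [3,2,1,0] [[3,0,1,2],[3,0,1,2],[3,0,1,4,2],[1,0,2,4]],Ref.mk 2432 3935 [0,3,2,1] [[2,1,0,4],[3,1,0],[3,1,0,2],[0,1,4,2]],Ref.mk 3161 3832 [3,2,1,0] [[3,0,1,4],[3,0,1,2],[3,0,1,4,2],[1,0,2,4]],Ref.mk 326 4007 [1,0,2,3] [[3,0,4,1],[1,0,4,2],[3,0,1,4],[3,0,1]],Ref.mk 1055 3832 [2,3,1,0] [[1,2,3,4],[1,2,3,0],[1,0,3,4,2],[1,3,2,4]],Ref.mk 1784 4006 [1,0,2,3] [[3,0,4,1,2],[1,2,4,3],[3,4,1,2],[3,2,1,0]],Ref.mk 2513 3964 [0,3,2,1] [[2,1,3,4],[3,1,2],[4,1,2,3],[0,1,4,3]],Ref.mk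 3242 4024 [0,2,3,1] [[3,1,0,2,4],[2,1,0,3,4],[2,1,0,3,4],[0,1,2,3,4]],Ref.mk 2441 4023 [1,0,2,3] [[3,0,4,1],[1,0,4,3,2],[3,0,1,2],[3,0,1,2]],Ref.mk 2522 3831 [1,0,2,3] [[1,0,3,2,4],[2,3,1,0,4],[4,2,3,1,0],[3,2,0,1]],Ref.mk 1010 4022 [1,0,2,3] [[1,0,4,3],[1,0,2,3,4],[1,0,3,2],[1,0,3,2]],Ref.mk 246 3970 [1,2,0,3] [[0,1,2,3],[3,1,2],[3,1,2],[0,1,3]],Ref.mk 327 4006 [1,2,3,0] [[1,0,3,4,2],[1,2,3,4],[1,2,3,0],[1,3,4,2]],Ref.mk 255 3555 [3,1,2,0] [[0,3,2,1],[1,4,0,3],[3,1,2,0],[3,4,1,0]],Ref.mk 2442 3970 [2,0,1,3] [[3,0,1,2],[3,0,4],[1,0,4],[3,0,2]],Ref.mk 336 3832 [3,1,2,0] [[0,3,2,1],[1,4,0,3],[4,1,2,0,3],[3,4,1,0]],Ref.mk 2523 3832 [3,0,2,1] [[3,0,1,2],[3,2,1,0],[4,2,1,3,0],[1,2,0,3]],Ref.mk 264 4023 [2,0,1,3]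 [[3,1,0,2],[3,1,0,4,2],[2,1,0,4],[0,1,2,3]],Ref.mk 345 4006 [1,0,2,3] [[3,2,4,1,0],[1,3,4,2],[3,4,1,2],[3,0,1,2]],Ref.mk 273 4025 [2,0,1,3] [[3,1,0,2],[3,1,0,4,2],[3,1,0,4,2],[0,1,2,3]],Ref.mk 354 4025 [2,0,1,3] [[4,1,0,2],[3,1,0,4,2],[3,1,0,4,2],[0,1,2,3]],Ref.mk 282 3554 [0,1,2,3] [[3,1,0,4,2],[4,1,0,3,2],[3,1,0,2],[0,1,3,2]],Ref.mk 1011 3615 [3,0,1,2] [[1,0,3,2],[3,0,1,2,4],[4,0,3,1,2],[3,0,2,1]],Ref.mk 363 3831 [0,1,2,3] [[3,1,0,4,2],[4,1,0,3,2],[4,1,0,2,3],[0,1,3,2]],Ref.mk 291 4025 [2,0,1,3] [[3,1,0,2],[3,1,0,4,2],[5,1,0,4,2],[0,1,2,3]],Ref.mk 372 4025 [2,0,1,3] [[4,1,0,2],[3,1,0,4,2],[5,1,0,4,2],[0,1,2,3]],Ref.mk 248 3189 [1,2,0,3] [[0,1,2,3],[3,1,2,0],[5,1,2,3,0],[0,1,3,2]],Ref.mk 329 4007 [1,0,2,3]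 [[3,0,4,1],[1,0,4,5],[3,0,1,4],[3,0,1]],Ref.mk 2444 4023 [1,0,2,3] [[3,0,4,1],[1,0,4,3,5],[3,0,1,2],[3,0,1,2]],Ref.mk 2525 4025 [2,0,1,3] [[3,2,4,1],[1,2,5,3,4],[3,2,1,0,4],[3,0,1,2]],Ref.mk 1013 4021 [1,0,2,3] [[3,0,4,1,2],[1,3,4,0,5,2],[3,2,1,0],[3,2,1,0]]],
Node.mk [0,820,182,1623,2458] [(0,1),(1,0),(1,1),(1,2),(1,3),(2,2)] [Ref.mk 2304 3832 [2,0,1,3] [[1,2,3,0],[0,3,1,2],[4,0,3,1,2],[3,2,0,1]],Ref.mk 1008 3832 [2,0,1,3] [[3,2,1,0],[0,3,1,2],[4,0,1,3,2],[1,2,0,3]],Ref.mk 1496 4022 [0,1,2,3] [[0,1,2,3],[0,1,2,3,4],[0,1,2,3],[0,1,2,3]],Ref.mk 2306 3970 [1,0,2,3] [[4,0,3,2],[2,3,1],[1,2,3],[3,2,0]],Ref.mk 1010 3970 [1,0,2,3] [[4,0,1,2],[2,3,1],[3,2,1],[1,2,0]],Ref.mk 39 4023 [0,1,2,3] [[0,1,2,3],[0,1,2,3,4],[0,1,2,3],[0,1,2,3]],Ref.mk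 120 3970 [1,2,0,3] [[4,3,2,1],[1,3,2],[3,1,2],[0,3,1]],Ref.mk 2307 3832 [3,0,1,2] [[3,0,1,2],[3,0,1,2],[4,0,1,3,2],[1,0,2,3]],Ref.mk 282 3970 [1,2,0,3] [[4,1,2,3],[3,1,2],[3,1,2],[0,1,3]],Ref.mk 1011 3832 [3,0,1,2] [[1,0,3,2],[3,0,1,2],[4,0,3,1,2],[3,0,2,1]],Ref.mk 363 4025 [0,1,2,3] [[0,1,2,3],[0,1,2,3,4],[0,1,2,3,4],[0,1,2,3]],Ref.mk 2308 4026 [0,1,2,3] [[0,1,2,3,4],[0,1,2,3,4],[0,1,2,3],[0,1,2,3]],Ref.mk 1012 4026 [0,1,2,3] [[0,1,2,3,4],[0,3,2,1,4],[0,3,2,1],[0,3,2,1]]],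
Node.mk [0,820,182,1623,273,1552] [(0,0),(0,1),(0,3),(3,0),(3,1),(3,2)] [Ref.mk 2270 3964 [0,1,3,2] [[2,3,1,0],[0,3,1],[3,0,1,2],[1,3,0,2]],Ref.mk 2432 4007 [1,0,3,2] [[0,1,3,2],[2,1,3,4],[3,1,0,2],[3,1,2]],Ref.mk 2198 3935 [2,0,1,3] [[2,1,3,0],[2,1,3],[2,1,3,0],[0,1,3,2]],Ref.mk 2279 4007 [2,0,3,1] [[2,1,0,3],[3,1,0,2],[2,1,0,3],[0,1,3]],Ref.mk 2360 3970 [3,2,0,1] [[3,0,1,2],[2,3,1],[2,3,1],[1,3,0]],Ref.mk 2441 3970 [2,0,1,3] [[2,1,0,3],[2,1,0],[2,1,0],[0,1,3]],Ref.mk 2522 3935 [2,0,1,3] [[2,1,3,4],[2,1,3],[2,1,3,0],[0,1,3,2]],Ref.mk 2288 3935 [0,3,2,1] [[3,2,0,4],[2,3,0],[2,1,0,3],[0,2,1,3]],Ref.mk 2297 3935 [0,1,2,3] [[3,1,0,2],[3,1,0],[3,1,0,2],[0,1,3,2]],Ref.mk 2306 3935 [0,3,2,1] [[3,2,0,4],[2,3,0],[2,1,0,3],[0,4,1,3]],Ref.mk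 2272 3964 [0,1,3,2] [[4,3,1,0],[0,3,1],[3,0,1,2],[1,3,0,2]],Ref.mk 2200 4027 [1,0,2,3] [[3,1,2,0],[3,1,2,4],[3,1,2,0],[0,1,2,3]],Ref.mk 2281 4007 [1,0,3,2] [[0,1,2,3],[3,1,2,4],[2,1,0,3],[2,1,3]],Ref.mk 2362 3964 [0,2,3,1] [[4,3,1,2],[2,3,1],[3,0,1,2],[1,3,2,0]],Ref.mk 2443 3935 [0,2,1,3] [[3,1,2,4],[3,1,2],[3,1,2,0],[0,1,3,2]],Ref.mk 2524 4025 [1,0,2,3] [[3,1,2,0],[3,1,2,4,0],[3,1,2,4,0],[0,1,2,3]],Ref.mk 2290 4027 [2,0,1,3] [[3,1,0,2],[3,1,0,4],[3,1,0,2],[0,1,2,3]],Ref.mk 2299 3935 [0,1,2,3] [[3,1,0,4],[3,1,0],[3,1,0,2],[0,1,3,2]],Ref.mk 2308 4025 [2,0,1,3] [[3,1,0,2],[3,1,0,4,2],[3,1,0,4,2],[0,1,2,3]],Ref.mk 2273 3964 [0,1,3,2] [[5,3,1,0],[0,3,1],[3,0,1,2],[1,3,0,2]],Ref.mk 2201 3935 [0,3,1,2] [[3,5,2,4],[2,3,0],[0,1,2,3],[2,0,1,3]],Ref.mk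 2282 4007 [1,0,3,2] [[0,1,2,3],[3,1,2,5],[2,1,0,3],[2,1,3]],Ref.mk 2363 3964 [0,2,3,1] [[5,3,1,2],[2,3,1],[3,0,1,2],[1,3,2,0]],Ref.mk 2444 3935 [0,2,1,3] [[3,1,2,5],[3,1,2],[3,1,2,0],[0,1,3,2]],Ref.mk 2525 4025 [1,0,2,3] [[3,1,2,0],[3,1,2,5,0],[3,1,2,4,0],[0,1,2,3]],Ref.mk 2291 3935 [0,3,2,1] [[3,5,0,4],[2,3,0],[2,1,0,3],[0,2,1,3]],Ref.mk 2300 3935 [0,1,2,3] [[3,1,0,5],[3,1,0],[3,1,0,2],[0,1,3,2]],Ref.mk 2309 4025 [2,0,1,3] [[3,1,0,2],[3,1,0,5,2],[3,1,0,4,2],[0,1,2,3]]],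
Node.mk [0,820,182,1623,273] [(0,0),(0,1),(0,2),(0,3),(3,0),(3,1)] [Ref.mk 1543 3970 [0,1,2,3] [[0,1,3,4],[0,1,3],[0,1,3],[0,1,2]],Ref.mk 2272 3964 [0,1,3,2] [[4,3,1,0],[0,3,1],[3,0,1,2],[1,3,0,2]],Ref.mk 1471 3935 [0,3,1,2] [[3,1,2,4],[2,1,0],[0,1,2,3],[2,1,0,3]],Ref.mk 2200 4027 [1,0,2,3] [[3,1,2,0],[3,1,2,4],[3,1,2,0],[0,1,2,3]],Ref.mk 1552 4028 [0,1,2,3] [[0,1,2,3,4],[0,1,2,3],[0,1,2,3],[0,1,2]],Ref.mk 2281 4007 [1,0,3,2] [[0,1,2,3],[3,1,2,4],[2,1,0,3],[2,1,3]],Ref.mk 1633 3970 [0,2,1,3] [[2,1,3,4],[2,1,3],[2,1,3],[0,1,2]],Ref.mk 2362 3964 [0,2,3,1] [[4,3,1,2],[2,3,1],[3,0,1,2],[1,3,2,0]],Ref.mk 1714 3970 [0,2,1,3] [[3,1,2,4],[3,1,2],[3,1,2],[0,1,2]],Ref.mk 2443 3935 [0,2,1,3] [[3,1,2,4],[3,1,2],[3,1,2,0],[0,1,3,2]],Ref.mk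 1795 3935 [0,3,1,2] [[3,1,2,4],[2,1,0],[0,1,2,3],[2,1,4,3]],Ref.mk 2524 4025 [1,0,2,3] [[3,1,2,0],[3,1,2,4,0],[3,1,2,4,0],[0,1,2,3]],Ref.mk 1561 3935 [0,3,2,1] [[3,1,0,4],[2,1,0],[2,1,0,3],[0,1,2,3]],Ref.mk 2290 4027 [2,0,1,3] [[3,1,0,2],[3,1,0,4],[3,1,0,2],[0,1,2,3]],Ref.mk 1570 3970 [0,1,2,3] [[3,1,2,4],[3,1,2],[3,1,2],[0,1,2]],Ref.mk 2299 3935 [0,1,2,3] [[3,1,0,4],[3,1,0],[3,1,0,2],[0,1,3,2]],Ref.mk 1579 3935 [0,3,2,1] [[3,1,0,4],[2,1,0],[2,1,0,3],[0,1,4,3]],Ref.mk 2308 4025 [2,0,1,3] [[3,1,0,2],[3,1,0,4,2],[3,1,0,4,2],[0,1,2,3]]],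
Node.mk [0,820,182,1623,1003] [(1,0),(1,1),(1,3),(3,0),(3,1),(3,2)] [Ref.mk 2367 4023 [3,0,1,2] [[3,1,2,0],[0,1,3,4,2],[2,1,0,3],[2,1,0,3]],Ref.mk 2385 4025 [3,0,1,2] [[3,1,2,0],[0,1,3,4,2],[4,1,0,3,2],[2,1,0,3]],Ref.mk 2449 3832 [3,1,0,2] [[0,1,2,3],[2,1,0,3],[2,1,3,0,4],[2,1,3,0]],Ref.mk 2467 4026 [0,1,2,3] [[0,1,2,3,4],[0,4,2,1,3],[0,3,2,1],[0,3,2,1]],Ref.mk 2208 4022 [3,0,1,2] [[2,1,0,3],[3,1,2,4,0],[0,1,2,3],[2,1,0,3]],Ref.mk 2290 3832 [3,1,0,2] [[0,1,2,3],[2,3,0,1],[2,4,3,0,1],[2,3,1,0]],Ref.mk 2308 4026 [0,1,2,3] [[0,4,2,3,1],[0,4,2,3,1],[0,1,2,3],[0,3,2,1]]],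
Node.mk [0,820,182,1623] [(1,0),(1,1),(1,2),(2,0),(2,1),(2,2)] [Ref.mk 999 3970 [2,0,1,3] [[3,2,1,0],[0,3,1],[3,0,1],[1,2,0]],Ref.mk 271 3964 [1,3,2,0] [[3,0,1,2],[0,2,1],[3,2,1,0],[1,3,2,0]],Ref.mk 1000 4007 [0,1,2,3] [[0,1,2,3],[0,1,2,3],[0,1,2,3],[0,1,2]],Ref.mk 1729 3935 [1,3,0,2] [[0,1,2,3],[2,1,0],[3,1,2,0],[2,1,3,0]],Ref.mk 2458 4027 [0,1,2,3] [[0,1,2,3],[0,1,2,3],[0,1,2,3],[0,1,2,3]],Ref.mk 1001 3970 [1,0,2,3] [[3,0,1,2],[2,3,1],[3,2,1],[1,2,0]],Ref.mk 273 4029 [0,1,2,3] [[0,1,2,3],[0,1,2,3],[0,1,2,3],[0,1,2]],Ref.mk 1002 3970 [1,0,2,3] [[3,2,1,0],[3,2,1],[3,2,1],[1,0,2]],Ref.mk 1003 4030 [0,1,2,3] [[0,1,2,3,4],[0,1,2,3],[0,1,2,3],[0,1,2]]]]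

/-- nodes -/
noncomputable def c63 : List Node := [
Node.mk [0,820,182,1569] [(0,0),(0,1),(0,2),(0,3),(2,1),(3,0)] [Ref.mk 895 4031 [0,1,2,3] [[0,3,2,4],[0,3,2],[0,1,2],[0,2,1]],Ref.mk 1624 3970 [0,3,1,2] [[3,0,1,4],[2,0,1],[3,0,1],[1,0,2]],Ref.mk 2353 4030 [0,1,3,2] [[4,1,2,0,3],[0,1,2,3],[3,1,0,2],[2,1,0]],Ref.mk 1471 4031 [0,1,2,3] [[4,2,3,1],[1,2,3],[0,2,1],[2,0,1]],Ref.mk 1633 4031 [0,1,2,3] [[4,0,3,1],[1,0,3],[2,0,1],[2,0,1]],Ref.mk 1714 4030 [0,1,2,3] [[4,0,3,1,2],[1,0,3,2],[3,0,1,2],[2,0,1]],Ref.mk 751 3970 [0,3,1,2] [[1,2,3,4],[1,0,2],[1,2,3],[1,2,0]],Ref.mk 1480 3970 [0,3,1,2] [[3,2,1,4],[2,0,1],[3,2,1],[1,2,0]],Ref.mk 2209 4030 [0,1,3,2] [[4,1,0,2,3],[2,1,0,3],[3,1,0,2],[0,1,2]],Ref.mk 760 4031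 [0,1,2,3] [[4,2,1,3],[3,2,1],[0,2,1],[1,0,2]],Ref.mk 922 3970 [0,2,1,3] [[2,3,0,4],[2,1,0],[2,3,0],[0,2,1]],Ref.mk 1003 4030 [0,1,2,3] [[4,0,1,3,2],[3,0,1,2],[3,0,1,2],[1,0,2]]],
Node.mk [0,820,182] [(0,0),(0,1),(0,2),(1,1),(3,0),(3,1)] [Ref.mk 1542 3970 [0,1,2,3] [[0,1,2,3],[0,1,2],[0,1,2],[0,1,2]],Ref.mk 1623 4031 [0,1,2,3] [[0,1,2,3],[0,1,2],[0,1,2],[0,1,2]],Ref.mk 1479 4031 [0,1,2,3] [[2,1,0,3],[2,1,0],[2,1,0],[0,1,2]],Ref.mk 1560 3970 [0,1,2,3] [[2,1,0,3],[2,1,0],[2,1,0],[0,1,2]],Ref.mk 1569 4032 [0,1,2,3] [[0,1,2,3],[0,1,2,3],[0,1,2],[0,1,2]]],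
Node.mk [0,820] [(0,0),(0,1),(1,0),(1,1),(2,0),(2,1)] [Ref.mk 182 4033 [0,1,2,3] [[0,1,2],[0,1,2],[0,1,2],[0,1]],Ref.mk 911 4033 [0,1,2,3] [[1,0,2],[1,0,2],[1,0,2],[1,0]]],
Node.mk [0] [(0,0),(1,0),(2,0),(3,0)] [Ref.mk 820 4034 [0,1,2,3] [[0,1],[0,1],[0,1],[0,1]]]]

end Vale.Agent.P045.R4N2
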